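import Vale.Agent.Lib.P338.F.Tape
import Vale.Agent.Lib.P338.Conv

/-!
The arithmetic unit: register operations, Barrett reduction, multiplication in the quadratic extension.
-/

namespace Vale.Agent.Lib.P338.F

open Vale.Agent.Lib.P338 Prog

/-- The registers. -/
def isReg : FT → Bool
  | .X1 | .X2 | .X3 | .Cy | .Fl | .Tz | .Y0 | .Y1 | .Y2 | .Y3 | .FA | .FB | .GA | .GB | .ZA | .ZB
  | .Qr | .Mu | .Eta | .One | .Zer | .MTw | .VA | .VB | .RA | .RB | .SA | .SB | .WA | .WB | .IA | .IB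
  | .QA | .QB | .MA | .MB | .DA | .DB | .AA | .BA | .BB | .CA | .PA | .PB | .SF => true
  | _ => false

/-- The writable registers. -/
def wr : FT → Bool
  | .Cy | .Qr | .Mu => false
  | a => isReg a

theorem reg_of_wr {a : FT} (h : wr a = true) : isReg a = true := by
  cases a <;> first | rfl | exact absurd h (by decide)

theorem ne_of_wr_RS {a : FT} (h : isReg a = true) : FT.RS ≠ a := by
  rintro rfl; exact absurd h (by decide)

theorem ne_of_wr_R2S {a : FT} (h : isReg a = true) : FT.R2S ≠ a := by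
  rintro rfl; exact absurd h (by decide)

theorem ne_of_wr_RL {a : FT} (h : isReg a = true) : FT.RL ≠ a := by
  rintro rfl; exact absurd h (by decide)

theorem ne_of_wr_RW {a : FT} (h : isReg a = true) : FT.RW ≠ a := by
  rintro rfl; exact absurd h (by decide)

section
variable {X G : Type}

/-- The value of a register of width `K`. -/
abbrev vr (K : ℕ) (c : TC X G) (t : FT) : ℕ := vl (c.tape (o t)) 0 K

/-- The state of the arithmetic unit: the rulers for the widths `K`, `L`, `W`, all registers with their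
heads at cell 0, a clear carry, the modulus `q`, the Barrett constant, and blank simulated tapes. -/
structure Alu (K L W q : ℕ) (c : TC X G) : Prop where
  rS : Ruler c (o .RS) K
  r2S : Ruler c (o .R2S) (2 * K)
  rL : Ruler c (o .RL) L
  rW : Ruler c (o .RW) W
  hz : ∀ a, isReg a = true → c.head (o a) = 0
  cy : (c.read (o .Cy)).isOne = false
  qr : vr K c .Qr = q
  mu : vr K c .Mu = 2 ^ K / q
  cl : Clean c

theorem Alu.of_fr {K L W q : ℕ} {c c' : TC X G} {l : List FT} (h : Alu K L W q c) (f : Fr l [] c c')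
    (hl : ∀ a ∈ l, wr a = true ∨ a = .Cy) (hcy : (c'.read (o .Cy)).isOne = false) : Alu K L W q c' := by
  have nw : ∀ b, wr b = false → b ≠ .Cy → b ∉ l := by
    intro b hb hb2 hm
    rcases hl b hm with h1 | h1
    · rw [hb] at h1
      exact absurd h1 (by simp)
    · exact hb2 h1
  refine ⟨h.rS.of_fr f (nw _ rfl (by decide)) (by simp), h.r2S.of_fr f (nw _ rfl (by decide)) (by simp),
    h.rL.of_fr f (nw _ rfl (by decide)) (by simp), h.rW.of_fr f (nw _ rfl (by decide)) (by simp), ?_, hcy, ?_, ?_, f.cl h.cl⟩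
  · intro a ha
    rw [f.head (by simp), h.hz a ha]
  · simp only [vr]
    rw [f.tape (nw _ rfl (by decide))]
    exact h.qr
  · simp only [vr]
    rw [f.tape (nw _ rfl (by decide))]
    exact h.mu

theorem cy_of_fr {c c' : TC X G} {l : List FT} (hcy : (c.read (o .Cy)).isOne = false) (f : Fr l [] c c')
    (hl : FT.Cy ∉ l) : (c'.read (o .Cy)).isOne = false := by
  simp only [TS.read]
  rw [f.tape hl, f.head (by simp)]
  exact hcy

theorem Alu.of_fr' {K L W q : ℕ} {c c' : TC X G} {l : List FT} (h : Alu K L W q c) (f : Fr l [] c c')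
    (hl : ∀ a ∈ l, wr a = true) : Alu K L W q c' := by
  have hc : FT.Cy ∉ l := by
    intro hm
    exact absurd (hl _ hm) (by decide)
  exact h.of_fr f (fun a ha => Or.inl (hl a ha)) (cy_of_fr h.cy f hc)

/-- The specification of a multiplication of two numbers of `K` bits into a register of `2 K` bits,
with cost bound `SC`. -/
def SmulOK (sm : Prog (FT ⊕ X) (Sym G)) (K SC : ℕ) : Prop :=
  ∀ c : TC X G, Ruler c (o .RS) K → Ruler c (o .R2S) (2 * K) → c.head (o .X1) = 0 → c.head (o .X2) = 0 →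
    c.head (o .X3) = 0 → Clean c →
    ∃ c', Run sm c c' SC ∧ vr (2 * K) c' .X3 = vr K c .X1 * vr K c .X2 ∧ Fr [.X3] [] c c'

variable [DecidableEq X]

/-- Reset the carry. -/
def clrCy : Prog (FT ⊕ X) (Sym G) := act1 (o .Cy) (fun _ => .zero) .S

theorem clrCy_spec (c : TC X G) :
    ∃ c', Run (clrCy : Prog (FT ⊕ X) (Sym G)) c c' 1 ∧ (c'.read (o .Cy)).isOne = false ∧ Fr [.Cy] [] c c' := by
  obtain ⟨c1, r1, d1, d2, d4⟩ := act1_spec (o .Cy) (fun _ => .zero) .S c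
  have hh : c1.head (o .Cy) = c.head (o .Cy) := by
    rw [d1]; simp [Dir.toInt]
  refine ⟨c1, r1, ?_, Fr.of_same d4 (by simp) ?_ ?_⟩
  · simp only [TS.read]
    rw [d2, hh]
    simp
  · intro a ha hb
    simp only [List.mem_singleton, Sum.inl.injEq] at ha hb
    exact absurd hb ha
  · intro a _ hb
    simp only [List.mem_singleton, Sum.inl.injEq] at hb
    subst hb
    exact hh

/-- Register assignment. -/
theorem mov_spec {K L W q : ℕ} (S Y : FT) (hY : wr Y = true) (hS : isReg S = true) (hne : S ≠ Y) {c : TC X G}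
    (h : Alu K L W q c) :
    ∃ c', Run (cpy .RS S Y : Prog (FT ⊕ X) (Sym G)) c c' (12 * K + 12) ∧ Alu K L W q c' ∧
      vr K c' Y = vr K c S ∧ (∀ x : ℤ, (x < 0 ∨ (K : ℤ) ≤ x) → c'.tape (o Y) x = c.tape (o Y) x) ∧ Fr [Y] [] c c' := by
  have hn : [FT.RS, S, Y].Nodup := by
    simp only [List.nodup_cons, List.mem_cons, List.not_mem_nil, or_false, not_or]
    exact ⟨⟨ne_of_wr_RS hS, ne_of_wr_RS (reg_of_wr hY)⟩, hne, not_false, by simp⟩
  obtain ⟨c1, r1, a1, f1⟩ := cpy_spec .RS S Y hn c h.rS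
  refine ⟨c1, r1, h.of_fr' f1 (by simpa using hY), ?_, ?_, f1⟩
  · exact vl_of_copy (h := 0) (hs := 0) (τ := c.tape (o Y)) (τ' := c1.tape (o Y)) (σ := c.tape (o S)) (n := K) (by
      intro x
      rw [a1 x, h.hz Y (reg_of_wr hY), h.hz S hS])
  · intro x hx
    rw [a1 x, h.hz Y (reg_of_wr hY), if_neg (by omega)]

/-- Register addition (no overflow). -/
theorem add_spec {K L W q : ℕ} (Y S : FT) (hY : wr Y = true) (hS : isReg S = true) (hne : Y ≠ S) (hSc : S ≠ .Cy)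
    {c : TC X G} (h : Alu K L W q c) (hov : vr K c Y + vr K c S < 2 ^ K) :
    ∃ c', Run (addR .RS Y S : Prog (FT ⊕ X) (Sym G)) c c' (8 * K + 9) ∧ Alu K L W q c' ∧
      vr K c' Y = vr K c Y + vr K c S ∧ Fr [Y, .Cy] [] c c' := by
  have hYc : Y ≠ .Cy := by
    rintro rfl; exact absurd hY (by decide)
  have hn : [FT.RS, Y, S, FT.Cy].Nodup := by
    simp only [List.nodup_cons, List.mem_cons, List.not_mem_nil, or_false, not_or]
    exact ⟨⟨ne_of_wr_RS (reg_of_wr hY), ne_of_wr_RS hS, by decide⟩, ⟨hne, hYc⟩, hSc, not_false, by simp⟩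
  obtain ⟨c1, r1, a1, a2, a3, f1⟩ := addR_spec .RS Y S hn c h.rS h.cy (by
    rw [h.hz Y (reg_of_wr hY), h.hz S hS]
    exact hov)
  refine ⟨c1, r1, h.of_fr f1 ?_ a3, ?_, f1⟩
  · intro a ha
    simp only [List.mem_cons, List.not_mem_nil, or_false] at ha
    rcases ha with rfl | rfl
    · exact Or.inl hY
    · exact Or.inr rfl
  · simp only [vr]
    rw [h.hz Y (reg_of_wr hY), h.hz S hS] at a2
    exact a2

/-- Subtract without borrow. -/
def subZ (Y S : FT) : Prog (FT ⊕ X) (Sym G) := .seq (subR .RS Y S) clrCy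

theorem subZ_spec {K L W q : ℕ} (Y S : FT) (hY : wr Y = true) (hS : isReg S = true) (hne : Y ≠ S) (hSc : S ≠ .Cy)
    {c : TC X G} (h : Alu K L W q c) :
    ∃ c', Run (subZ Y S : Prog (FT ⊕ X) (Sym G)) c c' (8 * K + 9) ∧ Alu K L W q c' ∧
      (vr K c S ≤ vr K c Y → vr K c' Y = vr K c Y - vr K c S) ∧ Fr [Y, .Cy] [] c c' := by
  have hYc : Y ≠ .Cy := by
    rintro rfl; exact absurd hY (by decide)
  have hn : [FT.RS, Y, S, FT.Cy].Nodup := by
    simp only [List.nodup_cons, List.mem_cons, List.not_mem_nil, or_false, not_or]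
    exact ⟨⟨ne_of_wr_RS (reg_of_wr hY), ne_of_wr_RS hS, by decide⟩, ⟨hne, hYc⟩, hSc, not_false, by simp⟩
  obtain ⟨c1, r1, a1, a2, a3, a4, a5, f1⟩ := subR_spec .RS Y S hn c h.rS h.cy
  obtain ⟨c2, r2, b1, f2⟩ := clrCy_spec c1
  have f3 : Fr [Y, .Cy] [] c c2 := f1.tr f2 (by simp) (by simp)
  refine ⟨c2, (r1.seq r2).mono (by omega), h.of_fr f3 ?_ b1, ?_, f3⟩
  · intro a ha
    simp only [List.mem_cons, List.not_mem_nil, or_false] at ha
    rcases ha with rfl | rfl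
    · exact Or.inl hY
    · exact Or.inr rfl
  · simp only [vr]
    rw [h.hz Y (reg_of_wr hY), h.hz S hS] at a2
    rw [f2.tape (by simpa using hYc)]
    exact a2

/-- Subtract if the result is not negative. -/
def csub (Y S : FT) : Prog (FT ⊕ X) (Sym G) :=
  .seq (cpy .RS Y .Tz) (.seq (subR .RS .Tz S)
    (.seq (.ite (fun s => (s (o .Cy)).isOne) skip (cpy .RS .Tz Y)) clrCy))

theorem csub_spec {K L W q : ℕ} (Y S : FT) (hY : wr Y = true) (hS : isReg S = true) (hne : Y ≠ S) (hSc : S ≠ .Cy)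
    (hYT : Y ≠ .Tz) (hST : S ≠ .Tz) {c : TC X G} (h : Alu K L W q c) :
    ∃ c', Run (csub Y S : Prog (FT ⊕ X) (Sym G)) c c' (32 * K + 35) ∧ Alu K L W q c' ∧
      vr K c' Y = (if vr K c S ≤ vr K c Y then vr K c Y - vr K c S else vr K c Y) ∧ Fr [Y, .Tz, .Cy] [] c c' := by
  have hT : wr FT.Tz = true := rfl
  obtain ⟨c1, r1, h1, v1, _, f1⟩ := mov_spec Y .Tz hT (reg_of_wr hY) hYT h
  have hn : [FT.RS, FT.Tz, S, FT.Cy].Nodup := by
    simp only [List.nodup_cons, List.mem_cons, List.not_mem_nil, or_false, not_or]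
    exact ⟨⟨by decide, ne_of_wr_RS hS, by decide⟩, ⟨hST.symm, by decide⟩, hSc, not_false, by simp⟩
  obtain ⟨c2, r2, a1, a2, a3, a4, a5, f2⟩ := subR_spec .RS .Tz S hn c1 h1.rS h1.cy
  have hTz0 : c1.head (o .Tz) = 0 := h1.hz .Tz rfl
  have hS0 : c1.head (o S) = 0 := h1.hz S hS
  rw [hTz0, hS0] at a2 a3
  have eS1 : vr K c1 S = vr K c S := by
    simp only [vr]
    rw [f1.tape (by simpa using hST)]
  have eY1 : vr K c1 Y = vr K c Y := by
    simp only [vr]
    rw [f1.tape (by simpa using hYT)]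
  have eS2 : vr K c2 S = vr K c S := by
    rw [← eS1]
    simp only [vr]
    rw [f2.tape (by simpa using ⟨hST, hSc⟩)]
  have eY2 : vr K c2 Y = vr K c Y := by
    rw [← eY1]
    simp only [vr]
    have hYc : Y ≠ .Cy := by
      rintro rfl; exact absurd hY (by decide)
    rw [f2.tape (by simpa using ⟨hYT, hYc⟩)]
  have hrS2 : Ruler c2 (o .RS) K := h1.rS.of_fr f2 (by decide) (by simp)
  -- the conditional assignment
  have hcond : ∃ c3, Run (.ite (fun s => (s (o .Cy)).isOne) skip (cpy .RS .Tz Y) : Prog (FT ⊕ X) (Sym G)) c2 c3 (12 * K + 13) ∧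
      vr K c3 Y = (if vr K c S ≤ vr K c Y then vr K c Y - vr K c S else vr K c Y) ∧ Fr [Y] [] c2 c3 := by
    cases hb : decide (vr K c Y < vr K c S)
    · have hle : vr K c S ≤ vr K c Y := by simpa using hb
      have hcy : (c2.read (o .Cy)).isOne = false := by
        have e1 : vl (c1.tape (o .Tz)) 0 K = vr K c Y := v1
        have e2 : vl (c1.tape (o S)) 0 K = vr K c S := eS1
        rw [a3, e1, e2]
        exact hb
      have hn' : [FT.RS, FT.Tz, Y].Nodup := by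
        simp only [List.nodup_cons, List.mem_cons, List.not_mem_nil, or_false, not_or]
        exact ⟨⟨by decide, ne_of_wr_RS (reg_of_wr hY)⟩, hYT.symm, not_false, by simp⟩
      obtain ⟨c3, r3, b1, f3⟩ := cpy_spec .RS .Tz Y hn' c2 hrS2
      refine ⟨c3, (Run.iteF (g := fun s => (s (o .Cy)).isOne) (a := skip) hcy r3).mono (by omega), ?_, f3⟩
      rw [if_pos hle]
      have e : vr K c3 Y = vr K c2 .Tz := by
        have hY0 : c2.head (o Y) = 0 := by
          rw [f2.head (by simp)]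
          exact h1.hz Y (reg_of_wr hY)
        have hT0 : c2.head (o .Tz) = 0 := by
          rw [f2.head (by simp)]
          exact hTz0
        exact vl_of_copy (h := 0) (hs := 0) (τ := c2.tape (o Y)) (σ := c2.tape (o .Tz)) (by
          intro x
          rw [b1 x, hY0, hT0])
      rw [e]
      have e1 : vl (c1.tape (o .Tz)) 0 K = vr K c Y := v1
      have e2 : vl (c1.tape (o S)) 0 K = vr K c S := eS1
      have := a2 (by rw [e1, e2]; exact hle)
      rw [e1, e2] at this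
      exact this
    · have hlt : vr K c Y < vr K c S := by simpa using hb
      have hcy : (c2.read (o .Cy)).isOne = true := by
        rw [a3]
        have e1 : vl (c1.tape (o .Tz)) 0 K = vr K c Y := v1
        have e2 : vl (c1.tape (o S)) 0 K = vr K c S := eS1
        rw [e1, e2]
        simpa using hlt
      refine ⟨c2, (Run.iteT (g := fun s => (s (o .Cy)).isOne) (b := cpy .RS .Tz Y) hcy (skip_spec c2)).mono (by omega), ?_, Fr.refl _ _ _⟩
      rw [if_neg (by omega)]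
      exact eY2
  obtain ⟨c3, r3, b1, f3⟩ := hcond
  obtain ⟨c4, r4, d1, f4⟩ := clrCy_spec c3
  have f5 : Fr [Y, .Tz, .Cy] [] c c4 :=
    f1.tr (f2.tr (f3.tr f4 (l2 := [Y, .Cy]) (m2 := []) (by simp) (by simp)) (l2 := [.Tz, Y, .Cy]) (m2 := []) (by simp) (by simp)) (by simp) (by simp)
  refine ⟨c4, (r1.seq (r2.seq (r3.seq r4))).mono (by omega), h.of_fr f5 ?_ d1, ?_, f5⟩
  · intro a ha
    simp only [List.mem_cons, List.not_mem_nil, or_false] at ha
    rcases ha with rfl | rfl | rfl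
    · exact Or.inl hY
    · exact Or.inl rfl
    · exact Or.inr rfl
  · have hYc : Y ≠ .Cy := by
      rintro rfl; exact absurd hY (by decide)
    have e : vr K c4 Y = vr K c3 Y := by
      simp only [vr]
      rw [f4.tape (by simpa using hYc)]
    rw [e]
    exact b1

/-! Barrett reduction -/

omit [DecidableEq X] in
theorem barrett {x q K : ℕ} (hq : 0 < q) (hx : x < 2 ^ K) :
    (x * (2 ^ K / q) / 2 ^ K) * q ≤ x ∧ x < (x * (2 ^ K / q) / 2 ^ K) * q + 2 * q := by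
  set μ := 2 ^ K / q with hμ
  set e := x * μ / 2 ^ K with he
  have hP : 0 < 2 ^ K := by positivity
  have h1 : μ * q ≤ 2 ^ K := Nat.div_mul_le_self _ _
  have h2 : 2 ^ K < (μ + 1) * q := by
    rw [add_mul, one_mul, hμ]
    have := Nat.div_add_mod (2 ^ K) q
    have h3 := Nat.mod_lt (2 ^ K) hq
    rw [mul_comm] at this
    omega
  have h3 : e * 2 ^ K ≤ x * μ := Nat.div_mul_le_self _ _
  have h4 : x * μ < (e + 1) * 2 ^ K := by
    rw [add_mul, one_mul, he]
    have := Nat.div_add_mod (x * μ) (2 ^ K)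
    have h5 := Nat.mod_lt (x * μ) hP
    rw [mul_comm] at this
    omega
  constructor
  · apply Nat.le_of_mul_le_mul_right _ hP
    calc e * q * 2 ^ K = e * 2 ^ K * q := by ring
      _ ≤ x * μ * q := Nat.mul_le_mul_right _ h3
      _ = x * (μ * q) := by ring
      _ ≤ x * 2 ^ K := Nat.mul_le_mul_left _ h1
  · by_contra hcon
    have hge : e * q + 2 * q ≤ x := by omega
    have h5 : (e + 2) * q * 2 ^ K ≤ x * 2 ^ K := Nat.mul_le_mul_right _ (by linarith)
    have h6 : x * 2 ^ K ≤ x * ((μ + 1) * q) := Nat.mul_le_mul_left _ h2.le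
    have h7 : x * ((μ + 1) * q) = x * μ * q + x * q := by ring
    have h8 : x * μ * q + 1 * q ≤ (e + 1) * 2 ^ K * q := by
      rw [← add_mul]
      exact Nat.mul_le_mul_right _ h4
    have h9 : x * q ≤ 2 ^ K * q := Nat.mul_le_mul_right _ hx.le
    have h10 : (e + 2) * q * 2 ^ K = (e + 1) * 2 ^ K * q + 2 ^ K * q := by ring
    have hq1 : 1 * q ≤ q := by omega
    omega

omit [DecidableEq X] in
theorem vl_two (τ : ℤ → Sym G) (K : ℕ) : vl τ 0 (2 * K) = vl τ 0 K + 2 ^ K * vl τ K K := by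
  rw [two_mul, vl_add, zero_add]

omit [DecidableEq X] in
/-- The high half of a product. -/
theorem vl_hi {τ : ℤ → Sym G} {K Z : ℕ} (h : vl τ 0 (2 * K) = Z) : vl τ K K = Z / 2 ^ K := by
  rw [← h, vl_two, Nat.add_mul_div_left _ _ (by positivity), Nat.div_eq_of_lt (vl_lt _ _ _), zero_add]

omit [DecidableEq X] in
/-- The low half of a product. -/
theorem vl_lo {τ : ℤ → Sym G} {K Z : ℕ} (h : vl τ 0 (2 * K) = Z) (hZ : Z < 2 ^ K) : vl τ 0 K = Z := by
  have := vl_two τ K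
  rw [h] at this
  have h2 : vl τ K K = 0 := by
    by_contra hne
    have : 1 ≤ vl τ K K := Nat.one_le_iff_ne_zero.2 hne
    have h3 : 2 ^ K * 1 ≤ 2 ^ K * vl τ K K := Nat.mul_le_mul_left _ this
    omega
  rw [h2] at this
  omega

omit [DecidableEq X] in
/-- The low bits of a small value. -/
theorem vl_low {τ : ℤ → Sym G} {K M : ℕ} (hM : M ≤ K) (h : vl τ 0 K < 2 ^ M) : vl τ 0 M = vl τ 0 K := by
  obtain ⟨d, rfl⟩ := Nat.exists_eq_add_of_le hM
  rw [vl_add] at h ⊢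
  have h2 : vl τ (0 + (M : ℤ)) d = 0 := by
    by_contra hne
    have : 1 ≤ vl τ (0 + (M : ℤ)) d := Nat.one_le_iff_ne_zero.2 hne
    have h3 : 2 ^ M * 1 ≤ 2 ^ M * vl τ (0 + (M : ℤ)) d := Nat.mul_le_mul_left _ this
    omega
  rw [h2]
  simp

omit [DecidableEq X] in
theorem Alu.sm {K L W q SC : ℕ} {sm : Prog (FT ⊕ X) (Sym G)} (hsm : SmulOK sm K SC) {c : TC X G} (h : Alu K L W q c) :
    ∃ c', Run sm c c' SC ∧ Alu K L W q c' ∧ vr (2 * K) c' .X3 = vr K c .X1 * vr K c .X2 ∧ Fr [.X3] [] c c' := by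
  obtain ⟨c1, r1, a1, f1⟩ := hsm c h.rS h.r2S (h.hz _ rfl) (h.hz _ rfl) (h.hz _ rfl) h.cl
  exact ⟨c1, r1, h.of_fr' f1 (by decide), a1, f1⟩

/-- The high half of the product register to `X1`. -/
def hiX : Prog (FT ⊕ X) (Sym G) := .seq (adv .RS .X3 .R) (.seq (cpy .RS .X3 .X1) (adv .RS .X3 .L))

theorem hiX_spec {K L W q : ℕ} {c : TC X G} (h : Alu K L W q c) :
    ∃ c', Run (hiX : Prog (FT ⊕ X) (Sym G)) c c' (20 * K + 20) ∧ Alu K L W q c' ∧
      vr K c' .X1 = vl (c.tape (o .X3)) K K ∧ Fr [.X1] [] c c' := by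
  obtain ⟨c1, r1, a1, f1⟩ := adv_spec (X := X) (G := G) .RS .X3 .R (by decide) (by simp) c h.rS
  have hR1 := h.rS.of_fr f1 (by simp) (by decide)
  obtain ⟨c2, r2, b1, f2⟩ := cpy_spec .RS .X3 .X1 (by decide) c1 hR1
  obtain ⟨c3, r3, d1, f3⟩ := adv_spec (X := X) (G := G) .RS .X3 .L (by decide) (by simp) c2 (hR1.of_fr f2 (by decide) (by simp))
  have hX3 : c1.head (o .X3) = K := by
    rw [a1, h.hz _ rfl]
    simp [Dir.toInt]
  have hX1 : c1.head (o .X1) = 0 := by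
    rw [f1.head (by decide), h.hz _ rfl]
  have f4 : Fr [.X1] [] c c3 := by
    have f5 : Fr [.X1] [.X3] c c3 := (f1.trans (f2.trans f3)).mono (by simp) (by simp)
    refine ⟨f5.tp, ?_, f5.cl⟩
    intro a _
    by_cases ha : a = .X3
    · subst ha
      rw [d1, f2.head (by simp), hX3, h.hz _ rfl]
      simp [Dir.toInt]
    · exact f5.hd a (by simpa using ha)
  refine ⟨c3, (r1.seq (r2.seq r3)).mono (by omega), h.of_fr' f4 (by decide), ?_, f4⟩
  have e : vr K c3 .X1 = vr K c2 .X1 := by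
    simp only [vr]
    rw [f3.tape (by simp)]
  rw [e]
  have := vl_of_copy (h := 0) (hs := (K : ℤ)) (τ := c1.tape (o .X1)) (τ' := c2.tape (o .X1)) (σ := c1.tape (o .X3)) (n := K) (by
    intro x
    rw [b1 x, hX1, hX3])
  rw [f1.tape (by simp)] at this
  exact this

/-- Barrett reduction of the register `In` into the register `Out`. -/
def redc (sm : Prog (FT ⊕ X) (Sym G)) (Ri Ro : FT) : Prog (FT ⊕ X) (Sym G) :=
  .seq (cpy .RS Ri .X1) (.seq (cpy .RS .Mu .X2) (.seq sm (.seq hiX (.seq (cpy .RS .Qr .X2) (.seq sm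
    (.seq (cpy .RS Ri Ro) (.seq (subZ Ro .X3) (csub Ro .Qr))))))))

/-- The cost of a reduction. -/
def RC (K SC : ℕ) : ℕ := 2 * SC + 128 * K + 128

theorem redc_spec {K L W q SC : ℕ} {sm : Prog (FT ⊕ X) (Sym G)} (hsm : SmulOK sm K SC) (hq : 0 < q)
    (Ri Ro : FT) (hIO : Ri ∉ [FT.X1, .X2, .X3, .Tz, .Cy, Ro] ∧ Ro ∉ [FT.X1, .X2, .X3, .Tz] ∧ isReg Ri = true ∧ wr Ro = true)
    {c : TC X G} (h : Alu K L W q c) :
    ∃ c', Run (redc sm Ri Ro) c c' (RC K SC) ∧ Alu K L W q c' ∧ vr K c' Ro = vr K c Ri % q ∧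
      Fr [Ro, .X1, .X2, .X3, .Tz, .Cy] [] c c' := by
  obtain ⟨h1, h2, h3, h4⟩ := hIO
  simp only [List.mem_cons, List.not_mem_nil, or_false, not_or] at h1 h2
  obtain ⟨i1, i2, i3, i4, i5, i6⟩ := h1
  obtain ⟨j1, j2, j3, j4⟩ := h2
  set x := vr K c Ri with hx
  have hxlt : x < 2 ^ K := vl_lt _ _ _
  obtain ⟨c1, r1, a1, v1, _, f1⟩ := mov_spec (K := K) (L := L) (W := W) (q := q) (c := c) Ri .X1 rfl h3 i1 h
  obtain ⟨c2, r2, a2, v2, _, f2⟩ := mov_spec .Mu .X2 rfl rfl (by decide) a1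
  obtain ⟨c3, r3, a3, v3, f3⟩ := a2.sm hsm
  obtain ⟨c4, r4, a4, v4, f4⟩ := hiX_spec a3
  obtain ⟨c5, r5, a5, v5, _, f5⟩ := mov_spec .Qr .X2 rfl rfl (by decide) a4
  obtain ⟨c6, r6, a6, v6, f6⟩ := a5.sm hsm
  obtain ⟨c7, r7, a7, v7, _, f7⟩ := mov_spec Ri Ro h4 h3 i6 a6
  obtain ⟨c8, r8, a8, v8, f8⟩ := subZ_spec Ro .X3 h4 rfl j3 (by decide) a7
  obtain ⟨c9, r9, a9, v9, f9⟩ := csub_spec Ro .Qr h4 rfl (by rintro rfl; exact absurd h4 (by decide)) (by decide) j4 (by decide) a8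
  have eI : ∀ c' : TC X G, ∀ l : List FT, Fr l [] c c' → Ri ∉ l → vr K c' Ri = x := by
    intro c' l f hl
    simp only [hx, vr]
    rw [f.tape hl]
  have f16 : Fr [.X1, .X2, .X3] [] c c6 :=
    ((f1.trans f2).trans ((f3.trans f4).trans (f5.trans f6))).mono (by simp) (by simp)
  have hIn6 : vr K c6 Ri = x := eI c6 _ f16 (by simp; exact ⟨i1, i2, i3⟩)
  have hX1c2 : vr K c2 .X1 = x := by
    have e : vr K c2 .X1 = vr K c1 .X1 := by
      simp only [vr]
      rw [f2.tape (by decide)]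
    rw [e]
    exact v1
  have hμ : vr (2 * K) c3 .X3 = x * (2 ^ K / q) := by
    rw [v3, hX1c2, v2]
    exact congrArg (x * ·) a1.mu
  have hX1c5 : vr K c5 .X1 = x * (2 ^ K / q) / 2 ^ K := by
    have e : vr K c5 .X1 = vr K c4 .X1 := by
      simp only [vr]
      rw [f5.tape (by decide)]
    rw [e, v4]
    exact vl_hi hμ
  set es := x * (2 ^ K / q) / 2 ^ K with hes
  obtain ⟨b1, b2⟩ := barrett (x := x) (q := q) (K := K) hq hxlt
  rw [← hes] at b1 b2
  have hX2c5 : vr K c5 .X2 = q := by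
    rw [v5]
    exact a4.qr
  have hP : vr (2 * K) c6 .X3 = es * q := by
    rw [v6, hX1c5, hX2c5]
  have hlow : vr K c6 .X3 = es * q := vl_lo hP (by omega)
  have hOut7 : vr K c7 Ro = x := by
    rw [v7, hIn6]
  have hX37 : vr K c7 .X3 = es * q := by
    rw [← hlow]
    simp only [vr]
    rw [f7.tape (by simpa using (Ne.symm j3))]
  have hOut8 : vr K c8 Ro = x - es * q := by
    rw [v8 (by rw [hX37, hOut7]; exact b1), hOut7, hX37]
  have hQ8 : vr K c8 .Qr = q := a8.qr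
  refine ⟨c9, ?_, a9, ?_, ?_⟩
  · refine (r1.seq (r2.seq (r3.seq (r4.seq (r5.seq (r6.seq (r7.seq (r8.seq r9)))))))).mono ?_
    unfold RC
    omega
  · rw [v9, hOut8, hQ8]
    have e1 : x = es * q + (x - es * q) := by omega
    have hm : x % q = (x - es * q) % q := by
      conv_lhs => rw [e1]
      rw [add_comm, Nat.add_mul_mod_self_right]
    rw [hm]
    split_ifs with hc
    · have e2 : x - es * q = (x - es * q - q) + q := by omega
      have h5 : x - es * q - q < q := by omega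
      conv_rhs => rw [e2]
      rw [Nat.add_mod_right, Nat.mod_eq_of_lt h5]
    · rw [Nat.mod_eq_of_lt (by omega)]
  · exact f16.tr (f7.tr (f8.tr f9 (l2 := [Ro, .Tz, .Cy]) (m2 := []) (by simp) (by simp)) (l2 := [Ro, .Tz, .Cy]) (m2 := []) (by simp) (by simp)) (by simp) (by simp)

/-! Multiplication in the quadratic extension -/

/-- Reduce the three coefficients of a product. -/
def redu3 (sm : Prog (FT ⊕ X) (Sym G)) : Prog (FT ⊕ X) (Sym G) :=
  .seq (redc sm .Y2 .Y3) (.seq (cpy .RS .Y3 .X1) (.seq (cpy .RS .Eta .X2) (.seq sm (.seq (addR .RS .Y0 .X3)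
    (.seq (redc sm .Y0 .ZA) (redc sm .Y1 .ZB))))))

/-- The cost of `redu3`. -/
def RD (K SC : ℕ) : ℕ := 3 * RC K SC + SC + 32 * K + 33

/-- The scratch registers of the arithmetic unit. -/
abbrev aluT : List FT := [.Y0, .Y1, .Y2, .Y3, .ZA, .ZB, .X1, .X2, .X3, .Tz, .Cy]

theorem redu3_spec {K L W q SC : ℕ} {sm : Prog (FT ⊕ X) (Sym G)} (hsm : SmulOK sm K SC) (hq : 0 < q)
    {c : TC X G} (h : Alu K L W q c) (he : vr K c .Eta < q) (hov : vr K c .Y0 + q * q ≤ 2 ^ K) :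
    ∃ c', Run (redu3 sm) c c' (RD K SC) ∧ Alu K L W q c' ∧
      vr K c' .ZA = (vr K c .Y0 + (vr K c .Y2 % q) * vr K c .Eta) % q ∧ vr K c' .ZB = vr K c .Y1 % q ∧
      Fr aluT [] c c' := by
  obtain ⟨c1, r1, a1, v1, f1⟩ := redc_spec hsm hq .Y2 .Y3 (by decide) h
  obtain ⟨c2, r2, a2, v2, _, f2⟩ := mov_spec .Y3 .X1 rfl rfl (by decide) a1
  obtain ⟨c3, r3, a3, v3, _, f3⟩ := mov_spec .Eta .X2 rfl rfl (by decide) a2
  obtain ⟨c4, r4, a4, v4, f4⟩ := a3.sm hsm
  have eEta : vr K c2 .Eta = vr K c .Eta := by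
    simp only [vr]
    rw [f2.tape (by decide), f1.tape (by decide)]
  have eY0 : vr K c4 .Y0 = vr K c .Y0 := by
    simp only [vr]
    rw [f4.tape (by decide), f3.tape (by decide), f2.tape (by decide), f1.tape (by decide)]
  have eY1 : vr K c4 .Y1 = vr K c .Y1 := by
    simp only [vr]
    rw [f4.tape (by decide), f3.tape (by decide), f2.tape (by decide), f1.tape (by decide)]
  have eX1 : vr K c3 .X1 = vr K c .Y2 % q := by
    have e : vr K c3 .X1 = vr K c2 .X1 := by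
      simp only [vr]
      rw [f3.tape (by decide)]
    rw [e, v2, v1]
  have hprod : vr (2 * K) c4 .X3 = (vr K c .Y2 % q) * vr K c .Eta := by
    rw [v4, eX1, v3, eEta]
  have hmlt : (vr K c .Y2 % q) * vr K c .Eta < q * q :=
    Nat.mul_lt_mul'' (Nat.mod_lt _ hq) he
  have hlow : vr K c4 .X3 = (vr K c .Y2 % q) * vr K c .Eta := vl_lo hprod (by omega)
  obtain ⟨c5, r5, a5, v5, f5⟩ := add_spec .Y0 .X3 rfl rfl (by decide) (by decide) a4 (by
    rw [eY0, hlow]
    omega)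
  obtain ⟨c6, r6, a6, v6, f6⟩ := redc_spec hsm hq .Y0 .ZA (by decide) a5
  obtain ⟨c7, r7, a7, v7, f7⟩ := redc_spec hsm hq .Y1 .ZB (by decide) a6
  refine ⟨c7, ?_, a7, ?_, ?_, ?_⟩
  · refine (r1.seq (r2.seq (r3.seq (r4.seq (r5.seq (r6.seq r7)))))).mono ?_
    unfold RD
    omega
  · have e : vr K c7 .ZA = vr K c6 .ZA := by
      simp only [vr]
      rw [f7.tape (by decide)]
    rw [e, v6, v5, eY0, hlow]
  · rw [v7]
    have e : vr K c6 .Y1 = vr K c .Y1 := by
      rw [← eY1]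
      simp only [vr]
      rw [f6.tape (by decide), f5.tape (by decide)]
    rw [e]
  · exact f1.tr (f2.tr (f3.tr (f4.tr (f5.tr (f6.tr f7 (l2 := aluT) (m2 := []) (by simp) (by simp))
      (l2 := aluT) (m2 := []) (by simp) (by simp)) (l2 := aluT) (m2 := []) (by simp) (by simp))
      (l2 := aluT) (m2 := []) (by simp) (by simp)) (l2 := aluT) (m2 := []) (by simp) (by simp))
      (by simp) (by simp)

omit [DecidableEq X] in
/-- Three digits. -/
theorem digits3 {τ : ℤ → Sym G} {L Y v0 v1 v2 : ℕ} (h : vl τ 0 Y = v0 + 2 ^ L * v1 + 2 ^ (2 * L) * v2) (hY : 3 * L ≤ Y)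
    (h0 : v0 < 2 ^ L) (h1 : v1 < 2 ^ L) (h2 : v2 < 2 ^ L) :
    vl τ 0 L = v0 ∧ vl τ (L : ℤ) L = v1 ∧ vl τ ((2 * L : ℕ) : ℤ) L = v2 := by
  obtain ⟨d, rfl⟩ := Nat.exists_eq_add_of_le hY
  have e0 : 3 * L + d = L + (L + (L + d)) := by ring
  rw [e0, vl_add, vl_add, vl_add] at h
  have e1 : (0 : ℤ) + (L : ℤ) = L := by ring
  have e2 : (L : ℤ) + (L : ℤ) = ((2 * L : ℕ) : ℤ) := by push_cast; ring
  rw [e1, e2] at h
  set x0 := vl τ 0 L
  set x1 := vl τ (L : ℤ) L
  set x2 := vl τ ((2 * L : ℕ) : ℤ) L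
  set x3 := vl τ (((2 * L : ℕ) : ℤ) + (L : ℤ)) d
  have hx0 : x0 < 2 ^ L := vl_lt _ _ _
  have hx1 : x1 < 2 ^ L := vl_lt _ _ _
  have hx2 : x2 < 2 ^ L := vl_lt _ _ _
  have e3 : v0 + 2 ^ L * v1 + 2 ^ (2 * L) * v2 = v0 + 2 ^ L * (v1 + 2 ^ L * (v2 + 2 ^ L * 0)) := by
    rw [two_mul, pow_add]
    ring
  rw [e3] at h
  obtain ⟨a0, b0⟩ := digit_unique hx0 h0 h
  obtain ⟨a1, b1⟩ := digit_unique hx1 h1 b0
  obtain ⟨a2, _⟩ := digit_unique hx2 h2 b1
  exact ⟨a0, a1, a2⟩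

/-- Pack two registers into one. -/
def pack (A B Y : FT) : Prog (FT ⊕ X) (Sym G) :=
  .seq (zro .RS Y) (.seq (cpy .RL A Y) (.seq (adv .RL Y .R) (.seq (cpy .RL B Y) (adv .RL Y .L))))

theorem pack_spec {K L W q : ℕ} (A B Y : FT) (hA : isReg A = true) (hB : isReg B = true) (hY : wr Y = true)
    (hAY : A ≠ Y) (hBY : B ≠ Y) (hKL : 2 * L ≤ K) {c : TC X G} (h : Alu K L W q c) :
    ∃ c', Run (pack A B Y : Prog (FT ⊕ X) (Sym G)) c c' (8 * K + 32 * L + 40) ∧ Alu K L W q c' ∧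
      vr K c' Y = vl (c.tape (o A)) 0 L + 2 ^ L * vl (c.tape (o B)) 0 L ∧ Fr [Y] [] c c' := by
  have hYr := reg_of_wr hY
  have hRS : (FT.RS) ≠ Y := ne_of_wr_RS hYr
  have hRL : (FT.RL) ≠ Y := ne_of_wr_RL hYr
  have hRLA : (FT.RL) ≠ A := ne_of_wr_RL hA
  have hRLB : (FT.RL) ≠ B := ne_of_wr_RL hB
  obtain ⟨c1, r1, a1, f1⟩ := zro_spec .RS Y hRS c h.rS
  have hL1 := h.rL.of_fr f1 (by simpa using hRL) (by simp)
  obtain ⟨c2, r2, a2, f2⟩ := cpy_spec .RL A Y (by
    simp only [List.nodup_cons, List.mem_cons, List.not_mem_nil, or_false, not_or]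
    exact ⟨⟨hRLA, hRL⟩, hAY, not_false, by simp⟩) c1 hL1
  have hL2 := hL1.of_fr f2 (by simpa using hRL) (by simp)
  obtain ⟨c3, r3, a3, f3⟩ := adv_spec .RL Y .R hRL (by simp) c2 hL2
  have hL3 := hL2.of_fr f3 (by simp) (by simpa using hRL)
  obtain ⟨c4, r4, a4, f4⟩ := cpy_spec .RL B Y (by
    simp only [List.nodup_cons, List.mem_cons, List.not_mem_nil, or_false, not_or]
    exact ⟨⟨hRLB, hRL⟩, hBY, not_false, by simp⟩) c3 hL3
  have hL4 := hL3.of_fr f4 (by simpa using hRL) (by simp)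
  obtain ⟨c5, r5, a5, f5⟩ := adv_spec .RL Y .L hRL (by simp) c4 hL4
  have hY0 : c.head (o Y) = 0 := h.hz Y hYr
  have hY1 : c1.head (o Y) = 0 := by rw [f1.head (by simp), hY0]
  have hY2 : c2.head (o Y) = 0 := by rw [f2.head (by simp), hY1]
  have hY3 : c3.head (o Y) = L := by
    rw [a3, hY2]
    simp [Dir.toInt]
  have hY4 : c4.head (o Y) = L := by rw [f4.head (by simp), hY3]
  have hA1 : c1.tape (o A) = c.tape (o A) := f1.tape (by simpa using hAY)
  have hB1 : c1.tape (o B) = c.tape (o B) := f1.tape (by simpa using hBY)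
  have hB3 : c3.tape (o B) = c.tape (o B) := by
    rw [f3.tape (by simp), f2.tape (by simpa using hBY), hB1]
  have hA0 : c1.head (o A) = 0 := by rw [f1.head (by simp)]; exact h.hz A hA
  have hB0 : c3.head (o B) = 0 := by
    have hne : B ∉ [Y] := by simpa using hBY
    rw [f3.head hne, f2.head (by simp), f1.head (by simp)]
    exact h.hz B hB
  have f6 : Fr [Y] [Y] c c5 := (f1.trans (f2.trans (f3.trans (f4.trans f5)))).mono (by simp) (by simp)
  have hY5 : c5.head (o Y) = 0 := by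
    rw [a5, hY4]
    simp [Dir.toInt]
  have f7 : Fr [Y] [] c c5 := by
    refine ⟨f6.tp, ?_, f6.cl⟩
    intro a _
    by_cases ha : a = Y
    · subst ha
      rw [hY5, hY0]
    · exact f6.hd a (by simpa using ha)
  refine ⟨c5, (r1.seq (r2.seq (r3.seq (r4.seq r5)))).mono (by omega), h.of_fr' f7 (by simpa using hY), ?_, f7⟩
  -- the value
  have hT : c5.tape (o Y) = c4.tape (o Y) := f5.tape (by simp)
  obtain ⟨d, hd⟩ := Nat.exists_eq_add_of_le hKL
  have e0 : K = L + (L + d) := by omega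
  simp only [vr]
  rw [hT, e0, vl_add, vl_add]
  have e3 : vl (c4.tape (o Y)) 0 L = vl (c.tape (o A)) 0 L := by
    apply vl_congr
    intro i hi
    rw [a4, hY3, if_neg (by omega), f3.tape (by simp), a2, hY1, hA0, if_pos (by omega), hA1]
    simp
  have e4 : vl (c4.tape (o Y)) ((0 : ℤ) + (L : ℤ)) L = vl (c.tape (o B)) 0 L := by
    apply vl_congr
    intro i hi
    rw [a4, hY3, if_pos (by omega), hB3, hB0]
    simp
  have e5 : vl (c4.tape (o Y)) ((0 : ℤ) + (L : ℤ) + (L : ℤ)) d = 0 := by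
    apply vl_eq_zero
    intro i hi
    rw [a4, hY3, if_neg (by omega), f3.tape (by simp), a2, hY1, if_neg (by omega), a1, hY0, if_pos (by omega)]
    rfl
  rw [e3, e4, e5]
  simp

/-- Erase a register and read `n` cells into it; the source advances. -/
def getA (R S Y : FT) : Prog (FT ⊕ X) (Sym G) := .seq (zro .RS Y) (lod R S Y)

theorem getA_spec {K n : ℕ} (R S Y : FT) (hn : [R, S, Y].Nodup) (hRS : FT.RS ≠ Y) {c : TC X G}
    (h1 : Ruler c (o .RS) K) (h2 : Ruler c (o R) n) (hY : c.head (o Y) = 0) (hnK : n ≤ K) :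
    ∃ c', Run (getA R S Y : Prog (FT ⊕ X) (Sym G)) c c' (8 * K + 8 * n + 16) ∧
      c'.head (o S) = c.head (o S) + n ∧ vr K c' Y = vl (c.tape (o S)) (c.head (o S)) n ∧ Fr [Y] [S] c c' := by
  have hn' := hn
  simp only [List.nodup_cons, List.mem_cons, List.not_mem_nil, or_false, not_or] at hn'
  obtain ⟨⟨n1, n2⟩, n3, _⟩ := hn'
  obtain ⟨c1, r1, a1, f1⟩ := zro_spec .RS Y hRS c h1
  have hR1 := h2.of_fr f1 (by simpa using n2) (by simp)
  obtain ⟨c2, r2, b1, b2, f2⟩ := lod_spec R S Y hn c1 hR1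
  have hS1 : c1.tape (o S) = c.tape (o S) := f1.tape (by simpa using n3)
  have hSh : c1.head (o S) = c.head (o S) := f1.head (by simp)
  have hY1 : c1.head (o Y) = 0 := by rw [f1.head (by simp), hY]
  refine ⟨c2, (r1.seq r2).mono (by omega), by rw [b1, hSh], ?_, f1.tr f2 (by simp) (by simp)⟩
  obtain ⟨d, rfl⟩ := Nat.exists_eq_add_of_le hnK
  simp only [vr]
  rw [vl_add]
  have e1 : vl (c2.tape (o Y)) 0 n = vl (c.tape (o S)) (c.head (o S)) n := by
    apply vl_congr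
    intro i hi
    rw [b2, hY1, if_pos (by omega), hS1, hSh]
    simp
  have e2 : vl (c2.tape (o Y)) ((0 : ℤ) + (n : ℤ)) d = 0 := by
    apply vl_eq_zero
    intro i hi
    rw [b2, hY1, if_neg (by omega), a1, hY, if_pos (by push_cast; omega)]
    rfl
  rw [e1, e2]
  simp

/-- Cut the product register into three registers. -/
def unp3 : Prog (FT ⊕ X) (Sym G) :=
  .seq (getA .RL .X3 .Y0) (.seq (getA .RL .X3 .Y1) (.seq (getA .RL .X3 .Y2)
    (.seq (adv .RL .X3 .L) (.seq (adv .RL .X3 .L) (adv .RL .X3 .L)))))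

theorem unp3_spec {K L W q : ℕ} (hLK : L ≤ K) {c : TC X G} (h : Alu K L W q c) :
    ∃ c', Run (unp3 : Prog (FT ⊕ X) (Sym G)) c c' (24 * K + 36 * L + 60) ∧ Alu K L W q c' ∧
      vr K c' .Y0 = vl (c.tape (o .X3)) 0 L ∧ vr K c' .Y1 = vl (c.tape (o .X3)) (L : ℤ) L ∧
      vr K c' .Y2 = vl (c.tape (o .X3)) ((2 * L : ℕ) : ℤ) L ∧ Fr [.Y0, .Y1, .Y2] [] c c' := by
  obtain ⟨c1, r1, a1, b1, f1⟩ := getA_spec .RL .X3 .Y0 (by decide) (by decide) h.rS h.rL (h.hz _ rfl) hLK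
  obtain ⟨c2, r2, a2, b2, f2⟩ := getA_spec .RL .X3 .Y1 (by decide) (by decide) (h.rS.of_fr f1 (by decide) (by decide))
    (h.rL.of_fr f1 (by decide) (by decide)) (by rw [f1.head (by decide)]; exact h.hz _ rfl) hLK
  have f12 := f1.trans f2
  obtain ⟨c3, r3, a3, b3, f3⟩ := getA_spec .RL .X3 .Y2 (by decide) (by decide) (h.rS.of_fr f12 (by decide) (by decide))
    (h.rL.of_fr f12 (by decide) (by decide)) (by rw [f12.head (by decide)]; exact h.hz _ rfl) hLK
  have f13 := f12.trans f3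
  have hL3 := h.rL.of_fr f13 (by decide) (by decide)
  obtain ⟨c4, r4, a4, f4⟩ := adv_spec (X := X) (G := G) .RL .X3 .L (by decide) (by simp) c3 hL3
  have hL4 := hL3.of_fr f4 (by decide) (by decide)
  obtain ⟨c5, r5, a5, f5⟩ := adv_spec (X := X) (G := G) .RL .X3 .L (by decide) (by simp) c4 hL4
  have hL5 := hL4.of_fr f5 (by decide) (by decide)
  obtain ⟨c6, r6, a6, f6⟩ := adv_spec (X := X) (G := G) .RL .X3 .L (by decide) (by simp) c5 hL5
  have hX0 : c.head (o .X3) = 0 := h.hz _ rfl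
  have hX6 : c6.head (o .X3) = 0 := by
    rw [a6, a5, a4, a3, a2, a1, hX0]
    simp only [Dir.toInt]
    ring
  have f7 := f13.trans (f4.trans (f5.trans f6))
  have f8 : Fr [.Y0, .Y1, .Y2] [] c c6 := by
    refine ⟨fun a ha => f7.tp a (by simpa using ha), ?_, f7.cl⟩
    intro a _
    by_cases ha : a = .X3
    · subst ha
      rw [hX6, hX0]
    · exact f7.hd a (by simpa using ha)
  have tX2 : c2.tape (o .X3) = c.tape (o .X3) := f12.tape (by decide)
  have tX1 : c1.tape (o .X3) = c.tape (o .X3) := f1.tape (by decide)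
  have hh2 : c2.head (o .X3) = ((2 * L : ℕ) : ℤ) := by
    rw [a2, a1, hX0]
    push_cast
    ring
  have hh1 : c1.head (o .X3) = (L : ℤ) := by
    rw [a1, hX0]
    ring
  have eY0 : vr K c6 .Y0 = vr K c1 .Y0 := by
    simp only [vr]
    rw [f6.tape (by decide), f5.tape (by decide), f4.tape (by decide), f3.tape (by decide), f2.tape (by decide)]
  have eY1 : vr K c6 .Y1 = vr K c2 .Y1 := by
    simp only [vr]
    rw [f6.tape (by decide), f5.tape (by decide), f4.tape (by decide), f3.tape (by decide)]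
  have eY2 : vr K c6 .Y2 = vr K c3 .Y2 := by
    simp only [vr]
    rw [f6.tape (by decide), f5.tape (by decide), f4.tape (by decide)]
  refine ⟨c6, (r1.seq (r2.seq (r3.seq (r4.seq (r5.seq r6))))).mono (by omega), h.of_fr' f8 (by decide), ?_, ?_, ?_, f8⟩
  · rw [eY0, b1, hX0]
  · rw [eY1, b2, tX1, hh1]
  · rw [eY2, b3, tX2, hh2]

/-- Multiplication in the quadratic extension: `(FA, FB) * (GA, GB)` into `(ZA, ZB)`. -/
def fmul (sm : Prog (FT ⊕ X) (Sym G)) : Prog (FT ⊕ X) (Sym G) :=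
  .seq (pack .FA .FB .X1) (.seq (pack .GA .GB .X2) (.seq sm (.seq unp3 (redu3 sm))))

/-- The cost of `fmul`. -/
def FC (K SC : ℕ) : ℕ := RD K SC + SC + 40 * K + 100 * K + 140

omit [DecidableEq X] in
theorem fmul_bounds {L q a b u w : ℕ} (hLq : 2 * q * q ≤ 2 ^ L) (h1 : a < q) (h2 : b < q) (h3 : u < q) (h4 : w < q) :
    a * u < 2 ^ L ∧ b * w < 2 ^ L ∧ a * w + b * u < 2 ^ L := by
  have e1 : a * u < q * q := Nat.mul_lt_mul'' h1 h3
  have e2 : b * w < q * q := Nat.mul_lt_mul'' h2 h4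
  have e3 : a * w < q * q := Nat.mul_lt_mul'' h1 h4
  have e4 : b * u < q * q := Nat.mul_lt_mul'' h2 h3
  have e5 : 2 * (q * q) ≤ 2 ^ L := by rw [← mul_assoc]; exact hLq
  omega

omit [DecidableEq X] in
theorem fmul_expand (L a b u w : ℕ) : (a + 2 ^ L * b) * (u + 2 ^ L * w) =
    a * u + 2 ^ L * (a * w + b * u) + 2 ^ (2 * L) * (b * w) := by
  rw [two_mul, pow_add]
  ring

omit [DecidableEq X] in
theorem fmul_y0 {K L q x : ℕ} (hq : 0 < q) (hKL : 2 * L ≤ K) (hLq : 2 * q * q ≤ 2 ^ L) (hx : x < 2 ^ L) :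
    x + q * q ≤ 2 ^ K := by
  have hL : 0 < L := by
    by_contra h0
    have : L = 0 := by omega
    subst this
    have h5 : 0 < q * q := Nat.mul_pos hq hq
    have e5 : 2 * (q * q) ≤ 2 ^ 0 := by rw [← mul_assoc]; exact hLq
    simp at e5
    omega
  have h5 : 2 ^ (L + 1) ≤ 2 ^ K := Nat.pow_le_pow_right (by norm_num) (by omega)
  rw [pow_succ] at h5
  have e5 : 2 * (q * q) ≤ 2 ^ L := by rw [← mul_assoc]; exact hLq
  omega

theorem fmul_num {K L W q SC : ℕ} {sm : Prog (FT ⊕ X) (Sym G)} (hsm : SmulOK sm K SC) (hq : 0 < q) (hKL : 2 * L ≤ K)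
    (hLq : 2 * q * q ≤ 2 ^ L) {c : TC X G} (h : Alu K L W q c) (he : vr K c .Eta < q)
    (h1 : vr K c .FA < q) (h2 : vr K c .FB < q) (h3 : vr K c .GA < q) (h4 : vr K c .GB < q) :
    ∃ c', Run (fmul sm) c c' (FC K SC) ∧ Alu K L W q c' ∧
      vr K c' .ZA = (vr K c .FA * vr K c .GA + (vr K c .FB * vr K c .GB % q) * vr K c .Eta) % q ∧
      vr K c' .ZB = (vr K c .FA * vr K c .GB + vr K c .FB * vr K c .GA) % q ∧
      Fr aluT [] c c' := by
  have hqq : q ≤ 2 ^ L := by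
    have : q ≤ q * q := Nat.le_mul_of_pos_left _ hq
    have e5 : 2 * (q * q) ≤ 2 ^ L := by rw [← mul_assoc]; exact hLq
    omega
  have hLK : L ≤ K := by omega
  have hlo : ∀ c1 : TC X G, ∀ t, vr K c1 t < q → vl (c1.tape (o t)) 0 L = vr K c1 t := by
    intro c1 t ht
    exact vl_low hLK (lt_of_lt_of_le ht hqq)
  obtain ⟨c1, r1, a1, v1, f1⟩ := pack_spec .FA .FB .X1 rfl rfl rfl (by decide) (by decide) hKL h
  obtain ⟨c2, r2, a2, v2, f2⟩ := pack_spec .GA .GB .X2 rfl rfl rfl (by decide) (by decide) hKL a1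
  obtain ⟨c3, r3, a3, v3, f3⟩ := a2.sm hsm
  obtain ⟨c4, r4, a4, v4, v5, v6, f4⟩ := unp3_spec hLK a3
  rw [hlo c .FA h1, hlo c .FB h2] at v1
  have eG : ∀ t, t ∉ [FT.X1] → vl (c1.tape (o t)) = vl (c.tape (o t)) := by
    intro t ht
    rw [f1.tape ht]
  rw [eG .GA (by decide), eG .GB (by decide), hlo c .GA h3, hlo c .GB h4] at v2
  have eX1 : vr K c2 .X1 = vr K c1 .X1 := by
    simp only [vr]
    rw [f2.tape (by decide)]
  have hp : vr (2 * K) c3 .X3 = vr K c .FA * vr K c .GA + 2 ^ L * (vr K c .FA * vr K c .GB + vr K c .FB * vr K c .GA) +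
      2 ^ (2 * L) * (vr K c .FB * vr K c .GB) := by
    rw [v3, eX1, v1, v2, fmul_expand]
  obtain ⟨b1, b2, b3⟩ := fmul_bounds hLq h1 h2 h3 h4
  obtain ⟨d0, d1, d2⟩ := digits3 hp (by omega) b1 b3 b2
  have eEta : vr K c4 .Eta = vr K c .Eta := by
    simp only [vr]
    rw [f4.tape (by decide), f3.tape (by decide), f2.tape (by decide), f1.tape (by decide)]
  have hY0 : vr K c4 .Y0 + q * q ≤ 2 ^ K := by
    rw [v4, d0]
    exact fmul_y0 hq hKL hLq b1
  obtain ⟨c5, r5, a5, v7, v8, f5⟩ := redu3_spec hsm hq a4 (by rw [eEta]; exact he) hY0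
  refine ⟨c5, ?_, a5, ?_, ?_, ?_⟩
  · refine (r1.seq (r2.seq (r3.seq (r4.seq r5)))).mono ?_
    unfold FC
    have e1 : 36 * L ≤ 18 * K := by omega
    have e2 : 32 * L ≤ 16 * K := by omega
    omega
  · rw [v7, v4, d0, v6, d2, eEta]
  · rw [v8, v5, d1]
  · exact f1.tr (f2.tr (f3.tr (f4.tr f5 (l2 := aluT) (m2 := []) (by simp) (by simp)) (l2 := aluT) (m2 := []) (by simp) (by simp)) (l2 := aluT) (m2 := []) (by simp) (by simp)) (by simp) (by simp)

end

end Vale.Agent.Lib.P338.F
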