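import Vale.Agent.Lib.P338.F.SAll

/-!
Initialisation of the arithmetic unit: the modulus and the Barrett constant in registers.
-/

namespace Vale.Agent.Lib.P338.F

open Vale.Agent.Lib.P338 Prog

section
variable {X G : Type}

/-- The start of the initialisation. -/
structure IN0 (K L W q N : ℕ) (c : TC X G) : Prop where
  alu : Alu K L W 0 c
  one : c.tape (o .One) = runT 0
  ba : c.tape (o .BA) = runT 0
  ca : c.tape (o .CA) = runT 0
  zer : c.tape (o .Zer) = runT 0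
  eta : c.tape (o .Eta) = runT 0
  r2 : Ruler c (o .Rq2) q
  r3 : Ruler c (o .RqM) (q - 1)
  r4 : Ruler c (o .RqMM) (q - 2)
  r5 : Ruler c (o .RNM) (N - 1)
  rq : Ruler c (o .Rq) q
  rk : Ruler c (o .Tmr) K

theorem vl_runT_zero (K : ℕ) : vl (runT 0 : ℤ → Sym G) 0 K = 0 := by
  apply vl_eq_zero
  intro i _
  rw [runT_out (by right; simp)]
  rfl

theorem vl_one_cell {τ : ℤ → Sym G} {K : ℕ} (hK : 1 ≤ K) (h0 : (τ 0).isOne = true) (h1 : ∀ i : ℤ, i ≠ 0 → (τ i).isOne = false) : vl τ 0 K = 1 := by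
  obtain ⟨J, rfl⟩ : ∃ J, K = J + 1 := ⟨K - 1, by omega⟩
  simp only [vl]
  rw [Finset.sum_range_succ']
  have e : ∑ k ∈ Finset.range J, (τ (0 + ((k + 1 : ℕ) : ℤ))).isOne.toNat * 2 ^ (k + 1) = 0 := by
    apply Finset.sum_eq_zero
    intro k _
    rw [h1 _ (by omega)]
    simp
  rw [e]
  simp [h0]

variable [DecidableEq X]

/-- A step of the long division. -/
def divB : Prog (FT ⊕ X) (Sym G) :=
  .seq (cpy .RS .AA .BB) (.seq (addR .RS .AA .BB) (.seq (cpy .RS .CA .BB) (.seq (addR .RS .CA .BB)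
    (.seq (cpy .RS .AA .Tz) (.seq (subR .RS .Tz .BA)
      (.ite (fun s => (s (o .Cy)).isOne) clrCy (.seq clrCy (.seq (cpy .RS .Tz .AA) (addR .RS .CA .One)))))))))

/-- The cost of a step of the long division. -/
def DVC (K : ℕ) : ℕ := (12 * K + 12) + ((8 * K + 9) + ((12 * K + 12) + ((8 * K + 9) + ((12 * K + 12) + ((8 * K + 8) +
  (1 + ((12 * K + 12) + (8 * K + 9))) + 2)))))

/-- The invariant of the long division. -/
structure DvI (K L W q : ℕ) (c0 : TC X G) (i : ℕ) (c : TC X G) : Prop where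
  alu : Alu K L W 0 c
  rlt : vr K c .AA < q
  eq : vr K c .CA * q + vr K c .AA = 2 ^ i
  fr : Fr [.AA, .BB, .CA, .Tz, .Cy] [.Tmr] c0 c

theorem divB_step {K L W q i : ℕ} {c0 c : TC X G} (hq : 2 ≤ q) (h2q : 2 * q ≤ 2 ^ K) (hi : i < K) (hba : vr K c .BA = q) (hone : vr K c .One = 1)
    (hI : DvI K L W q c0 i c) :
    ∃ c', Run (divB : Prog (FT ⊕ X) (Sym G)) c c' (DVC K) ∧ DvI K L W q c0 (i + 1) c' ∧ Fr [.AA, .BB, .CA, .Tz, .Cy] [] c c' := by
  have hpow : 2 ^ (i + 1) ≤ 2 ^ K := Nat.pow_le_pow_right (by norm_num) hi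
  have hpow2 : 2 ^ (i + 1) = 2 * 2 ^ i := by rw [pow_succ]; ring
  set a := vr K c .AA with ha
  set μ := vr K c .CA with hμ
  have h1 : a < q := hI.rlt
  have h2 : μ * q + a = 2 ^ i := hI.eq
  have hμ2 : μ * 2 ≤ μ * q := Nat.mul_le_mul_left _ hq
  obtain ⟨c1, r1, a1, v1, _, f1⟩ := mov_spec .AA .BB rfl rfl (by decide) hI.alu
  obtain ⟨c2, r2, a2, v2, f2⟩ := add_spec .AA .BB rfl rfl (by decide) (by decide) a1 (by
    rw [v1, vr_of_fr f1 (by decide)]
    omega)
  have eaa2 : vr K c2 .AA = a + a := by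
    rw [v2, v1, vr_of_fr f1 (by decide)]
  have f12 : Fr [.BB, .AA, .Cy] [] c c2 := f1.nil_tr f2 (by simp)
  obtain ⟨c3, r3, a3, v3, _, f3⟩ := mov_spec .CA .BB rfl rfl (by decide) a2
  have eca2 : vr K c2 .CA = μ := vr_of_fr f12 (by decide)
  obtain ⟨c4, r4, a4, v4, f4⟩ := add_spec .CA .BB rfl rfl (by decide) (by decide) a3 (by
    rw [v3, vr_of_fr f3 (by decide), eca2]
    have : μ * 2 ≤ 2 ^ i := by omega
    have hp : 2 ^ i * 2 ≤ 2 ^ K := by rw [← pow_succ]; exact hpow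
    have hp0 : 0 < 2 ^ i := by positivity
    omega)
  have eca4 : vr K c4 .CA = μ + μ := by
    rw [v4, v3, vr_of_fr f3 (by decide), eca2]
  have f34 : Fr [.BB, .CA, .Cy] [] c2 c4 := f3.nil_tr f4 (by simp)
  have eaa4 : vr K c4 .AA = a + a := by rw [vr_of_fr f34 (by decide), eaa2]
  obtain ⟨c5, r5, a5, v5, _, f5⟩ := mov_spec .AA .Tz rfl rfl (by decide) a4
  have hn : [FT.RS, FT.Tz, FT.BA, FT.Cy].Nodup := by decide
  obtain ⟨c6, r6, b1, b2, b3, _, _, f6⟩ := subR_spec .RS .Tz .BA hn c5 a5.rS a5.cy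
  have f14 : Fr [.BB, .AA, .CA, .Cy] [] c c4 := f12.nil_tr f34 (by simp)
  have eba5 : vl (c5.tape (o .BA)) 0 K = q := by
    have : vr K c5 .BA = q := by
      rw [vr_of_fr f5 (by decide), vr_of_fr f14 (by decide)]
      exact hba
    exact this
  have etz5 : vl (c5.tape (o .Tz)) 0 K = a + a := by
    have : vr K c5 .Tz = a + a := by rw [v5, eaa4]
    exact this
  rw [a5.hz .Tz rfl, a5.hz .BA rfl, eba5, etz5] at b2 b3
  have f15 : Fr [.BB, .AA, .CA, .Cy, .Tz] [] c c5 := f14.nil_tr f5 (by simp)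
  have f16 : Fr [.BB, .AA, .CA, .Cy, .Tz] [] c c6 := f15.nil_tr f6 (by simp)
  have hlist : ∀ a ∈ [FT.Tz, .Cy], wr a = true ∨ a = .Cy := by decide
  have eone5 : vr K c5 .One = 1 := by
    rw [vr_of_fr f15 (by decide)]
    exact hone
  have eca5 : vr K c5 .CA = μ + μ := by
    rw [vr_of_fr f5 (by decide), eca4]
  have eaa5 : vr K c5 .AA = a + a := by
    rw [vr_of_fr f5 (by decide), eaa4]
  have hcond : ∃ c7, Run (.ite (fun s => (s (o .Cy)).isOne) clrCy (.seq clrCy (.seq (cpy .RS .Tz .AA) (addR .RS .CA .One))) : Prog (FT ⊕ X) (Sym G)) c6 c7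
      ((1 + ((12 * K + 12) + (8 * K + 9))) + 1) ∧ Alu K L W 0 c7 ∧ vr K c7 .AA < q ∧ vr K c7 .CA * q + vr K c7 .AA = 2 ^ (i + 1) ∧ Fr [.BB, .AA, .CA, .Cy, .Tz] [] c6 c7 := by
    obtain ⟨c7, r7, d7, f7⟩ := clrCy_spec c6
    have f67 : Fr [.Tz, .Cy] [] c5 c7 := f6.nil_tr f7 (by simp)
    have a7 : Alu K L W 0 c7 := a5.of_fr f67 hlist d7
    cases hb : decide (a + a < q)
    · have hle : q ≤ a + a := by simpa using hb
      have hcy : (c6.read (o .Cy)).isOne = false := by rw [b3, hb]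
      obtain ⟨c8, r8, a8, v8, _, f8⟩ := mov_spec .Tz .AA rfl rfl (by decide) a7
      have ev : vr K c8 .AA = a + a - q := by
        rw [v8, vr_of_fr f7 (by decide)]
        exact b2 hle
      have eca8 : vr K c8 .CA = μ + μ := by
        rw [vr_of_fr f8 (by decide), vr_of_fr f67 (by decide), eca5]
      have eone8 : vr K c8 .One = 1 := by
        rw [vr_of_fr f8 (by decide), vr_of_fr f67 (by decide), eone5]
      have e1 : (μ + μ + 1) * q = μ * q + μ * q + q := by ring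
      have e2 : (μ + μ + 1) * 2 ≤ (μ + μ + 1) * q := Nat.mul_le_mul_left _ hq
      obtain ⟨c9, r9, a9, v9, f9⟩ := add_spec .CA .One rfl rfl (by decide) (by decide) a8 (by
        rw [eca8, eone8]
        omega)
      refine ⟨c9, (Run.iteF (g := fun s => (s (o .Cy)).isOne) (a := clrCy) hcy (r7.seq (r8.seq r9))).mono (by omega), a9, ?_, ?_, ?_⟩
      · rw [vr_of_fr f9 (by decide), ev]
        omega
      · rw [v9, vr_of_fr f9 (by decide), ev, eca8, eone8, e1, hpow2]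
        omega
      · exact f7.nil_tr (f8.nil_tr f9 (l2 := [.AA, .CA, .Cy]) (by simp)) (by simp)
    · have hlt : a + a < q := by simpa using hb
      have hcy : (c6.read (o .Cy)).isOne = true := by rw [b3, hb]
      refine ⟨c7, (Run.iteT (g := fun s => (s (o .Cy)).isOne) (b := .seq clrCy (.seq (cpy .RS .Tz .AA) (addR .RS .CA .One))) hcy r7).mono (by omega), a7, ?_, ?_, f7.mono (by simp) (by simp)⟩
      · rw [vr_of_fr f67 (by decide), eaa5]
        exact hlt
      · rw [vr_of_fr f67 (by decide), vr_of_fr f67 (by decide), eaa5, eca5, hpow2]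
        have e1 : (μ + μ) * q = μ * q + μ * q := by ring
        omega
  obtain ⟨c7, r7, a7, v71, v72, f7⟩ := hcond
  have f17 : Fr [.AA, .BB, .CA, .Tz, .Cy] [] c c7 := f16.nil_tr f7 (by simp)
  refine ⟨c7, (r1.seq (r2.seq (r3.seq (r4.seq (r5.seq (r6.seq r7)))))).mono ?_, ⟨a7, v71, v72, hI.fr.tr f17 (by simp) (by simp)⟩, f17⟩
  unfold DVC
  omega

/-- The initialisation. -/
def aluI : Prog (FT ⊕ X) (Sym G) :=
  .seq (setF .One true) (.seq (forR (o .Rq) (addR .RS .BA .One)) (.seq (cpy .RS .One .AA) (.seq (forR (o .Tmr) divB)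
    (.seq (cpy .RS .BA .Qr) (cpy .RS .CA .Mu)))))

/-- The cost of the initialisation. -/
def AIC (K q : ℕ) : ℕ := 1 + ((q * ((8 * K + 9) + 4) + 4) + ((12 * K + 12) + ((K * (DVC K + 4) + 4) + ((12 * K + 12) + (12 * K + 12)))))

/-- The tapes changed by the initialisation. -/
abbrev aiL : List FT := [.One, .BA, .AA, .BB, .CA, .Tz, .Cy, .Qr, .Mu]

theorem aluI_spec {K L W q N : ℕ} {c : TC X G} (hq : 2 ≤ q) (h2q : 2 * q ≤ 2 ^ K) (hK : 1 ≤ K) (h : IN0 K L W q N c) :
    ∃ c', Run (aluI : Prog (FT ⊕ X) (Sym G)) c c' (AIC K q) ∧ SN K L W q N (0 : ZMod q) c' ∧ Ruler c' (o .Rq) q ∧ Ruler c' (o .Tmr) K ∧ Fr aiL [] c c' := by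
  obtain ⟨c1, r1, b1, b2, f1⟩ := setF_spec .One true c
  have a1 : Alu K L W 0 c1 := h.alu.of_fr' f1 (by decide)
  have hone1 : vr K c1 .One = 1 := by
    have hh : c.head (o .One) = 0 := h.alu.hz .One rfl
    have hh1 : c1.head (o .One) = 0 := a1.hz .One rfl
    apply vl_one_cell hK
    · have : flg c1 .One = true := b1
      simp only [flg, TS.read] at this
      rw [hh1] at this
      exact this
    · intro i hi
      rw [b2 i (by rw [hh]; exact hi), h.one, runT_out (by omega)]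
      rfl
  have hba1 : vr K c1 .BA = 0 := by
    simp only [vr]
    rw [f1.tape (by decide), h.ba]
    exact vl_runT_zero K
  have hr1 : Ruler c1 (o .Rq) q := h.rq.of_fr f1 (by decide) (by simp)
  obtain ⟨c2, ⟨i1, i2, i3, i4⟩, hr2, r2⟩ := forU (X := X) (G := G) (fun i c => Alu K L W 0 c ∧ vr K c .BA = i ∧ vr K c .One = 1 ∧ Fr [.BA, .Cy] [.Rq] c1 c) ((8 * K + 9)) hr1
    ⟨a1, hba1, hone1, Fr.refl _ _ _⟩
    (by
      rintro i c c' ⟨i1, i2, i3, i4⟩ fr
      refine ⟨i1.of_gen fr (by simp) (by decide), ?_, ?_, i4.tr fr (by simp) (by simp)⟩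
      · rw [vr_of_fr fr (by simp)]; exact i2
      · rw [vr_of_fr fr (by simp)]; exact i3)
    (by
      rintro i hi c _ _ ⟨i1, i2, i3, i4⟩
      have hqK : q < 2 ^ K := by omega
      obtain ⟨c', r, a, v, f⟩ := add_spec .BA .One rfl rfl (by decide) (by decide) i1 (by rw [i2, i3]; omega)
      refine ⟨c', r, ⟨a, by rw [v, i2, i3], by rw [vr_of_fr f (by decide)]; exact i3, i4.tr f (by simp) (by simp)⟩, f.tape (by decide), f.head (by simp)⟩)
  obtain ⟨c3, r3, a3, v3, _, f3⟩ := mov_spec .One .AA rfl rfl (by decide) i1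
  have f2 : Fr [.BA, .Cy] [] c1 c2 := i4.fixR hr1 hr2
  have f13 : Fr [.One, .BA, .Cy, .AA] [] c c3 := f1.nil_tr (f2.nil_tr f3 (l2 := [.BA, .Cy, .AA]) (by simp)) (by simp)
  have hca3 : vr K c3 .CA = 0 := by
    simp only [vr]
    rw [f13.tape (by decide), h.ca]
    exact vl_runT_zero K
  have hone3 : vr K c3 .One = 1 := by
    rw [vr_of_fr f3 (by decide)]
    exact i3
  have hba3 : vr K c3 .BA = q := by
    rw [vr_of_fr f3 (by decide)]
    exact i2
  have hr3 : Ruler c3 (o .Tmr) K := h.rk.of_fr f13 (by decide) (by simp)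
  have iv3 : DvI K L W q c3 0 c3 := by
    refine ⟨a3, ?_, ?_, Fr.refl _ _ _⟩
    · rw [v3, i3]
      omega
    · rw [hca3, v3, i3]
      simp
  have ev : ∀ (A : FT) (c' : TC X G), A ∉ [FT.AA, .BB, .CA, .Tz, .Cy] → Fr [.AA, .BB, .CA, .Tz, .Cy] [.Tmr] c3 c' → vr K c' A = vr K c3 A := by
    intro A c' hA f
    exact vr_of_fr f hA
  obtain ⟨c4, i5, hr4, r4⟩ := forU (DvI K L W q c3) (DVC K) hr3 iv3
    (by
      intro i c c' hi fr
      refine ⟨hi.alu.of_gen fr (by simp) (by decide), ?_, ?_, hi.fr.tr fr (by simp) (by simp)⟩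
      · rw [vr_of_fr fr (by simp)]; exact hi.rlt
      · rw [vr_of_fr fr (by simp), vr_of_fr fr (by simp)]; exact hi.eq)
    (by
      intro i hi c _ _ hI
      obtain ⟨c', r, i', f⟩ := divB_step hq h2q hi (by rw [ev _ _ (by decide) hI.fr]; exact hba3) (by rw [ev _ _ (by decide) hI.fr]; exact hone3) hI
      exact ⟨c', r, i', f.tape (by decide), f.head (by simp)⟩)
  have f4 : Fr [.AA, .BB, .CA, .Tz, .Cy] [] c3 c4 := i5.fr.fixR hr3 hr4
  have hba4 : vr K c4 .BA = q := by rw [vr_of_fr f4 (by decide)]; exact hba3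
  have hμ : vr K c4 .CA = 2 ^ K / q := by
    have e := i5.eq
    have hlt := i5.rlt
    symm
    apply Nat.div_eq_of_lt_le
    · rw [← e]
      omega
    · rw [← e, add_mul, one_mul]
      omega
  obtain ⟨c5, r5, v5, f5⟩ := cpy_spec .RS .BA .Qr (by decide) c4 i5.alu.rS
  have hrS5 : Ruler c5 (o .RS) K := i5.alu.rS.of_fr f5 (by decide) (by simp)
  obtain ⟨c6, r6, v6, f6⟩ := cpy_spec .RS .CA .Mu (by decide) c5 hrS5
  have f56 : Fr [.Qr, .Mu] [] c4 c6 := f5.nil_tr f6 (by simp)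
  have hQ : vr K c6 .Qr = q := by
    rw [vr_of_fr f6 (by decide), ← hba4]
    refine vl_of_copy (h := 0) (hs := 0) (τ := c4.tape (o .Qr)) (σ := c4.tape (o .BA)) ?_
    intro x
    rw [v5 x, i5.alu.hz .Qr rfl, i5.alu.hz .BA rfl]
  have hM : vr K c6 .Mu = 2 ^ K / q := by
    rw [← hμ, ← vr_of_fr f5 (a := FT.CA) (by decide)]
    refine vl_of_copy (h := 0) (hs := 0) (τ := c5.tape (o .Mu)) (σ := c5.tape (o .CA)) ?_
    intro x
    rw [v6 x, f5.head (by simp), f5.head (by simp), i5.alu.hz .Mu rfl, i5.alu.hz .CA rfl]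
  have f16 : Fr aiL [] c c6 := f13.nil_tr (f4.nil_tr f56 (l2 := [.AA, .BB, .CA, .Tz, .Cy, .Qr, .Mu]) (by simp)) (by simp)
  have hcy : (c6.read (o .Cy)).isOne = false := cy_of_fr i5.alu.cy f56 (by decide)
  have alu6 : Alu K L W q c6 := by
    refine ⟨h.alu.rS.of_fr f16 (by decide) (by simp), h.alu.r2S.of_fr f16 (by decide) (by simp), h.alu.rL.of_fr f16 (by decide) (by simp),
      h.alu.rW.of_fr f16 (by decide) (by simp), ?_, hcy, hQ, hM, f16.cl h.alu.cl⟩
    intro a ha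
    rw [f16.head (by simp)]
    exact h.alu.hz a ha
  have hE : vr K c6 .Eta = 0 := by
    simp only [vr]
    rw [f16.tape (by decide), h.eta]
    exact vl_runT_zero K
  have hZ : vr K c6 .Zer = 0 := by
    simp only [vr]
    rw [f16.tape (by decide), h.zer]
    exact vl_runT_zero K
  have hO : vr K c6 .One = 1 := by
    rw [vr_of_fr f56 (by decide), vr_of_fr f4 (by decide)]
    exact hone3
  refine ⟨c6, r1.seq (r2.seq (r3.seq (r4.seq (r5.seq r6)))), ?_, h.rq.of_fr f16 (by decide) (by simp), h.rk.of_fr f16 (by decide) (by simp), f16⟩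
  exact { toFE := { toAlu := alu6, etaLt := by rw [hE]; omega, etaEq := by rw [hE]; simp }
          one := hO, zer := hZ
          r2 := h.r2.of_fr f16 (by decide) (by simp)
          r3 := h.r3.of_fr f16 (by decide) (by simp)
          r4 := h.r4.of_fr f16 (by decide) (by simp)
          r5 := h.r5.of_fr f16 (by decide) (by simp) }

end

end Vale.Agent.Lib.P338.F
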