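import Vale.Agent.Lib.P338.F.SqT

/-!
The elements of full order and the constants of the chain.
-/

namespace Vale.Agent.Lib.P338.F

open Vale.Agent.Lib.P338 Prog

section math
variable {q : ℕ} [hq : Fact q.Prime] {η : ZMod q} [hη : Fact (∀ r : ZMod q, r ^ 2 ≠ η + 0 * r)]

/-- An element `(a, 1)` whose `(q - 1)`-th power has order `q + 1`. -/
theorem exists_a : ∃ a, a < q ∧ OrderIs ((mkE q η a 1) ^ (q - 1)) (q + 1) := by
  obtain ⟨g, h1, h2⟩ := exists_gen (q := q) (η := η)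
  have hq2 : 2 ≤ q := hq.out.two_le
  have e1 : q * q - 1 = (q - 1) * (q + 1) := by
    obtain ⟨r, rfl⟩ : ∃ r, q = r + 1 := ⟨q - 1, by omega⟩
    simp only [Nat.add_sub_cancel]
    have : (r + 1) * (r + 1) = r * (r + 1 + 1) + 1 := by ring
    omega
  have hg1 : (g : Rq q η) ^ (q * q - 1) = 1 := by
    have := congrArg Units.val h1
    simpa using this
  have hlt : q - 1 < q * q - 1 := by
    have : 2 * q ≤ q * q := Nat.mul_le_mul_right _ hq2
    omega
  have hy : (g : Rq q η).im ≠ 0 := by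
    intro hy
    have hg : (g : Rq q η) = algebraMap (ZMod q) (Rq q η) (g : Rq q η).re := by
      ext <;> simp [hy]
    have hre : (g : Rq q η).re ≠ 0 := by
      intro h0
      rw [h0, map_zero] at hg
      exact g.ne_zero hg
    have h3 : (g : Rq q η) ^ (q - 1) = 1 := by
      rw [hg, ← map_pow, ZMod.pow_card_sub_one_eq_one hre, map_one]
    apply h2 (q - 1) (by omega) hlt
    apply Units.ext
    simpa using h3
  refine ⟨((g : Rq q η).re / (g : Rq q η).im).val, ZMod.val_lt _, ?_⟩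
  have hmk : mkE q η ((g : Rq q η).re / (g : Rq q η).im).val 1 = algebraMap (ZMod q) (Rq q η) ((g : Rq q η).im)⁻¹ * g := by
    ext
    · simp only [mkE_re, ZMod.natCast_zmod_val, QuadraticAlgebra.re_mul, QuadraticAlgebra.algebraMap_re, QuadraticAlgebra.algebraMap_im]
      rw [div_eq_mul_inv]
      ring
    · simp only [mkE_im, QuadraticAlgebra.im_mul, QuadraticAlgebra.algebraMap_re, QuadraticAlgebra.algebraMap_im]
      rw [inv_mul_cancel₀ hy]
      simp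
  have e2 : (mkE q η ((g : Rq q η).re / (g : Rq q η).im).val 1) ^ (q - 1) = (g : Rq q η) ^ (q - 1) := by
    rw [hmk, mul_pow, ← map_pow, inv_pow, ZMod.pow_card_sub_one_eq_one hy, inv_one, map_one, one_mul]
  rw [e2]
  refine ⟨?_, ?_⟩
  · rw [← pow_mul, ← e1, hg1]
  · intro k hk hk2 he
    rw [← pow_mul] at he
    apply h2 ((q - 1) * k)
    · exact Nat.mul_pos (by omega) hk
    · rw [e1]
      exact Nat.mul_lt_mul_of_pos_left hk2 (by omega)
    · apply Units.ext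
      simpa using he

/-- An element `(a, 0)` of order `q - 1`. -/
theorem exists_a0 : ∃ a, a < q ∧ OrderIs (mkE q η a 0) (q - 1) := by
  obtain ⟨a, _, h2, h3⟩ := exists_alpha (q := q)
  refine ⟨a, h2, ?_⟩
  have e : mkE q η a 0 = algebraMap (ZMod q) (Rq q η) (a : ZMod q) := by
    ext <;> simp
  rw [e]
  exact OrderIs.toR h3

/-- The element of order `N`. -/
theorem order_omega {N w a b : ℕ} (hqw : q = 2 * w + 1) (hN : 2 * N + 1 = q * q) (hw : 1 ≤ w) {β : Rq q η} (h1 : OrderIs (mkE q η a b) (q - 1))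
    (h2 : OrderIs β (q + 1)) : OrderIs (mkE q η a b * β) N := by
  have hq2 : q ≠ 2 := by omega
  have h2' : (2 : Rq q η) ≠ 0 := by
    intro h0
    have h3 : ((2 : ℕ) : Rq q η) = 0 := by exact_mod_cast h0
    rw [CharP.cast_eq_zero_iff (Rq q η) q 2] at h3
    have := Nat.le_of_dvd (by norm_num) h3
    omega
  have e1 : q - 1 = 2 * w := by omega
  have e2 : q + 1 = 2 * (w + 1) := by omega
  have e3 : N = 2 * w * (w + 1) := by
    subst hqw
    have : (2 * w + 1) * (2 * w + 1) = 2 * (2 * w * (w + 1)) + 1 := by ring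
    omega
  rw [e1] at h1
  rw [e2] at h2
  rw [e3]
  exact order_mul h2' hw h1 h2

/-- The element of order `N` as a unit. -/
theorem order_unit {N : ℕ} {z : Rq q η} (hN : 0 < N) (h : OrderIs z N) :
    ∃ ω : (Rq q η)ˣ, (ω : Rq q η) = z ∧ OrderIs ω N := by
  have hz : z ≠ 0 := by
    rintro rfl
    have := h.1
    rw [zero_pow (by omega)] at this
    exact zero_ne_one this
  refine ⟨Units.mk0 z hz, rfl, ?_, ?_⟩
  · apply Units.ext
    simpa using h.1
  · intro k h1 h2 h3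
    apply h.2 k h1 h2
    have := congrArg Units.val h3
    simpa using this

/-- The constants from the unit. -/
theorem unit_const {N : ℕ} (ω : (Rq q η)ˣ) (hN : 1 ≤ N) (h : OrderIs ω N) :
    ((ω ^ (1 : ℤ) : (Rq q η)ˣ) : Rq q η) = (ω : Rq q η) ∧
    ((ω ^ (-1 : ℤ) : (Rq q η)ˣ) : Rq q η) = (ω : Rq q η) ^ (N - 1) ∧
    ((ω ^ (q : ℤ) : (Rq q η)ˣ) : Rq q η) = (ω : Rq q η) ^ q ∧
    ((ω ^ (-(q : ℤ)) : (Rq q η)ˣ) : Rq q η) = ((ω : Rq q η) ^ (N - 1)) ^ q ∧
    ((ω ^ (1 - (q : ℤ)) : (Rq q η)ˣ) : Rq q η) = (ω : Rq q η) * ((ω : Rq q η) ^ (N - 1)) ^ q := by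
  have h1 : ω ^ (-1 : ℤ) = ω ^ (N - 1) := by
    rw [zpow_neg, zpow_one]
    apply inv_eq_of_mul_eq_one_left
    rw [← pow_succ, Nat.sub_add_cancel hN]
    exact h.1
  have h2 : ω ^ (-(q : ℤ)) = (ω ^ (N - 1)) ^ q := by
    rw [← h1, ← zpow_natCast, ← zpow_mul]
    congr 1
    ring
  refine ⟨by simp, ?_, ?_, ?_, ?_⟩
  · rw [h1]
    simp
  · rw [zpow_natCast]
    simp
  · rw [h2]
    simp
  · have e : ω ^ (1 - (q : ℤ)) = ω * (ω ^ (N - 1)) ^ q := by
      rw [sub_eq_add_neg, zpow_add, zpow_one, h2]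
    rw [e]
    simp

end math

section
variable {X G : Type} {q : ℕ} [hq : Fact q.Prime] {η : ZMod q} [DecidableEq X]

/-- A power stored in a pair of registers. -/
def powS (sm : Prog (FT ⊕ X) (Sym G)) (Xa Xb R Ca Cb : FT) : Prog (FT ⊕ X) (Sym G) :=
  .seq (powL sm Xa Xb R) (.seq (cpy .RS .ZA Ca) (cpy .RS .ZB Cb))

/-- The cost of a stored power. -/
def PSC (K SC n : ℕ) : ℕ := POC K SC n + ((12 * K + 12) + (12 * K + 12))

/-- Registers which may hold a result. -/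
def okC (A : FT) : Bool := wr A && !(decide (A ∈ mT)) && !(decide (A ∈ [FT.Eta, .One, .Zer]))

theorem SN.upd {K L W N : ℕ} {c c' : TC X G} {l : List FT} (h : SN K L W q N η c) (a : FE K L W q η c') (f : Fr l [] c c')
    (hl : ∀ a ∈ l, okC a = true ∨ a ∈ mT) : SN K L W q N η c' := by
  refine h.of_fe a f ?_ (by simp)
  intro b hb
  rcases hl b hb with h1 | h1
  · simp only [okC, Bool.and_eq_true, Bool.not_eq_true', decide_eq_false_iff_not] at h1
    simp only [List.mem_cons, List.not_mem_nil, or_false, not_or] at h1 ⊢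
    refine ⟨h1.2.2.1, h1.2.2.2, ?_, ?_, ?_, ?_⟩ <;> (rintro rfl; exact absurd h1.1.1 (by decide))
  · simp only [List.mem_cons, List.not_mem_nil, or_false] at h1
    rcases h1 with rfl | rfl | rfl | rfl | rfl | rfl | rfl | rfl | rfl | rfl | rfl | rfl | rfl | rfl | rfl <;> decide

theorem powS_spec {K L W N SC : ℕ} {sm : Prog (FT ⊕ X) (Sym G)} (ap : AP sm K L SC q) (Xa Xb R Ca Cb : FT) (hXa : okX Xa = true) (hXb : okX Xb = true)
    (hR : na R = true) (hCa : okC Ca = true) (hCb : okC Cb = true) (hne : Ca ≠ Cb) {n : ℕ} {c : TC X G} (h : SN K L W q N η c)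
    (hr : Ruler c (o R) n) (hL : LtE K q c Xa Xb) :
    ∃ c', Run (powS sm Xa Xb R Ca Cb) c c' (PSC K SC n) ∧ SN K L W q N η c' ∧ LtE K q c' Ca Cb ∧
      elt K q η c' Ca Cb = (elt K q η c Xa Xb) ^ n ∧ Fr (Ca :: Cb :: mT) [] c c' := by
  have hCa' := hCa
  have hCb' := hCb
  simp only [okC, Bool.and_eq_true, Bool.not_eq_true', decide_eq_false_iff_not] at hCa' hCb'
  obtain ⟨c1, r1, a1, l1, e1, f1⟩ := powL_spec ap Xa Xb R hXa hXb hR h.toFE hr hL h.one h.zer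
  have na1 : Ca ≠ .ZA ∧ Ca ≠ .ZB ∧ Cb ≠ .ZA ∧ Cb ≠ .ZB := by
    refine ⟨?_, ?_, ?_, ?_⟩
    · rintro rfl; exact hCa'.1.2 (by decide)
    · rintro rfl; exact hCa'.1.2 (by decide)
    · rintro rfl; exact hCb'.1.2 (by decide)
    · rintro rfl; exact hCb'.1.2 (by decide)
  have nEa : Ca ≠ .Eta := by
    rintro rfl; exact absurd hCa (by decide)
  have nEb : Cb ≠ .Eta := by
    rintro rfl; exact absurd hCb (by decide)
  obtain ⟨c2, r2, a2, v2, _, f2⟩ := mov_spec .ZA Ca hCa'.1.1 rfl (Ne.symm na1.1) a1.toAlu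
  obtain ⟨c3, r3, a3, v3, _, f3⟩ := mov_spec .ZB Cb hCb'.1.1 rfl (Ne.symm na1.2.2.2) a2
  have f23 : Fr [Ca, Cb] [] c1 c3 := f2.nil_tr f3 (by simp)
  have f13 : Fr (Ca :: Cb :: mT) [] c c3 := f1.nil_tr f23 (by simp)
  have fe3 : FE K L W q η c3 := a1.of_alu a3 f23 (by simpa using ⟨Ne.symm nEa, Ne.symm nEb⟩)
  have eA : vr K c3 Ca = vr K c1 .ZA := by
    rw [vr_of_fr f3 (by simpa using hne), v2]
  have eB : vr K c3 Cb = vr K c1 .ZB := by
    rw [v3, vr_of_fr f2 (by simpa using Ne.symm na1.2.1)]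
  refine ⟨c3, r1.seq (r2.seq r3), h.upd fe3 f13 ?_, ⟨?_, ?_⟩, ?_, f13⟩
  · intro a ha
    simp only [List.mem_cons] at ha
    rcases ha with rfl | rfl | ha
    · exact Or.inl hCa
    · exact Or.inl hCb
    · exact Or.inr (by simpa using ha)
  · rw [eA]; exact l1.1
  · rw [eB]; exact l1.2
  · rw [← e1]
    simp only [elt]
    rw [eA, eB]

theorem mulS_spec {K L W N SC : ℕ} {sm : Prog (FT ⊕ X) (Sym G)} (ap : AP sm K L SC q) (Aa Ab Ba Bb Ca Cb : FT)
    (hA : isReg Aa = true ∧ isReg Ab = true ∧ isReg Ba = true ∧ isReg Bb = true ∧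
      Aa ∉ [FT.FA, .FB, .GA, .GB] ∧ Ab ∉ [FT.FA, .FB, .GA, .GB] ∧ Ba ∉ [FT.FA, .FB, .GA, .GB] ∧ Bb ∉ [FT.FA, .FB, .GA, .GB])
    (hCa : okC Ca = true) (hCb : okC Cb = true) (hne : Ca ≠ Cb) {c : TC X G} (h : SN K L W q N η c)
    (h1 : LtE K q c Aa Ab) (h2 : LtE K q c Ba Bb) :
    ∃ c', Run (mulP sm Aa Ab Ba Bb Ca Cb) c c' (MP K SC) ∧ SN K L W q N η c' ∧ LtE K q c' Ca Cb ∧
      elt K q η c' Ca Cb = elt K q η c Aa Ab * elt K q η c Ba Bb ∧ Fr (Ca :: Cb :: mT) [] c c' := by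
  have hCa' := hCa
  have hCb' := hCb
  simp only [okC, Bool.and_eq_true, Bool.not_eq_true', decide_eq_false_iff_not] at hCa' hCb'
  have nEa : Ca ≠ .Eta := by
    rintro rfl; exact absurd hCa (by decide)
  have nEb : Cb ≠ .Eta := by
    rintro rfl; exact absurd hCb (by decide)
  obtain ⟨c', r, fe, l, e, f⟩ := mulP_spec ap Aa Ab Ba Bb Ca Cb hA ⟨hCa'.1.1, hCb'.1.1, hCa'.1.2, hCb'.1.2, hne, nEa, nEb⟩ h.toFE h1 h2
  refine ⟨c', r, h.upd fe f ?_, l, e, f⟩
  intro a ha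
  simp only [List.mem_cons] at ha
  rcases ha with rfl | rfl | ha
  · exact Or.inl hCa
  · exact Or.inl hCb
  · exact Or.inr (by simpa using ha)

/-- The constants. -/
def kon (sm : Prog (FT ⊕ X) (Sym G)) : Prog (FT ⊕ X) (Sym G) :=
  .seq (powS sm .BB .One .RqM .VA .VB) (.seq (mulP sm .AA .Zer .VA .VB .WA .WB) (.seq (powS sm .WA .WB .RNM .IA .IB)
    (.seq (powS sm .WA .WB .Rq2 .QA .QB) (.seq (powS sm .IA .IB .Rq2 .MA .MB) (.seq (mulP sm .WA .WB .MA .MB .DA .DB)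
    (.seq (cpy .RS .Qr .MTw) (.seq (subZ .MTw .One) (subZ .MTw .One))))))))

/-- The cost of the constants. -/
def KOC (K SC q N : ℕ) : ℕ := PSC K SC (q - 1) + (MP K SC + (PSC K SC (N - 1) + (PSC K SC q + (PSC K SC q + (MP K SC +
  ((12 * K + 12) + ((8 * K + 9) + (8 * K + 9))))))))

/-- The registers changed by the constants. -/
abbrev kL : List FT := .VA :: .VB :: .WA :: .WB :: .IA :: .IB :: .QA :: .QB :: .MA :: .MB :: .DA :: .DB :: .MTw :: mT

theorem kon_spec [hη : Fact (∀ r : ZMod q, r ^ 2 ≠ η + 0 * r)] {K L W N SC w : ℕ} {sm : Prog (FT ⊕ X) (Sym G)} (ap : AP sm K L SC q)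
    (hqw : q = 2 * w + 1) (hN : 2 * N + 1 = q * q) (hw : 1 ≤ w) {c : TC X G} (h : SN K L W q N η c)
    (hA : vr K c .AA < q) (hB : vr K c .BB < q) (hα : OrderIs (mkE q η (vr K c .AA) 0) (q - 1))
    (hβ : OrderIs ((mkE q η (vr K c .BB) 1) ^ (q - 1)) (q + 1)) :
    ∃ (c' : TC X G) (ω : (Rq q η)ˣ), Run (kon sm) c c' (KOC K SC q N) ∧ SN K L W q N η c' ∧ DK K q η ω c' ∧ OrderIs ω N ∧ Fr kL [] c c' := by
  have hq2 : 2 ≤ q := hq.out.two_le
  have hq0 : 0 < q := by omega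
  have hN1 : 1 ≤ N := by
    have : 3 * 3 ≤ q * q := Nat.mul_le_mul (by omega) (by omega)
    omega
  have hone : (1 : ℕ) < q := by omega
  have l0 : LtE K q c .BB .One := ⟨hB, by rw [h.one]; exact hone⟩
  obtain ⟨c1, r1, s1, l1, e1, f1⟩ := powS_spec ap .BB .One .RqM .VA .VB (by decide) (by decide) (by decide) (by decide) (by decide) (by decide) h h.r3 l0
  have l1' : LtE K q c1 .AA .Zer := ⟨by rw [vr_of_fr f1 (by decide)]; exact hA, by rw [s1.zer]; exact hq0⟩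
  obtain ⟨c2, r2, s2, l2, e2, f2⟩ := mulS_spec ap .AA .Zer .VA .VB .WA .WB (by decide) (by decide) (by decide) (by decide) s1 l1' l1
  have hz : OrderIs (elt K q η c2 .WA .WB) N := by
    rw [e2, e1]
    simp only [elt]
    rw [vr_of_fr f1 (by decide), s1.zer, h.one]
    exact order_omega hqw hN hw hα hβ
  obtain ⟨ω, eω, oω⟩ := order_unit (by omega) hz
  obtain ⟨c3, r3, s3, l3, e3, f3⟩ := powS_spec ap .WA .WB .RNM .IA .IB (by decide) (by decide) (by decide) (by decide) (by decide) (by decide) s2 s2.r5 l2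
  obtain ⟨c4, r4, s4, l4, e4, f4⟩ := powS_spec ap .WA .WB .Rq2 .QA .QB (by decide) (by decide) (by decide) (by decide) (by decide) (by decide) s3 s3.r2 (l2.of_fr f3 (by decide) (by decide))
  obtain ⟨c5, r5, s5, l5, e5, f5⟩ := powS_spec ap .IA .IB .Rq2 .MA .MB (by decide) (by decide) (by decide) (by decide) (by decide) (by decide) s4 s4.r2 (l3.of_fr f4 (by decide) (by decide))
  obtain ⟨c6, r6, s6, l6, e6, f6⟩ := mulS_spec ap .WA .WB .MA .MB .DA .DB (by decide) (by decide) (by decide) (by decide) s5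
    (l2.of_fr (f3.nil_tr (f4.nil_tr f5 (l2 := [.QA, .QB, .MA, .MB] ++ mT) (by simp)) (l2 := [.IA, .IB, .QA, .QB, .MA, .MB] ++ mT) (by simp)) (by decide) (by decide)) l5
  obtain ⟨c7, r7, a7, v7, _, f7⟩ := mov_spec .Qr .MTw rfl rfl (by decide) s6.toAlu
  obtain ⟨c8, r8, a8, v8, f8⟩ := subZ_spec .MTw .One rfl rfl (by decide) (by decide) a7
  obtain ⟨c9, r9, a9, v9, f9⟩ := subZ_spec .MTw .One rfl rfl (by decide) (by decide) a8
  have f79 : Fr [.MTw, .Cy] [] c6 c9 := f7.nil_tr (f8.nil_tr f9 (l2 := [.MTw, .Cy]) (by simp)) (by simp)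
  have fe9 : FE K L W q η c9 := s6.toFE.of_alu a9 f79 (by decide)
  have s9 : SN K L W q N η c9 := s6.upd fe9 f79 (by decide)
  have hOne : vr K c6 .One = 1 := s6.one
  have eQ : vr K c7 .One = 1 := by rw [vr_of_fr f7 (by decide)]; exact hOne
  have eQ8 : vr K c8 .One = 1 := by rw [vr_of_fr f8 (by decide)]; exact eQ
  have hm7 : vr K c7 .MTw = q := by rw [v7]; exact s6.qr
  have hm8 : vr K c8 .MTw = q - 1 := by rw [v8 (by rw [eQ, hm7]; omega), hm7, eQ]
  have hm9 : vr K c9 .MTw = q - 2 := by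
    rw [v9 (by rw [eQ8, hm8]; omega), hm8, eQ8]
    omega
  have f39 : Fr ([.IA, .IB, .QA, .QB, .MA, .MB, .DA, .DB, .MTw] ++ mT) [] c2 c9 :=
    f3.nil_tr (f4.nil_tr (f5.nil_tr (f6.nil_tr f79 (l2 := [.DA, .DB, .MTw] ++ mT) (by simp)) (l2 := [.MA, .MB, .DA, .DB, .MTw] ++ mT) (by simp)) (l2 := [.QA, .QB, .MA, .MB, .DA, .DB, .MTw] ++ mT) (by simp)) (by simp)
  have f49 : Fr ([.QA, .QB, .MA, .MB, .DA, .DB, .MTw] ++ mT) [] c3 c9 :=
    f4.nil_tr (f5.nil_tr (f6.nil_tr f79 (l2 := [.DA, .DB, .MTw] ++ mT) (by simp)) (l2 := [.MA, .MB, .DA, .DB, .MTw] ++ mT) (by simp)) (by simp)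
  have f59 : Fr ([.MA, .MB, .DA, .DB, .MTw] ++ mT) [] c4 c9 :=
    f5.nil_tr (f6.nil_tr f79 (l2 := [.DA, .DB, .MTw] ++ mT) (by simp)) (by simp)
  have f69 : Fr ([.DA, .DB, .MTw] ++ mT) [] c5 c9 :=
    f6.nil_tr f79 (by simp)
  have eW : elt K q η c9 .WA .WB = (ω : Rq q η) := by
    rw [elt_of_fr f39 (by decide) (by decide), eω]
  have eI : elt K q η c9 .IA .IB = (ω : Rq q η) ^ (N - 1) := by
    rw [elt_of_fr f49 (by decide) (by decide), e3, eω]
  have eQQ : elt K q η c9 .QA .QB = (ω : Rq q η) ^ q := by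
    rw [elt_of_fr f59 (by decide) (by decide), e4, elt_of_fr f3 (by decide) (by decide), eω]
  have eM : elt K q η c9 .MA .MB = ((ω : Rq q η) ^ (N - 1)) ^ q := by
    rw [elt_of_fr f69 (by decide) (by decide), e5, elt_of_fr f4 (by decide) (by decide), e3, eω]
  have eD : elt K q η c9 .DA .DB = (ω : Rq q η) * ((ω : Rq q η) ^ (N - 1)) ^ q := by
    rw [elt_of_fr f79 (by decide) (by decide), e6, elt_of_fr f5 (by decide) (by decide), elt_of_fr f4 (by decide) (by decide),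
      elt_of_fr f3 (by decide) (by decide), e5, elt_of_fr f4 (by decide) (by decide), e3, eω]
  obtain ⟨u1, u2, u3, u4, u5⟩ := unit_const ω hN1 oω
  refine ⟨c9, ω, ?_, s9, ?_, oω, ?_⟩
  · exact r1.seq (r2.seq (r3.seq (r4.seq (r5.seq (r6.seq (r7.seq (r8.seq r9)))))))
  · refine ⟨s9.one, s9.zer, hm9, l2.of_fr f39 (by decide) (by decide), l3.of_fr f49 (by decide) (by decide),
      l4.of_fr f59 (by decide) (by decide), l5.of_fr f69 (by decide) (by decide), l6.of_fr f79 (by decide) (by decide), ?_, ?_, ?_, ?_, ?_⟩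
    · rw [u1]; exact eW
    · rw [u2]; exact eI
    · rw [u3]; exact eQQ
    · rw [u4]; exact eM
    · rw [u5]; exact eD
  · have f19 : Fr ([.WA, .WB, .IA, .IB, .QA, .QB, .MA, .MB, .DA, .DB, .MTw] ++ mT) [] c1 c9 :=
      f2.nil_tr f39 (by simp)
    exact f1.nil_tr f19 (by simp)

end

end Vale.Agent.Lib.P338.F
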