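import Vale.Agent.Lib.P338.F.Field

/-!
Products of numbers cut into slots: three slots per element of the extension.
-/

namespace Vale.Agent.Lib.P338.F

open Vale.Agent.Lib.P338 Finset

section
variable {G : Type}

/-- The value of a slot of width `W`. -/
abbrev sv (W : ℕ) (τ : ℤ → Sym G) (j : ℕ) : ℕ := vl τ ((j * W : ℕ) : ℤ) W

theorem triple_blocks (τ : ℤ → Sym G) (W M : ℕ) :
    vl τ 0 (3 * M * W) = ∑ l ∈ range M, (sv W τ (3 * l) + sv W τ (3 * l + 1) * 2 ^ W + sv W τ (3 * l + 2) * (2 ^ W) ^ 2) * (2 ^ W) ^ (3 * l) := by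
  induction M with
  | zero => simp [vl]
  | succ M ih =>
    rw [sum_range_succ, ← ih]
    have e : 3 * (M + 1) * W = 3 * M * W + (W + (W + W)) := by ring
    rw [e, vl_add, vl_add, vl_add]
    have e1 : (0 : ℤ) + ((3 * M * W : ℕ) : ℤ) = ((3 * M * W : ℕ) : ℤ) := by ring
    have e2 : ((3 * M * W : ℕ) : ℤ) + (W : ℤ) = (((3 * M + 1) * W : ℕ) : ℤ) := by push_cast; ring
    have e3 : (((3 * M + 1) * W : ℕ) : ℤ) + (W : ℤ) = (((3 * M + 2) * W : ℕ) : ℤ) := by push_cast; ring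
    rw [e1, e2, e3]
    simp only [sv]
    have e4 : (2 ^ W) ^ (3 * M) = 2 ^ (3 * M * W) := by
      rw [← pow_mul, mul_comm W]
    rw [e4]
    ring

theorem three_sum_lt {z a b c : ℕ} (h0 : a < z) (h1 : b < z) (h2 : c < z) : a + b * z + c * z ^ 2 < z ^ 3 := by
  have e2 : (b + 1) * z ≤ z * z := Nat.mul_le_mul_right _ h1
  have e3 : (c + 1) * (z * z) ≤ z * (z * z) := Nat.mul_le_mul_right _ h2
  nlinarith

theorem sum_triple_lt (u0 u1 u2 : ℕ → ℕ) (z J : ℕ) (a0 : ∀ l, l < J → u0 l < z) (a1 : ∀ l, l < J → u1 l < z)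
    (a2 : ∀ l, l < J → u2 l < z) :
    ∑ l ∈ range J, (u0 l + u1 l * z + u2 l * z ^ 2) * z ^ (3 * l) < z ^ (3 * J) := by
  induction J with
  | zero => simp
  | succ J ih =>
    rw [sum_range_succ]
    have i1 := ih (fun l hl => a0 l (by omega)) (fun l hl => a1 l (by omega)) (fun l hl => a2 l (by omega))
    have b3 := three_sum_lt (a0 J (by omega)) (a1 J (by omega)) (a2 J (by omega))
    have e : (z ^ 3) * z ^ (3 * J) = z ^ (3 * (J + 1)) := by ring
    rw [← e]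
    calc _ < z ^ (3 * J) + (u0 J + u1 J * z + u2 J * z ^ 2) * z ^ (3 * J) := by omega
      _ = (u0 J + u1 J * z + u2 J * z ^ 2 + 1) * z ^ (3 * J) := by ring
      _ ≤ _ := Nat.mul_le_mul_right _ b3

theorem three_unique {z a b c a' b' c' : ℕ} (h0 : a < z) (h1 : b < z) (h0' : a' < z) (h1' : b' < z)
    (h : a + b * z + c * z ^ 2 = a' + b' * z + c' * z ^ 2) : a = a' ∧ b = b' ∧ c = c' := by
  have e : a + z * (b + z * c) = a' + z * (b' + z * c') := by
    have e1 : a + z * (b + z * c) = a + b * z + c * z ^ 2 := by ring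
    have e2 : a' + z * (b' + z * c') = a' + b' * z + c' * z ^ 2 := by ring
    rw [e1, e2, h]
  obtain ⟨r1, r2⟩ := digit_unique h0 h0' e
  obtain ⟨r3, r4⟩ := digit_unique h1 h1' r2
  exact ⟨r1, r3, r4⟩

theorem triple_unique (τ : ℤ → Sym G) (W M : ℕ) (v0 v1 v2 : ℕ → ℕ)
    (h0 : ∀ l, l < M → v0 l < 2 ^ W) (h1 : ∀ l, l < M → v1 l < 2 ^ W) (h2 : ∀ l, l < M → v2 l < 2 ^ W)
    (h : vl τ 0 (3 * M * W) = ∑ l ∈ range M, (v0 l + v1 l * 2 ^ W + v2 l * (2 ^ W) ^ 2) * (2 ^ W) ^ (3 * l)) :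
    ∀ l, l < M → sv W τ (3 * l) = v0 l ∧ sv W τ (3 * l + 1) = v1 l ∧ sv W τ (3 * l + 2) = v2 l := by
  induction M with
  | zero => intro l hl; omega
  | succ M ih =>
    rw [triple_blocks τ W (M + 1), sum_range_succ, sum_range_succ] at h
    have hs1 : ∑ l ∈ range M, (sv W τ (3 * l) + sv W τ (3 * l + 1) * 2 ^ W + sv W τ (3 * l + 2) * (2 ^ W) ^ 2) * (2 ^ W) ^ (3 * l) < (2 ^ W) ^ (3 * M) :=
      sum_triple_lt (fun l => sv W τ (3 * l)) (fun l => sv W τ (3 * l + 1)) (fun l => sv W τ (3 * l + 2))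
      (2 ^ W) M (fun l _ => vl_lt _ _ _) (fun l _ => vl_lt _ _ _) (fun l _ => vl_lt _ _ _)
    have hs2 : ∑ l ∈ range M, (v0 l + v1 l * 2 ^ W + v2 l * (2 ^ W) ^ 2) * (2 ^ W) ^ (3 * l) < (2 ^ W) ^ (3 * M) :=
      sum_triple_lt v0 v1 v2 (2 ^ W) M (fun l hl => h0 l (by omega)) (fun l hl => h1 l (by omega)) (fun l hl => h2 l (by omega))
    have hu := digit_unique (y := sv W τ (3 * M) + sv W τ (3 * M + 1) * 2 ^ W + sv W τ (3 * M + 2) * (2 ^ W) ^ 2)
      (y' := v0 M + v1 M * 2 ^ W + v2 M * (2 ^ W) ^ 2) hs1 hs2 (by linarith [h])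
    obtain ⟨a1, a2, a3⟩ := three_unique (vl_lt _ _ _) (vl_lt _ _ _) (h0 M (by omega)) (h1 M (by omega)) hu.2
    have hM := ih (fun l hl => h0 l (by omega)) (fun l hl => h1 l (by omega)) (fun l hl => h2 l (by omega))
      (by rw [triple_blocks τ W M]; exact hu.1)
    intro l hl
    by_cases hlM : l < M
    · exact hM l hlM
    · have : l = M := by omega
      subst this
      exact ⟨a1, a2, a3⟩

/-- Reindexing a double sum. -/
theorem double_shift {M D : ℕ} (F : ℕ → ℕ → ℕ) (w : ℕ) :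
    ∑ l ∈ range M, ∑ d ∈ range D, F l d * w ^ (l + d) =
      ∑ t ∈ range (M + D), (∑ l ∈ range M, if l ≤ t ∧ t - l < D then F l (t - l) else 0) * w ^ t := by
  simp only [sum_mul]
  rw [sum_comm (s := range (M + D)) (t := range M)]
  apply sum_congr rfl
  intro l hl
  have hl' := mem_range.1 hl
  have e : ∀ t ∈ range (M + D), (if l ≤ t ∧ t - l < D then F l (t - l) else 0) * w ^ t =
      if l ≤ t ∧ t - l < D then F l (t - l) * w ^ t else 0 := by
    intro t _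
    split_ifs <;> simp
  rw [sum_congr rfl e, ← sum_filter]
  apply sum_nbij' (fun d => l + d) (fun t => t - l)
  · intro d hd
    simp only [mem_range] at hd
    simp only [mem_filter, mem_range]
    omega
  · intro t ht
    simp only [mem_filter, mem_range] at ht
    simp only [mem_range]
    omega
  · intro d _
    simp
  · intro t ht
    simp only [mem_filter, mem_range] at ht
    omega
  · intro d _
    simp

/-- The three coefficients of a product of windows. -/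
def cw (a b : ℕ → ℕ) (M D t : ℕ) : ℕ := ∑ l ∈ range M, if l ≤ t ∧ t - l < D then a l * b (t - l) else 0

theorem cw_lt {a b : ℕ → ℕ} {M D t A B P : ℕ} (ha : ∀ l, l < M → a l ≤ A) (hb : ∀ d, d < D → b d ≤ B) (hP : M * (A * B) < P) :
    cw a b M D t < P := by
  refine lt_of_le_of_lt ?_ hP
  unfold cw
  have : ∑ l ∈ range M, (if l ≤ t ∧ t - l < D then a l * b (t - l) else 0) ≤ ∑ _l ∈ range M, A * B := by
    apply sum_le_sum
    intro l hl
    split_ifs with h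
    · exact Nat.mul_le_mul (ha l (mem_range.1 hl)) (hb _ h.2)
    · exact Nat.zero_le _
  simpa using this

theorem product_expand (a b u w : ℕ → ℕ) (z M D : ℕ) :
    (∑ l ∈ range M, (a l + b l * z + 0 * z ^ 2) * (z ^ 3) ^ l) * (∑ d ∈ range D, (u d + w d * z + 0 * z ^ 2) * (z ^ 3) ^ d) =
      ∑ t ∈ range (M + D), (cw a u M D t + (cw a w M D t + cw b u M D t) * z + cw b w M D t * z ^ 2) * (z ^ 3) ^ t := by
  rw [sum_mul_sum]
  have e : ∀ l ∈ range M, ∀ d ∈ range D, (a l + b l * z + 0 * z ^ 2) * (z ^ 3) ^ l * ((u d + w d * z + 0 * z ^ 2) * (z ^ 3) ^ d) =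
      ((a l * u d) + (a l * w d + b l * u d) * z + (b l * w d) * z ^ 2) * (z ^ 3) ^ (l + d) := by
    intro l _ d _
    rw [pow_add]
    ring
  rw [sum_congr rfl (fun l hl => sum_congr rfl (e l hl))]
  rw [double_shift (fun l d => (a l * u d) + (a l * w d + b l * u d) * z + (b l * w d) * z ^ 2) (z ^ 3)]
  apply sum_congr rfl
  intro t _
  congr 1
  unfold cw
  have e2 : ∀ l ∈ range M, (if l ≤ t ∧ t - l < D then (a l * u (t - l)) + (a l * w (t - l) + b l * u (t - l)) * z + (b l * w (t - l)) * z ^ 2 else 0) =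
      (if l ≤ t ∧ t - l < D then a l * u (t - l) else 0) + ((if l ≤ t ∧ t - l < D then a l * w (t - l) else 0) +
        (if l ≤ t ∧ t - l < D then b l * u (t - l) else 0)) * z + (if l ≤ t ∧ t - l < D then b l * w (t - l) else 0) * z ^ 2 := by
    intro l _
    split_ifs <;> ring
  rw [sum_congr rfl e2, sum_add_distrib, sum_add_distrib, ← sum_mul, ← sum_mul, sum_add_distrib]

/-- A window of a tape with nothing beyond a bound. -/
theorem vl_pad {τ : ℤ → Sym G} {u n : ℕ} (hu : u ≤ n) (h : ∀ x : ℤ, (u : ℤ) ≤ x → x < n → (τ x).isOne = false) :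
    vl τ 0 n = vl τ 0 u := by
  obtain ⟨d, rfl⟩ := Nat.exists_eq_add_of_le hu
  rw [vl_add]
  have : vl τ ((0 : ℤ) + (u : ℤ)) d = 0 := by
    apply vl_eq_zero
    intro i hi
    apply h <;> push_cast <;> omega
  rw [this]
  simp

/-- The slots of the product of two windows of elements with empty third slots. -/
theorem slots_product {τ1 τ2 τ3 : ℤ → Sym G} {W N n A : ℕ} (hN : 6 * N * W ≤ n)
    (hmul : vl τ3 0 (2 * n) = vl τ1 0 n * vl τ2 0 n)
    (h1 : ∀ x : ℤ, ((3 * N * W : ℕ) : ℤ) ≤ x → (τ1 x).isOne = false)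
    (h2 : ∀ x : ℤ, ((3 * (2 * N) * W : ℕ) : ℤ) ≤ x → (τ2 x).isOne = false)
    (h3 : ∀ l, l < N → sv W τ1 (3 * l + 2) = 0) (h4 : ∀ d, d < 2 * N → sv W τ2 (3 * d + 2) = 0)
    (b1 : ∀ l, l < N → sv W τ1 (3 * l) ≤ A) (b2 : ∀ l, l < N → sv W τ1 (3 * l + 1) ≤ A)
    (b3 : ∀ d, d < 2 * N → sv W τ2 (3 * d) ≤ A) (b4 : ∀ d, d < 2 * N → sv W τ2 (3 * d + 1) ≤ A)
    (hb : 2 * (N * (A * A)) < 2 ^ W) :
    ∀ t, t < 3 * N →
      sv W τ3 (3 * t) = cw (fun l => sv W τ1 (3 * l)) (fun d => sv W τ2 (3 * d)) N (2 * N) t ∧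
      sv W τ3 (3 * t + 1) = cw (fun l => sv W τ1 (3 * l)) (fun d => sv W τ2 (3 * d + 1)) N (2 * N) t +
        cw (fun l => sv W τ1 (3 * l + 1)) (fun d => sv W τ2 (3 * d)) N (2 * N) t ∧
      sv W τ3 (3 * t + 2) = cw (fun l => sv W τ1 (3 * l + 1)) (fun d => sv W τ2 (3 * d + 1)) N (2 * N) t := by
  set a : ℕ → ℕ := fun l => sv W τ1 (3 * l) with ha
  set b : ℕ → ℕ := fun l => sv W τ1 (3 * l + 1) with hb'
  set u : ℕ → ℕ := fun d => sv W τ2 (3 * d) with hu
  set w : ℕ → ℕ := fun d => sv W τ2 (3 * d + 1) with hw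
  have p1 : vl τ1 0 n = vl τ1 0 (3 * N * W) := vl_pad (by nlinarith [Nat.zero_le (N * W)]) (fun x hx _ => h1 x hx)
  have p2 : vl τ2 0 n = vl τ2 0 (3 * (2 * N) * W) := vl_pad (by nlinarith [Nat.zero_le (N * W)]) (fun x hx _ => h2 x hx)
  have e1 : vl τ1 0 n = ∑ l ∈ range N, (a l + b l * 2 ^ W + 0 * (2 ^ W) ^ 2) * ((2 ^ W) ^ 3) ^ l := by
    rw [p1, triple_blocks]
    apply sum_congr rfl
    intro l hl
    rw [h3 l (mem_range.1 hl), pow_mul]
  have e2 : vl τ2 0 n = ∑ d ∈ range (2 * N), (u d + w d * 2 ^ W + 0 * (2 ^ W) ^ 2) * ((2 ^ W) ^ 3) ^ d := by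
    rw [p2, triple_blocks]
    apply sum_congr rfl
    intro l hl
    rw [h4 l (mem_range.1 hl), pow_mul]
  have hp := product_expand a b u w (2 ^ W) N (2 * N)
  rw [← e1, ← e2, ← hmul] at hp
  have e3 : N + 2 * N = 3 * N := by ring
  rw [e3] at hp
  have hA : N * (A * A) < 2 ^ W := by omega
  have hlow : vl τ3 0 (3 * (3 * N) * W) = vl τ3 0 (2 * n) := by
    apply vl_low (by nlinarith [Nat.zero_le (N * W)])
    rw [hmul, p1, p2]
    have e4 : 3 * (3 * N) * W = 3 * N * W + 3 * (2 * N) * W := by ring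
    rw [e4, pow_add]
    exact Nat.mul_lt_mul'' (vl_lt _ _ _) (vl_lt _ _ _)
  have key := triple_unique τ3 W (3 * N)
    (fun t => cw a u N (2 * N) t) (fun t => cw a w N (2 * N) t + cw b u N (2 * N) t) (fun t => cw b w N (2 * N) t)
    (fun t _ => cw_lt (fun l hl => b1 l hl) (fun d hd => b3 d hd) hA)
    (fun t _ => by
      have i1 : cw a w N (2 * N) t < N * (A * A) + 1 := cw_lt (fun l hl => b1 l hl) (fun d hd => b4 d hd) (by omega)
      have i2 : cw b u N (2 * N) t < N * (A * A) + 1 := cw_lt (fun l hl => b2 l hl) (fun d hd => b3 d hd) (by omega)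
      omega)
    (fun t _ => cw_lt (fun l hl => b2 l hl) (fun d hd => b4 d hd) hA)
    (by
      rw [hlow, hp]
      apply sum_congr rfl
      intro l _
      rw [pow_mul])
  exact key

theorem cw_window (a b : ℕ → ℕ) {N k : ℕ} (hk : k < N) :
    cw a b N (2 * N) (N + k) = ∑ l ∈ range N, a l * b (N + k - l) := by
  unfold cw
  apply sum_congr rfl
  intro l hl
  have := mem_range.1 hl
  rw [if_pos (by omega)]

theorem re_sumE {q : ℕ} {η : ZMod q} (s : Finset ℕ) (f : ℕ → Rq q η) : (∑ i ∈ s, f i).re = ∑ i ∈ s, (f i).re := by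
  classical
  induction s using Finset.induction_on with
  | empty => simp
  | insert a s ha ih => rw [sum_insert ha, sum_insert ha, QuadraticAlgebra.re_add, ih]

theorem im_sumE {q : ℕ} {η : ZMod q} (s : Finset ℕ) (f : ℕ → Rq q η) : (∑ i ∈ s, f i).im = ∑ i ∈ s, (f i).im := by
  classical
  induction s using Finset.induction_on with
  | empty => simp
  | insert a s ha ih => rw [sum_insert ha, sum_insert ha, QuadraticAlgebra.im_add, ih]

/-- The element read from three consecutive slots. -/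
def slE (q : ℕ) (η : ZMod q) (W : ℕ) (τ : ℤ → Sym G) (L : ℕ) : Rq q η :=
  ⟨(sv W τ (3 * L) : ZMod q) + (sv W τ (3 * L + 2) : ZMod q) * η, (sv W τ (3 * L + 1) : ZMod q)⟩

/-- The element kept in the first two of three consecutive slots. -/
abbrev slK (q : ℕ) (η : ZMod q) (W : ℕ) (τ : ℤ → Sym G) (L : ℕ) : Rq q η :=
  mkE q η (sv W τ (3 * L)) (sv W τ (3 * L + 1))

/-- The window of the product. -/
theorem window_product {τ1 τ2 τ3 : ℤ → Sym G} {W N n A q : ℕ} {η : ZMod q} (hN : 6 * N * W ≤ n)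
    (hmul : vl τ3 0 (2 * n) = vl τ1 0 n * vl τ2 0 n)
    (h1 : ∀ x : ℤ, ((3 * N * W : ℕ) : ℤ) ≤ x → (τ1 x).isOne = false)
    (h2 : ∀ x : ℤ, ((3 * (2 * N) * W : ℕ) : ℤ) ≤ x → (τ2 x).isOne = false)
    (h3 : ∀ l, l < N → sv W τ1 (3 * l + 2) = 0) (h4 : ∀ d, d < 2 * N → sv W τ2 (3 * d + 2) = 0)
    (b1 : ∀ l, l < N → sv W τ1 (3 * l) ≤ A) (b2 : ∀ l, l < N → sv W τ1 (3 * l + 1) ≤ A)
    (b3 : ∀ d, d < 2 * N → sv W τ2 (3 * d) ≤ A) (b4 : ∀ d, d < 2 * N → sv W τ2 (3 * d + 1) ≤ A)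
    (hb : 2 * (N * (A * A)) < 2 ^ W) {k : ℕ} (hk : k < N) :
    slE q η W τ3 (N + k) = ∑ l ∈ range N, slK q η W τ1 l * slK q η W τ2 (N + k - l) := by
  obtain ⟨e0, e1, e2⟩ := slots_product hN hmul h1 h2 h3 h4 b1 b2 b3 b4 hb (N + k) (by omega)
  rw [cw_window _ _ hk] at e0 e2
  rw [cw_window _ _ hk, cw_window _ _ hk] at e1
  ext
  · rw [re_sumE]
    simp only [slE, slK, mkE_re, mkE_im, QuadraticAlgebra.re_mul]
    rw [e0, e2]
    push_cast
    rw [sum_mul, ← sum_add_distrib]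
    apply sum_congr rfl
    intro l _
    ring
  · rw [im_sumE]
    simp only [slE, slK, mkE_re, mkE_im, QuadraticAlgebra.im_mul]
    rw [e1]
    push_cast
    rw [← sum_add_distrib]
    apply sum_congr rfl
    intro l _
    ring

end

end Vale.Agent.Lib.P338.F
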