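import Vale.Agent.Lib.P338.F.Field

/-!
The chain of two convolutions realising the dilation by `q` on the cyclic group of order `N = (q² - 1) / 2`,
in the values computed by the machine.
-/

namespace Vale.Agent.Lib.P338.F

open Finset

section
variable {F : Type*} [Field F]

theorem tri_nat (n : ℕ) : tri (n : ℤ) = ((n * (n - 1) / 2 : ℕ) : ℤ) := by
  have h1 := two_mul_tri (n : ℤ)
  have h2 : 2 * (n * (n - 1) / 2) = n * (n - 1) := by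
    apply Nat.mul_div_cancel'
    cases n with
    | zero => simp
    | succ n =>
      simp only [Nat.add_sub_cancel]
      rw [mul_comm]
      exact (Nat.even_mul_succ_self n).two_dvd
  have h3 : (n : ℤ) * ((n : ℤ) - 1) = ((n * (n - 1) : ℕ) : ℤ) := by
    cases n with
    | zero => simp
    | succ n => simp
  rw [h3, ← h2] at h1
  push_cast at h1 ⊢
  linarith

theorem tri_neg (x : ℤ) : tri (-x) = tri x + x := by
  have h1 := two_mul_tri (-x)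
  have h2 := two_mul_tri x
  nlinarith

theorem gV_units (x : F) (u : Fˣ) (a b : ℤ) (n : ℕ) :
    gV x ((u ^ a : Fˣ) : F) ((u ^ b : Fˣ) : F) n = x * ((u ^ (a * n + b * tri (n : ℤ)) : Fˣ) : F) := by
  simp only [gV]
  rw [tri_nat, mul_assoc]
  congr 1
  rw [← Units.val_pow_eq_pow_val, ← Units.val_pow_eq_pow_val, ← Units.val_mul, ← zpow_natCast, ← zpow_natCast, ← zpow_mul, ← zpow_mul,
    ← zpow_add]

/-- The exponent of the kernel. -/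
theorem tri_shift (N k n : ℤ) : tri (k - n) = tri (N + k - n) + tri (-N) - (N + k - n) * N := by
  have := tri_add (N + k - n) (-N)
  have e : N + k - n + -N = k - n := by ring
  rw [e] at this
  rw [this]
  ring

end

section
variable {q : ℕ} [hq : Fact q.Prime] {η : ZMod q} [hη : Fact (∀ r : ZMod q, r ^ 2 ≠ η + 0 * r)]

/-- The chain, as computed by the machine: `g1`, `k1`, `g2`, `k2`, `g3` are the generators of the two stages and of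
the last phase. -/
theorem dil_math (ω : (Rq q η)ˣ) {N w : ℕ} (hqw : q = 2 * w + 1) (hN : 2 * N + 1 = q * q) (hN0 : 0 < N)
    (hω : OrderIs ω N) (f : ℕ → Rq q η) (l : ℕ) :
    (∑ k ∈ range N, ((∑ n ∈ range N, (f n * gV 1 ((ω ^ (1 : ℤ) : (Rq q η)ˣ) : Rq q η) ((ω ^ (1 : ℤ) : (Rq q η)ˣ) : Rq q η) n) *
        gV 1 ((ω ^ (0 : ℤ) : (Rq q η)ˣ) : Rq q η) ((ω ^ (-1 : ℤ) : (Rq q η)ˣ) : Rq q η) (N + k - n)) *
      gV 1 ((ω ^ (-(q : ℤ)) : (Rq q η)ˣ) : Rq q η) ((ω ^ (1 - (q : ℤ)) : (Rq q η)ˣ) : Rq q η) k) *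
        gV 1 ((ω ^ (0 : ℤ) : (Rq q η)ˣ) : Rq q η) ((ω ^ (q : ℤ) : (Rq q η)ˣ) : Rq q η) (N + l - k)) *
      gV (-2) ((ω ^ (0 : ℤ) : (Rq q η)ˣ) : Rq q η) ((ω ^ (-(q : ℤ)) : (Rq q η)ˣ) : Rq q η) l =
    f ((q * l) % N) := by
  have hchain := chain ω hN0 hω.1 hω.2 (Q := q) (w := (w : ℤ)) (by rw [hqw]; push_cast; ring) f
    (fun n => f n * gV 1 ((ω ^ (1 : ℤ) : (Rq q η)ˣ) : Rq q η) ((ω ^ (1 : ℤ) : (Rq q η)ˣ) : Rq q η) n)
    (fun k => ∑ n ∈ range N, (f n * gV 1 ((ω ^ (1 : ℤ) : (Rq q η)ˣ) : Rq q η) ((ω ^ (1 : ℤ) : (Rq q η)ˣ) : Rq q η) n) *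
        gV 1 ((ω ^ (0 : ℤ) : (Rq q η)ˣ) : Rq q η) ((ω ^ (-1 : ℤ) : (Rq q η)ˣ) : Rq q η) (N + k - n))
    (fun k => (∑ n ∈ range N, (f n * gV 1 ((ω ^ (1 : ℤ) : (Rq q η)ˣ) : Rq q η) ((ω ^ (1 : ℤ) : (Rq q η)ˣ) : Rq q η) n) *
        gV 1 ((ω ^ (0 : ℤ) : (Rq q η)ˣ) : Rq q η) ((ω ^ (-1 : ℤ) : (Rq q η)ˣ) : Rq q η) (N + k - n)) *
      gV 1 ((ω ^ (-(q : ℤ)) : (Rq q η)ˣ) : Rq q η) ((ω ^ (1 - (q : ℤ)) : (Rq q η)ˣ) : Rq q η) k)
    (fun l => ∑ k ∈ range N, ((∑ n ∈ range N, (f n * gV 1 ((ω ^ (1 : ℤ) : (Rq q η)ˣ) : Rq q η) ((ω ^ (1 : ℤ) : (Rq q η)ˣ) : Rq q η) n) *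
        gV 1 ((ω ^ (0 : ℤ) : (Rq q η)ˣ) : Rq q η) ((ω ^ (-1 : ℤ) : (Rq q η)ˣ) : Rq q η) (N + k - n)) *
      gV 1 ((ω ^ (-(q : ℤ)) : (Rq q η)ˣ) : Rq q η) ((ω ^ (1 - (q : ℤ)) : (Rq q η)ˣ) : Rq q η) k) *
        gV 1 ((ω ^ (0 : ℤ) : (Rq q η)ˣ) : Rq q η) ((ω ^ (q : ℤ) : (Rq q η)ˣ) : Rq q η) (N + l - k))
    ?_ ?_ ?_ ?_ l
  · rw [gV_units]
    have e : ((ω ^ ((0 : ℤ) * (l : ℤ) + (-(q : ℤ)) * tri (l : ℤ)) : (Rq q η)ˣ) : Rq q η) = ((ω ^ (-(q : ℤ) * tri (l : ℤ)) : (Rq q η)ˣ) : Rq q η) := by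
      congr 2
      ring
    rw [e, mul_comm (-2 : Rq q η), ← mul_assoc, hchain]
    have hc : ((q : ℕ) : Rq q η) = 0 := CharP.cast_eq_zero _ q
    have h2N : ((N : ℕ) : Rq q η) * (-2) = 1 := by
      have h3 : ((2 * N + 1 : ℕ) : Rq q η) = 0 := by
        rw [hN]
        push_cast
        rw [hc]
        ring
      push_cast at h3
      linear_combination -h3
    rw [mul_right_comm, h2N, one_mul]
  · intro n
    rw [gV_units, one_mul]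
    congr 3
    rw [tri_neg]
    push_cast
    ring
  · intro k
    apply sum_congr rfl
    intro n hn
    have hn' : n < N := mem_range.1 hn
    congr 1
    rw [gV_units, one_mul]
    have hd : ((N + k - n : ℕ) : ℤ) = (N : ℤ) + k - n := by omega
    rw [hd, tri_shift (N : ℤ) k n]
    have e : (0 : ℤ) * ((N : ℤ) + k - n) + (-1) * tri ((N : ℤ) + k - n) =
        (-(tri ((N : ℤ) + k - n) + tri (-(N : ℤ)) - ((N : ℤ) + k - n) * N) + tri (-(N : ℤ))) + (-(((N : ℤ) + k - n) * N)) := by ring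
    rw [e, zpow_add]
    have e2 : ω ^ (-(((N : ℤ) + k - n) * N)) = 1 := by
      have e3 : -(((N : ℤ) + k - n) * N) = (N : ℤ) * (-((N : ℤ) + k - n)) := by ring
      rw [e3, zpow_mul, zpow_natCast, hω.1, one_zpow]
    rw [e2, mul_one]
  · intro k
    congr 1
    rw [gV_units, one_mul]
    congr 2
    rw [tri_neg]
    ring
  · intro l'
    apply sum_congr rfl
    intro k hk
    have hk' : k < N := mem_range.1 hk
    congr 1
    rw [gV_units, one_mul]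
    have hd : ((N + l' - k : ℕ) : ℤ) = (N : ℤ) + l' - k := by omega
    rw [hd, tri_shift (N : ℤ) l' k]
    have e : (0 : ℤ) * ((N : ℤ) + l' - k) + (q : ℤ) * tri ((N : ℤ) + l' - k) =
        (q : ℤ) * (tri ((N : ℤ) + l' - k) + tri (-(N : ℤ)) - ((N : ℤ) + l' - k) * N - tri (-(N : ℤ))) + (q : ℤ) * (((N : ℤ) + l' - k) * N) := by ring
    rw [e, zpow_add]
    have e2 : ω ^ ((q : ℤ) * (((N : ℤ) + l' - k) * N)) = 1 := by
      rw [mul_comm (q : ℤ), mul_comm ((N : ℤ) + l' - k), mul_assoc, zpow_mul, zpow_natCast, hω.1, one_zpow]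
    rw [e2, mul_one]

end

end Vale.Agent.Lib.P338.F
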