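import Vale.Agent.Lib.P338.F.Output
import Vale.Agent.Lib.P338.F.DilMath

/-!
The dilation of the data blocks, as a composition of the phases and the big products.
-/

namespace Vale.Agent.Lib.P338.F

open Vale.Agent.Lib.P338 Prog

section
variable {X G : Type}

/-- The constants of the chain held by the registers. -/
structure DK (K q : ℕ) (η : ZMod q) (ω : (Rq q η)ˣ) (c : TC X G) : Prop where
  one : vr K c .One = 1
  zer : vr K c .Zer = 0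
  mtw : vr K c .MTw = q - 2
  wL : LtE K q c .WA .WB
  iL : LtE K q c .IA .IB
  qL : LtE K q c .QA .QB
  mL : LtE K q c .MA .MB
  dL : LtE K q c .DA .DB
  w : elt K q η c .WA .WB = ((ω ^ (1 : ℤ) : (Rq q η)ˣ) : Rq q η)
  i : elt K q η c .IA .IB = ((ω ^ (-1 : ℤ) : (Rq q η)ˣ) : Rq q η)
  q' : elt K q η c .QA .QB = ((ω ^ (q : ℤ) : (Rq q η)ˣ) : Rq q η)
  m : elt K q η c .MA .MB = ((ω ^ (-(q : ℤ)) : (Rq q η)ˣ) : Rq q η)
  d : elt K q η c .DA .DB = ((ω ^ (1 - (q : ℤ)) : (Rq q η)ˣ) : Rq q η)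

/-- The registers of the constants. -/
abbrev kT : List FT := [.One, .Zer, .MTw, .WA, .WB, .IA, .IB, .QA, .QB, .MA, .MB, .DA, .DB]

theorem DK.of_fr {K q : ℕ} {η : ZMod q} {ω : (Rq q η)ˣ} {c c' : TC X G} {l m : List FT} (h : DK K q η ω c) (f : Fr l m c c')
    (hl : ∀ a ∈ kT, a ∉ l) : DK K q η ω c' := by
  have hh : ∀ a ∈ kT, vr K c' a = vr K c a := fun a ha => vr_of_fr f (hl a ha)
  have e : ∀ a b, a ∈ kT → b ∈ kT → elt K q η c' a b = elt K q η c a b := fun a b ha hb => elt_of_fr f (hl a ha) (hl b hb)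
  have lt : ∀ a b, a ∈ kT → b ∈ kT → LtE K q c a b → LtE K q c' a b := fun a b ha hb hL => hL.of_fr f (hl a ha) (hl b hb)
  refine ⟨?_, ?_, ?_, lt _ _ (by simp) (by simp) h.wL, lt _ _ (by simp) (by simp) h.iL, lt _ _ (by simp) (by simp) h.qL,
    lt _ _ (by simp) (by simp) h.mL, lt _ _ (by simp) (by simp) h.dL, ?_, ?_, ?_, ?_, ?_⟩
  · rw [hh _ (by simp)]; exact h.one
  · rw [hh _ (by simp)]; exact h.zer
  · rw [hh _ (by simp)]; exact h.mtw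
  · rw [e _ _ (by simp) (by simp)]; exact h.w
  · rw [e _ _ (by simp) (by simp)]; exact h.i
  · rw [e _ _ (by simp) (by simp)]; exact h.q'
  · rw [e _ _ (by simp) (by simp)]; exact h.m
  · rw [e _ _ (by simp) (by simp)]; exact h.d

/-- The generators of the chain. -/
def g1 : GP := ⟨.One, .Zer, .WA, .WB, .WA, .WB⟩
/-- The generators of the chain. -/
def k1 : GP := ⟨.One, .Zer, .One, .Zer, .IA, .IB⟩
/-- The generators of the chain. -/
def g2 : GP := ⟨.One, .Zer, .MA, .MB, .DA, .DB⟩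
/-- The generators of the chain. -/
def k2 : GP := ⟨.One, .Zer, .One, .Zer, .QA, .QB⟩
/-- The generators of the chain. -/
def g3 : GP := ⟨.MTw, .Zer, .One, .Zer, .MA, .MB⟩

theorem mkE_one_zero (q : ℕ) (η : ZMod q) : mkE q η 1 0 = 1 := by
  ext
  · simp [mkE, QuadraticAlgebra.re_one]
  · simp [mkE, QuadraticAlgebra.im_one]

theorem mkE_mtw (q : ℕ) (η : ZMod q) (h : 2 ≤ q) : mkE q η (q - 2) 0 = -2 := by
  ext
  · simp only [mkE_re, QuadraticAlgebra.re_neg, QuadraticAlgebra.re_ofNat]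
    rw [Nat.cast_sub h]
    simp
  · simp [mkE, QuadraticAlgebra.im_ofNat]

theorem DK.g1_lt {K q : ℕ} {η : ZMod q} {ω : (Rq q η)ˣ} {c : TC X G} (h : DK K q η ω c) (hq : 2 ≤ q) : g1.Lt K q c :=
  ⟨⟨by rw [show vr K c g1.a1 = 1 from h.one]; omega, by rw [show vr K c g1.a2 = 0 from h.zer]; omega⟩, h.wL, h.wL⟩

theorem DK.k1_lt {K q : ℕ} {η : ZMod q} {ω : (Rq q η)ˣ} {c : TC X G} (h : DK K q η ω c) (hq : 2 ≤ q) : k1.Lt K q c :=
  ⟨⟨by rw [show vr K c k1.a1 = 1 from h.one]; omega, by rw [show vr K c k1.a2 = 0 from h.zer]; omega⟩,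
   ⟨by rw [show vr K c k1.b1 = 1 from h.one]; omega, by rw [show vr K c k1.b2 = 0 from h.zer]; omega⟩, h.iL⟩

theorem DK.g2_lt {K q : ℕ} {η : ZMod q} {ω : (Rq q η)ˣ} {c : TC X G} (h : DK K q η ω c) (hq : 2 ≤ q) : g2.Lt K q c :=
  ⟨⟨by rw [show vr K c g2.a1 = 1 from h.one]; omega, by rw [show vr K c g2.a2 = 0 from h.zer]; omega⟩, h.mL, h.dL⟩

theorem DK.k2_lt {K q : ℕ} {η : ZMod q} {ω : (Rq q η)ˣ} {c : TC X G} (h : DK K q η ω c) (hq : 2 ≤ q) : k2.Lt K q c :=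
  ⟨⟨by rw [show vr K c k2.a1 = 1 from h.one]; omega, by rw [show vr K c k2.a2 = 0 from h.zer]; omega⟩,
   ⟨by rw [show vr K c k2.b1 = 1 from h.one]; omega, by rw [show vr K c k2.b2 = 0 from h.zer]; omega⟩, h.qL⟩

theorem DK.g3_lt {K q : ℕ} {η : ZMod q} {ω : (Rq q η)ˣ} {c : TC X G} (h : DK K q η ω c) (hq : 2 ≤ q) : g3.Lt K q c :=
  ⟨⟨by rw [show vr K c g3.a1 = q - 2 from h.mtw]; omega, by rw [show vr K c g3.a2 = 0 from h.zer]; omega⟩,
   ⟨by rw [show vr K c g3.b1 = 1 from h.one]; omega, by rw [show vr K c g3.b2 = 0 from h.zer]; omega⟩, h.mL⟩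

theorem DK.elt_one {K q : ℕ} {η : ZMod q} {ω : (Rq q η)ˣ} {c : TC X G} (h : DK K q η ω c) : elt K q η c .One .Zer = 1 := by
  simp only [elt]
  rw [h.one, h.zer]
  exact mkE_one_zero q η

theorem DK.elt_mtw {K q : ℕ} {η : ZMod q} {ω : (Rq q η)ˣ} {c : TC X G} (h : DK K q η ω c) (hq : 2 ≤ q) :
    elt K q η c .MTw .Zer = -2 := by
  simp only [elt]
  rw [h.mtw, h.zer]
  exact mkE_mtw q η hq

theorem DK.vv_g1 {K q : ℕ} {η : ZMod q} {ω : (Rq q η)ˣ} {c : TC X G} (h : DK K q η ω c) :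
    GP.vv K η c g1 = (1, ((ω ^ (1 : ℤ) : (Rq q η)ˣ) : Rq q η), ((ω ^ (1 : ℤ) : (Rq q η)ˣ) : Rq q η)) := by
  simp only [GP.vv, g1]
  rw [h.elt_one, h.w]

theorem DK.vv_k1 {K q : ℕ} {η : ZMod q} {ω : (Rq q η)ˣ} {c : TC X G} (h : DK K q η ω c) :
    GP.vv K η c k1 = (1, ((ω ^ (0 : ℤ) : (Rq q η)ˣ) : Rq q η), ((ω ^ (-1 : ℤ) : (Rq q η)ˣ) : Rq q η)) := by
  simp only [GP.vv, k1]
  rw [h.elt_one, h.i]
  simp

theorem DK.vv_g2 {K q : ℕ} {η : ZMod q} {ω : (Rq q η)ˣ} {c : TC X G} (h : DK K q η ω c) :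
    GP.vv K η c g2 = (1, ((ω ^ (-(q : ℤ)) : (Rq q η)ˣ) : Rq q η), ((ω ^ (1 - (q : ℤ)) : (Rq q η)ˣ) : Rq q η)) := by
  simp only [GP.vv, g2]
  rw [h.elt_one, h.m, h.d]

theorem DK.vv_k2 {K q : ℕ} {η : ZMod q} {ω : (Rq q η)ˣ} {c : TC X G} (h : DK K q η ω c) :
    GP.vv K η c k2 = (1, ((ω ^ (0 : ℤ) : (Rq q η)ˣ) : Rq q η), ((ω ^ (q : ℤ) : (Rq q η)ˣ) : Rq q η)) := by
  simp only [GP.vv, k2]
  rw [h.elt_one, h.q']
  simp

theorem DK.vv_g3 {K q : ℕ} {η : ZMod q} {ω : (Rq q η)ˣ} {c : TC X G} (h : DK K q η ω c) (hq2 : 2 ≤ q) :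
    GP.vv K η c g3 = (-2, ((ω ^ (0 : ℤ) : (Rq q η)ˣ) : Rq q η), ((ω ^ (-(q : ℤ)) : (Rq q η)ˣ) : Rq q η)) := by
  simp only [GP.vv, g3]
  rw [h.elt_mtw hq2, h.elt_one, h.m]
  simp

variable [DecidableEq X]

/-- The dilation: the block at `(i P + j) 2 U` is moved to `(j P + i) 2 U`. -/
def dilate (sm bm : Prog (FT ⊕ X) (Sym G)) : Prog (FT ⊕ X) (Sym G) :=
  .seq expand (.seq (stage sm bm g1 k1) (.seq (stage sm bm g2 k2) (.seq (output sm g3) (adv .Rn .D .L))))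

/-- The cost of the dilation. -/
def DIC (K W U q N P dn SC TB : ℕ) : ℕ :=
  XC W q N P dn + (STC K W SC N TB + (STC K W SC N TB + (OC K W U q N P SC + (4 * dn + 4))))

/-- The list of tapes changed by the dilation. -/
abbrev dT : List FT := .D :: .P3 :: sT ++ oT

end

section
variable {X G : Type} {q : ℕ} [hq : Fact q.Prime] {η : ZMod q} [hη : Fact (∀ r : ZMod q, r ^ 2 ≠ η + 0 * r)]

omit hη in
theorem mkE_inj {a b a' b' : ℕ} (h1 : a < q) (h2 : b < q) (h3 : a' < q) (h4 : b' < q) (h : mkE q η a b = mkE q η a' b') :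
    a = a' ∧ b = b' := by
  have hq0 : NeZero q := ⟨hq.out.ne_zero⟩
  have e1 : (a : ZMod q) = (a' : ZMod q) := congrArg QuadraticAlgebra.re h
  have e2 : (b : ZMod q) = (b' : ZMod q) := congrArg QuadraticAlgebra.im h
  have e3 := congrArg ZMod.val e1
  have e4 := congrArg ZMod.val e2
  rw [ZMod.val_natCast, ZMod.val_natCast, Nat.mod_eq_of_lt h1, Nat.mod_eq_of_lt h3] at e3
  rw [ZMod.val_natCast, ZMod.val_natCast, Nat.mod_eq_of_lt h2, Nat.mod_eq_of_lt h4] at e4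
  exact ⟨e3, e4⟩

omit hη in
/-- From the written element to the bits. -/
theorem bits_of_outOK {τ σ : ℤ → Sym G} {U pos p : ℕ} (hU : 2 ^ U ≤ q)
    (h : OutOK q U η τ (blkE q U η σ p) pos) (x : ℕ) (hx : x < 2 * U) :
    (τ ((pos + x : ℕ) : ℤ)).isOne = (σ ((p + x : ℕ) : ℤ)).isOne := by
  obtain ⟨a, b, ha, hb, hE, h1, h2⟩ := h
  have hv1 : vl σ (p : ℤ) U < q := lt_of_lt_of_le (vl_lt _ _ _) hU
  have hv2 : vl σ ((p + U : ℕ) : ℤ) U < q := lt_of_lt_of_le (vl_lt _ _ _) hU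
  obtain ⟨e1, e2⟩ := mkE_inj ha hb hv1 hv2 hE
  have h1' : vl τ (pos : ℤ) U = vl σ (p : ℤ) U := by
    rw [h1, e1, Nat.mod_eq_of_lt (vl_lt _ _ _)]
  have h2' : vl τ ((pos + U : ℕ) : ℤ) U = vl σ ((p + U : ℕ) : ℤ) U := by
    rw [h2, e2, Nat.mod_eq_of_lt (vl_lt _ _ _)]
  by_cases hxU : x < U
  · have := vl_inj h1' x hxU
    push_cast
    exact this
  · have hd : x - U < U := by omega
    have := vl_inj h2' (x - U) hd
    have e : x = U + (x - U) := by omega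
    rw [e]
    have e3 : ((pos + (U + (x - U)) : ℕ) : ℤ) = ((pos + U : ℕ) : ℤ) + ((x - U : ℕ) : ℤ) := by push_cast; ring
    have e4 : ((p + (U + (x - U)) : ℕ) : ℤ) = ((p + U : ℕ) : ℤ) + ((x - U : ℕ) : ℤ) := by push_cast; ring
    rw [e3, e4]
    exact this

omit hq hη in
theorem dil_arith {N P i j : ℕ} (hN : 2 * N + 1 = q * q) (hP : P ≤ q) (hPq : P * q ≤ N) (hi : i < P) (hj : j < P) :
    (q * (j * q + i)) % N = i * q + j ∧ (i * q + j) % q = j ∧ (i * q + j) / q = i := by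
  have hjq : j < q := lt_of_lt_of_le hj hP
  have hq0 : 0 < q := by omega
  have e1 : q * (j * q + i) = N * (2 * j) + (i * q + j) := by
    have : j * (2 * N + 1) = j * (q * q) := by rw [hN]
    nlinarith
  have e2 : i * q + j < N := by
    have : (i + 1) * q ≤ P * q := Nat.mul_le_mul_right _ hi
    rw [add_mul, one_mul] at this
    omega
  refine ⟨?_, ?_, ?_⟩
  · rw [e1, Nat.mul_add_mod, Nat.mod_eq_of_lt e2]
  · rw [Nat.mul_comm i q, Nat.mul_add_mod, Nat.mod_eq_of_lt hjq]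
  · rw [Nat.mul_comm i q, Nat.mul_add_div hq0, Nat.div_eq_of_lt hjq, add_zero]

/-- The chain, on the values read from the data blocks. -/
theorem dil_value (ω : (Rq q η)ˣ) {N w U P i j : ℕ} (hqw : q = 2 * w + 1) (hN : 2 * N + 1 = q * q) (hN0 : 0 < N) (hω : OrderIs ω N)
    (hP : P ≤ q) (hPq : P * q ≤ N) (hi : i < P) (hj : j < P) (τ : ℤ → Sym G) :
    (∑ k ∈ Finset.range N, ((∑ n ∈ Finset.range N, (f0 q U P η τ n * gV 1 ((ω ^ (1 : ℤ) : (Rq q η)ˣ) : Rq q η) ((ω ^ (1 : ℤ) : (Rq q η)ˣ) : Rq q η) n) *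
        gV 1 ((ω ^ (0 : ℤ) : (Rq q η)ˣ) : Rq q η) ((ω ^ (-1 : ℤ) : (Rq q η)ˣ) : Rq q η) (N + k - n)) *
      gV 1 ((ω ^ (-(q : ℤ)) : (Rq q η)ˣ) : Rq q η) ((ω ^ (1 - (q : ℤ)) : (Rq q η)ˣ) : Rq q η) k) *
        gV 1 ((ω ^ (0 : ℤ) : (Rq q η)ˣ) : Rq q η) ((ω ^ (q : ℤ) : (Rq q η)ˣ) : Rq q η) (N + (j * q + i) - k)) *
      gV (-2) ((ω ^ (0 : ℤ) : (Rq q η)ˣ) : Rq q η) ((ω ^ (-(q : ℤ)) : (Rq q η)ˣ) : Rq q η) (j * q + i) =
    blkE q U η τ ((i * P + j) * (2 * U)) := by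
  rw [dil_math ω hqw hN hN0 hω]
  obtain ⟨e1, e2, e3⟩ := dil_arith (q := q) hN hP hPq hi hj
  rw [e1, f0, e2, e3, if_pos ⟨hj, hi⟩]

end

section
variable {X G : Type} [DecidableEq X] {q : ℕ} [hq : Fact q.Prime] {η : ZMod q} [hη : Fact (∀ r : ZMod q, r ^ 2 ≠ η + 0 * r)]

theorem dilate_spec {K L W U N P n dn w SC TB : ℕ} {ω : (Rq q η)ˣ} {c : TC X G} {sm bm : Prog (FT ⊕ X) (Sym G)}
    (ap : AP sm K L SC q) (sp : SP K W q N n) (hbm : BmulOK bm n TB) (hd : DE K L W q N n P U dn η c) (hk : DK K q η ω c)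
    (hqw : q = 2 * w + 1) (hN : 2 * N + 1 = q * q) (hω : OrderIs ω N)
    (hUW : U ≤ W) (hU : 2 ^ U ≤ q) (hP : P ≤ q) (hPq : P * q ≤ N) (hdn : dn = P * P * (2 * U))
    (b3 : ∀ x, c.tape (o .P3) x = .blank) (h1 : c.head (o .P1) = 0) (h2 : c.head (o .P2) = 0) (h3 : c.head (o .P3) = 0)
    (hD : c.head (o .D) = 0)
    (s1 : ∀ x : ℤ, ((3 * N * W : ℕ) : ℤ) ≤ x → (c.tape (o .P1) x).isOne = false)
    (s2 : ∀ x : ℤ, ((6 * N * W : ℕ) : ℤ) ≤ x → (c.tape (o .P2) x).isOne = false) :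
    ∃ c', Run (dilate sm bm) c c' (DIC K W U q N P dn SC TB) ∧ DE K L W q N n P U dn η c' ∧ DK K q η ω c' ∧ c'.head (o .D) = 0 ∧
      (∀ x : ℤ, 0 ≤ x → x < (dn : ℤ) → (c'.tape (o .D) x).nonBlank = true) ∧
      (∀ x : ℤ, (x < 0 ∨ (dn : ℤ) ≤ x) → c'.tape (o .D) x = c.tape (o .D) x) ∧
      (∀ j i x, j < P → i < P → x < 2 * U →
        (c'.tape (o .D) (((j * P + i) * (2 * U) + x : ℕ) : ℤ)).isOne = (c.tape (o .D) (((i * P + j) * (2 * U) + x : ℕ) : ℤ)).isOne) ∧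
      Fr dT [.D, .P3] c c' := by
  have hq2 : 2 ≤ q := hq.out.two_le
  have hN0 : 0 < N := by
    have : 2 * 2 ≤ q * q := Nat.mul_le_mul hq2 hq2
    omega
  obtain ⟨c1, r1, a1, a2, f1⟩ := expand_spec (K := K) (L := L) (n := n) hUW hP hq.out.pos hdn hd b3 h3 hD
  have d1 : DE K L W q N n P U dn η c1 := hd.of_gen f1 (by decide) (by simp) (by decide)
  have k1' : DK K q η ω c1 := hk.of_fr f1 (by decide)
  have tD1 : c1.tape (o .D) = c.tape (o .D) := f1.tape (by decide)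
  obtain ⟨c2, r2, se2, p1, p2, p3, s1', s2', sl2, f2⟩ := stage_spec ap sp hbm g1 k1 (by decide) (by decide) d1.toSE
    (by rw [f1.head (by decide)]; exact h1) (by rw [f1.head (by decide)]; exact h2) a1
    (by intro x hx; rw [f1.tape (by decide)]; exact s1 x hx) (by intro x hx; rw [f1.tape (by decide)]; exact s2 x hx)
    (k1'.g1_lt hq2) (k1'.k1_lt hq2) _ k1'.vv_g1 k1'.vv_k1 a2
  have d2 : DE K L W q N n P U dn η c2 := d1.of_se se2 f2 (by decide) (by simp)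
  have k2' : DK K q η ω c2 := k1'.of_fr f2 (by decide)
  have tD2 : c2.tape (o .D) = c.tape (o .D) := by rw [f2.tape (by decide), tD1]
  obtain ⟨c3, r3, se3, q1, q2, q3, _, _, sl3, f3⟩ := stage_spec ap sp hbm g2 k2 (by decide) (by decide) d2.toSE p1 p2 p3 s1' s2'
    (k2'.g2_lt hq2) (k2'.k2_lt hq2) _ k2'.vv_g2 k2'.vv_k2 sl2
  have d3 : DE K L W q N n P U dn η c3 := d2.of_se se3 f3 (by decide) (by simp)
  have k3' : DK K q η ω c3 := k2'.of_fr f3 (by decide)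
  have tD3 : c3.tape (o .D) = c.tape (o .D) := by rw [f3.tape (by decide), tD2]
  have hD3 : c3.head (o .D) = 0 := by
    rw [f3.head (by simp), f2.head (by simp), f1.head (by simp), hD]
  have hUK : U ≤ K := le_trans hUW sp.hWK
  obtain ⟨c4, r4, d4, nb, rest, oks, hD4, f4⟩ := output_spec ap sp.hWK sp.hWq hUK hP d3 q3 hD3 g3 (by decide) (k3'.g3_lt hq2) (k3'.vv_g3 hq2)
  have k4' : DK K q η ω c4 := k3'.of_fr f4 (by decide)
  obtain ⟨c5, r5, a5, f5⟩ := adv_spec (X := X) (G := G) .Rn .D .L (by decide) (by simp) c4 d4.rD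
  have d5 : DE K L W q N n P U dn η c5 := d4.of_gen f5 (by simp) (by decide) (by simp)
  have k5' : DK K q η ω c5 := k4'.of_fr f5 (by simp)
  have tD5 : c5.tape (o .D) = c4.tape (o .D) := f5.tape (by simp)
  refine ⟨c5, r1.seq (r2.seq (r3.seq (r4.seq r5))), d5, k5', ?_, ?_, ?_, ?_, ?_⟩
  · rw [a5, hD4, hdn]
    simp [Dir.toInt]
  · intro x h1 h2
    rw [tD5]
    apply nb x h1
    rw [← hdn]
    exact h2
  · intro x hx
    rw [tD5, rest x (by rw [← hdn]; exact hx), tD3]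
  · intro j i x hj hi hx
    rw [tD5]
    have ok := oks j i hj hi
    rw [sl3 _ (by
      have : (j + 1) * q ≤ P * q := Nat.mul_le_mul_right _ hj
      rw [add_mul, one_mul] at this
      have : i < q := lt_of_lt_of_le hi hP
      omega), dil_value ω hqw hN hN0 hω hP hPq hi hj (c.tape (o .D)) (U := U)] at ok
    exact bits_of_outOK hU ok x hx
  · exact (f1.trans (f2.trans (f3.trans (f4.trans f5)))).mono (by simp) (by simp)

end

end Vale.Agent.Lib.P338.F
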