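import Vale.Agent.Lib.P338.F.Rounds
import Vale.Agent.Lib.P338.F.Dilate

/-!
The core of the reduction: two classical rearrangements around the dilation of the blocks.
-/

namespace Vale.Agent.Lib.P338.F

open Vale.Agent.Lib.P338 Prog

section math

theorem posE_E0 (ρ κ i r j c : ℕ) :
    posE ρ (2 ^ ρ) (2 ^ κ) 0 i r j c = (i * 2 ^ ρ + r) * (2 ^ κ * 2 ^ ρ) + (j * 2 ^ ρ + c) := by
  simp only [posE, Nat.sub_zero, pow_zero, Nat.div_one, Nat.mod_one, one_mul, zero_mul, add_zero]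
  ring

theorem posE_Erho {ρ κ i r j c : ℕ} (hr : r < 2 ^ ρ) :
    posE ρ (2 ^ ρ) (2 ^ κ) ρ i r j c = (i * 2 ^ κ + j) * (2 ^ ρ * 2 ^ ρ) + (r * 2 ^ ρ + c) := by
  simp only [posE, Nat.sub_self, pow_zero, mul_one]
  rw [Nat.div_eq_of_lt hr, Nat.mod_eq_of_lt hr, add_zero]
  ring

theorem posE_G0 (ρ A r c : ℕ) :
    posE ρ (2 ^ 0) (2 ^ ρ) 0 A r c 0 = A * (2 ^ ρ * 2 ^ ρ) + (r * 2 ^ ρ + c) := by
  simp only [posE, Nat.sub_zero, pow_zero, Nat.div_one, Nat.mod_one, one_mul, zero_mul, add_zero, mul_one]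
  ring

theorem posE_Grho {ρ A r c : ℕ} (hr : r < 2 ^ ρ) :
    posE ρ (2 ^ 0) (2 ^ ρ) ρ A r c 0 = A * (2 ^ ρ * 2 ^ ρ) + (c * 2 ^ ρ + r) := by
  simp only [posE, Nat.sub_self, pow_zero, mul_one, add_zero]
  rw [Nat.div_eq_of_lt hr, Nat.mod_eq_of_lt hr, add_zero]
  ring

end math

section
variable {X G : Type} [DecidableEq X]

/-- The core of the reduction. -/
def core (sm bm : Prog (FT ⊕ X) (Sym G)) : Prog (FT ⊕ X) (Sym G) :=
  .seq (rndsI .RP .Ea1 .Eb1) (.seq (dilate sm bm) (.seq (rndsI .Rs .Ea2 .Eb2) (rndsD .RP .Ea1 .Eb1)))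

/-- The cost of the core. -/
def COC (ρ K W U q N P dn SC TB : ℕ) : ℕ :=
  (ρ * (RIC dn + 4) + 4) + (DIC K W U q N P dn SC TB + ((ρ * (RIC dn + 4) + 4) + (ρ * (RIC dn + 68 + 4) + 4)))

/-- The rulers of the classical rounds. -/
structure CE (ρ κ dn : ℕ) (c : TC X G) : Prop where
  rP : Ruler c (o .RP) (2 ^ κ)
  rs : Ruler c (o .Rs) (2 ^ ρ)
  rh : Ruler c (o .Rrh) ρ
  ea1 : Ruler c (o .Ea1) ρ
  eb1 : Ruler c (o .Eb1) (ρ + κ)
  ea2 : Ruler c (o .Ea2) 0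
  eb2 : Ruler c (o .Eb2) ρ
  tmp : Ruler c (o .Tmp) 0
  rn : Ruler c (o .Rn) dn
  ra : Ruler c (o .RA1) 1
  rz : Ruler c (o .RZ) 0
  rkz : Ruler c (o .RKZ) 0
  h1 : c.head (o .T1) = 0
  h2 : c.head (o .T2) = 0

end

section
variable {X G : Type} [DecidableEq X] {q : ℕ} [hq : Fact q.Prime] {η : ZMod q} [hη : Fact (∀ r : ZMod q, r ^ 2 ≠ η + 0 * r)]

/-- The tapes changed by the core. -/
abbrev coL : List FT := .T1 :: .T2 :: .RZ :: .RKZ :: .Ea1 :: .Eb1 :: .Ea2 :: .Eb2 :: dT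

theorem core_spec {K L W U N n w SC TB ρ κ dn : ℕ} {ω : (Rq q η)ˣ} {c : TC X G} {sm bm : Prog (FT ⊕ X) (Sym G)}
    (ap : AP sm K L SC q) (sp : SP K W q N n) (hbm : BmulOK bm n TB) (hd : DE K L W q N n (2 ^ κ) U dn η c) (hk : DK K q η ω c)
    (hqw : q = 2 * w + 1) (hN : 2 * N + 1 = q * q) (hω : OrderIs ω N)
    (hUW : U ≤ W) (hU : 2 ^ U ≤ q) (hP : 2 ^ κ ≤ q) (hPq : 2 ^ κ * q ≤ N) (hdn : dn = 2 ^ κ * 2 ^ κ * (2 * U))
    (h2U : 2 * U = 2 ^ ρ * 2 ^ ρ) (b3 : ∀ x, c.tape (o .P3) x = .blank) (h1 : c.head (o .P1) = 0) (h2 : c.head (o .P2) = 0) (h3 : c.head (o .P3) = 0)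
    (hD : c.head (o .D) = 0) (sh : Shp dn (c.tape (o .D)))
    (s1 : ∀ x : ℤ, ((3 * N * W : ℕ) : ℤ) ≤ x → (c.tape (o .P1) x).isOne = false)
    (s2 : ∀ x : ℤ, ((6 * N * W : ℕ) : ℤ) ≤ x → (c.tape (o .P2) x).isOne = false) (ce : CE ρ κ dn c) :
    ∃ c', Run (core sm bm) c c' (COC ρ K W U q N (2 ^ κ) dn SC TB) ∧ Shp dn (c'.tape (o .D)) ∧ c'.head (o .D) = 0 ∧
      (∀ R C, R < 2 ^ κ * 2 ^ ρ → C < 2 ^ κ * 2 ^ ρ →
        (c'.tape (o .D) ((C * (2 ^ κ * 2 ^ ρ) + R : ℕ) : ℤ)).isOne = (c.tape (o .D) ((R * (2 ^ κ * 2 ^ ρ) + C : ℕ) : ℤ)).isOne) ∧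
      Fr coL [.D, .P3] c c' := by
  have hP0 : 0 < 2 ^ κ := by positivity
  have hs0 : 0 < 2 ^ ρ := by positivity
  have e1 : dn = 2 ^ κ * 2 ^ ρ * 2 ^ κ * 2 ^ ρ := by
    rw [hdn, h2U]
    ring
  have e2 : dn = 2 ^ κ * 2 ^ κ * 2 ^ ρ * 2 ^ ρ * 2 ^ 0 := by
    rw [hdn, h2U]
    ring
  have dd1 : RDs .RP .Ea1 .Eb1 := RDs.of_nodup (by decide)
  have dd2 : RDs .Rs .Ea2 .Eb2 := RDs.of_nodup (by decide)
  -- first rearrangement
  have ri1 : RdI .RP .Ea1 .Eb1 κ dn c := ⟨ce.rP, ce.tmp, ce.rn, ce.ra, ce.h1, hD, ce.h2, sh, ce.rz, ce.rkz⟩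
  obtain ⟨c1, r1, i1, x1, y1, v1, f1⟩ := rndsI_spec (ρ := ρ) (σ := ρ) (I := 2 ^ κ) dd1 hP0 e1 ce.rh ce.ea1 ce.eb1 ri1
  have hDE1 : DE K L W q N n (2 ^ κ) U dn η c1 := hd.of_gen f1 (by decide) (by simp) (by decide)
  have hk1 : DK K q η ω c1 := hk.of_fr f1 (by decide)
  have hrl1 : ∀ a, a ∉ rL .Ea1 .Eb1 → c1.tape (o a) = c.tape (o a) := fun a ha => f1.tape ha
  have hhl1 : ∀ a, c1.head (o a) = c.head (o a) := fun a => f1.head (by simp)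
  -- the dilation
  obtain ⟨c2, r2, d2, k2, hD2, nb, rest, sw, f2⟩ := dilate_spec ap sp hbm hDE1 hk1 hqw hN hω hUW hU hP hPq hdn
    (by rw [hrl1 _ (by decide)]; exact b3) (by rw [hhl1]; exact h1) (by rw [hhl1]; exact h2) (by rw [hhl1]; exact h3) i1.hD
    (by rw [hrl1 _ (by decide)]; exact s1) (by rw [hrl1 _ (by decide)]; exact s2)
  have ri2 : RdI .Rs .Ea2 .Eb2 ρ dn c2 := by
    have rs1 : Ruler c1 (o .Rs) (2 ^ ρ) := ce.rs.of_fr f1 (by decide) (by simp)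
    refine ⟨rs1.of_fr f2 (by decide) (by decide), i1.rT.of_fr f2 (by decide) (by decide), i1.rn.of_fr f2 (by decide) (by decide),
      i1.rA.of_fr f2 (by decide) (by decide), by rw [f2.head (by decide)]; exact i1.h1, hD2, by rw [f2.head (by decide)]; exact i1.h2, ⟨nb, ?_⟩,
      i1.rZ.of_fr f2 (by decide) (by decide), i1.rKZ.of_fr f2 (by decide) (by decide)⟩
    intro x hx
    rw [rest x hx]
    exact i1.sh.2 x hx
  have f12 : Fr (rL .Ea1 .Eb1 ++ dT) [.D, .P3] c c2 := (f1.trans f2).mono (by simp) (by simp)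
  have rh2 : Ruler c2 (o .Rrh) ρ := ce.rh.of_fr f12 (by decide) (by decide)
  -- the second rearrangement
  obtain ⟨c3, r3, i3, x3, y3, v3, f3⟩ := rndsI_spec (ρ := ρ) (κ := ρ) (σ := 0) (I := 2 ^ κ * 2 ^ κ) dd2 (by positivity) e2 rh2
    (ce.ea2.of_fr f12 (by decide) (by decide)) (by
      rw [zero_add]
      exact ce.eb2.of_fr f12 (by decide) (by decide)) ri2
  have ri3 : RdI .RP .Ea1 .Eb1 κ dn c3 := by
    have f5 : Fr (rL .Ea1 .Eb1 ++ dT ++ rL .Ea2 .Eb2) [.D, .P3] c c3 := (f12.trans f3).mono (by simp) (by simp)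
    exact ⟨ce.rP.of_fr f5 (by decide) (by decide), i3.rT, i3.rn, i3.rA, i3.h1, i3.hD, i3.h2, i3.sh, i3.rZ, i3.rKZ⟩
  have f5 : Fr (dT ++ rL .Ea2 .Eb2) [.D, .P3] c1 c3 := (f2.trans f3).mono (by simp) (by simp)
  -- the third rearrangement
  obtain ⟨c4, r4, i4, x4, y4, v4, f4⟩ := rndsD_spec (ρ := ρ) (κ := κ) (σ := ρ) (I := 2 ^ κ) dd1 hP0 e1
    (ce.rh.of_fr ((f12.trans f3).mono (l' := rL .Ea1 .Eb1 ++ dT ++ rL .Ea2 .Eb2) (m' := [.D, .P3]) (by simp) (by simp)) (by decide) (by decide))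
    (x1.of_fr f5 (by decide) (by decide)) (y1.of_fr f5 (by decide) (by decide)) ri3
  refine ⟨c4, r1.seq (r2.seq (r3.seq r4)), i4.sh, i4.hD, ?_, ?_⟩
  · intro R C hR hC
    have hR2 : R = (R / 2 ^ ρ) * 2 ^ ρ + R % 2 ^ ρ := by
      have := Nat.div_add_mod R (2 ^ ρ)
      rw [mul_comm] at this
      exact this.symm
    have hC2 : C = (C / 2 ^ ρ) * 2 ^ ρ + C % 2 ^ ρ := by
      have := Nat.div_add_mod C (2 ^ ρ)
      rw [mul_comm] at this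
      exact this.symm
    generalize R / 2 ^ ρ = i at hR2
    have hr : R % 2 ^ ρ < 2 ^ ρ := Nat.mod_lt _ hs0
    generalize R % 2 ^ ρ = r at hR2 hr
    generalize C / 2 ^ ρ = j at hC2
    have hc : C % 2 ^ ρ < 2 ^ ρ := Nat.mod_lt _ hs0
    generalize C % 2 ^ ρ = c' at hC2 hc
    subst hR2 hC2
    have hi : i < 2 ^ κ := by
      by_contra hcon
      have : 2 ^ κ * 2 ^ ρ ≤ i * 2 ^ ρ := Nat.mul_le_mul_right _ (by omega)
      omega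
    have hj : j < 2 ^ κ := by
      by_contra hcon
      have : 2 ^ κ * 2 ^ ρ ≤ j * 2 ^ ρ := Nat.mul_le_mul_right _ (by omega)
      omega
    have hA : j * 2 ^ κ + i < 2 ^ κ * 2 ^ κ := by
      have : (j + 1) * 2 ^ κ ≤ 2 ^ κ * 2 ^ κ := Nat.mul_le_mul_right _ hj
      rw [add_mul, one_mul] at this
      omega
    have hx : r * 2 ^ ρ + c' < 2 * U := by
      have : (r + 1) * 2 ^ ρ ≤ 2 ^ ρ * 2 ^ ρ := Nat.mul_le_mul_right _ hr
      rw [add_mul, one_mul] at this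
      rw [h2U]
      omega
    have t1 := v4 j c' i r hj hc hi hr
    have t2 := v3 (j * 2 ^ κ + i) r c' 0 hA hr hc (by norm_num)
    have t3 := sw j i (r * 2 ^ ρ + c') hj hi hx
    have t4 := v1 i r j c' hi hr hj hc
    rw [posE_E0, posE_Erho hc] at t1
    rw [posE_Grho hr, posE_G0] at t2
    rw [posE_Erho hr, posE_E0] at t4
    rw [h2U] at t3
    rw [t1, t2, t3, t4]
  · exact ((f1.trans (f2.trans (f3.trans f4))).mono (by decide) (by decide))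

end

end Vale.Agent.Lib.P338.F
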