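import Vale.Agent.Lib.P338.F.Final

/-!
The consequences for the lower bound problem.
-/

namespace Vale.Agent.Lib.P338.F

open Vale.Agent.Lib.P338

theorem sq_le_two_pow (j : ℕ) : j * j ≤ 2 ^ (j + 1) := by
  induction j with
  | zero => simp
  | succ j ih =>
    rcases Nat.lt_or_ge j 3 with h | h
    · interval_cases j <;> norm_num
    · have e : (j + 1) * (j + 1) ≤ 2 * (j * j) := by nlinarith
      rw [pow_succ]
      omega

/-- The iterated logarithm is small compared to the logarithm. -/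
theorem lf_small (a : ℕ) (ha : 1 ≤ a) : (Nat.clog 2 (a + 5) + 1) * (Nat.clog 2 (a + 5) + 1) ≤ 96 * a := by
  set j := Nat.clog 2 (a + 5) with hj
  have h1 : 1 ≤ j := Nat.clog_pos (by norm_num) (by omega)
  have h2 : 2 ^ j.pred < a + 5 := Nat.pow_pred_clog_lt_self (by norm_num) (by omega)
  have h3 : 2 ^ (j + 1) = 4 * 2 ^ j.pred := by
    obtain ⟨i, hi⟩ : ∃ i, j = i + 1 := ⟨j - 1, by omega⟩
    rw [hi]
    simp only [Nat.pred_eq_sub_one, Nat.add_sub_cancel]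
    rw [pow_add, pow_add]
    norm_num
    ring
  have h4 := sq_le_two_pow j
  have h5 : (j + 1) * (j + 1) ≤ 4 * (j * j) := by nlinarith
  omega

theorem lf_eps {ε : ℝ} (hε : 0 < ε) : ∃ a₁ : ℕ, ∀ a : ℕ, a₁ ≤ a → ((Nat.clog 2 (a + 5) + 1 : ℕ) : ℝ) ≤ ε * a := by
  obtain ⟨a₁, ha₁⟩ := exists_nat_ge (96 / ε ^ 2)
  refine ⟨a₁ + 1, fun a ha => ?_⟩
  have h1 : 1 ≤ a := by omega
  have h2 := lf_small a h1
  have h3 : (96 : ℝ) / ε ^ 2 ≤ a := le_trans ha₁ (by exact_mod_cast (by omega : a₁ ≤ a))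
  have hε2 : 0 < ε ^ 2 := by positivity
  have h4 : 96 ≤ (a : ℝ) * ε ^ 2 := by
    rwa [div_le_iff₀ hε2] at h3
  generalize Nat.clog 2 (a + 5) + 1 = b at *
  have h5 : ((b : ℝ)) * b ≤ 96 * a := by exact_mod_cast h2
  have ha0 : (1 : ℝ) ≤ a := by exact_mod_cast h1
  have hb0 : (0 : ℝ) ≤ b := by positivity
  by_contra hc
  have hc := not_le.1 hc
  have h6 : (ε * a) * (ε * a) < b * b := by
    have h7 : 0 ≤ ε * a := by positivity
    nlinarith
  have h8 : (ε * a) * (ε * a) = (a * ε ^ 2) * a := by ring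
  have h9 : 96 * (a : ℝ) ≤ (a * ε ^ 2) * a := by nlinarith
  linarith

/-- The hypothesis of the lower bound for matrix transposition, for all machines. -/
def TranspositionHard : Prop :=
  ∀ (B : MTM) (σ : ℕ → ℕ), TransposesAll B σ →
    ∃ c : ℝ, 0 < c ∧ ∃ N : ℕ, ∀ m : ℕ, N ≤ m → c * ((m : ℝ) ^ 2 * Real.log m) ≤ σ m

theorem real_core {c C Tr M2 a b L : ℝ} (hc : 0 < c) (hC : 0 ≤ C) (hL : 0 < L) (hM : 0 < M2)
    (hb : b ≤ (c * L / (2 * (C + 1))) * a) (hT : 0 ≤ Tr) (hb0 : 0 ≤ b)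
    (h : c * (M2 * (a * L)) ≤ C * (Tr + M2 * b)) : (c * L / (2 * (C + 1))) * (M2 * a) ≤ Tr := by
  have hC1 : 0 < C + 1 := by linarith
  set E := c * L / (2 * (C + 1)) with hE
  have h8 : c * (M2 * (a * L)) ≤ (C + 1) * (Tr + M2 * b) := by
    have h9 : C * (Tr + M2 * b) ≤ (C + 1) * (Tr + M2 * b) := by
      apply mul_le_mul_of_nonneg_right (by linarith)
      positivity
    linarith
  have h10 : (C + 1) * (M2 * b) ≤ (C + 1) * (M2 * (E * a)) := by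
    apply mul_le_mul_of_nonneg_left _ hC1.le
    exact mul_le_mul_of_nonneg_left hb hM.le
  have h11 : (C + 1) * (M2 * (E * a)) = c * L / 2 * (M2 * a) := by
    rw [hE]
    field_simp
  have h12 : c * L / 2 * (M2 * a) ≤ (C + 1) * Tr := by
    have e : (C + 1) * (Tr + M2 * b) = (C + 1) * Tr + (C + 1) * (M2 * b) := by ring
    have e2 : c * (M2 * (a * L)) = c * L * (M2 * a) := by ring
    rw [e, e2] at h8
    have e3 : c * L * (M2 * a) = c * L / 2 * (M2 * a) + c * L / 2 * (M2 * a) := by ring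
    rw [e3] at h8
    linarith
  have e : c * L / 2 * (M2 * a) = (C + 1) * (E * (M2 * a)) := by
    rw [hE]
    field_simp
  rw [e] at h12
  exact le_of_mul_le_mul_left h12 hC1

/-- A lower bound for the transposer transfers to the multiplier along the sizes `2 ^ (2 * a + 19)`. -/
theorem lower_at_pow {σ τ : ℕ → ℕ} {C : ℕ} {c : ℝ} {N : ℕ} (hc : 0 < c)
    (h1 : ∀ m : ℕ, N ≤ m → c * ((m : ℝ) ^ 2 * Real.log m) ≤ σ m)
    (h2 : ∀ m, 1 ≤ m → σ m ≤ C * (τ (nf m) + m * m * lf m)) :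
    ∃ δ : ℝ, 0 < δ ∧ ∃ a₂ : ℕ, ∀ a, a₂ ≤ a → δ * ((2 : ℝ) ^ (2 * a + 19) * (a : ℝ)) ≤ τ (2 ^ (2 * a + 19)) := by
  have hl2 : 0 < Real.log 2 := Real.log_pos (by norm_num)
  have hC : (0 : ℝ) < (C : ℝ) + 1 := by positivity
  obtain ⟨a₁, ha₁⟩ := lf_eps (ε := c * Real.log 2 / (2 * ((C : ℝ) + 1))) (by positivity)
  refine ⟨c * Real.log 2 / (2 * ((C : ℝ) + 1)) / 2 ^ 19, by positivity, max a₁ N, fun a ha => ?_⟩
  have ha1 : a₁ ≤ a := le_trans (le_max_left _ _) ha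
  have haN : N ≤ a := le_trans (le_max_right _ _) ha
  have hm1 : 1 ≤ 2 ^ a := Nat.one_le_two_pow
  have hmN : N ≤ 2 ^ a := le_trans haN (Nat.lt_two_pow_self).le
  have hclog : Nat.clog 2 (2 ^ a) = a := Nat.clog_pow 2 a (by norm_num)
  have h3 := h1 (2 ^ a) hmN
  have h4 := h2 (2 ^ a) hm1
  have hnf : nf (2 ^ a) = 2 ^ (2 * a + 19) := by
    simp only [nf, hclog]
  have hlf : lf (2 ^ a) = Nat.clog 2 (a + 5) + 1 := by
    simp only [lf, hclog]
  rw [hnf, hlf] at h4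
  have h5 := ha₁ a ha1
  have hmr : ((2 ^ a : ℕ) : ℝ) = 2 ^ a := by
    push_cast
    rfl
  have hlog : Real.log ((2 ^ a : ℕ) : ℝ) = a * Real.log 2 := by
    rw [hmr, Real.log_pow]
  rw [hlog, hmr] at h3
  generalize τ (2 ^ (2 * a + 19)) = T at *
  generalize Nat.clog 2 (a + 5) + 1 = b at *
  generalize σ (2 ^ a) = s at *
  have h6 : (s : ℝ) ≤ C * ((T : ℝ) + ((2 : ℝ) ^ a) ^ 2 * (b : ℝ)) := by
    have : (s : ℝ) ≤ C * ((T : ℝ) + (((2 ^ a : ℕ) : ℝ)) * ((2 ^ a : ℕ) : ℝ) * (b : ℝ)) := by exact_mod_cast h4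
    rw [hmr] at this
    have e : ((2 : ℝ) ^ a) * (2 : ℝ) ^ a = ((2 : ℝ) ^ a) ^ 2 := by ring
    rwa [e] at this
  have hM : (0 : ℝ) < ((2 : ℝ) ^ a) ^ 2 := pow_pos (pow_pos (by norm_num) _) _
  have h7 := real_core (c := c) (C := C) (Tr := T) (M2 := ((2 : ℝ) ^ a) ^ 2) (a := a) (b := b) (L := Real.log 2) hc (Nat.cast_nonneg _) hl2 hM
    h5 (Nat.cast_nonneg _) (Nat.cast_nonneg _) (le_trans h3 h6)
  have e5 : (2 : ℝ) ^ (2 * a + 19) = 2 ^ 19 * ((2 : ℝ) ^ a) ^ 2 := by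
    rw [pow_add, pow_mul']
    ring
  rw [e5]
  have e6 : c * Real.log 2 / (2 * ((C : ℝ) + 1)) / 2 ^ 19 * (2 ^ 19 * ((2 : ℝ) ^ a) ^ 2 * a) = c * Real.log 2 / (2 * ((C : ℝ) + 1)) * (((2 : ℝ) ^ a) ^ 2 * a) := by
    field_simp
  rw [e6]
  exact h7

/-- The final lower bound for regular running times. -/
theorem lower_all {τ : ℕ → ℕ} (hr : Regular τ) {δ : ℝ} {a₂ : ℕ} (hδ : 0 < δ)
    (h : ∀ a, a₂ ≤ a → δ * ((2 : ℝ) ^ (2 * a + 19) * (a : ℝ)) ≤ τ (2 ^ (2 * a + 19))) :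
    ∃ c : ℝ, 0 < c ∧ ∃ N : ℕ, ∀ n : ℕ, N ≤ n → c * ((n : ℝ) * Real.log n) ≤ τ n := by
  have hl2 : 0 < Real.log 2 := Real.log_pos (by norm_num)
  refine ⟨δ / (23 * Real.log 2), by positivity, 2 ^ (2 * a₂ + 21), fun n hn => ?_⟩
  have hn0 : n ≠ 0 := by
    have : 0 < 2 ^ (2 * a₂ + 21) := by positivity
    omega
  have h1 : 2 * a₂ + 21 ≤ Nat.log 2 n := (Nat.le_log_iff_pow_le (by norm_num) hn0).2 hn
  set a := (Nat.log 2 n - 19) / 2 with ha
  have h2 : 2 * a + 19 ≤ Nat.log 2 n := by omega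
  have h3 : Nat.log 2 n ≤ 2 * a + 20 := by omega
  have ha2 : a₂ ≤ a := by omega
  have ha1 : 1 ≤ a := by omega
  have h4 : 2 ^ (2 * a + 19) ≤ n := (Nat.le_log_iff_pow_le (by norm_num) hn0).1 h2
  have h5 : n < 2 ^ (2 * a + 21) := by
    have : n < 2 ^ (Nat.log 2 n + 1) := Nat.lt_pow_succ_log_self (by norm_num) n
    exact lt_of_lt_of_le this (Nat.pow_le_pow_right (by norm_num) (by omega))
  have h6 := hr (2 ^ (2 * a + 19)) n Nat.one_le_two_pow h4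
  have h7 := h a ha2
  set n0 : ℕ := 2 ^ (2 * a + 19) with hn0'
  have hn0r : (n0 : ℝ) = (2 : ℝ) ^ (2 * a + 19) := by
    rw [hn0']
    push_cast
    rfl
  rw [← hn0r] at h7
  have hn0p : (0 : ℝ) < n0 := by
    rw [hn0r]
    positivity
  have h8 : (τ n0 : ℝ) * n ≤ τ n * n0 := by exact_mod_cast h6
  have hnr : (0 : ℝ) < n := by
    have : 0 < n := Nat.pos_of_ne_zero hn0
    exact_mod_cast this
  have h9 : δ * a * n ≤ τ n := by
    have h10 : δ * (n0 * a) * n ≤ (τ n0 : ℝ) * n := mul_le_mul_of_nonneg_right h7 hnr.le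
    have h11 : δ * a * n * n0 ≤ τ n * n0 := by
      have e : δ * a * n * n0 = δ * (n0 * a) * n := by ring
      rw [e]
      linarith
    exact le_of_mul_le_mul_right h11 hn0p
  have hlog : Real.log n ≤ 23 * a * Real.log 2 := by
    have h10 : (n : ℝ) ≤ (2 : ℝ) ^ (2 * a + 21) := by exact_mod_cast h5.le
    have h11 : Real.log n ≤ Real.log ((2 : ℝ) ^ (2 * a + 21)) := Real.log_le_log hnr h10
    rw [Real.log_pow] at h11
    have h12 : ((2 * a + 21 : ℕ) : ℝ) ≤ 23 * a := by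
      have : (1 : ℝ) ≤ a := by exact_mod_cast ha1
      push_cast
      linarith
    exact le_trans h11 (mul_le_mul_of_nonneg_right h12 hl2.le)
  have e : δ / (23 * Real.log 2) * ((n : ℝ) * Real.log n) = (δ * n) * (Real.log n / (23 * Real.log 2)) := by
    field_simp
  rw [e]
  have h12 : Real.log n / (23 * Real.log 2) ≤ a := by
    rw [div_le_iff₀ (by positivity)]
    linarith
  have h13 : (δ * n) * (Real.log n / (23 * Real.log 2)) ≤ (δ * n) * a := mul_le_mul_of_nonneg_left h12 (by positivity)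
  have e2 : (δ * n) * a = δ * a * n := by ring
  linarith

/-- The conditional lower bound. -/
theorem q1_of_hard (H : TranspositionHard) (A : MTM) (τ : ℕ → ℕ) (hA : Multiplies A τ) (hr : Regular τ) :
    ∃ c : ℝ, 0 < c ∧ ∃ N : ℕ, ∀ n : ℕ, N ≤ n → c * ((n : ℝ) * Real.log n) ≤ τ n := by
  obtain ⟨B, σ, C, hB, hle⟩ := reduction_reg A τ hA hr
  obtain ⟨c, hc, N, h1⟩ := H B σ hB
  obtain ⟨δ, hδ, a₂, h2⟩ := lower_at_pow hc h1 hle
  exact lower_all hr hδ h2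

end Vale.Agent.Lib.P338.F
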