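import Vale.Agent.Lib.P338.F.Corol

/-!
Further consequences: a fast multiplier for the small products removes all regularity assumptions on the big one,
and the little-o form of the reduction for every side length.
-/

namespace Vale.Agent.Lib.P338.F

open Vale.Agent.Lib.P338 Filter Topology

theorem clog_Kf (m : ℕ) : Nat.clog 2 (Kf m) + 1 ≤ 3 * lf m := by
  have h : Nat.clog 2 (Kf m) = Nat.clog 2 (Nat.clog 2 m + 5) + 3 := Nat.clog_pow 2 _ (by norm_num)
  have h2 := rh_le m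
  rw [h]
  simp only [lf] at *
  have := rh_ge m
  omega

theorem Kf_pos (m : ℕ) : 0 < Kf m := by
  simp only [Kf]
  positivity

/-- The reduction when a multiplier for the small products is available. -/
theorem reduction_fast {A0 : MTM} {τ0 : ℕ → ℕ} {D : ℕ} (h0 : Multiplies A0 τ0)
    (hD : ∀ k, 1 ≤ k → τ0 k ≤ D * k * (Nat.clog 2 k + 1)) (A : MTM) (τ : ℕ → ℕ) (hA : Multiplies A τ) :
    ∃ (B : MTM) (σ : ℕ → ℕ) (C : ℕ), TransposesAll B σ ∧ ∀ m, 1 ≤ m →
      σ m ≤ C * (τ (nf m) + m * m * lf m) := by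
  obtain ⟨B, σ, C, hB, hle⟩ := reduction2 A A0 τ τ0 hA h0
  refine ⟨B, σ, C * (1 + 3 * D), hB, fun m hm => ?_⟩
  have h1 := hle m hm
  have hK := Kf_pos m
  have h2 := hD (Kf m) hK
  have h3 := clog_Kf m
  apply Nat.le_of_mul_le_mul_left _ hK
  refine le_trans h1 ?_
  generalize τ (nf m) = T at *
  generalize τ0 (Kf m) = T0 at *
  generalize Kf m = K at *
  generalize lf m = L at *
  have h4 : T0 ≤ K * (3 * D * L) := by
    calc T0 ≤ D * K * (Nat.clog 2 K + 1) := h2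
      _ ≤ D * K * (3 * L) := Nat.mul_le_mul_left _ h3
      _ = _ := by ring
  calc C * (K * (T + m * m * L) + m * m * T0) ≤ C * (K * (T + m * m * L) + m * m * (K * (3 * D * L))) := by
        apply Nat.mul_le_mul_left
        exact Nat.add_le_add_left (Nat.mul_le_mul_left _ h4) _
    _ ≤ K * (C * (1 + 3 * D) * (T + m * m * L)) := by
        have e : K * (C * (1 + 3 * D) * (T + m * m * L)) = C * (K * (T + m * m * L) + K * (3 * D * T) + m * m * (K * (3 * D * L))) := by ring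
        rw [e]
        apply Nat.mul_le_mul_left
        omega

/-- The consequence of the lower bound for matrix transposition at the special sizes. -/
theorem lower_special {τ : ℕ → ℕ} {δ : ℝ} {a₂ : ℕ} (hδ : 0 < δ)
    (h : ∀ a, a₂ ≤ a → δ * ((2 : ℝ) ^ (2 * a + 19) * (a : ℝ)) ≤ τ (2 ^ (2 * a + 19))) :
    ∃ c : ℝ, 0 < c ∧ ∃ N : ℕ, ∀ a : ℕ, N ≤ a →
      c * (((2 ^ (2 * a + 19) : ℕ) : ℝ) * Real.log ((2 ^ (2 * a + 19) : ℕ) : ℝ)) ≤ τ (2 ^ (2 * a + 19)) := by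
  have hl2 : 0 < Real.log 2 := Real.log_pos (by norm_num)
  refine ⟨δ / (21 * Real.log 2), by positivity, max a₂ 1, fun a ha => ?_⟩
  have ha2 : a₂ ≤ a := le_trans (le_max_left _ _) ha
  have ha1 : 1 ≤ a := le_trans (le_max_right _ _) ha
  have h7 := h a ha2
  have hc : ((2 ^ (2 * a + 19) : ℕ) : ℝ) = (2 : ℝ) ^ (2 * a + 19) := by
    push_cast
    rfl
  rw [hc, Real.log_pow]
  have ha0 : (1 : ℝ) ≤ a := by exact_mod_cast ha1
  have hp : (0 : ℝ) < (2 : ℝ) ^ (2 * a + 19) := by positivity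
  generalize (2 : ℝ) ^ (2 * a + 19) = X at *
  refine le_trans ?_ h7
  have e : δ / (21 * Real.log 2) * (X * (((2 * a + 19 : ℕ) : ℝ) * Real.log 2)) = δ * X * (((2 * a + 19 : ℕ) : ℝ) / 21) := by
    field_simp
  rw [e]
  have h8 : ((2 * a + 19 : ℕ) : ℝ) / 21 ≤ a := by
    push_cast
    rw [div_le_iff₀ (by norm_num)]
    linarith
  have e2 : δ * (X * a) = δ * X * a := by ring
  rw [e2]
  exact mul_le_mul_of_nonneg_left h8 (by positivity)

/-- The final lower bound for monotone running times. -/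
theorem lower_mono {τ : ℕ → ℕ} (hr : Monotone τ) {δ : ℝ} {a₂ : ℕ} (hδ : 0 < δ)
    (h : ∀ a, a₂ ≤ a → δ * ((2 : ℝ) ^ (2 * a + 19) * (a : ℝ)) ≤ τ (2 ^ (2 * a + 19))) :
    ∃ c : ℝ, 0 < c ∧ ∃ N : ℕ, ∀ n : ℕ, N ≤ n → c * ((n : ℝ) * Real.log n) ≤ τ n := by
  have hl2 : 0 < Real.log 2 := Real.log_pos (by norm_num)
  refine ⟨δ / (4 * (23 * Real.log 2)), by positivity, 2 ^ (2 * a₂ + 21), fun n hn => ?_⟩
  have hn0 : n ≠ 0 := by
    have : 0 < 2 ^ (2 * a₂ + 21) := by positivity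
    omega
  have h1 : 2 * a₂ + 21 ≤ Nat.log 2 n := (Nat.le_log_iff_pow_le (by norm_num) hn0).2 hn
  set a := (Nat.log 2 n - 19) / 2 with ha
  have h2 : 2 * a + 19 ≤ Nat.log 2 n := by omega
  have h3 : Nat.log 2 n ≤ 2 * a + 20 := by omega
  have ha2 : a₂ ≤ a := by omega
  have ha1 : 1 ≤ a := by omega
  have h4 : 2 ^ (2 * a + 19) ≤ n := (Nat.le_log_iff_pow_le (by norm_num) hn0).1 h2
  have h5 : n < 2 ^ (2 * a + 21) := by
    have : n < 2 ^ (Nat.log 2 n + 1) := Nat.lt_pow_succ_log_self (by norm_num) n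
    exact lt_of_lt_of_le this (Nat.pow_le_pow_right (by norm_num) (by omega))
  have h6 := hr h4
  have h7 := h a ha2
  have hT : (τ (2 ^ (2 * a + 19)) : ℝ) ≤ τ n := by exact_mod_cast h6
  have hnr : (0 : ℝ) < n := by
    have : 0 < n := Nat.pos_of_ne_zero hn0
    exact_mod_cast this
  have h10 : (n : ℝ) ≤ (2 : ℝ) ^ (2 * a + 21) := by exact_mod_cast h5.le
  have e4 : (2 : ℝ) ^ (2 * a + 21) = 4 * (2 : ℝ) ^ (2 * a + 19) := by
    rw [pow_add, pow_add]
    ring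
  have hlog : Real.log n ≤ 23 * a * Real.log 2 := by
    have h11 : Real.log n ≤ Real.log ((2 : ℝ) ^ (2 * a + 21)) := Real.log_le_log hnr h10
    rw [Real.log_pow] at h11
    have h12 : ((2 * a + 21 : ℕ) : ℝ) ≤ 23 * a := by
      have : (1 : ℝ) ≤ a := by exact_mod_cast ha1
      push_cast
      linarith
    exact le_trans h11 (mul_le_mul_of_nonneg_right h12 hl2.le)
  rw [e4] at h10
  have hp : (0 : ℝ) < (2 : ℝ) ^ (2 * a + 19) := by positivity
  generalize (2 : ℝ) ^ (2 * a + 19) = X at *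
  refine le_trans ?_ (le_trans h7 hT)
  have e : δ / (4 * (23 * Real.log 2)) * ((n : ℝ) * Real.log n) = δ * (n / 4) * (Real.log n / (23 * Real.log 2)) := by
    field_simp
  rw [e]
  have h12 : Real.log n / (23 * Real.log 2) ≤ a := by
    rw [div_le_iff₀ (by positivity)]
    linarith
  have h13 : (n : ℝ) / 4 ≤ X := by linarith
  have ha0 : (0 : ℝ) ≤ a := by positivity
  have hlogn : 0 ≤ Real.log n / (23 * Real.log 2) := by
    apply div_nonneg _ (by positivity)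
    apply Real.log_nonneg
    have : 1 ≤ n := Nat.pos_of_ne_zero hn0
    exact_mod_cast this
  calc δ * (n / 4) * (Real.log n / (23 * Real.log 2)) ≤ δ * X * (Real.log n / (23 * Real.log 2)) :=
        mul_le_mul_of_nonneg_right (mul_le_mul_of_nonneg_left h13 hδ.le) hlogn
    _ ≤ δ * X * a := mul_le_mul_of_nonneg_left h12 (by positivity)
    _ = δ * (X * a) := by ring

/-- The conditional lower bound with a fast multiplier for the small products. -/
theorem q1_fast {A0 : MTM} {τ0 : ℕ → ℕ} {D : ℕ} (h0 : Multiplies A0 τ0)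
    (hD : ∀ k, 1 ≤ k → τ0 k ≤ D * k * (Nat.clog 2 k + 1)) (H : TranspositionHard) (A : MTM) (τ : ℕ → ℕ) (hA : Multiplies A τ) :
    (∃ c : ℝ, 0 < c ∧ ∃ N : ℕ, ∀ a : ℕ, N ≤ a →
      c * (((2 ^ (2 * a + 19) : ℕ) : ℝ) * Real.log ((2 ^ (2 * a + 19) : ℕ) : ℝ)) ≤ τ (2 ^ (2 * a + 19))) ∧
    (Monotone τ → ∃ c : ℝ, 0 < c ∧ ∃ N : ℕ, ∀ n : ℕ, N ≤ n → c * ((n : ℝ) * Real.log n) ≤ τ n) := by
  obtain ⟨B, σ, C, hB, hle⟩ := reduction_fast h0 hD A τ hA
  obtain ⟨c, hc, N, h1⟩ := H B σ hB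
  obtain ⟨δ, hδ, a₂, h2⟩ := lower_at_pow hc h1 hle
  exact ⟨lower_special hδ h2, fun hm => lower_mono hm hδ h2⟩

end Vale.Agent.Lib.P338.F
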