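import Vale.Agent.Lib.P338.F.Mach3
import Vale.Agent.Lib.P338.F.Corol2

/-!
The reduction of matrix transposition to one integer multiplication, with no assumption on the multiplier, and the
consequence for the conjecture of Schönhage and Strassen.
-/

namespace Vale.Agent.Lib.P338.F

open Vale.Agent.Lib.P338 Filter Topology

theorem rpow34_pow4 {x : ℝ} (hx : 0 ≤ x) : (x ^ (3 / 4 : ℝ)) ^ 4 = x ^ 3 := by
  rw [← Real.rpow_natCast, ← Real.rpow_mul hx]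
  norm_num

theorem five_thirds_le : (5 / 3 : ℝ) ≤ (2 : ℝ) ^ (3 / 4 : ℝ) := by
  have h1 : (0 : ℝ) ≤ (2 : ℝ) ^ (3 / 4 : ℝ) := by positivity
  have h2 : (5 / 3 : ℝ) ^ 4 ≤ ((2 : ℝ) ^ (3 / 4 : ℝ)) ^ 4 := by
    rw [rpow34_pow4 (by norm_num)]
    norm_num
  exact (pow_le_pow_iff_left₀ (by norm_num) h1 (by norm_num)).1 h2

theorem five_thirds_pow (J : ℕ) : (5 / 3 : ℝ) ^ J ≤ ((2 : ℝ) ^ J) ^ (3 / 4 : ℝ) := by
  have e : ((2 : ℝ) ^ J) ^ (3 / 4 : ℝ) = ((2 : ℝ) ^ (3 / 4 : ℝ)) ^ J := by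
    rw [← Real.rpow_natCast, ← Real.rpow_mul (by norm_num), ← Real.rpow_natCast, ← Real.rpow_mul (by norm_num), mul_comm]
  rw [e]
  exact pow_le_pow_left₀ (by norm_num) five_thirds_le J

/-- The polynomial factor is dominated by an exponential one. -/
theorem poly_exp : ∃ M : ℝ, 0 ≤ M ∧ ∀ J : ℕ, ((J : ℝ) + 2) ^ 3 ≤ M * (10 / 9 : ℝ) ^ J := by
  have h := tendsto_pow_const_div_const_pow_of_one_lt 3 (r := (10 / 9 : ℝ)) (by norm_num)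
  obtain ⟨M, hM⟩ := h.bddAbove_range
  have hb : ∀ n : ℕ, (n : ℝ) ^ 3 / (10 / 9 : ℝ) ^ n ≤ M := fun n => hM ⟨n, rfl⟩
  have hM0 : 0 ≤ M := by
    have := hb 0
    simpa using this
  refine ⟨M * (10 / 9 : ℝ) ^ 2, by positivity, fun J => ?_⟩
  have h1 := hb (J + 2)
  rw [div_le_iff₀ (by positivity)] at h1
  have e : ((J + 2 : ℕ) : ℝ) = (J : ℝ) + 2 := by push_cast; ring
  rw [e] at h1
  calc ((J : ℝ) + 2) ^ 3 ≤ M * (10 / 9 : ℝ) ^ (J + 2) := h1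
    _ = _ := by ring

theorem sixteen_rpow : (16 : ℝ) ^ (3 / 4 : ℝ) = 8 := by
  have h1 : (0 : ℝ) ≤ (16 : ℝ) ^ (3 / 4 : ℝ) := by positivity
  have h2 : ((16 : ℝ) ^ (3 / 4 : ℝ)) ^ 4 = (8 : ℝ) ^ 4 := by
    rw [rpow34_pow4 (by norm_num)]
    norm_num
  exact (pow_left_inj₀ h1 (by norm_num) (by norm_num)).1 h2

/-- The size of the small products against the logarithm. -/
theorem two_Jf_le (m : ℕ) : 2 ^ Jf m ≤ 16 * (Nat.clog 2 m + 5) := by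
  have h1 : 2 ≤ Nat.clog 2 m + 5 := by omega
  have h2 : 2 ^ (Nat.clog 2 (Nat.clog 2 m + 5)).pred < Nat.clog 2 m + 5 := Nat.pow_pred_clog_lt_self (by norm_num) h1
  have h3 : 1 ≤ Nat.clog 2 (Nat.clog 2 m + 5) := Nat.clog_pos (by norm_num) h1
  obtain ⟨i, hi⟩ : ∃ i, Nat.clog 2 (Nat.clog 2 m + 5) = i + 1 := ⟨_, (Nat.sub_add_cancel h3).symm⟩
  simp only [Jf, hi] at *
  simp only [Nat.pred_eq_sub_one, Nat.add_sub_cancel] at h2
  have e : 2 ^ (i + 1 + 3) = 16 * 2 ^ i := by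
    rw [pow_add, pow_add]
    ring
  rw [e]
  omega

/-- The additive term of the reduction. -/
noncomputable def eT (m : ℕ) : ℝ := ((Nat.clog 2 m + 5 : ℕ) : ℝ) ^ (3 / 4 : ℝ)

theorem ratio_le : ∃ M : ℝ, 0 ≤ M ∧ ∀ m : ℕ, ((3 ^ Jf m * (Jf m + 2) ^ 3 : ℕ) : ℝ) ≤ M * ((2 ^ Jf m : ℕ) : ℝ) * eT m := by
  obtain ⟨M, hM0, hM⟩ := poly_exp
  refine ⟨M * 8, by positivity, fun m => ?_⟩
  have h1 := hM (Jf m)
  have h2 := five_thirds_pow (Jf m)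
  generalize hJ : Jf m = J at *
  have h3 : (((2 ^ J : ℕ) : ℝ)) ^ (3 / 4 : ℝ) ≤ 8 * eT m := by
    have h4 : ((2 ^ J : ℕ) : ℝ) ≤ 16 * ((Nat.clog 2 m + 5 : ℕ) : ℝ) := by
      have := two_Jf_le m
      rw [hJ] at this
      exact_mod_cast this
    have h5 := Real.rpow_le_rpow (by positivity) h4 (by norm_num : (0 : ℝ) ≤ 3 / 4)
    rw [Real.mul_rpow (by norm_num) (by positivity), sixteen_rpow] at h5
    exact h5
  have h6 : (((2 ^ J : ℕ) : ℝ)) = (2 : ℝ) ^ J := by push_cast; rfl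
  rw [h6] at h3 ⊢
  have e : ((3 ^ J * (J + 2) ^ 3 : ℕ) : ℝ) = (3 : ℝ) ^ J * ((J : ℝ) + 2) ^ 3 := by push_cast; ring
  rw [e]
  have h7 : (3 : ℝ) ^ J = (3 / 2 : ℝ) ^ J * (2 : ℝ) ^ J := by
    rw [← mul_pow]
    norm_num
  have h8 : (3 / 2 : ℝ) ^ J * (10 / 9 : ℝ) ^ J = (5 / 3 : ℝ) ^ J := by
    rw [← mul_pow]
    norm_num
  rw [h7]
  have hp2 : (0 : ℝ) < (2 : ℝ) ^ J := by positivity
  have hp3 : (0 : ℝ) ≤ (3 / 2 : ℝ) ^ J := by positivity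
  calc (3 / 2 : ℝ) ^ J * (2 : ℝ) ^ J * ((J : ℝ) + 2) ^ 3 = (2 : ℝ) ^ J * ((3 / 2 : ℝ) ^ J * ((J : ℝ) + 2) ^ 3) := by ring
    _ ≤ (2 : ℝ) ^ J * ((3 / 2 : ℝ) ^ J * (M * (10 / 9 : ℝ) ^ J)) := by
        apply mul_le_mul_of_nonneg_left _ hp2.le
        exact mul_le_mul_of_nonneg_left h1 hp3
    _ = (2 : ℝ) ^ J * (M * (5 / 3 : ℝ) ^ J) := by
        rw [← h8]
        ring
    _ ≤ (2 : ℝ) ^ J * (M * (8 * eT m)) := by
        apply mul_le_mul_of_nonneg_left _ hp2.le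
        exact mul_le_mul_of_nonneg_left (le_trans h2 h3) hM0
    _ = _ := by ring

theorem final_arith {K s T m P C : ℕ} {M e : ℝ} (hK : 0 < K) (h1 : K * s ≤ C * (K * T + m * m * P)) (h2 : (P : ℝ) ≤ M * K * e) (hM : 0 ≤ M) (he : 0 ≤ e) :
    (s : ℝ) ≤ (C : ℝ) * (1 + M) * ((T : ℝ) + (m : ℝ) ^ 2 * e) := by
  have hKr : (0 : ℝ) < K := by exact_mod_cast hK
  have h3 : (K : ℝ) * s ≤ C * (K * T + m * m * P) := by exact_mod_cast h1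
  have hC : (0 : ℝ) ≤ C := by positivity
  have hT : (0 : ℝ) ≤ T := by positivity
  have h4 : (m : ℝ) * m * P ≤ (m : ℝ) * m * (M * K * e) := mul_le_mul_of_nonneg_left h2 (by positivity)
  have h5 : (K : ℝ) * s ≤ K * (C * ((1 + M) * ((T : ℝ) + (m : ℝ) ^ 2 * e))) := by
    calc (K : ℝ) * s ≤ C * (K * T + m * m * P) := h3
      _ ≤ C * (K * T + m * m * (M * K * e)) := mul_le_mul_of_nonneg_left (by linarith) hC
      _ ≤ _ := by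
        have h6 : (0 : ℝ) ≤ C * K := by positivity
        have h7 : (0 : ℝ) ≤ M * T := by positivity
        have h8 : (0 : ℝ) ≤ (m : ℝ) ^ 2 * e := by positivity
        have e1 : (K : ℝ) * (C * ((1 + M) * ((T : ℝ) + (m : ℝ) ^ 2 * e))) - C * (K * T + m * m * (M * K * e)) = (C * K) * (M * T + (m : ℝ) ^ 2 * e) := by ring
        have h9 : (0 : ℝ) ≤ (C * K) * (M * T + (m : ℝ) ^ 2 * e) := by positivity
        linarith
  have h6 := le_of_mul_le_mul_left h5 hKr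
  calc (s : ℝ) ≤ C * ((1 + M) * ((T : ℝ) + (m : ℝ) ^ 2 * e)) := h6
    _ = _ := by ring

/-- The reduction of matrix transposition to one multiplication. -/
theorem reduction_main (A : MTM) (τ : ℕ → ℕ) (hA : Multiplies A τ) :
    ∃ (B : MTM) (σ : ℕ → ℕ) (C : ℝ), 0 ≤ C ∧ TransposesAll B σ ∧ ∀ m, 1 ≤ m →
      (σ m : ℝ) ≤ C * ((τ (nf m) : ℝ) + (m : ℝ) ^ 2 * eT m) := by
  obtain ⟨B, σ, C, hB, hle⟩ := reduction3 A τ hA
  obtain ⟨M, hM0, hM⟩ := ratio_le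
  refine ⟨B, σ, C * (1 + M), by positivity, hB, fun m hm => ?_⟩
  have h1 := hle m hm
  have h2 := hM m
  have he : 0 ≤ eT m := Real.rpow_nonneg (Nat.cast_nonneg _) _
  generalize Jf m = J at h1 h2
  have hK : 0 < 2 ^ J := by positivity
  generalize 2 ^ J = K at h1 h2 hK
  generalize 3 ^ J * (J + 2) ^ 3 = P at h1 h2
  have := final_arith hK h1 h2 hM0 he
  push_cast
  exact this

/-- The additive term is small compared to the logarithm. -/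
theorem eT_eps {ε : ℝ} (hε : 0 < ε) : ∃ a₁ : ℕ, ∀ a : ℕ, a₁ ≤ a → ((a + 5 : ℕ) : ℝ) ^ (3 / 4 : ℝ) ≤ ε * a := by
  obtain ⟨a₀, ha₀⟩ := exists_nat_ge (8 / ε ^ 4)
  refine ⟨max a₀ 5, fun a ha => ?_⟩
  have h1 : a₀ ≤ a := le_trans (le_max_left _ _) ha
  have h2 : 5 ≤ a := le_trans (le_max_right _ _) ha
  have h3 : (8 : ℝ) / ε ^ 4 ≤ a := le_trans ha₀ (by exact_mod_cast h1)
  have h5 : (5 : ℝ) ≤ a := by exact_mod_cast h2
  have hp : (0 : ℝ) < ε ^ 4 := by positivity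
  rw [div_le_iff₀ hp] at h3
  have hx : (0 : ℝ) ≤ ((a + 5 : ℕ) : ℝ) := Nat.cast_nonneg _
  have hu : (0 : ℝ) ≤ ((a + 5 : ℕ) : ℝ) ^ (3 / 4 : ℝ) := Real.rpow_nonneg hx _
  have hr : (0 : ℝ) ≤ ε * a := by positivity
  refine (pow_le_pow_iff_left₀ hu hr (n := 4) (by norm_num)).1 ?_
  rw [rpow34_pow4 hx, mul_pow]
  have e : ((a + 5 : ℕ) : ℝ) = (a : ℝ) + 5 := by push_cast; ring
  rw [e]
  have h6 : ((a : ℝ) + 5) ^ 3 ≤ (2 * (a : ℝ)) ^ 3 := pow_le_pow_left₀ (by positivity) (by linarith) 3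
  have h7 : (2 * (a : ℝ)) ^ 3 = 8 * (a : ℝ) ^ 3 := by ring
  have h8 : (0 : ℝ) ≤ (a : ℝ) ^ 3 := by positivity
  have h9 : 8 * (a : ℝ) ^ 3 ≤ (a * ε ^ 4) * (a : ℝ) ^ 3 := mul_le_mul_of_nonneg_right h3 h8
  have h10 : (a * ε ^ 4) * (a : ℝ) ^ 3 = ε ^ 4 * (a : ℝ) ^ 4 := by ring
  linarith

/-- A lower bound for the transposer at the powers of two transfers to the multiplier along the sizes `2 ^ (2 * a + 19)`. -/
theorem lower_at_pow3 {σ τ : ℕ → ℕ} {C c : ℝ} {N : ℕ} (hc : 0 < c) (hC : 0 ≤ C)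
    (h1 : ∀ a : ℕ, N ≤ a → c * (((2 : ℝ) ^ a) ^ 2 * (a * Real.log 2)) ≤ σ (2 ^ a))
    (h2 : ∀ m, 1 ≤ m → (σ m : ℝ) ≤ C * ((τ (nf m) : ℝ) + (m : ℝ) ^ 2 * eT m)) :
    ∃ δ : ℝ, 0 < δ ∧ ∃ a₂ : ℕ, ∀ a, a₂ ≤ a → δ * ((2 : ℝ) ^ (2 * a + 19) * (a : ℝ)) ≤ τ (2 ^ (2 * a + 19)) := by
  have hl2 : 0 < Real.log 2 := Real.log_pos (by norm_num)
  have hCp : (0 : ℝ) < C + 1 := by linarith
  obtain ⟨a₁, ha₁⟩ := eT_eps (ε := c * Real.log 2 / (2 * (C + 1))) (by positivity)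
  refine ⟨c * Real.log 2 / (2 * (C + 1)) / 2 ^ 19, by positivity, max a₁ N, fun a ha => ?_⟩
  have ha1 : a₁ ≤ a := le_trans (le_max_left _ _) ha
  have haN : N ≤ a := le_trans (le_max_right _ _) ha
  have hm1 : 1 ≤ 2 ^ a := Nat.one_le_two_pow
  have hclog : Nat.clog 2 (2 ^ a) = a := Nat.clog_pow 2 a (by norm_num)
  have h3 := h1 a haN
  have h4 := h2 (2 ^ a) hm1
  have hnf : nf (2 ^ a) = 2 ^ (2 * a + 19) := by
    simp only [nf, hclog]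
  have het : eT (2 ^ a) = ((a + 5 : ℕ) : ℝ) ^ (3 / 4 : ℝ) := by
    simp only [eT, hclog]
  rw [hnf, het] at h4
  have h5 := ha₁ a ha1
  have hmr : ((2 ^ a : ℕ) : ℝ) = 2 ^ a := by
    push_cast
    rfl
  rw [hmr] at h4
  have hb0 : (0 : ℝ) ≤ ((a + 5 : ℕ) : ℝ) ^ (3 / 4 : ℝ) := Real.rpow_nonneg (Nat.cast_nonneg _) _
  generalize τ (2 ^ (2 * a + 19)) = T at *
  generalize ((a + 5 : ℕ) : ℝ) ^ (3 / 4 : ℝ) = b at *
  generalize σ (2 ^ a) = s at *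
  have hM : (0 : ℝ) < ((2 : ℝ) ^ a) ^ 2 := by positivity
  have h7 := real_core (c := c) (C := C) (Tr := T) (M2 := ((2 : ℝ) ^ a) ^ 2) (a := a) (b := b) (L := Real.log 2) hc hC hl2 hM
    h5 (Nat.cast_nonneg _) hb0 (le_trans h3 h4)
  have e5 : (2 : ℝ) ^ (2 * a + 19) = 2 ^ 19 * ((2 : ℝ) ^ a) ^ 2 := by
    rw [pow_add, pow_mul']
    ring
  rw [e5]
  have e6 : c * Real.log 2 / (2 * (C + 1)) / 2 ^ 19 * (2 ^ 19 * ((2 : ℝ) ^ a) ^ 2 * a) = c * Real.log 2 / (2 * (C + 1)) * (((2 : ℝ) ^ a) ^ 2 * a) := by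
    field_simp
  rw [e6]
  exact h7

/-- The hypothesis of the lower bound for matrix transposition, for all machines, at the side lengths which are powers of two. -/
def TranspositionHardPow : Prop :=
  ∀ (B : MTM) (σ : ℕ → ℕ), TransposesAll B σ →
    ∃ c : ℝ, 0 < c ∧ ∃ N : ℕ, ∀ a : ℕ, N ≤ a → c * (((2 ^ a : ℕ) : ℝ) ^ 2 * Real.log ((2 ^ a : ℕ) : ℝ)) ≤ σ (2 ^ a)

/-- The hypothesis for all large side lengths implies the hypothesis for the powers of two. -/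
theorem hardPow_of_hard (H : TranspositionHard) : TranspositionHardPow := by
  intro B σ hB
  obtain ⟨c, hc, N, h⟩ := H B σ hB
  exact ⟨c, hc, N, fun a ha => h _ (le_trans ha (Nat.lt_two_pow_self).le)⟩

/-- The conditional lower bound for integer multiplication, with no assumption on the multiplier. -/
theorem q1_main (H : TranspositionHardPow) (A : MTM) (τ : ℕ → ℕ) (hA : Multiplies A τ) :
    (∃ c : ℝ, 0 < c ∧ ∃ N : ℕ, ∀ a : ℕ, N ≤ a →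
      c * (((2 ^ (2 * a + 19) : ℕ) : ℝ) * Real.log ((2 ^ (2 * a + 19) : ℕ) : ℝ)) ≤ τ (2 ^ (2 * a + 19))) ∧
    (Monotone τ → ∃ c : ℝ, 0 < c ∧ ∃ N : ℕ, ∀ n : ℕ, N ≤ n → c * ((n : ℝ) * Real.log n) ≤ τ n) := by
  obtain ⟨B, σ, C, hC, hB, hle⟩ := reduction_main A τ hA
  obtain ⟨c, hc, N, h1⟩ := H B σ hB
  have h2 : ∀ a : ℕ, N ≤ a → c * (((2 : ℝ) ^ a) ^ 2 * (a * Real.log 2)) ≤ σ (2 ^ a) := by
    intro a ha
    have h3 := h1 a ha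
    have hmr : ((2 ^ a : ℕ) : ℝ) = 2 ^ a := by
      push_cast
      rfl
    rw [hmr, Real.log_pow] at h3
    exact h3
  obtain ⟨δ, hδ, a₂, h4⟩ := lower_at_pow3 hc hC h2 hle
  exact ⟨lower_special hδ h4, fun hm => lower_mono hm hδ h4⟩

end Vale.Agent.Lib.P338.F
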