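import Vale.Agent.Lib.P338.F.Mach

/-!
The running time of the single scale reduction.
-/

namespace Vale.Agent.Lib.P338.F

section
variable {K W U SC q N P dn : ℕ}

/-- The elementary costs are linear in the sum of the size of the registers and the cost of a small product. -/
theorem MZ_le (hK : 1 ≤ K) : MZ K SC ≤ 2000 * (SC + K) := by
  simp only [MZ, FC, RD, RC]
  omega

theorem MP_le (hK : 1 ≤ K) : MP K SC ≤ 2000 * (SC + K) := by
  simp only [MP, MZ, FC, RD, RC]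
  omega

theorem R3C_le (hK : 1 ≤ K) (hW : W ≤ K) : R3C K W SC ≤ 2000 * (SC + K) := by
  simp only [R3C, RD, RC]
  omega

theorem ChC_le (hK : 1 ≤ K) (hW : W ≤ K) : ChC K W SC ≤ 9000 * (SC + K) := by
  have h1 := R3C_le (SC := SC) hK hW
  have h2 := MZ_le (SC := SC) hK
  have h3 := MP_le (SC := SC) hK
  simp only [ChC]
  omega

theorem OB_le (hK : 1 ≤ K) (hW : W ≤ K) (hU : U ≤ K) : OB K W U SC ≤ 9000 * (SC + K) := by
  have h1 := R3C_le (SC := SC) hK hW
  have h2 := MZ_le (SC := SC) hK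
  have h3 := MP_le (SC := SC) hK
  simp only [OB]
  omega

theorem OS_le (hK : 1 ≤ K) (hW : W ≤ K) : OS K W SC ≤ 8000 * (SC + K) := by
  have h1 := R3C_le (SC := SC) hK hW
  have h3 := MP_le (SC := SC) hK
  simp only [OS]
  omega

theorem OBC_le (hK : 1 ≤ K) : OBC K SC ≤ 8000 * (SC + K) := by
  have h2 := MZ_le (SC := SC) hK
  simp only [OBC]
  omega

theorem SQB_le (hK : 1 ≤ K) : SQB K SC ≤ 8000 * (SC + K) := by
  have h2 := MZ_le (SC := SC) hK
  simp only [SQB]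
  omega

theorem DVC_le (hK : 1 ≤ K) : DVC K ≤ 200 * K := by
  simp only [DVC]
  omega

/-- One level of loops. -/
theorem lp_le {a X c b Y : ℕ} (ha : a ≤ b) (hb : 1 ≤ b) (hX : X ≤ c * Y) (hY : 1 ≤ Y) : a * (X + 4) + 4 ≤ (c + 8) * (b * Y) := by
  have h1 : a * (X + 4) ≤ b * (c * Y + 4 * Y) := Nat.mul_le_mul ha (by omega)
  have h2 : 1 * 1 ≤ b * Y := Nat.mul_le_mul hb hY
  have e : b * (c * Y + 4 * Y) = (c + 4) * (b * Y) := by ring
  have e2 : (c + 8) * (b * Y) = (c + 4) * (b * Y) + 4 * (b * Y) := by ring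
  omega

theorem Y_le_Z {Y b : ℕ} (hb : 1 ≤ b) : Y ≤ b * Y := Nat.le_mul_of_pos_left _ hb

/-- The cost of the setup of the registers. -/
theorem POC_le (hK : 1 ≤ K) {n b : ℕ} (hn : n ≤ b) (hb : 1 ≤ b) : POC K SC n ≤ 2100 * (b * (SC + K)) := by
  have hY : 1 ≤ SC + K := by omega
  have h1 := lp_le hn hb (MZ_le (SC := SC) hK) hY
  have h2 : SC + K ≤ b * (SC + K) := Y_le_Z hb
  simp only [POC]
  omega

theorem PSC_le (hK : 1 ≤ K) {n b : ℕ} (hn : n ≤ b) (hb : 1 ≤ b) : PSC K SC n ≤ 2200 * (b * (SC + K)) := by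
  have h1 := POC_le (SC := SC) hK hn hb
  have h2 : SC + K ≤ b * (SC + K) := Y_le_Z hb
  simp only [PSC]
  omega

theorem OTC_le (hK : 1 ≤ K) {n b : ℕ} (hn : n ≤ b) (hb : 1 ≤ b) : OTC K SC n ≤ 20000 * (b * (SC + K)) := by
  have hY : 1 ≤ SC + K := by omega
  have h1 := lp_le hn hb (OBC_le (SC := SC) hK) hY
  have h2 : SC + K ≤ b * (SC + K) := Y_le_Z hb
  have h3 := OBC_le (SC := SC) hK
  simp only [OTC]
  omega

theorem SQC_le (hK : 1 ≤ K) (hb : 1 ≤ q) : SQC K q SC ≤ 20000 * (q * (SC + K)) := by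
  have hY : 1 ≤ SC + K := by omega
  have h1 := lp_le (le_refl q) hb (SQB_le (SC := SC) hK) hY
  have h2 : SC + K ≤ q * (SC + K) := Y_le_Z hb
  simp only [SQC]
  omega

theorem BEC_le (hK : 1 ≤ K) (hb : 1 ≤ q) : BEC K SC q ≤ 30000 * (q * (SC + K)) := by
  have h1 := PSC_le (SC := SC) hK (n := q - 1) (Nat.sub_le q 1) hb
  have h2 := OTC_le (SC := SC) hK (n := q) (le_refl q) hb
  simp only [BEC]
  omega

/-- A search costs `q` times the cost of a test. -/
theorem SRC_le (hK : 1 ≤ K) (hb : 1 ≤ q) {C c : ℕ} (hC : C ≤ c * (q * (SC + K))) :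
    SRC K q C ≤ (c + 200) * (q * (q * (SC + K))) := by
  have hY : 1 ≤ SC + K := by omega
  have hZ : 1 ≤ q * (SC + K) := Nat.mul_pos hb hY
  have h3 : C + (12 * K + 13 + (8 * K + 9)) ≤ (c + 50) * (q * (SC + K)) := by
    have h2 : SC + K ≤ q * (SC + K) := Y_le_Z hb
    have e : (c + 50) * (q * (SC + K)) = c * (q * (SC + K)) + 50 * (q * (SC + K)) := by ring
    omega
  have h1 := lp_le (le_refl q) hb h3 hZ
  have h4 : q * (SC + K) ≤ q * (q * (SC + K)) := Y_le_Z hb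
  have h5 : SC + K ≤ q * (SC + K) := Y_le_Z hb
  simp only [SRC]
  have e : (c + 200) * (q * (q * (SC + K))) = (c + 50 + 8) * (q * (q * (SC + K))) + 142 * (q * (q * (SC + K))) := by ring
  omega

theorem KOC_le (hK : 1 ≤ K) (hb : 1 ≤ q) (hN : N ≤ q * q) : KOC K SC q N ≤ 20000 * (q * (q * (SC + K))) := by
  have hq2 : 1 ≤ q * q := Nat.mul_pos hb hb
  have e : q * q * (SC + K) = q * (q * (SC + K)) := by ring
  have h1 := PSC_le (SC := SC) hK (n := N - 1) (b := q * q) (by omega) hq2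
  have h2 := PSC_le (SC := SC) hK (n := q - 1) (b := q) (by omega) hb
  have h3 := PSC_le (SC := SC) hK (n := q) (b := q) (by omega) hb
  have h4 := MP_le (SC := SC) hK
  have h5 : SC + K ≤ q * (SC + K) := Y_le_Z hb
  have h6 : q * (SC + K) ≤ q * (q * (SC + K)) := Y_le_Z hb
  rw [e] at h1
  simp only [KOC]
  omega

theorem SAC_le (hK : 1 ≤ K) (hb : 1 ≤ q) (hN : N ≤ q * q) : SAC K SC q N ≤ 200000 * (q * (q * (SC + K))) := by
  have h1 := SRC_le hK hb (SQC_le (SC := SC) hK hb)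
  have h2 := SRC_le hK hb (OTC_le (SC := SC) (n := q - 2) hK (b := q) (by omega) hb)
  have h3 := SRC_le hK hb (BEC_le (SC := SC) hK hb)
  have h4 := KOC_le (SC := SC) hK hb hN
  have h5 : SC + K ≤ q * (SC + K) := Y_le_Z hb
  have h6 : q * (SC + K) ≤ q * (q * (SC + K)) := Y_le_Z hb
  simp only [SAC]
  omega

theorem AIC_le (hK : 1 ≤ K) (hb : 1 ≤ q) : AIC K q ≤ 1000 * (q * (q * (SC + K))) + 1000 * (K * K) := by
  have h0 : q * K ≤ q * (SC + K) := Nat.mul_le_mul_left _ (by omega)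
  have h5 : SC + K ≤ q * (SC + K) := Y_le_Z hb
  have h6 : q * (SC + K) ≤ q * (q * (SC + K)) := Y_le_Z hb
  have h1 : K * (DVC K + 4) ≤ K * (204 * K) := Nat.mul_le_mul_left _ (by have := DVC_le hK; omega)
  have e1 : K * (204 * K) = 204 * (K * K) := by ring
  have e2 : q * (8 * K + 9 + 4) = 8 * (q * K) + 13 * q := by ring
  have h7 : q ≤ q * K := Nat.le_mul_of_pos_right _ hK
  have h8 : K ≤ K * K := Nat.le_mul_of_pos_right _ hK
  simp only [AIC]
  omega

theorem CPC_le (hK : 1 ≤ K) (hW : W ≤ K) (hb : 1 ≤ q) (hN : N ≤ q * q) : CPC K W SC N ≤ 10000 * (q * (q * (SC + K))) := by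
  have hq2 : 1 ≤ q * q := Nat.mul_pos hb hb
  have e : q * q * (SC + K) = q * (q * (SC + K)) := by ring
  have hY : 1 ≤ SC + K := by omega
  have h1 := lp_le hN hq2 (ChC_le (SC := SC) hK hW) hY
  rw [e] at h1
  have h2 : N * W ≤ q * q * (SC + K) := Nat.mul_le_mul hN (by omega)
  rw [e] at h2
  have h5 : SC + K ≤ q * (SC + K) := Y_le_Z hb
  have h6 : q * (SC + K) ≤ q * (q * (SC + K)) := Y_le_Z hb
  simp only [CPC]
  omega

theorem KPC_le (hK : 1 ≤ K) (hW : W ≤ K) (hb : 1 ≤ q) (hN : N ≤ q * q) : KPC K W SC N ≤ 20000 * (q * (q * (SC + K))) := by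
  have hq2 : 1 ≤ q * q := Nat.mul_pos hb hb
  have e : q * q * (SC + K) = q * (q * (SC + K)) := by ring
  have hY : 1 ≤ SC + K := by omega
  have h3 : 20 * W + 20 + 2 * MP K SC ≤ 5000 * (SC + K) := by
    have := MP_le (SC := SC) hK
    omega
  have h1 := lp_le hN hq2 h3 hY
  rw [e] at h1
  have h2 : N * W ≤ q * q * (SC + K) := Nat.mul_le_mul hN (by omega)
  rw [e] at h2
  have h5 : SC + K ≤ q * (SC + K) := Y_le_Z hb
  have h6 : q * (SC + K) ≤ q * (q * (SC + K)) := Y_le_Z hb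
  have e3 : 2 * N * (20 * W + 20 + 2 * MP K SC + 4) = 2 * (N * (20 * W + 20 + 2 * MP K SC + 4)) := by ring
  simp only [KPC]
  omega

theorem STC_le (hK : 1 ≤ K) (hW : W ≤ K) (hb : 1 ≤ q) (hN : N ≤ q * q) {TB : ℕ} : STC K W SC N TB ≤ 30000 * (q * (q * (SC + K))) + TB := by
  have h1 := CPC_le (SC := SC) hK hW hb hN
  have h2 := KPC_le (SC := SC) hK hW hb hN
  simp only [STC]
  omega

theorem XC_le (hK : 1 ≤ K) (hW : W ≤ K) (hb : 1 ≤ q) (hN : N ≤ q * q) (hP : P ≤ q) : XC W q N P dn ≤ 2000 * (q * (q * (SC + K))) + 5 * dn + 5 := by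
  have e0 : q * q * (SC + K) = q * (q * (SC + K)) := by ring
  have hY : 1 ≤ SC + K := by omega
  have h5 : SC + K ≤ q * (SC + K) := Y_le_Z hb
  have h6 : q * (SC + K) ≤ q * (q * (SC + K)) := Y_le_Z hb
  have h2 : N * W ≤ q * q * (SC + K) := Nat.mul_le_mul hN (by omega)
  rw [e0] at h2
  have e1 : 3 * N * W = 3 * (N * W) := by ring
  have h7 : XR W q ≤ 44 * (q * (SC + K)) := by
    have : q * (12 * W + 24) ≤ q * (36 * (SC + K)) := Nat.mul_le_mul_left _ (by omega)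
    have e : q * (36 * (SC + K)) = 36 * (q * (SC + K)) := by ring
    simp only [XR]
    omega
  have hZ : 1 ≤ q * (SC + K) := Nat.mul_pos hb hY
  have h8 := lp_le hP hb h7 hZ
  have h9 : q * (12 * W + 12 + 4) + 4 ≤ 100 * (q * (SC + K)) := by
    have : q * (12 * W + 12 + 4) ≤ q * (28 * (SC + K)) := Nat.mul_le_mul_left _ (by omega)
    have e : q * (28 * (SC + K)) = 28 * (q * (SC + K)) := by ring
    omega
  have h10 := lp_le hP hb h9 hZ
  simp only [XC]
  omega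

theorem ORC_le (hK : 1 ≤ K) (hW : W ≤ K) (hU : U ≤ K) (hb : 1 ≤ q) (hP : P ≤ q) : ORC K W U q P SC ≤ 20000 * (q * (SC + K)) := by
  have hY : 1 ≤ SC + K := by omega
  have h1 := lp_le hP hb (OB_le (SC := SC) hK hW hU) hY
  have h2 := lp_le (a := q - P) (by omega) hb (OS_le (SC := SC) hK hW) hY
  simp only [ORC]
  omega

theorem OC_le (hK : 1 ≤ K) (hW : W ≤ K) (hU : U ≤ K) (hb : 1 ≤ q) (hN : N ≤ q * q) (hP : P ≤ q) : OC K W U q N P SC ≤ 30000 * (q * (q * (SC + K))) := by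
  have e0 : q * q * (SC + K) = q * (q * (SC + K)) := by ring
  have hY : 1 ≤ SC + K := by omega
  have h5 : SC + K ≤ q * (SC + K) := Y_le_Z hb
  have h6 : q * (SC + K) ≤ q * (q * (SC + K)) := Y_le_Z hb
  have h2 : N * W ≤ q * q * (SC + K) := Nat.mul_le_mul hN (by omega)
  rw [e0] at h2
  have e1 : 3 * N * W = 3 * (N * W) := by ring
  have hZ : 1 ≤ q * (SC + K) := Nat.mul_pos hb hY
  have h8 := lp_le hP hb (ORC_le (SC := SC) hK hW hU hb hP) hZ
  simp only [OC]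
  omega

theorem DIC_le (hK : 1 ≤ K) (hW : W ≤ K) (hU : U ≤ K) (hb : 1 ≤ q) (hN : N ≤ q * q) (hP : P ≤ q) {TB : ℕ} :
    DIC K W U q N P dn SC TB ≤ 100000 * (q * (q * (SC + K))) + 10 * dn + 10 + 2 * TB := by
  have h1 := XC_le (SC := SC) (dn := dn) hK hW hb hN hP
  have h2 := STC_le (SC := SC) (TB := TB) hK hW hb hN
  have h3 := OC_le (SC := SC) hK hW hU hb hN hP
  simp only [DIC]
  omega

theorem RIC_le (hd : 1 ≤ dn) : RIC dn ≤ 1000 * dn := by
  simp only [RIC, RDC]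
  omega

theorem COC_le (hK : 1 ≤ K) (hW : W ≤ K) (hU : U ≤ K) (hb : 1 ≤ q) (hN : N ≤ q * q) (hP : P ≤ q) (hd : 1 ≤ dn) {TB ρ : ℕ} :
    COC ρ K W U q N P dn SC TB ≤ 100000 * (q * (q * (SC + K))) + 4000 * (dn * (ρ + 1)) + 2 * TB := by
  have h1 := DIC_le (SC := SC) (dn := dn) (TB := TB) hK hW hU hb hN hP
  have h2 : ρ * (RIC dn + 4) ≤ ρ * (1004 * dn) := Nat.mul_le_mul_left _ (by have := RIC_le hd; omega)
  have h3 : ρ * (RIC dn + 68 + 4) ≤ ρ * (1072 * dn) := Nat.mul_le_mul_left _ (by have := RIC_le hd; omega)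
  have e1 : ρ * (1004 * dn) = 1004 * (dn * ρ) := by ring
  have e2 : ρ * (1072 * dn) = 1072 * (dn * ρ) := by ring
  have e3 : 4000 * (dn * (ρ + 1)) = 4000 * (dn * ρ) + 4000 * dn := by ring
  simp only [COC]
  omega

theorem PDC_le {m m' : ℕ} (hm : m ≤ m') (h1 : 1 ≤ m') : PDC m m' ≤ 100 * (m' * m') := by
  have e1 : (4 * m + 4 + (4 * (m' - m) + 4) + 4) = 4 * m' + 12 := by omega
  have h2 : m * (4 * m' + 12) ≤ m' * (4 * m' + 12) := Nat.mul_le_mul_right _ hm
  have e2 : m' * (4 * m' + 12) = 4 * (m' * m') + 12 * m' := by ring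
  have h3 : m * (4 * m' + 4 + 4) ≤ m' * (4 * m' + 12) := Nat.mul_le_mul hm (by omega)
  have h4 : m' ≤ m' * m' := Nat.le_mul_of_pos_right _ h1
  simp only [PDC]
  rw [e1]
  omega

theorem UPC_le {m m' : ℕ} (hm : m ≤ m') (h1 : 1 ≤ m') : UPC m m' ≤ 100 * (m' * m') := by
  have e1 : (4 * m + 4 + (4 * (m' - m) + 4) + 4) = 4 * m' + 12 := by omega
  have h2 : m * (4 * m' + 12) ≤ m' * (4 * m' + 12) := Nat.mul_le_mul_right _ hm
  have e2 : m' * (4 * m' + 12) = 4 * (m' * m') + 12 * m' := by ring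
  have h4 : m' ≤ m' * m' := Nat.le_mul_of_pos_right _ h1
  simp only [UPC]
  rw [e1]
  omega

end

/-! The parameters. -/

theorem dn_pos (m : ℕ) : 1 ≤ dn m := Nat.one_le_two_pow

theorem nn_eq (m : ℕ) : nn m = 2048 * dn m := by
  simp only [nn, dn]
  rw [pow_add]
  norm_num
  ring

theorem BB_eq (m : ℕ) : BB m = 8192 * dn m := by
  simp only [BB, dn]
  rw [pow_add]
  norm_num
  ring

theorem dn_eq_sq (m : ℕ) : dn m = 2 ^ ap m * 2 ^ ap m := by
  simp only [dn]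
  rw [← pow_add]
  congr 1
  ring

theorem m_le_ap (m : ℕ) : m ≤ 2 ^ ap m := by
  have h1 : m ≤ 2 ^ a0 m := Nat.le_pow_clog (by norm_num) _
  have h2 : 2 ^ a0 m ≤ 2 ^ ap m := Nat.pow_le_pow_right (by norm_num) (by simp only [ap]; omega)
  omega

theorem K_lt (m : ℕ) : Kd m < 16 * Aa m := by
  have h1 := two_cA_lt m
  have h2 : Kd m = 16 * 2 ^ (cA m - 1) := by
    simp only [Kd]
    have h3 := cA_ge m
    rw [show cA m + 3 = (cA m - 1) + 4 by omega, pow_add]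
    norm_num
    ring
  omega

theorem K_ge (m : ℕ) : 8 * Aa m ≤ Kd m := by
  have h1 := Aa_le_two_cA m
  have h2 : Kd m = 8 * 2 ^ cA m := by
    simp only [Kd]
    rw [pow_add]
    norm_num
    ring
  omega

theorem Aa_le_pm (m : ℕ) : Aa m ≤ 2 ^ ap m := by
  have h := Nat.lt_two_pow_self (n := ap m)
  simp only [Aa]
  omega

theorem K_sq (m : ℕ) : Kd m * Kd m ≤ 256 * dn m := by
  have h1 := (K_lt m).le
  have h2 := Aa_le_pm m
  have h3 : Kd m ≤ 16 * 2 ^ ap m := by omega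
  have h4 := Nat.mul_le_mul h3 h3
  rw [dn_eq_sq]
  calc Kd m * Kd m ≤ 16 * 2 ^ ap m * (16 * 2 ^ ap m) := h4
    _ = _ := by ring

theorem q_sq_K (m : ℕ) : qq m * qq m * Kd m ≤ 1024 * dn m := by
  have h1 := (K_lt m).le
  have h2 := q_sq_A m
  calc qq m * qq m * Kd m ≤ qq m * qq m * (16 * Aa m) := Nat.mul_le_mul_left _ h1
    _ = 16 * (qq m * qq m * Aa m) := by ring
    _ ≤ 1024 * dn m := by omega

theorem N_le_q (m : ℕ) : NN m ≤ qq m * qq m := by
  have := NN_eq m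
  omega

theorem W_le_K (m : ℕ) : Wd m ≤ Kd m := by
  have := Wd_le_K m
  omega

theorem U_le_K (m : ℕ) : UU m ≤ Kd m := by
  have h1 := UU_le m
  have h2 := Wd_le_K m
  simp only [Wd] at h2
  omega

theorem K_pos (m : ℕ) : 1 ≤ Kd m := by
  have := Wd_le_K m
  omega

theorem q_pos (m : ℕ) : 1 ≤ qq m := (qq_prime m).pos

/-- The running time of the complete program, as a function of the costs of the two kinds of products. -/
theorem TOC_le (m SC TB : ℕ) :
    TOC m SC TB ≤ 1000000000 * (dn m * (rh m + 1)) + 400000 * (qq m * qq m * SC) + 2 * TB := by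
  have hK := K_pos m
  have hW := W_le_K m
  have hU := U_le_K m
  have hb := q_pos m
  have hN := N_le_q m
  have hP : 2 ^ kp m ≤ qq m := PP_le_q m
  have hd := dn_pos m
  have h1 := AIC_le (SC := SC) hK hb
  have h2 := SAC_le (SC := SC) hK hb hN
  have h3 := COC_le (SC := SC) (dn := dn m) (TB := TB) (ρ := rh m) hK hW hU hb hN hP hd
  have hm := m_le_ap m
  have hp : 1 ≤ 2 ^ ap m := Nat.one_le_two_pow
  have h4 := PDC_le hm hp
  have h5 := UPC_le hm hp
  rw [← dn_eq_sq] at h4 h5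
  have h6 := K_sq m
  have h7 := q_sq_K m
  have e : qq m * (qq m * (SC + Kd m)) = qq m * qq m * SC + qq m * qq m * Kd m := by ring
  rw [e] at h1 h2 h3
  have h8 := BB_eq m
  have h9 : dn m ≤ dn m * (rh m + 1) := Nat.le_mul_of_pos_right _ (by omega)
  have h10 : 1 ≤ dn m * (rh m + 1) := by omega
  simp only [TOC, STC']
  generalize dn m * (rh m + 1) = A at *
  generalize qq m * qq m * SC = B at *
  generalize qq m * qq m * Kd m = C at *
  generalize Kd m * Kd m = E at *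
  generalize AIC (Kd m) (qq m) = a1 at *
  generalize SAC (Kd m) SC (qq m) (NN m) = a2 at *
  generalize COC (rh m) (Kd m) (Wd m) (UU m) (qq m) (NN m) (2 ^ kp m) (dn m) SC TB = a3 at *
  generalize PDC m (2 ^ ap m) = a4 at *
  generalize UPC m (2 ^ ap m) = a5 at *
  omega

theorem mulCost_le (k n T : ℕ) : mulCost k n T ≤ 100 * ((k + 1) * (n + T + 1)) := by
  have e : (k + 1) * (4 * (2 * n + 2 + T) + 12) = 8 * ((k + 1) * n) + 20 * (k + 1) + 4 * ((k + 1) * T) := by ring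
  have e2 : (k + 1) * (n + T + 1) = (k + 1) * n + (k + 1) * T + (k + 1) := by ring
  have h1 : n ≤ (k + 1) * n := Nat.le_mul_of_pos_left _ (by omega)
  have h2 : T ≤ (k + 1) * T := Nat.le_mul_of_pos_left _ (by omega)
  simp only [mulCost]
  omega

end Vale.Agent.Lib.P338.F
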