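import Vale.Agent.Lib.P338.Defs

/-!
Matrix transposition for every side length.
-/

namespace Vale.Agent.Lib.P338

/-- `B` transposes binary matrices of every side `m ≥ 1` within time `σ m`: the input is the matrix `f`
written row by row with no separators (entry `(r, c)` at cell `r * m + c`), and `B` halts within `σ m` steps
with exactly the transposed matrix, written row by row, on its output tape (all other cells of that tape
being blank). -/
def TransposesAll (B : MTM) (σ : ℕ → ℕ) : Prop :=
  ∀ (m : ℕ), 1 ≤ m → ∀ f : ℕ → ℕ → Bool,
    B.HaltsWithin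
      ((List.range (m * m)).map fun i => B.bitSym (f (i / m) (i % m))) (σ m) fun c =>
      (∀ r k : ℕ, r < m → k < m → c.tape B.out ((k * m + r : ℕ) : ℤ) = B.bitSym (f r k)) ∧
      (∀ i : ℤ, (i < 0 ∨ ((m * m : ℕ) : ℤ) ≤ i) → c.tape B.out i = B.blank)

end Vale.Agent.Lib.P338
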