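import Vale.Agent.Lib.P338.F.Stage

/-!
Reading the blocks of the data tape into the window of the product tape.
-/

namespace Vale.Agent.Lib.P338.F

open Vale.Agent.Lib.P338 Prog

section
variable {X G : Type}

/-- The environment of the dilation. -/
structure DE (K L W q N n P U dn : ℕ) (η : ZMod q) (c : TC X G) : Prop extends SE K L W q N n η c where
  rP : Ruler c (o .RP) P
  rPt : Ruler c (o .Rpt) P
  rQd : Ruler c (o .RQd) (q - P)
  rU : Ruler c (o .RU) U
  rUp : Ruler c (o .RUp) (W - U)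
  rQ : Ruler c (o .Rq) q
  rD : Ruler c (o .Rn) dn

/-- Tapes free for use without disturbing the environment of the dilation. -/
def de : FT → Bool
  | .RP | .Rpt | .RQd | .RU | .RUp | .Rq | .Rn => false
  | a => ne a

theorem of_de {a : FT} (h : de a = true) : ne a = true := by
  cases a <;> first | exact h | exact absurd h (by decide)

theorem DE.of_gen {K L W q N n P U dn : ℕ} {η : ZMod q} {c c' : TC X G} {l m : List FT} (h : DE K L W q N n P U dn η c) (f : Fr l m c c')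
    (hl : ∀ a ∈ l, wr a = true ∨ de a = true) (hm : ∀ a ∈ m, de a = true) (hE : FT.Eta ∉ l) : DE K L W q N n P U dn η c' := by
  have hn1 : ∀ b, wr b = false → de b = false → b ∉ l := fun b hb hb2 hc => by
    have := hl b hc
    rw [hb, hb2] at this
    simp at this
  have hn2 : ∀ b, de b = false → b ∉ m := fun b hb hc => by
    have := hm b hc
    rw [hb] at this
    exact absurd this (by simp)
  exact { toSE := h.toSE.of_gen f (fun a ha => (hl a ha).imp_right of_de) (fun a ha => of_de (hm a ha)) hE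
          rP := h.rP.of_fr f (hn1 _ rfl rfl) (hn2 _ rfl)
          rPt := h.rPt.of_fr f (hn1 _ rfl rfl) (hn2 _ rfl)
          rQd := h.rQd.of_fr f (hn1 _ rfl rfl) (hn2 _ rfl)
          rU := h.rU.of_fr f (hn1 _ rfl rfl) (hn2 _ rfl)
          rUp := h.rUp.of_fr f (hn1 _ rfl rfl) (hn2 _ rfl)
          rQ := h.rQ.of_fr f (hn1 _ rfl rfl) (hn2 _ rfl)
          rD := h.rD.of_fr f (hn1 _ rfl rfl) (hn2 _ rfl) }

theorem DE.of_se {K L W q N n P U dn : ℕ} {η : ZMod q} {c c' : TC X G} {l m : List FT} (h : DE K L W q N n P U dn η c)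
    (a : SE K L W q N n η c') (f : Fr l m c c')
    (hl : ∀ a ∈ l, isReg a = true ∨ de a = true) (hm : ∀ a ∈ m, de a = true) : DE K L W q N n P U dn η c' := by
  have hn1 : ∀ b, isReg b = false → de b = false → b ∉ l := fun b hb hb2 hc => by
    have := hl b hc
    rw [hb, hb2] at this
    simp at this
  have hn2 : ∀ b, de b = false → b ∉ m := fun b hb hc => by
    have := hm b hc
    rw [hb] at this
    exact absurd this (by simp)
  exact { toSE := a
          rP := h.rP.of_fr f (hn1 _ rfl rfl) (hn2 _ rfl)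
          rPt := h.rPt.of_fr f (hn1 _ rfl rfl) (hn2 _ rfl)
          rQd := h.rQd.of_fr f (hn1 _ rfl rfl) (hn2 _ rfl)
          rU := h.rU.of_fr f (hn1 _ rfl rfl) (hn2 _ rfl)
          rUp := h.rUp.of_fr f (hn1 _ rfl rfl) (hn2 _ rfl)
          rQ := h.rQ.of_fr f (hn1 _ rfl rfl) (hn2 _ rfl)
          rD := h.rD.of_fr f (hn1 _ rfl rfl) (hn2 _ rfl) }

/-- The element read from the `x`-th block. -/
def blkE (q U : ℕ) (η : ZMod q) (τ : ℤ → Sym G) (pos : ℕ) : Rq q η :=
  mkE q η (vl τ (pos : ℤ) U) (vl τ ((pos + U : ℕ) : ℤ) U)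

/-- The function in the window before the chain. -/
def f0 (q U P : ℕ) (η : ZMod q) (τ : ℤ → Sym G) (k : ℕ) : Rq q η :=
  if k % q < P ∧ k / q < P then blkE q U η τ ((k / q * P + k % q) * (2 * U)) else 0

theorem slE_frame {q W : ℕ} {η : ZMod q} {τ τ' : ℤ → Sym G} {t h : ℕ}
    (hc : ∀ x : ℤ, x < (h : ℤ) → τ' x = τ x) (hd : 3 * (t + 1) * W ≤ h) : slE q η W τ' t = slE q η W τ t := by
  have key : ∀ j, (j + 1) * W ≤ h → sv W τ' j = sv W τ j := by
    intro j hj
    apply vl_congr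
    intro i hi
    rw [hc]
    have e : j * W + i < h := by
      rw [add_mul, one_mul] at hj
      omega
    push_cast
    have : ((j * W + i : ℕ) : ℤ) < (h : ℤ) := by exact_mod_cast e
    push_cast at this
    exact this
  simp only [slE]
  rw [key (3 * t) (le_trans (Nat.mul_le_mul_right _ (by omega)) hd),
    key (3 * t + 1) (le_trans (Nat.mul_le_mul_right _ (by omega)) hd),
    key (3 * t + 2) (le_trans (Nat.mul_le_mul_right _ (by omega)) hd)]

theorem slE_blank {q W : ℕ} {η : ZMod q} {τ : ℤ → Sym G} {t : ℕ}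
    (hc : ∀ x : ℤ, ((3 * t * W : ℕ) : ℤ) ≤ x → τ x = .blank) : slE q η W τ t = 0 := by
  have key : ∀ j, 3 * t ≤ j → sv W τ j = 0 := by
    intro j hj
    apply vl_eq_zero
    intro i _
    rw [hc]
    · rfl
    · have : 3 * t * W ≤ j * W := Nat.mul_le_mul_right _ hj
      have h2 : ((3 * t * W : ℕ) : ℤ) ≤ ((j * W : ℕ) : ℤ) := by exact_mod_cast this
      have h3 : (0 : ℤ) ≤ i := by positivity
      omega
  simp only [slE]
  rw [key (3 * t) le_rfl, key (3 * t + 1) (by omega), key (3 * t + 2) (by omega)]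
  ext <;> simp

/-- The element in three slots, read from the cells. -/
theorem slE_of_block {q W U : ℕ} {η : ZMod q} {τ σ : ℤ → Sym G} {t pos : ℕ} (hU : U ≤ W)
    (h1 : ∀ i : ℕ, i < U → (τ ((3 * t * W : ℕ) + i)).isOne = (σ (pos + i)).isOne)
    (h2 : ∀ i : ℕ, U ≤ i → i < W → (τ ((3 * t * W : ℕ) + i)).isOne = false)
    (h3 : ∀ i : ℕ, i < U → (τ ((3 * t * W : ℕ) + W + i)).isOne = (σ ((pos + U : ℕ) + i)).isOne)
    (h4 : ∀ i : ℕ, U ≤ i → i < W → (τ ((3 * t * W : ℕ) + W + i)).isOne = false)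
    (h5 : ∀ i : ℕ, i < W → (τ ((3 * t * W : ℕ) + W + W + i)).isOne = false) :
    slE q η W τ t = blkE q U η σ pos := by
  have e : ∀ (a : ℤ) (σ' : ℤ → Sym G) (p' : ℤ), (∀ i : ℕ, i < U → (τ (a + i)).isOne = (σ' (p' + i)).isOne) →
      (∀ i : ℕ, U ≤ i → i < W → (τ (a + i)).isOne = false) → vl τ a W = vl σ' p' U := by
    intro a σ' p' e1 e2
    obtain ⟨d, rfl⟩ := Nat.exists_eq_add_of_le hU
    rw [vl_add]
    have e3 : vl τ (a + (U : ℤ)) d = 0 := by
      apply vl_eq_zero
      intro i hi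
      have := e2 (U + i) (by omega) (by omega)
      push_cast at this
      rw [← add_assoc] at this
      exact this
    rw [e3, mul_zero, add_zero]
    exact vl_congr e1
  have s0 : sv W τ (3 * t) = vl σ (pos : ℤ) U := e _ _ _ h1 h2
  have c1 : (((3 * t + 1) * W : ℕ) : ℤ) = ((3 * t * W : ℕ) : ℤ) + W := by push_cast; ring
  have c2 : (((3 * t + 2) * W : ℕ) : ℤ) = ((3 * t * W : ℕ) : ℤ) + W + W := by push_cast; ring
  have s1 : sv W τ (3 * t + 1) = vl σ ((pos + U : ℕ) : ℤ) U := by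
    simp only [sv]
    rw [c1]
    exact e _ _ _ h3 h4
  have s2 : sv W τ (3 * t + 2) = 0 := by
    simp only [sv]
    rw [c2]
    exact vl_eq_zero h5
  simp only [slE, blkE]
  rw [s0, s1, s2]
  ext <;> simp

variable [DecidableEq X]

/-- Read a block from the data tape into three slots. -/
def expB : Prog (FT ⊕ X) (Sym G) :=
  .seq (str .RU .D .P3) (.seq (adv .RUp .P3 .R) (.seq (str .RU .D .P3) (.seq (adv .RUp .P3 .R) (adv .RW .P3 .R))))

/-- Skip three slots. -/
def expS : Prog (FT ⊕ X) (Sym G) := .seq (adv .RW .P3 .R) (.seq (adv .RW .P3 .R) (adv .RW .P3 .R))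

/-- The invariant of the expansion. -/
structure ExI (W q U N : ℕ) (η : ZMod q) (f : ℕ → Rq q η) (c : TC X G) (idx : ℕ) : Prop where
  h3 : c.head (o .P3) = ((3 * (N + idx) * W : ℕ) : ℤ)
  sl : ∀ k, k < idx → slE q η W (c.tape (o .P3)) (N + k) = f k
  bl : ∀ x : ℤ, ((3 * (N + idx) * W : ℕ) : ℤ) ≤ x → c.tape (o .P3) x = .blank

theorem expB_spec {W q N U : ℕ} {η : ZMod q} (hU : U ≤ W) {f : ℕ → Rq q η} {c : TC X G} {idx pos : ℕ}
    (hRU : Ruler c (o .RU) U) (hRUp : Ruler c (o .RUp) (W - U)) (hRW : Ruler c (o .RW) W)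
    (hI : ExI W q U N η f c idx) (hD : c.head (o .D) = (pos : ℤ))
    (hf : blkE q U η (c.tape (o .D)) pos = f idx) :
    ∃ c', Run (expB : Prog (FT ⊕ X) (Sym G)) c c' (8 * U + 8 * (W - U) + 4 * W + 20) ∧ ExI W q U N η f c' (idx + 1) ∧
      c'.head (o .D) = ((pos + 2 * U : ℕ) : ℤ) ∧ Fr [.P3] [.D, .P3] c c' := by
  obtain ⟨c1, r1, a1, b1, d1, f1⟩ := str_spec (X := X) (G := G) .RU .D .P3 (by decide) c hRU
  obtain ⟨c2, r2, a2, f2⟩ := adv_spec (X := X) (G := G) .RUp .P3 .R (by decide) (by simp) c1 (hRUp.of_fr f1 (by decide) (by decide))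
  have f12 := f1.trans f2
  obtain ⟨c3, r3, a3, b3, d3, f3⟩ := str_spec (X := X) (G := G) .RU .D .P3 (by decide) c2 (hRU.of_fr f12 (by decide) (by decide))
  have f13 := f12.trans f3
  obtain ⟨c4, r4, a4, f4⟩ := adv_spec (X := X) (G := G) .RUp .P3 .R (by decide) (by simp) c3 (hRUp.of_fr f13 (by decide) (by decide))
  have f14 := f13.trans f4
  obtain ⟨c5, r5, a5, f5⟩ := adv_spec (X := X) (G := G) .RW .P3 .R (by decide) (by simp) c4 (hRW.of_fr f14 (by decide) (by decide))
  set h0 : ℕ := 3 * (N + idx) * W with hh0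
  have eh0 : c.head (o .P3) = (h0 : ℤ) := hI.h3
  have eh1 : c1.head (o .P3) = (h0 : ℤ) + U := by rw [b1, eh0]
  have eh2 : c2.head (o .P3) = (h0 : ℤ) + W := by
    rw [a2, eh1]
    simp only [Dir.toInt]
    push_cast [Nat.cast_sub hU]
    ring
  have eh3 : c3.head (o .P3) = (h0 : ℤ) + W + U := by rw [b3, eh2]
  have eh4 : c4.head (o .P3) = (h0 : ℤ) + W + W := by
    rw [a4, eh3]
    simp only [Dir.toInt]
    push_cast [Nat.cast_sub hU]
    ring
  have eh5 : c5.head (o .P3) = (h0 : ℤ) + W + W + W := by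
    rw [a5, eh4]
    simp [Dir.toInt]
  have ehd1 : c1.head (o .D) = (pos : ℤ) + U := by rw [a1, hD]
  have ehd2 : c2.head (o .D) = (pos : ℤ) + U := by rw [f2.head (by decide), ehd1]
  have etd2 : c2.tape (o .D) = c.tape (o .D) := by rw [f2.tape (by simp), f1.tape (by decide)]
  -- the tape of the product
  have t5 : ∀ x, c5.tape (o .P3) x =
      if (h0 : ℤ) + W ≤ x ∧ x < (h0 : ℤ) + W + U then bitW (c.tape (o .D) ((pos : ℤ) + U + (x - ((h0 : ℤ) + W))))
      else if (h0 : ℤ) ≤ x ∧ x < (h0 : ℤ) + U then bitW (c.tape (o .D) ((pos : ℤ) + (x - h0)))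
      else c.tape (o .P3) x := by
    intro x
    rw [f5.tape (by simp), f4.tape (by simp), d3, eh2, ehd2, etd2, f2.tape (by simp), d1, eh0, hD]
  have hb0 : ∀ x : ℤ, (h0 : ℤ) ≤ x → c.tape (o .P3) x = .blank := hI.bl
  have hL : slE q η W (c5.tape (o .P3)) (N + idx) = f idx := by
    rw [← hf]
    have e0 : 3 * (N + idx) * W = h0 := rfl
    apply slE_of_block hU
    · intro i hi
      rw [e0, t5, if_neg (by omega), if_pos (by omega)]
      have e1 : (pos : ℤ) + ((h0 : ℤ) + i - h0) = (pos : ℤ) + i := by ring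
      rw [e1]
      simp
    · intro i h1 h2
      rw [e0, t5, if_neg (by omega), if_neg (by omega), hb0 _ (by omega)]
      rfl
    · intro i hi
      rw [e0, t5, if_pos (by omega)]
      have e1 : (pos : ℤ) + U + ((h0 : ℤ) + W + i - ((h0 : ℤ) + W)) = ((pos + U : ℕ) : ℤ) + i := by
        push_cast
        ring
      rw [e1]
      simp
    · intro i h1 h2
      rw [e0, t5, if_neg (by omega), if_neg (by omega), hb0 _ (by omega)]
      rfl
    · intro i hi
      rw [e0, t5, if_neg (by omega), if_neg (by omega), hb0 _ (by omega)]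
      rfl
  have h03 : ((3 * (N + (idx + 1)) * W : ℕ) : ℤ) = (h0 : ℤ) + W + W + W := by
    rw [hh0]
    push_cast
    ring
  refine ⟨c5, (r1.seq (r2.seq (r3.seq (r4.seq r5)))).mono (by omega), ⟨?_, ?_, ?_⟩, ?_, ?_⟩
  · rw [eh5, h03]
  · intro k hk
    by_cases hk' : k < idx
    · rw [slE_frame (τ := c.tape (o .P3)) (h := h0) ?_ ?_]
      · exact hI.sl k hk'
      · intro x hx
        rw [t5, if_neg (by omega), if_neg (by omega)]
      · exact Nat.mul_le_mul_right _ (by omega)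
    · have : k = idx := by omega
      subst this
      exact hL
  · intro x hx
    rw [h03] at hx
    rw [t5, if_neg (by omega), if_neg (by omega), hb0 _ (by omega)]
  · rw [f5.head (by decide), f4.head (by decide), a3, ehd2]
    push_cast
    ring
  · exact (f1.trans (f2.trans (f3.trans (f4.trans f5)))).mono (by simp) (by simp)

theorem expS_spec {W q N U : ℕ} {η : ZMod q} {f : ℕ → Rq q η} {c : TC X G} {idx : ℕ} (hRW : Ruler c (o .RW) W)
    (hI : ExI W q U N η f c idx) (hf : f idx = 0) :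
    ∃ c', Run (expS : Prog (FT ⊕ X) (Sym G)) c c' (12 * W + 12) ∧ ExI W q U N η f c' (idx + 1) ∧ Fr [] [.P3] c c' := by
  obtain ⟨c1, r1, a1, f1⟩ := adv_spec (X := X) (G := G) .RW .P3 .R (by decide) (by simp) c hRW
  have hR1 := hRW.of_fr f1 (by simp) (by decide)
  obtain ⟨c2, r2, a2, f2⟩ := adv_spec (X := X) (G := G) .RW .P3 .R (by decide) (by simp) c1 hR1
  have hR2 := hR1.of_fr f2 (by simp) (by decide)
  obtain ⟨c3, r3, a3, f3⟩ := adv_spec (X := X) (G := G) .RW .P3 .R (by decide) (by simp) c2 hR2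
  have t3 : c3.tape (o .P3) = c.tape (o .P3) := by
    rw [f3.tape (by simp), f2.tape (by simp), f1.tape (by simp)]
  have h03 : ((3 * (N + (idx + 1)) * W : ℕ) : ℤ) = ((3 * (N + idx) * W : ℕ) : ℤ) + W + W + W := by
    push_cast
    ring
  refine ⟨c3, (r1.seq (r2.seq r3)).mono (by omega), ⟨?_, ?_, ?_⟩, (f1.trans (f2.trans f3)).mono (by simp) (by simp)⟩
  · rw [a3, a2, a1, hI.h3, h03]
    simp [Dir.toInt]
  · intro k hk
    rw [t3]
    by_cases hk' : k < idx
    · exact hI.sl k hk'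
    · have : k = idx := by omega
      subst this
      rw [hf]
      exact slE_blank (fun x hx => hI.bl x hx)
  · intro x hx
    rw [t3, hI.bl]
    rw [h03] at hx
    omega

theorem f0_in {q U P : ℕ} {η : ZMod q} {τ : ℤ → Sym G} {i j : ℕ} (hP : P ≤ q) (hi : i < P) (hj : j < P) :
    f0 q U P η τ (i * q + j) = blkE q U η τ ((i * P + j) * (2 * U)) := by
  have hq : 0 < q := by omega
  have e1 : (i * q + j) % q = j := by
    rw [add_comm, Nat.add_mul_mod_self_right, Nat.mod_eq_of_lt (by omega)]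
  have e2 : (i * q + j) / q = i := by
    rw [add_comm, Nat.add_mul_div_right _ _ hq, Nat.div_eq_of_lt (by omega), zero_add]
  unfold f0
  rw [e1, e2, if_pos ⟨hj, hi⟩]

theorem f0_out {q U P : ℕ} {η : ZMod q} {τ : ℤ → Sym G} {i j : ℕ} (hP : P ≤ j) (hj : j < q) :
    f0 q U P η τ (i * q + j) = 0 := by
  have hq : 0 < q := by omega
  have e1 : (i * q + j) % q = j := by
    rw [add_comm, Nat.add_mul_mod_self_right, Nat.mod_eq_of_lt (by omega)]
  unfold f0
  rw [e1, if_neg (by omega)]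

theorem f0_big {q U P : ℕ} {η : ZMod q} {τ : ℤ → Sym G} {k : ℕ} (hq : 0 < q) (hk : P * q ≤ k) :
    f0 q U P η τ k = 0 := by
  unfold f0
  rw [if_neg]
  rintro ⟨_, h2⟩
  have : P ≤ k / q := (Nat.le_div_iff_mul_le hq).2 hk
  omega

/-- Read a row of blocks. -/
def expRow : Prog (FT ⊕ X) (Sym G) := .seq (forR (o .Rpt) expB) (forR (o .RQd) expS)

/-- Rewind the product tape by a row. -/
def bckB : Prog (FT ⊕ X) (Sym G) := .seq (adv .RW .P3 .L) (.seq (adv .RW .P3 .L) (adv .RW .P3 .L))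

/-- The expansion: the data tape into the window of the product tape, all heads returning. -/
def expand : Prog (FT ⊕ X) (Sym G) :=
  .seq (adv .R3N .P3 .R) (.seq (forR (o .RP) expRow) (.seq (forR (o .RP) (forR (o .Rq) bckB))
    (.seq (adv .R3N .P3 .L) (adv .Rn .D .L))))

/-- The cost of a row of the expansion. -/
def XR (W q : ℕ) : ℕ := q * (12 * W + 24) + 8

theorem expRow_spec {W q N U P : ℕ} {η : ZMod q} (hU : U ≤ W) (hP : P ≤ q) {τ : ℤ → Sym G} {c : TC X G} {i : ℕ}
    (hi : i < P) (hRU : Ruler c (o .RU) U) (hRUp : Ruler c (o .RUp) (W - U)) (hRW : Ruler c (o .RW) W)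
    (hRpt : Ruler c (o .Rpt) P) (hRQd : Ruler c (o .RQd) (q - P))
    (hI : ExI W q U N η (f0 q U P η τ) c (i * q)) (hD : c.head (o .D) = ((i * P * (2 * U) : ℕ) : ℤ))
    (hDt : c.tape (o .D) = τ) :
    ∃ c', Run (expRow : Prog (FT ⊕ X) (Sym G)) c c' (XR W q) ∧ ExI W q U N η (f0 q U P η τ) c' ((i + 1) * q) ∧
      c'.head (o .D) = (((i + 1) * P * (2 * U) : ℕ) : ℤ) ∧ Fr [.P3] [.D, .P3] c c' := by
  obtain ⟨c1, ⟨i1, i2, i3⟩, hR1, r1⟩ := forU (R := .Rpt) (body := expB) (n := P)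
    (fun j c' => ExI W q U N η (f0 q U P η τ) c' (i * q + j) ∧ c'.head (o .D) = (((i * P + j) * (2 * U) : ℕ) : ℤ) ∧
      Fr [.P3] [.Rpt, .D, .P3] c c') (8 * U + 8 * (W - U) + 4 * W + 20) (c := c) hRpt
    ⟨hI, by simpa using hD, Fr.refl _ _ _⟩
    (by
      rintro j c2 c3 ⟨a1, a2, a3⟩ hf
      have t3 : c3.tape (o .P3) = c2.tape (o .P3) := hf.tape (by simp)
      refine ⟨⟨?_, ?_, ?_⟩, ?_, a3.tr hf (by simp) (by simp)⟩
      · rw [hf.head (by decide)]; exact a1.h3
      · intro k hk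
        rw [t3]
        exact a1.sl k hk
      · intro x hx
        rw [t3]
        exact a1.bl x hx
      · rw [hf.head (by decide)]; exact a2)
    (by
      rintro j hj c2 _ _ ⟨a1, a2, a3⟩
      obtain ⟨c3, r3, b1, b2, b3⟩ := expB_spec (f := f0 q U P η τ) (pos := (i * P + j) * (2 * U)) hU
        (hRU.of_fr a3 (by decide) (by decide)) (hRUp.of_fr a3 (by decide) (by decide)) (hRW.of_fr a3 (by decide) (by decide))
        a1 a2 (by
          rw [a3.tape (by decide), hDt, f0_in hP hi hj])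
      refine ⟨c3, r3, ⟨b1, ?_, a3.tr b3 (by simp) (by simp)⟩, b3.tape (by decide), b3.head (by decide)⟩
      rw [b2]
      congr 1
      ring)
  have f1 : Fr [.P3] [.D, .P3] c c1 := i3.fixR hRpt hR1
  obtain ⟨c2, ⟨j1, j2⟩, hR2, r2⟩ := forU (R := .RQd) (body := expS) (n := q - P)
    (fun j c' => ExI W q U N η (f0 q U P η τ) c' (i * q + (P + j)) ∧ Fr [] [.RQd, .P3] c1 c') (12 * W + 12) (c := c1)
    (hRQd.of_fr f1 (by decide) (by decide)) ⟨by simpa using i1, Fr.refl _ _ _⟩
    (by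
      rintro j c2 c3 ⟨a1, a3⟩ hf
      have t3 : c3.tape (o .P3) = c2.tape (o .P3) := hf.tape (by simp)
      refine ⟨⟨?_, ?_, ?_⟩, a3.tr hf (by simp) (by simp)⟩
      · rw [hf.head (by decide)]; exact a1.h3
      · intro k hk
        rw [t3]
        exact a1.sl k hk
      · intro x hx
        rw [t3]
        exact a1.bl x hx)
    (by
      rintro j hj c2 _ _ ⟨a1, a3⟩
      obtain ⟨c3, r3, b1, b3⟩ := expS_spec (f := f0 q U P η τ)
        ((hRW.of_fr f1 (by decide) (by decide)).of_fr a3 (by decide) (by decide)) a1 (f0_out (by omega) (by omega))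
      refine ⟨c3, r3, ⟨b1, a3.tr b3 (by simp) (by simp)⟩, b3.tape (by decide), b3.head (by decide)⟩)
  have f2 : Fr [] [.P3] c1 c2 := j2.fixR (hRQd.of_fr f1 (by decide) (by decide)) hR2
  have e : i * q + (P + (q - P)) = (i + 1) * q := by
    rw [add_mul]
    omega
  rw [e] at j1
  refine ⟨c2, (r1.seq r2).mono ?_, j1, ?_, f1.tr f2 (by simp) (by simp)⟩
  · unfold XR
    have e1 : 8 * U + 8 * (W - U) + 4 * W + 20 + 4 = 12 * W + 24 := by omega
    rw [e1]
    have e2 : q * (12 * W + 24) = P * (12 * W + 24) + (q - P) * (12 * W + 24) := by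
      rw [← add_mul]
      congr 1
      omega
    have e3 : (q - P) * (12 * W + 12 + 4) ≤ (q - P) * (12 * W + 24) := Nat.mul_le_mul_left _ (by omega)
    omega
  · rw [f2.head (by decide), i2]
    congr 1
    rw [add_mul (i) 1 P]
    ring_nf

/-- The cost of the expansion. -/
def XC (W q N P dn : ℕ) : ℕ := 4 * (3 * N * W) + 4 + (P * (XR W q + 4) + 4) + (P * (q * (12 * W + 12 + 4) + 4 + 4) + 4) +
  (4 * (3 * N * W) + 4) + (4 * dn + 4)

theorem expand_spec {K L W q N n P U dn : ℕ} {η : ZMod q} (hU : U ≤ W) (hP : P ≤ q) (hq : 0 < q)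
    (hdn : dn = P * P * (2 * U)) {c : TC X G} (h : DE K L W q N n P U dn η c)
    (hb : ∀ x, c.tape (o .P3) x = .blank) (h3 : c.head (o .P3) = 0) (hD : c.head (o .D) = 0) :
    ∃ c', Run (expand : Prog (FT ⊕ X) (Sym G)) c c' (XC W q N P dn) ∧ c'.head (o .P3) = 0 ∧
      (∀ k, k < N → slE q η W (c'.tape (o .P3)) (N + k) = f0 q U P η (c.tape (o .D)) k) ∧ Fr [.P3] [] c c' := by
  set τ := c.tape (o .D) with hτ
  obtain ⟨c1, r1, a1, f1⟩ := adv_spec (X := X) (G := G) .R3N .P3 .R (by decide) (by simp) c h.r3N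
  have d1 := h.of_gen f1 (by simp) (by decide) (by decide)
  have i1 : ExI W q U N η (f0 q U P η τ) c1 (0 * q) := by
    refine ⟨?_, ?_, ?_⟩
    · rw [a1, h3]
      simp [Dir.toInt]
    · intro k hk
      simp at hk
    · intro x _
      rw [f1.tape (by simp)]
      exact hb x
  obtain ⟨c2, ⟨j1, j2, j3⟩, hR2, r2⟩ := forU (R := .RP) (body := expRow) (n := P)
    (fun i c' => ExI W q U N η (f0 q U P η τ) c' (i * q) ∧ c'.head (o .D) = ((i * P * (2 * U) : ℕ) : ℤ) ∧
      Fr [.P3] [.RP, .D, .P3] c1 c') (XR W q) (c := c1) d1.rP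
    ⟨i1, by rw [f1.head (by decide), hD]; simp, Fr.refl _ _ _⟩
    (by
      rintro j c2 c3 ⟨a1, a2, a3⟩ hf
      have t3 : c3.tape (o .P3) = c2.tape (o .P3) := hf.tape (by simp)
      refine ⟨⟨?_, ?_, ?_⟩, ?_, a3.tr hf (by simp) (by simp)⟩
      · rw [hf.head (by decide)]; exact a1.h3
      · intro k hk
        rw [t3]
        exact a1.sl k hk
      · intro x hx
        rw [t3]
        exact a1.bl x hx
      · rw [hf.head (by decide)]; exact a2)
    (by
      rintro i hi c2 _ _ ⟨a1, a2, a3⟩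
      obtain ⟨c3, r3, b1, b2, b3⟩ := expRow_spec (τ := τ) hU hP hi (d1.rU.of_fr a3 (by decide) (by decide))
        (d1.rUp.of_fr a3 (by decide) (by decide)) (d1.rW.of_fr a3 (by decide) (by decide))
        (d1.rPt.of_fr a3 (by decide) (by decide)) (d1.rQd.of_fr a3 (by decide) (by decide))
        a1 a2 (by rw [a3.tape (by decide), f1.tape (by simp)])
      exact ⟨c3, r3, ⟨b1, b2, a3.tr b3 (by simp) (by simp)⟩, b3.tape (by decide), b3.head (by decide)⟩)
  have f2 : Fr [.P3] [.D, .P3] c1 c2 := j3.fixR d1.rP hR2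
  have d2 := d1.of_gen f2 (by decide) (by decide) (by decide)
  -- rewinding the product tape
  have hh2 : c2.head (o .P3) + ((3 * (0 * q) * W : ℕ) : ℤ) = ((3 * (N + P * q) * W : ℕ) : ℤ) := by
    have := j1.h3
    simp only [Nat.zero_mul, Nat.mul_zero, Nat.cast_zero, add_zero]
    exact this
  obtain ⟨c3, ⟨k1, k2⟩, hR3, r3⟩ := forU (R := .RP) (body := forR (o .Rq) bckB) (n := P)
    (fun i c' => c'.head (o .P3) + ((3 * (i * q) * W : ℕ) : ℤ) = ((3 * (N + P * q) * W : ℕ) : ℤ) ∧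
      Fr [] [.RP, .P3] c2 c') (q * (12 * W + 12 + 4) + 4) (c := c2) d2.rP
    ⟨hh2, Fr.refl _ _ _⟩
    (by
      rintro j c2 c3 ⟨a1, a3⟩ hf
      exact ⟨by rw [hf.head (by decide)]; exact a1, a3.tr hf (by simp) (by simp)⟩)
    (by
      rintro i hi c4 _ _ ⟨a1, a3⟩
      obtain ⟨c5, ⟨m1, m2⟩, hR5, r5⟩ := forU (R := .Rq) (body := bckB) (n := q)
        (fun j c' => c'.head (o .P3) + ((3 * (i * q + j) * W : ℕ) : ℤ) = ((3 * (N + P * q) * W : ℕ) : ℤ) ∧
          Fr [] [.Rq, .P3] c4 c') (12 * W + 12) (c := c4) (d2.rQ.of_fr a3 (by decide) (by decide))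
        ⟨by simpa using a1, Fr.refl _ _ _⟩
        (by
          rintro j c2 c3 ⟨b1, b3⟩ hf
          exact ⟨by rw [hf.head (by decide)]; exact b1, b3.tr hf (by simp) (by simp)⟩)
        (by
          rintro j hj c5 _ _ ⟨b1, b3⟩
          have hRW : Ruler c5 (o .RW) W := (d2.rW.of_fr a3 (by decide) (by decide)).of_fr b3 (by decide) (by decide)
          obtain ⟨c6, r6, e1, f6⟩ := adv_spec (X := X) (G := G) .RW .P3 .L (by decide) (by simp) c5 hRW
          have hR1 := hRW.of_fr f6 (by simp) (by decide)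
          obtain ⟨c7, r7, e2, f7⟩ := adv_spec (X := X) (G := G) .RW .P3 .L (by decide) (by simp) c6 hR1
          have hR2 := hR1.of_fr f7 (by simp) (by decide)
          obtain ⟨c8, r8, e3, f8⟩ := adv_spec (X := X) (G := G) .RW .P3 .L (by decide) (by simp) c7 hR2
          have f9 : Fr [] [.P3] c5 c8 := (f6.trans (f7.trans f8)).mono (by simp) (by simp)
          refine ⟨c8, (r6.seq (r7.seq r8)).mono (by omega), ⟨?_, b3.tr f9 (by simp) (by simp)⟩, f9.tape (by simp), f9.head (by decide)⟩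
          rw [e3, e2, e1, ← b1]
          simp only [Dir.toInt]
          push_cast
          ring)
      have f5 : Fr [] [.P3] c4 c5 := m2.fixR (d2.rQ.of_fr a3 (by decide) (by decide)) hR5
      refine ⟨c5, r5, ⟨?_, a3.tr f5 (by simp) (by simp)⟩, f5.tape (by simp), f5.head (by decide)⟩
      rw [← m1]
      congr 2
      ring)
  have f3 : Fr [] [.P3] c2 c3 := k2.fixR d2.rP hR3
  have d3 := d2.of_gen f3 (by simp) (by decide) (by decide)
  obtain ⟨c4, r4, e4, f4⟩ := adv_spec (X := X) (G := G) .R3N .P3 .L (by decide) (by simp) c3 d3.r3N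
  have d4 := d3.of_gen f4 (by simp) (by decide) (by decide)
  obtain ⟨c5, r5, e5, f5⟩ := adv_spec (X := X) (G := G) .Rn .D .L (by decide) (by simp) c4 d4.rD
  have hh4 : c4.head (o .P3) = 0 := by
    rw [e4]
    have e6 : c3.head (o .P3) = ((3 * N * W : ℕ) : ℤ) := by
      have e7 : ((3 * (N + P * q) * W : ℕ) : ℤ) = ((3 * N * W : ℕ) : ℤ) + ((3 * (P * q) * W : ℕ) : ℤ) := by
        push_cast
        ring
      rw [e7] at k1
      omega
    rw [e6]
    simp [Dir.toInt]
  have t5 : c5.tape (o .P3) = c2.tape (o .P3) := by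
    rw [f5.tape (by simp), f4.tape (by simp), f3.tape (by simp)]
  refine ⟨c5, (r1.seq (r2.seq (r3.seq (r4.seq r5)))).mono ?_, ?_, ?_, ?_⟩
  · unfold XC
    omega
  · rw [f5.head (by decide), hh4]
  · intro k hk
    rw [t5]
    by_cases hk2 : k < P * q
    · exact j1.sl k hk2
    · rw [f0_big hq (by omega)]
      exact slE_blank (fun x hx => j1.bl x (by
        have : 3 * (N + P * q) * W ≤ 3 * (N + k) * W := Nat.mul_le_mul_right _ (by omega)
        have h2 : ((3 * (N + P * q) * W : ℕ) : ℤ) ≤ ((3 * (N + k) * W : ℕ) : ℤ) := by exact_mod_cast this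
        omega))
  · have f6 : Fr [.P3] [.D, .P3] c c5 := (f1.trans (f2.trans (f3.trans (f4.trans f5)))).mono (by simp) (by simp)
    refine ⟨f6.tp, ?_, f6.cl⟩
    intro a _
    by_cases ha : a = .D
    · subst ha
      rw [e5, f4.head (by decide), f3.head (by decide), j2, hD, hdn]
      simp only [Dir.toInt]
      push_cast
      ring
    · by_cases hb' : a = .P3
      · subst hb'
        rw [f5.head (by decide), hh4, h3]
      · exact f6.hd a (by simp [ha, hb'])

end

end Vale.Agent.Lib.P338.F
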