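import Vale.Agent.Lib.P338.F.Math

namespace Vale.Agent.Lib.P338.F

open Finset QuadraticAlgebra

/-- The quadratic extension. -/
abbrev Rq (q : ℕ) (η : ZMod q) := QuadraticAlgebra (ZMod q) η 0

/-- `z` has multiplicative order exactly `D`. -/
def OrderIs {M : Type*} [Monoid M] (z : M) (D : ℕ) : Prop := z ^ D = 1 ∧ ∀ k : ℕ, 0 < k → k < D → z ^ k ≠ 1

section
variable {q : ℕ} [hq : Fact q.Prime] {η : ZMod q} [hη : Fact (∀ r : ZMod q, r ^ 2 ≠ η + 0 * r)]

theorem eta_ne_zero : η ≠ 0 := by
  intro h
  have := hη.out 0
  simp [h] at this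

theorem not_isSquare_eta : ¬ IsSquare η := by
  rintro ⟨r, hr⟩
  apply hη.out r
  rw [hr]
  ring

theorem eta_pow (hodd : q ≠ 2) : η ^ (q / 2) = -1 := by
  rcases ZMod.pow_div_two_eq_neg_one_or_one q (a := η) eta_ne_zero with h | h
  · exact absurd ((ZMod.euler_criterion q eta_ne_zero).2 h) not_isSquare_eta
  · exact h

instance charP_Rq : CharP (Rq q η) q := by
  apply charP_of_injective_algebraMap (R := ZMod q) (A := Rq q η)
  · exact (algebraMap (ZMod q) (Rq q η)).injective

theorem frob (hodd : q ≠ 2) (z : Rq q η) : z ^ q = (⟨z.re, -z.im⟩ : Rq q η) := by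
  have hz : z = algebraMap (ZMod q) (Rq q η) z.re + algebraMap (ZMod q) (Rq q η) z.im * (QuadraticAlgebra.omega : Rq q η) := by
    ext <;> simp
  have hw : ((QuadraticAlgebra.omega : Rq q η)) ^ q = algebraMap (ZMod q) (Rq q η) (-1) * QuadraticAlgebra.omega := by
    have e : q = 2 * (q / 2) + 1 := by
      have := hq.out.eq_one_or_self_of_dvd 2
      have h2 : q % 2 = 1 := (hq.out.eq_two_or_odd).resolve_left hodd
      omega
    have e2 : (QuadraticAlgebra.omega : Rq q η) ^ 2 = algebraMap (ZMod q) (Rq q η) η := by
      ext <;> simp [pow_two]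
    calc ((QuadraticAlgebra.omega : Rq q η)) ^ q = ((QuadraticAlgebra.omega : Rq q η) ^ 2) ^ (q / 2) * QuadraticAlgebra.omega := by
          rw [← pow_mul, ← pow_succ, ← e]
      _ = algebraMap (ZMod q) (Rq q η) (η ^ (q / 2)) * QuadraticAlgebra.omega := by
          rw [e2, map_pow]
      _ = _ := by rw [eta_pow hodd]
  have hx : ∀ x : ZMod q, (algebraMap (ZMod q) (Rq q η) x) ^ q = algebraMap (ZMod q) (Rq q η) x := by
    intro x
    rw [← map_pow, ZMod.pow_card]
  conv_lhs => rw [hz]
  rw [add_pow_char, mul_pow, hx, hx, hw]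
  ext <;> simp

theorem card_Rq : Nat.card (Rq q η) = q * q := by
  rw [Nat.card_congr (QuadraticAlgebra.equivProd η (0 : ZMod q)), Nat.card_prod, Nat.card_zmod]

instance finite_Rq : Finite (Rq q η) := by
  apply Finite.of_equiv _ (QuadraticAlgebra.equivProd η (0 : ZMod q)).symm

theorem exists_gen : ∃ g : (Rq q η)ˣ, OrderIs g (q * q - 1) := by
  obtain ⟨g, hg⟩ := IsCyclic.exists_generator (α := (Rq q η)ˣ)
  have hord : orderOf g = q * q - 1 := by
    rw [orderOf_eq_card_of_forall_mem_zpowers hg, Nat.card_units, card_Rq]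
  refine ⟨g, ?_, ?_⟩
  · rw [← hord]
    exact pow_orderOf_eq_one g
  · intro k hk hk2 he
    have := orderOf_le_of_pow_eq_one hk he
    omega

theorem OrderIs.coe {g : (Rq q η)ˣ} {D : ℕ} (h : OrderIs g D) : OrderIs (g : Rq q η) D := by
  refine ⟨?_, ?_⟩
  · have := congrArg Units.val h.1
    simpa using this
  · intro k hk hk2 he
    apply h.2 k hk hk2
    apply Units.ext
    simpa using he

/-- An element of norm one of full order. -/
theorem exists_beta (hodd : q ≠ 2) :
    ∃ z : Rq q η, OrderIs z (q + 1) ∧ z.re * z.re - η * (z.im * z.im) = 1 := by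
  obtain ⟨g, h1, h2⟩ := exists_gen (q := q) (η := η)
  have hq2 : 2 ≤ q := hq.out.two_le
  have e1 : q * q - 1 = (q - 1) * (q + 1) := by
    obtain ⟨r, rfl⟩ : ∃ r, q = r + 1 := ⟨q - 1, by omega⟩
    simp only [Nat.add_sub_cancel]
    have : (r + 1) * (r + 1) = r * (r + 1 + 1) + 1 := by ring
    omega
  set G : Rq q η := (g : Rq q η) ^ (q - 1) with hG
  have hg1 : (g : Rq q η) ^ (q * q - 1) = 1 := by
    have := congrArg Units.val h1
    simpa using this
  have hord : OrderIs G (q + 1) := by
    refine ⟨?_, ?_⟩
    · rw [hG, ← pow_mul, ← e1, hg1]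
    · intro k hk hk2 he
      rw [hG, ← pow_mul] at he
      apply h2 ((q - 1) * k)
      · exact Nat.mul_pos (by omega) hk
      · rw [e1]
        exact Nat.mul_lt_mul_of_pos_left hk2 (by omega)
      · apply Units.ext
        simpa using he
  refine ⟨G, hord, ?_⟩
  have h3 : G * G ^ q = 1 := by
    rw [← pow_succ']
    exact hord.1
  rw [frob hodd] at h3
  have h4 := congrArg QuadraticAlgebra.re h3
  simp only [re_mul, QuadraticAlgebra.re_one] at h4
  linear_combination h4

/-- An element of the prime field of full order. -/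
theorem exists_alpha : ∃ a : ℕ, 0 < a ∧ a < q ∧ OrderIs (((a : ZMod q) : ZMod q)) (q - 1) := by
  obtain ⟨g, hg⟩ := IsCyclic.exists_generator (α := (ZMod q)ˣ)
  have hord : orderOf g = q - 1 := by
    rw [orderOf_eq_card_of_forall_mem_zpowers hg, Nat.card_eq_fintype_card, ZMod.card_units]
  have hne : (g : ZMod q) ≠ 0 := g.ne_zero
  refine ⟨(g : ZMod q).val, ?_, ZMod.val_lt _, ?_, ?_⟩
  · exact Nat.pos_of_ne_zero (by simpa using hne)
  · rw [ZMod.natCast_zmod_val, ← hord, ← Units.val_pow_eq_pow_val, pow_orderOf_eq_one]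
    rfl
  · intro k hk hk2 he
    rw [ZMod.natCast_zmod_val] at he
    have h1 : g ^ k = 1 := Units.ext (by simpa using he)
    have := orderOf_le_of_pow_eq_one hk h1
    omega

/-- The prime field inside the extension preserves orders. -/
theorem OrderIs.toR {x : ZMod q} {D : ℕ} (h : OrderIs x D) : OrderIs (algebraMap (ZMod q) (Rq q η) x) D := by
  refine ⟨?_, ?_⟩
  · rw [← map_pow, h.1, map_one]
  · intro k hk hk2 he
    rw [← map_pow, ← map_one (algebraMap (ZMod q) (Rq q η))] at he
    exact h.2 k hk hk2 ((algebraMap (ZMod q) (Rq q η)).injective he)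

/-- At most two imaginary parts for a given real part and norm one. -/
theorem norm_card (x : ZMod q) :
    ((univ : Finset (ZMod q)).filter fun y => x * x - η * (y * y) = 1).card ≤ 2 := by
  have hη0 : η ≠ 0 := eta_ne_zero
  by_cases h : ∃ y0, x * x - η * (y0 * y0) = 1
  · obtain ⟨y0, hy0⟩ := h
    have hs : ((univ : Finset (ZMod q)).filter fun y => x * x - η * (y * y) = 1) ⊆ {y0, -y0} := by
      intro y hy
      simp only [mem_filter, mem_univ, true_and] at hy
      simp only [mem_insert, mem_singleton]
      have e : η * ((y - y0) * (y + y0)) = 0 := by linear_combination hy0 - hy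
      rcases mul_eq_zero.1 e with e1 | e1
      · exact absurd e1 hη0
      · rcases mul_eq_zero.1 e1 with e2 | e2
        · left
          exact sub_eq_zero.1 e2
        · right
          linear_combination e2
    exact (card_le_card hs).trans (card_le_two)
  · have : ((univ : Finset (ZMod q)).filter fun y => x * x - η * (y * y) = 1) = ∅ := by
      apply filter_eq_empty_iff.2
      intro y _ hy
      exact h ⟨y, hy⟩
    rw [this]
    simp

end

/-- The product of elements of coprime-like orders. -/
theorem order_mul {F : Type*} [Field F] (h2 : (2 : F) ≠ 0) {a b : F} {w : ℕ} (hw : 1 ≤ w)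
    (ha : OrderIs a (2 * w)) (hb : OrderIs b (2 * (w + 1))) :
    OrderIs (a * b) (2 * w * (w + 1)) := by
  have hcop : Nat.Coprime w (w + 1) := by simp
  refine ⟨?_, ?_⟩
  · rw [mul_pow]
    have e1 : 2 * w * (w + 1) = (2 * w) * (w + 1) := rfl
    have e2 : 2 * w * (w + 1) = (2 * (w + 1)) * w := by ring
    rw [e1, pow_mul, ha.1, one_pow, ← e1, e2, pow_mul, hb.1, one_pow, mul_one]
  · intro k hk hk2 he
    have ha0 : a ≠ 0 := by
      rintro rfl
      have := ha.1
      rw [zero_pow (by omega)] at this
      exact zero_ne_one this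
    have hb0 : b ≠ 0 := by
      rintro rfl
      have := hb.1
      rw [zero_pow (by omega)] at this
      exact zero_ne_one this
    -- the order criterion in terms of divisibility
    have hd : ∀ (z : F) (D n : ℕ), OrderIs z D → 0 < D → z ^ n = 1 → D ∣ n := by
      intro z D n hz hD hn
      by_contra hnd
      have h1 : z ^ (n % D) = 1 := by
        have := Nat.div_add_mod n D
        rw [← this, pow_add, pow_mul, hz.1, one_pow, one_mul] at hn
        exact hn
      have h3 : 0 < n % D := Nat.pos_of_ne_zero fun h0 => hnd (Nat.dvd_of_mod_eq_zero h0)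
      exact hz.2 _ h3 (Nat.mod_lt _ hD) h1
    set x := a ^ k with hx
    have hxb : x * b ^ k = 1 := by
      rw [hx, ← mul_pow]
      exact he
    have hx1 : x ^ (2 * w) = 1 := by
      rw [hx, ← pow_mul, mul_comm, pow_mul, ha.1, one_pow]
    have hx2 : (b ^ k) ^ (2 * (w + 1)) = 1 := by
      rw [← pow_mul, mul_comm, pow_mul, hb.1, one_pow]
    have hx3 : x ^ (2 * (w + 1)) = 1 := by
      have := congrArg (· ^ (2 * (w + 1))) hxb
      simp only [mul_pow, one_pow, hx2, mul_one] at this
      exact this
    have hx4 : x ^ 2 = 1 := by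
      have e : x ^ (2 * (w + 1)) = x ^ (2 * w) * x ^ 2 := by
        rw [← pow_add]
        congr 1
      rw [e, hx1, one_mul] at hx3
      exact hx3
    have hcases : x = 1 ∨ x = -1 := by
      have : (x - 1) * (x + 1) = 0 := by linear_combination hx4
      rcases mul_eq_zero.1 this with h | h
      · left; exact sub_eq_zero.1 h
      · right; linear_combination h
    have hk1 : k < 2 * w * (w + 1) := hk2
    rcases hcases with h1 | h1
    · have hbk : b ^ k = 1 := by rw [h1, one_mul] at hxb; exact hxb
      have d1 := hd a _ k ha (by omega) (by rw [← hx]; exact h1)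
      have d2 := hd b _ k hb (by omega) hbk
      have hw1 : w ∣ k := (Dvd.intro_left _ rfl).trans d1
      have hw2 : 2 ∣ k := (Dvd.intro _ rfl).trans d1
      have hw3 : w + 1 ∣ k := (Dvd.intro_left _ rfl).trans d2
      -- the least common multiple
      have hm : 2 * w * (w + 1) ∣ k := by
        obtain ⟨k1, hk1'⟩ := d1
        have : (w + 1) ∣ (2 * w) * k1 := by rw [← hk1']; exact hw3
        have h4 : (w + 1) ∣ 2 * k1 := by
          have e : (2 * w) * k1 = w * (2 * k1) := by ring
          rw [e] at this
          exact (Nat.Coprime.dvd_of_dvd_mul_left hcop.symm this)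
        have d3 := d2
        obtain ⟨k2, hk2'⟩ := d2
        have h5 : w * k1 = (w + 1) * k2 := by
          have : 2 * (w * k1) = 2 * ((w + 1) * k2) := by
            rw [← mul_assoc, ← hk1', ← mul_assoc, ← hk2']
          omega
        have h6 : (w + 1) ∣ k1 := by
          have : (w + 1) ∣ w * k1 := ⟨k2, h5⟩
          exact Nat.Coprime.dvd_of_dvd_mul_left hcop.symm this
        obtain ⟨k3, hk3⟩ := h6
        exact ⟨k3, by rw [hk1', hk3]; ring⟩
      have := Nat.le_of_dvd hk hm
      omega
    · -- the case of a minus sign is impossible by parity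
      have hbk : b ^ k = -1 := by
        rw [h1] at hxb
        linear_combination -hxb
      have h1x : a ^ (2 * k) = 1 := by
        rw [pow_mul', ← hx, h1]
        ring
      have h2x : b ^ (2 * k) = 1 := by
        rw [pow_mul', hbk]
        ring
      obtain ⟨e, he1⟩ := hd a _ (2 * k) ha (by omega) h1x
      obtain ⟨f, hf1⟩ := hd b _ (2 * k) hb (by omega) h2x
      have hne : (-1 : F) ≠ 1 := by
        intro h
        apply h2
        have : (2 : F) = 1 - (-1) := by ring
        rw [this, h]
        ring
      have ke : k = w * e := by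
        have : 2 * k = 2 * (w * e) := by rw [he1]; ring
        omega
      have kf : k = (w + 1) * f := by
        have : 2 * k = 2 * ((w + 1) * f) := by rw [hf1]; ring
        omega
      have eodd : Odd e := by
        by_contra hne2
        rw [Nat.not_odd_iff_even] at hne2
        obtain ⟨e', he'⟩ := hne2
        have : a ^ k = 1 := by
          have e2 : k = 2 * w * e' := by rw [ke, he']; ring
          rw [e2, pow_mul, ha.1, one_pow]
        rw [← hx, h1] at this
        exact hne this
      have fodd : Odd f := by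
        by_contra hne2
        rw [Nat.not_odd_iff_even] at hne2
        obtain ⟨f', hf'⟩ := hne2
        have : b ^ k = 1 := by
          have e2 : k = 2 * (w + 1) * f' := by rw [kf, hf']; ring
          rw [e2, pow_mul, hb.1, one_pow]
        rw [hbk] at this
        exact hne this
      have hpar : w * e = (w + 1) * f := by rw [← ke, ← kf]
      have p1 : Even (w * e) ↔ Even w := by
        rw [Nat.even_mul]
        simp [Nat.not_even_iff_odd.2 eodd]
      have p2 : Even ((w + 1) * f) ↔ Even (w + 1) := by
        rw [Nat.even_mul]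
        simp [Nat.not_even_iff_odd.2 fodd]
      rw [hpar, p2] at p1
      have p3 : Even (w + 1) ↔ ¬ Even w := Nat.even_add_one
      tauto

end Vale.Agent.Lib.P338.F
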