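import Vale.Agent.Lib.P338.F.Alu
import Vale.Agent.Lib.P338.F.Ext

/-!
Elements of the quadratic extension in pairs of registers.
-/

namespace Vale.Agent.Lib.P338.F

open Vale.Agent.Lib.P338 Prog

/-- The element of the extension with the given coordinates. -/
def mkE (q : ℕ) (η : ZMod q) (a b : ℕ) : Rq q η := ⟨(a : ZMod q), (b : ZMod q)⟩

@[simp] theorem mkE_re (q : ℕ) (η : ZMod q) (a b : ℕ) : (mkE q η a b).re = (a : ZMod q) := rfl
@[simp] theorem mkE_im (q : ℕ) (η : ZMod q) (a b : ℕ) : (mkE q η a b).im = (b : ZMod q) := rfl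

theorem mkE_mul (q : ℕ) (η : ZMod q) {a b u w e : ℕ} (he : (e : ZMod q) = η) :
    mkE q η ((a * u + (b * w % q) * e) % q) ((a * w + b * u) % q) = mkE q η a b * mkE q η u w := by
  ext
  · simp only [mkE_re, QuadraticAlgebra.re_mul, mkE_im, ZMod.natCast_mod]
    push_cast
    rw [he]
    simp only [ZMod.natCast_mod]
    push_cast
    ring
  · simp only [mkE_im, QuadraticAlgebra.im_mul, mkE_re, ZMod.natCast_mod]
    push_cast
    simp

section
variable {X G : Type}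

/-- The arithmetic unit together with the field: the number in `Eta` represents `η`. -/
structure FE (K L W q : ℕ) (η : ZMod q) (c : TC X G) : Prop extends Alu K L W q c where
  etaLt : vr K c .Eta < q
  etaEq : ((vr K c .Eta : ℕ) : ZMod q) = η

/-- The fixed data of the arithmetic unit. -/
structure AP (sm : Prog (FT ⊕ X) (Sym G)) (K L SC q : ℕ) : Prop where
  hsm : SmulOK sm K SC
  hq : 0 < q
  hKL : 2 * L ≤ K
  hLq : 2 * q * q ≤ 2 ^ L

/-- The element held by two registers. -/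
abbrev elt (K q : ℕ) (η : ZMod q) (c : TC X G) (a b : FT) : Rq q η := mkE q η (vr K c a) (vr K c b)

/-- A pair of registers holds a reduced element. -/
def LtE (K q : ℕ) (c : TC X G) (a b : FT) : Prop := vr K c a < q ∧ vr K c b < q

theorem LtE.of_fr {K q : ℕ} {c c' : TC X G} {a b : FT} (h : LtE K q c a b) {l m : List FT} (f : Fr l m c c')
    (h1 : a ∉ l) (h2 : b ∉ l) : LtE K q c' a b := by
  simp only [LtE, vr]
  rw [f.tape h1, f.tape h2]
  exact h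

theorem elt_of_fr {K q : ℕ} {η : ZMod q} {c c' : TC X G} {a b : FT} {l m : List FT} (f : Fr l m c c')
    (h1 : a ∉ l) (h2 : b ∉ l) : elt K q η c' a b = elt K q η c a b := by
  simp only [elt, vr]
  rw [f.tape h1, f.tape h2]

theorem vr_of_fr {K : ℕ} {c c' : TC X G} {a : FT} {l m : List FT} (f : Fr l m c c') (h1 : a ∉ l) :
    vr K c' a = vr K c a := by
  simp only [vr]
  rw [f.tape h1]

theorem FE.of_fr {K L W q : ℕ} {η : ZMod q} {c c' : TC X G} {l : List FT} (h : FE K L W q η c) (f : Fr l [] c c')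
    (hl : ∀ a ∈ l, wr a = true ∨ a = .Cy) (hcy : (c'.read (o .Cy)).isOne = false) (hE : FT.Eta ∉ l) : FE K L W q η c' :=
  { toAlu := h.toAlu.of_fr f hl hcy
    etaLt := by rw [vr_of_fr f hE]; exact h.etaLt
    etaEq := by rw [vr_of_fr f hE]; exact h.etaEq }

theorem FE.of_alu {K L W q : ℕ} {η : ZMod q} {c c' : TC X G} {l m : List FT} (h : FE K L W q η c) (a : Alu K L W q c')
    (f : Fr l m c c') (hE : FT.Eta ∉ l) : FE K L W q η c' :=
  { toAlu := a
    etaLt := by rw [vr_of_fr f hE]; exact h.etaLt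
    etaEq := by rw [vr_of_fr f hE]; exact h.etaEq }

variable [DecidableEq X]

/-- Multiply two register pairs into `(ZA, ZB)`. -/
def mulZ (sm : Prog (FT ⊕ X) (Sym G)) (A1 A2 B1 B2 : FT) : Prog (FT ⊕ X) (Sym G) :=
  .seq (cpy .RS A1 .FA) (.seq (cpy .RS A2 .FB) (.seq (cpy .RS B1 .GA) (.seq (cpy .RS B2 .GB) (fmul sm))))

/-- The scratch registers of a field multiplication. -/
abbrev mT : List FT := [.FA, .FB, .GA, .GB, .Y0, .Y1, .Y2, .Y3, .ZA, .ZB, .X1, .X2, .X3, .Tz, .Cy]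

/-- The cost of `mulZ`. -/
def MZ (K SC : ℕ) : ℕ := FC K SC + 48 * K + 48

theorem mulZ_spec {K L W q SC : ℕ} {η : ZMod q} {sm : Prog (FT ⊕ X) (Sym G)} (ap : AP sm K L SC q)
    (A1 A2 B1 B2 : FT) (hA : isReg A1 = true ∧ isReg A2 = true ∧ isReg B1 = true ∧ isReg B2 = true ∧
      A1 ∉ [FT.FA, .FB, .GA, .GB] ∧ A2 ∉ [FT.FA, .FB, .GA, .GB] ∧ B1 ∉ [FT.FA, .FB, .GA, .GB] ∧ B2 ∉ [FT.FA, .FB, .GA, .GB])
    {c : TC X G} (h : FE K L W q η c) (h1 : LtE K q c A1 A2) (h2 : LtE K q c B1 B2) :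
    ∃ c', Run (mulZ sm A1 A2 B1 B2) c c' (MZ K SC) ∧ FE K L W q η c' ∧ LtE K q c' .ZA .ZB ∧
      elt K q η c' .ZA .ZB = elt K q η c A1 A2 * elt K q η c B1 B2 ∧ Fr mT [] c c' := by
  obtain ⟨i1, i2, i3, i4, i5, i6, i7, i8⟩ := hA
  simp only [List.mem_cons, List.not_mem_nil, or_false, not_or] at i5 i6 i7 i8
  obtain ⟨c1, r1, a1, v1, _, f1⟩ := mov_spec A1 .FA rfl i1 i5.1 h.toAlu
  obtain ⟨c2, r2, a2, v2, _, f2⟩ := mov_spec A2 .FB rfl i2 i6.2.1 a1
  obtain ⟨c3, r3, a3, v3, _, f3⟩ := mov_spec B1 .GA rfl i3 i7.2.2.1 a2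
  obtain ⟨c4, r4, a4, v4, _, f4⟩ := mov_spec B2 .GB rfl i4 i8.2.2.2 a3
  have f14 : Fr [.FA, .FB, .GA, .GB] [] c c4 := (f1.trans (f2.trans (f3.trans f4))).mono (by simp) (by simp)
  have eA1 : vr K c4 .FA = vr K c A1 := by
    rw [vr_of_fr f4 (by decide), vr_of_fr f3 (by decide), vr_of_fr f2 (by decide), v1]
  have eA2 : vr K c4 .FB = vr K c A2 := by
    rw [vr_of_fr f4 (by decide), vr_of_fr f3 (by decide), v2, vr_of_fr f1 (by simpa using i6.1)]
  have eB1 : vr K c4 .GA = vr K c B1 := by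
    rw [vr_of_fr f4 (by decide), v3, vr_of_fr f2 (by simpa using i7.2.1), vr_of_fr f1 (by simpa using i7.1)]
  have eB2 : vr K c4 .GB = vr K c B2 := by
    rw [v4, vr_of_fr f3 (by simpa using i8.2.2.1), vr_of_fr f2 (by simpa using i8.2.1), vr_of_fr f1 (by simpa using i8.1)]
  have eE : vr K c4 .Eta = vr K c .Eta := vr_of_fr f14 (by decide)
  obtain ⟨c5, r5, a5, v7, v8, f5⟩ := fmul_num ap.hsm ap.hq ap.hKL ap.hLq a4 (by rw [eE]; exact h.etaLt)
    (by rw [eA1]; exact h1.1) (by rw [eA2]; exact h1.2) (by rw [eB1]; exact h2.1) (by rw [eB2]; exact h2.2)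
  have f6 : Fr mT [] c c5 := f14.tr f5 (by simp) (by simp)
  refine ⟨c5, (r1.seq (r2.seq (r3.seq (r4.seq r5)))).mono ?_, h.of_alu a5 f6 (by decide), ⟨?_, ?_⟩, ?_, f6⟩
  · unfold MZ
    omega
  · rw [v7]
    exact Nat.mod_lt _ ap.hq
  · rw [v8]
    exact Nat.mod_lt _ ap.hq
  · simp only [elt]
    rw [v7, v8, eA1, eA2, eB1, eB2, eE]
    exact mkE_mul q η h.etaEq

/-- Multiply two register pairs into a third one. -/
def mulP (sm : Prog (FT ⊕ X) (Sym G)) (A1 A2 B1 B2 C1 C2 : FT) : Prog (FT ⊕ X) (Sym G) :=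
  .seq (mulZ sm A1 A2 B1 B2) (.seq (cpy .RS .ZA C1) (cpy .RS .ZB C2))

/-- The cost of `mulP`. -/
def MP (K SC : ℕ) : ℕ := MZ K SC + 24 * K + 24

theorem mulP_spec {K L W q SC : ℕ} {η : ZMod q} {sm : Prog (FT ⊕ X) (Sym G)} (ap : AP sm K L SC q)
    (A1 A2 B1 B2 C1 C2 : FT) (hA : isReg A1 = true ∧ isReg A2 = true ∧ isReg B1 = true ∧ isReg B2 = true ∧
      A1 ∉ [FT.FA, .FB, .GA, .GB] ∧ A2 ∉ [FT.FA, .FB, .GA, .GB] ∧ B1 ∉ [FT.FA, .FB, .GA, .GB] ∧ B2 ∉ [FT.FA, .FB, .GA, .GB])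
    (hC : wr C1 = true ∧ wr C2 = true ∧ C1 ∉ mT ∧ C2 ∉ mT ∧ C1 ≠ C2 ∧ C1 ≠ .Eta ∧ C2 ≠ .Eta)
    {c : TC X G} (h : FE K L W q η c) (h1 : LtE K q c A1 A2) (h2 : LtE K q c B1 B2) :
    ∃ c', Run (mulP sm A1 A2 B1 B2 C1 C2) c c' (MP K SC) ∧ FE K L W q η c' ∧ LtE K q c' C1 C2 ∧
      elt K q η c' C1 C2 = elt K q η c A1 A2 * elt K q η c B1 B2 ∧ Fr (C1 :: C2 :: mT) [] c c' := by
  obtain ⟨j1, j2, j3, j4, j5, j6, j7⟩ := hC
  obtain ⟨c1, r1, a1, l1, e1, f1⟩ := mulZ_spec ap A1 A2 B1 B2 hA h h1 h2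
  have j3' : C1 ≠ .ZA ∧ C1 ≠ .ZB := by
    constructor <;> (rintro rfl; exact absurd j3 (by decide))
  have j4' : C2 ≠ .ZA ∧ C2 ≠ .ZB := by
    constructor <;> (rintro rfl; exact absurd j4 (by decide))
  obtain ⟨c2, r2, a2, v2, _, f2⟩ := mov_spec .ZA C1 j1 rfl j3'.1.symm a1.toAlu
  obtain ⟨c3, r3, a3, v3, _, f3⟩ := mov_spec .ZB C2 j2 rfl j4'.2.symm a2
  have f4 : Fr [C1, C2] [] c1 c3 := f2.tr f3 (by simp) (by simp)
  have hC1 : vr K c3 C1 = vr K c1 .ZA := by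
    rw [vr_of_fr f3 (by simpa using j5), v2]
  have hC2 : vr K c3 C2 = vr K c1 .ZB := by
    rw [v3, vr_of_fr f2 (by simpa using j3'.2.symm)]
  have f5 : Fr (C1 :: C2 :: mT) [] c c3 := f1.tr f4 (by simp) (by simp)
  refine ⟨c3, (r1.seq (r2.seq r3)).mono ?_, a1.of_alu a3 f4 (by simpa using ⟨j6.symm, j7.symm⟩), ⟨?_, ?_⟩, ?_, f5⟩
  · unfold MP
    omega
  · rw [hC1]; exact l1.1
  · rw [hC2]; exact l1.2
  · rw [← e1]
    simp only [elt]
    rw [hC1, hC2]

/-- The next value of a quadratic generator: `V := V * R`, `R := R * S`. -/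
def genStep (sm : Prog (FT ⊕ X) (Sym G)) : Prog (FT ⊕ X) (Sym G) :=
  .seq (mulP sm .VA .VB .RA .RB .VA .VB) (mulP sm .RA .RB .SA .SB .RA .RB)

/-- The registers touched by a step of the generator. -/
abbrev gT : List FT := .VA :: .VB :: .RA :: .RB :: mT

theorem genStep_spec {K L W q SC : ℕ} {η : ZMod q} {sm : Prog (FT ⊕ X) (Sym G)} (ap : AP sm K L SC q)
    {c : TC X G} (h : FE K L W q η c) (h1 : LtE K q c .VA .VB) (h2 : LtE K q c .RA .RB) (h3 : LtE K q c .SA .SB) :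
    ∃ c', Run (genStep sm) c c' (2 * MP K SC) ∧ FE K L W q η c' ∧ LtE K q c' .VA .VB ∧ LtE K q c' .RA .RB ∧
      elt K q η c' .VA .VB = elt K q η c .VA .VB * elt K q η c .RA .RB ∧
      elt K q η c' .RA .RB = elt K q η c .RA .RB * elt K q η c .SA .SB ∧ Fr gT [] c c' := by
  obtain ⟨c1, r1, a1, l1, e1, f1⟩ := mulP_spec ap .VA .VB .RA .RB .VA .VB (by decide) (by decide) h h1 h2
  obtain ⟨c2, r2, a2, l2, e2, f2⟩ := mulP_spec ap .RA .RB .SA .SB .RA .RB (by decide) (by decide) a1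
    (h2.of_fr f1 (by decide) (by decide)) (h3.of_fr f1 (by decide) (by decide))
  refine ⟨c2, (r1.seq r2).mono (by omega), a2, l1.of_fr f2 (by decide) (by decide), l2, ?_, ?_, ?_⟩
  · rw [elt_of_fr f2 (by decide) (by decide), e1]
  · rw [e2, elt_of_fr f1 (by decide) (by decide), elt_of_fr f1 (by decide) (by decide)]
  · exact f1.tr f2 (by simp) (by simp)

end

/-! The values of a quadratic generator -/

section gen
variable {R : Type*} [CommRing R]

/-- The `k`-th value. -/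
def gV (v r s : R) (k : ℕ) : R := v * r ^ k * s ^ (k * (k - 1) / 2)

/-- The `k`-th ratio. -/
def gR (r s : R) (k : ℕ) : R := r * s ^ k

theorem gV_zero (v r s : R) : gV v r s 0 = v := by simp [gV]

theorem gR_zero (r s : R) : gR r s 0 = r := by simp [gR]

theorem gV_succ (v r s : R) (k : ℕ) : gV v r s (k + 1) = gV v r s k * gR r s k := by
  have e : (k + 1) * (k + 1 - 1) / 2 = k * (k - 1) / 2 + k := by
    cases k with
    | zero => rfl
    | succ k =>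
      simp only [Nat.add_sub_cancel]
      have h : (k + 1 + 1) * (k + 1) = (k + 1) * k + 2 * (k + 1) := by ring
      rw [h, Nat.add_mul_div_left _ _ (by norm_num)]
  simp only [gV, gR]
  rw [e, pow_add, pow_succ]
  ring

theorem gR_succ (r s : R) (k : ℕ) : gR r s (k + 1) = gR r s k * s := by
  simp only [gR]
  rw [pow_succ]
  ring

end gen

end Vale.Agent.Lib.P338.F
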