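import Vale.Agent.Lib.P338.F.Cost

/-!
The final bounds for the reduction of matrix transposition to integer multiplication.
-/

namespace Vale.Agent.Lib.P338.F

open Vale.Agent.Lib.P338

/-- The size of the big products, as an explicit function of the side length. -/
def nf (m : ℕ) : ℕ := 2 ^ (2 * Nat.clog 2 m + 19)

/-- The size of the small products, as an explicit function of the side length. -/
def Kf (m : ℕ) : ℕ := 2 ^ (Nat.clog 2 (Nat.clog 2 m + 5) + 3)

/-- The number of classical rounds is at most this. -/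
def lf (m : ℕ) : ℕ := Nat.clog 2 (Nat.clog 2 m + 5) + 1

theorem nf_eq (m : ℕ) : nn m = nf m := by
  simp only [nn, nf, ap, a0]
  congr 1

theorem Kf_eq (m : ℕ) : Kd m = Kf m := by
  simp only [Kd, Kf, cA, Aa, ap, a0]

theorem rh_le (m : ℕ) : rh m + 1 ≤ lf m := by
  have h : lf m = cA m + 1 := rfl
  have h2 := cA_ge m
  rw [h]
  simp only [rh]
  omega

theorem dn_le (m : ℕ) (hm : 1 ≤ m) : dn m ≤ 1024 * (m * m) := by
  have h1 : 2 ^ a0 m ≤ 2 * m := by
    simp only [a0]
    rcases Nat.lt_or_ge m 2 with h | h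
    · have : m = 1 := by omega
      subst this
      simp
    · have h2 : 2 ^ (Nat.clog 2 m).pred < m := Nat.pow_pred_clog_lt_self (by norm_num) (by omega)
      have h3 : 1 ≤ Nat.clog 2 m := Nat.clog_pos (by norm_num) h
      have e : Nat.clog 2 m = (Nat.clog 2 m).pred + 1 := by
        simp only [Nat.pred_eq_sub_one]
        omega
      rw [e, pow_succ]
      simp only [Nat.pred_eq_sub_one] at h2 ⊢
      omega
  have h2 : dn m = 256 * (2 ^ a0 m * 2 ^ a0 m) := by
    rw [dn_eq_sq]
    simp only [ap]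
    rw [pow_add]
    norm_num
    ring
  have h3 := Nat.mul_le_mul h1 h1
  have e : 2 * m * (2 * m) = 4 * (m * m) := by ring
  omega

/-- The bound of the running time in terms of the two products. -/
theorem time2_le (A A0 : MTM) (τ τ0 : ℕ → ℕ) (m : ℕ) :
    time2 A A0 τ τ0 m ≤ (1000000000 + 100000000000 * ((@Finset.univ A0.T A0.fT).card + 1) + 1000000 * ((@Finset.univ A.T A.fT).card + 1)) *
      (dn m * (rh m + 1) + τ (nn m) + qq m * qq m * τ0 (Kd m)) := by
  simp only [time2]
  generalize (@Finset.univ A0.T A0.fT).card = k0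
  generalize (@Finset.univ A.T A.fT).card = k
  have h1 := TOC_le m (mulCost k0 (Kd m) (τ0 (Kd m))) (mulCost k (nn m) (τ (nn m)))
  have h2 := mulCost_le k0 (Kd m) (τ0 (Kd m))
  have h3 := mulCost_le k (nn m) (τ (nn m))
  have hqq : qq m * qq m * mulCost k0 (Kd m) (τ0 (Kd m)) ≤ qq m * qq m * (100 * ((k0 + 1) * (Kd m + τ0 (Kd m) + 1))) :=
    Nat.mul_le_mul_left _ h2
  have e1 : qq m * qq m * (100 * ((k0 + 1) * (Kd m + τ0 (Kd m) + 1))) =
      100 * ((k0 + 1) * (qq m * qq m * Kd m + qq m * qq m + qq m * qq m * τ0 (Kd m))) := by ring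
  have h4 := q_sq_K m
  have h5 : qq m * qq m ≤ qq m * qq m * Kd m := Nat.le_mul_of_pos_right _ (K_pos m)
  have hD : dn m ≤ dn m * (rh m + 1) := Nat.le_mul_of_pos_right _ (by omega)
  set S := dn m * (rh m + 1) + τ (nn m) + qq m * qq m * τ0 (Kd m) with hS
  have h6 : (k0 + 1) * (qq m * qq m * Kd m + qq m * qq m + qq m * qq m * τ0 (Kd m)) ≤ (k0 + 1) * (2048 * S) := by
    apply Nat.mul_le_mul_left
    omega
  have h7 : (k + 1) * (nn m + τ (nn m) + 1) ≤ (k + 1) * (2049 * S) := by
    apply Nat.mul_le_mul_left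
    have := dn_pos m
    have := nn_eq m
    omega
  have e2 : (1000000000 + 100000000000 * (k0 + 1) + 1000000 * (k + 1)) * S =
      1000000000 * S + 100000000000 * ((k0 + 1) * S) + 1000000 * ((k + 1) * S) := by ring
  have e3 : (k0 + 1) * (2048 * S) = 2048 * ((k0 + 1) * S) := by ring
  have e4 : (k + 1) * (2049 * S) = 2049 * ((k + 1) * S) := by ring
  have h8 : dn m * (rh m + 1) ≤ S := by omega
  rw [e2]
  rw [e1] at hqq
  rw [e3] at h6
  rw [e4] at h7
  clear hS e1 e2 e3 e4 h4 h5 hD h2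
  generalize (k0 + 1) * S = a at *
  generalize (k + 1) * S = b at *
  omega

/-- The reduction with two multipliers: one for the big products and one for the small ones. -/
theorem reduction2 (A A0 : MTM) (τ τ0 : ℕ → ℕ) (hA : Multiplies A τ) (hA0 : Multiplies A0 τ0) :
    ∃ (B : MTM) (σ : ℕ → ℕ) (C : ℕ), TransposesAll B σ ∧ ∀ m, 1 ≤ m →
      Kf m * σ m ≤ C * (Kf m * (τ (nf m) + m * m * lf m) + m * m * τ0 (Kf m)) := by
  refine ⟨machine2 A A0, time2 A A0 τ τ0, 1024 * 1024 * (1000000000 + 100000000000 * ((@Finset.univ A0.T A0.fT).card + 1) + 1000000 * ((@Finset.univ A.T A.fT).card + 1)),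
    machine2_transposes hA hA0, ?_⟩
  intro m hm
  have h1 := time2_le A A0 τ τ0 m
  generalize (1000000000 + 100000000000 * ((@Finset.univ A0.T A0.fT).card + 1) + 1000000 * ((@Finset.univ A.T A.fT).card + 1)) = C0 at *
  generalize time2 A A0 τ τ0 m = s at *
  rw [← nf_eq, ← Kf_eq]
  have h2 := q_sq_K m
  have h3 := dn_le m hm
  have h4 := rh_le m
  have hK := K_pos m
  generalize Kd m = K at *
  generalize τ (nn m) = T at *
  generalize τ0 K = T0 at *
  have h5 : dn m * (rh m + 1) ≤ 1024 * (m * m) * lf m := Nat.mul_le_mul h3 h4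
  have h6 : K * (qq m * qq m * T0) ≤ 1024 * 1024 * (m * m) * T0 := by
    calc K * (qq m * qq m * T0) = (qq m * qq m * K) * T0 := by ring
      _ ≤ (1024 * dn m) * T0 := Nat.mul_le_mul_right _ h2
      _ ≤ (1024 * (1024 * (m * m))) * T0 := Nat.mul_le_mul_right _ (by omega)
      _ = _ := by ring
  calc K * s ≤ K * (C0 * (dn m * (rh m + 1) + T + qq m * qq m * T0)) := Nat.mul_le_mul_left _ h1
    _ = C0 * (K * (dn m * (rh m + 1)) + K * T + K * (qq m * qq m * T0)) := by ring
    _ ≤ C0 * (K * (1024 * (m * m) * lf m) + K * T + (1024 * 1024 * (m * m) * T0)) := by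
        apply Nat.mul_le_mul_left
        have := Nat.mul_le_mul_left K h5
        omega
    _ ≤ C0 * (1024 * 1024 * (K * (T + m * m * lf m) + m * m * T0)) := by
        apply Nat.mul_le_mul_left
        have e1 : K * (1024 * (m * m) * lf m) = 1024 * (K * (m * m * lf m)) := by ring
        have e2 : 1024 * 1024 * (K * (T + m * m * lf m) + m * m * T0) = 1024 * 1024 * (K * T) + 1024 * 1024 * (K * (m * m * lf m)) + 1024 * 1024 * (m * m * T0) := by ring
        have e3 : 1024 * 1024 * (m * m) * T0 = 1024 * 1024 * (m * m * T0) := by ring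
        omega
    _ = _ := by ring

/-- The regularity condition: `τ n / n` is non decreasing. -/
def Regular (τ : ℕ → ℕ) : Prop := ∀ a b : ℕ, 1 ≤ a → a ≤ b → τ a * b ≤ τ b * a

/-- The reduction for a single regular multiplier. -/
theorem reduction_reg (A : MTM) (τ : ℕ → ℕ) (hA : Multiplies A τ) (hr : Regular τ) :
    ∃ (B : MTM) (σ : ℕ → ℕ) (C : ℕ), TransposesAll B σ ∧ ∀ m, 1 ≤ m →
      σ m ≤ C * (τ (nf m) + m * m * lf m) := by
  refine ⟨machine2 A A, time2 A A τ τ, 2048 * (1000000000 + 100000000000 * ((@Finset.univ A.T A.fT).card + 1) + 1000000 * ((@Finset.univ A.T A.fT).card + 1)),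
    machine2_transposes hA hA, ?_⟩
  intro m hm
  have h1 := time2_le A A τ τ m
  generalize (1000000000 + 100000000000 * ((@Finset.univ A.T A.fT).card + 1) + 1000000 * ((@Finset.univ A.T A.fT).card + 1)) = C0 at *
  generalize time2 A A τ τ m = s at *
  rw [← nf_eq]
  have h2 := q_sq_K m
  have h3 := dn_le m hm
  have h4 := rh_le m
  have hK := K_pos m
  have hKn : Kd m ≤ nn m := by
    have h5 := K_sq m
    have h6 : Kd m ≤ Kd m * Kd m := Nat.le_mul_of_pos_right _ hK
    have h7 := nn_eq m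
    omega
  have h8 : qq m * qq m * τ (Kd m) ≤ τ (nn m) := by
    apply Nat.le_of_mul_le_mul_left _ hK
    calc Kd m * (qq m * qq m * τ (Kd m)) = (qq m * qq m * Kd m) * τ (Kd m) := by ring
      _ ≤ (1024 * dn m) * τ (Kd m) := Nat.mul_le_mul_right _ h2
      _ ≤ nn m * τ (Kd m) := Nat.mul_le_mul_right _ (by have := nn_eq m; omega)
      _ = τ (Kd m) * nn m := by ring
      _ ≤ τ (nn m) * Kd m := hr _ _ hK hKn
      _ = _ := by ring
  have h5 : dn m * (rh m + 1) ≤ 1024 * (m * m) * lf m := Nat.mul_le_mul h3 h4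
  generalize qq m * qq m * τ (Kd m) = R at *
  generalize τ (nn m) = T at *
  calc s ≤ C0 * (dn m * (rh m + 1) + T + R) := h1
    _ ≤ C0 * (2048 * (T + m * m * lf m)) := by
        apply Nat.mul_le_mul_left
        have e : 1024 * (m * m) * lf m = 1024 * (m * m * lf m) := by ring
        omega
    _ = _ := by ring

end Vale.Agent.Lib.P338.F
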