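import Vale.Agent.Lib.P338.F.Dilate

/-!
Flags and comparisons of registers.
-/

namespace Vale.Agent.Lib.P338.F

open Vale.Agent.Lib.P338 Prog

section
variable {X G : Type}

/-- The value of a flag. -/
abbrev flg (c : TC X G) (F : FT) : Bool := (c.read (o F)).isOne

theorem flg_of_fr {c c' : TC X G} {F : FT} {l : List FT} (f : Fr l [] c c') (h : F ∉ l) : flg c' F = flg c F := by
  simp only [flg, TS.read]
  rw [f.tape h, f.head (by simp)]

theorem Fr.nil_tr {l l' l2 : List FT} {c c1 c2 : TC X G} (h : Fr l [] c c1) (h' : Fr l' [] c1 c2)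
    (hl : ∀ a ∈ l ++ l', a ∈ l2) : Fr l2 [] c c2 :=
  h.tr h' hl (by simp)

variable [DecidableEq X]

/-- Set a flag. -/
def setF (F : FT) (b : Bool) : Prog (FT ⊕ X) (Sym G) := act1 (o F) (fun _ => Sym.ofBit b) .S

theorem setF_spec (F : FT) (b : Bool) (c : TC X G) :
    ∃ c', Run (setF F b : Prog (FT ⊕ X) (Sym G)) c c' 1 ∧ flg c' F = b ∧
      (∀ x, x ≠ c.head (o F) → c'.tape (o F) x = c.tape (o F) x) ∧ Fr [F] [] c c' := by
  obtain ⟨c1, r1, d1, d2, d4⟩ := act1_spec (o F) (fun _ => (Sym.ofBit b : Sym G)) .S c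
  have hh : c1.head (o F) = c.head (o F) := by
    rw [d1]; simp [Dir.toInt]
  refine ⟨c1, r1, ?_, ?_, Fr.of_same d4 (by simp) ?_ ?_⟩
  · simp only [flg, TS.read]
    rw [d2, hh]
    simp
  · intro x hx
    rw [d2, if_neg hx]
  · intro a ha hb
    simp only [List.mem_singleton, Sum.inl.injEq] at ha hb
    exact absurd hb ha
  · intro a _ hb
    simp only [List.mem_singleton, Sum.inl.injEq] at hb
    subst hb
    exact hh

/-- If `A < B` then set the flag `F`. -/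
def ltS (A B F : FT) : Prog (FT ⊕ X) (Sym G) :=
  .seq (cpy .RS A .Tz) (.seq (subR .RS .Tz B)
    (.seq (.ite (fun s => (s (o .Cy)).isOne) (setF F true) skip) clrCy))

theorem ltS_spec {K L W q : ℕ} (A B F : FT) (hA : isReg A = true) (hB : isReg B = true) (hF : wr F = true)
    (hAT : A ≠ .Tz) (hBT : B ≠ .Tz) (hBC : B ≠ .Cy) (hFT : F ≠ .Tz) {c : TC X G} (h : Alu K L W q c) :
    ∃ c', Run (ltS A B F : Prog (FT ⊕ X) (Sym G)) c c' (20 * K + 24) ∧ Alu K L W q c' ∧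
      flg c' F = (flg c F || decide (vr K c A < vr K c B)) ∧ Fr [F, .Tz, .Cy] [] c c' := by
  have hFC : F ≠ .Cy := by
    rintro rfl; exact absurd hF (by decide)
  obtain ⟨c1, r1, h1, v1, _, f1⟩ := mov_spec A .Tz rfl hA hAT h
  have hn : [FT.RS, FT.Tz, B, FT.Cy].Nodup := by
    simp only [List.nodup_cons, List.mem_cons, List.not_mem_nil, or_false, not_or]
    exact ⟨⟨by decide, ne_of_wr_RS hB, by decide⟩, ⟨hBT.symm, by decide⟩, hBC, not_false, by simp⟩
  obtain ⟨c2, r2, a1, a2, a3, a4, a5, f2⟩ := subR_spec .RS .Tz B hn c1 h1.rS h1.cy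
  have hTz0 : c1.head (o .Tz) = 0 := h1.hz .Tz rfl
  have hB0 : c1.head (o B) = 0 := h1.hz B hB
  rw [hTz0, hB0] at a3
  have eB1 : vl (c1.tape (o B)) 0 K = vr K c B := by
    simp only [vr]
    rw [f1.tape (by simpa using hBT)]
  have hcyv : (c2.read (o .Cy)).isOne = decide (vr K c A < vr K c B) := by
    rw [a3, eB1]
    simp only [vr] at v1 ⊢
    rw [v1]
  have hflg1 : flg c2 F = flg c F := flg_of_fr (f1.nil_tr f2 (l2 := [.Tz, .Cy]) (by simp)) (by simpa using ⟨hFT, hFC⟩)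
  have hcond : ∃ c3, Run (.ite (fun s => (s (o .Cy)).isOne) (setF F true) skip : Prog (FT ⊕ X) (Sym G)) c2 c3 2 ∧
      flg c3 F = (flg c F || decide (vr K c A < vr K c B)) ∧ Fr [F] [] c2 c3 := by
    cases hb : decide (vr K c A < vr K c B)
    · have hcy : (c2.read (o .Cy)).isOne = false := by rw [hcyv, hb]
      refine ⟨c2, (Run.iteF (g := fun s => (s (o .Cy)).isOne) (a := setF F true) hcy (skip_spec c2)).mono (by omega), ?_, Fr.refl _ _ _⟩
      rw [hflg1]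
      simp
    · have hcy : (c2.read (o .Cy)).isOne = true := by rw [hcyv, hb]
      obtain ⟨c3, r3, b1, _, f3⟩ := setF_spec F true c2
      refine ⟨c3, (Run.iteT (g := fun s => (s (o .Cy)).isOne) (b := skip) hcy r3).mono (by omega), ?_, f3⟩
      rw [b1]
      simp
  obtain ⟨c3, r3, b1, f3⟩ := hcond
  obtain ⟨c4, r4, d1, f4⟩ := clrCy_spec c3
  have f5 : Fr [F, .Tz, .Cy] [] c c4 :=
    f1.nil_tr (f2.nil_tr (f3.nil_tr f4 (l2 := [F, .Cy]) (by simp)) (l2 := [.Tz, .Cy, F]) (by simp)) (by simp)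
  refine ⟨c4, (r1.seq (r2.seq (r3.seq r4))).mono (by omega), h.of_fr f5 ?_ d1, ?_, f5⟩
  · intro a ha
    simp only [List.mem_cons, List.not_mem_nil, or_false] at ha
    rcases ha with rfl | rfl | rfl
    · exact Or.inl hF
    · exact Or.inl rfl
    · exact Or.inr rfl
  · rw [flg_of_fr f4 (by simpa using hFC)]
    exact b1

/-- If `A ≠ B` then set the flag `F`. -/
def neS (A B F : FT) : Prog (FT ⊕ X) (Sym G) := .seq (ltS A B F) (ltS B A F)

theorem neS_spec {K L W q : ℕ} (A B F : FT) (hA : isReg A = true) (hB : isReg B = true) (hF : wr F = true)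
    (hAl : A ∉ [F, .Tz, .Cy]) (hBl : B ∉ [F, .Tz, .Cy]) (hFT : F ≠ .Tz) {c : TC X G} (h : Alu K L W q c) :
    ∃ c', Run (neS A B F : Prog (FT ⊕ X) (Sym G)) c c' (40 * K + 48) ∧ Alu K L W q c' ∧
      flg c' F = (flg c F || decide (vr K c A ≠ vr K c B)) ∧ Fr [F, .Tz, .Cy] [] c c' := by
  simp only [List.mem_cons, List.not_mem_nil, or_false, not_or] at hAl hBl
  obtain ⟨c1, r1, h1, v1, f1⟩ := ltS_spec A B F hA hB hF hAl.2.1 hBl.2.1 hBl.2.2 hFT h
  obtain ⟨c2, r2, h2, v2, f2⟩ := ltS_spec B A F hB hA hF hBl.2.1 hAl.2.1 hAl.2.2 hFT h1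
  refine ⟨c2, (r1.seq r2).mono (by omega), h2, ?_, f1.nil_tr f2 (by simp)⟩
  rw [v2, v1, vr_of_fr f1 (by simpa using hBl), vr_of_fr f1 (by simpa using hAl)]
  have e : (decide (vr K c A < vr K c B) || decide (vr K c B < vr K c A)) = decide (vr K c A ≠ vr K c B) := by
    rw [Bool.eq_iff_iff]
    simp only [Bool.or_eq_true, decide_eq_true_eq, ne_eq]
    omega
  rw [Bool.or_assoc, e]

/-- Is `(ZA, ZB)` different from `(One, Zer)`? -/
def isOneZ : Prog (FT ⊕ X) (Sym G) := .seq (setF .Fl false) (.seq (neS .ZA .One .Fl) (neS .ZB .Zer .Fl))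

theorem isOneZ_spec {K L W q : ℕ} {c : TC X G} (h : Alu K L W q c) :
    ∃ c', Run (isOneZ : Prog (FT ⊕ X) (Sym G)) c c' (80 * K + 97) ∧ Alu K L W q c' ∧
      (flg c' .Fl = false ↔ vr K c .ZA = vr K c .One ∧ vr K c .ZB = vr K c .Zer) ∧ Fr [.Fl, .Tz, .Cy] [] c c' := by
  obtain ⟨c1, r1, b1, _, f1⟩ := setF_spec .Fl false c
  have h1 : Alu K L W q c1 := h.of_fr' f1 (by simp [wr, isReg])
  obtain ⟨c2, r2, h2, v2, f2⟩ := neS_spec .ZA .One .Fl rfl rfl rfl (by decide) (by decide) (by decide) h1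
  obtain ⟨c3, r3, h3, v3, f3⟩ := neS_spec .ZB .Zer .Fl rfl rfl rfl (by decide) (by decide) (by decide) h2
  refine ⟨c3, (r1.seq (r2.seq r3)).mono (by omega), h3, ?_, f1.nil_tr (f2.nil_tr f3 (l2 := [.Fl, .Tz, .Cy]) (by simp)) (by simp)⟩
  rw [v3, v2, b1, vr_of_fr f2 (by decide), vr_of_fr f2 (by decide), vr_of_fr f1 (by decide), vr_of_fr f1 (by decide),
    vr_of_fr f1 (by decide), vr_of_fr f1 (by decide)]
  simp

end

end Vale.Agent.Lib.P338.F
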