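import Vale.Agent.Lib.P338.F.KarBwd

/-!
The bottom of the internal multiplier: the products of the numbers of the last level, by the school method.
-/

namespace Vale.Agent.Lib.P338.F

open Vale.Agent.Lib.P338 Prog

section
variable {G : Type}

theorem vl_mono (τ : ℤ → Sym G) (h : ℤ) {a b : ℕ} (hab : a ≤ b) : vl τ h a ≤ vl τ h b := by
  obtain ⟨d, rfl⟩ : ∃ d, b = a + d := ⟨b - a, by omega⟩
  rw [vl_add]
  omega

end

section
variable {X G : Type} [DecidableEq X]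

/-- One step of the school method. -/
def baseI : Prog (FT ⊕ X) (Sym G) :=
  .seq (.ite (fun s => (s (o .Y0)).isOne) (addR .RKZ .Y3 .Y1) skip) (.seq (mv (o .Y0) .R) (mv (o .Y3) .R))

/-- The invariant of the school method. -/
structure BaI (c0 : TC X G) (w L b : ℕ) (i : ℕ) (d : TC X G) : Prop where
  tY0 : d.tape (o .Y0) = c0.tape (o .Y0)
  tY1 : d.tape (o .Y1) = c0.tape (o .Y1)
  h0 : d.head (o .Y0) = (i : ℤ)
  h3 : d.head (o .Y3) = (i : ℤ)
  va : vl (d.tape (o .Y3)) 0 (2 * w) = vl (c0.tape (o .Y0)) 0 i * b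
  cy : (d.read (o .Cy)).isOne = false
  lk : Lk L c0 d
  fr : Fr [.Y3, .Cy] [.RU, .Y0, .Y3] c0 d

theorem BaI.mvR {c0 d d' : TC X G} {w L b i : ℕ} (h : BaI c0 w L b i d) (f : Fr [] [.RU] d d') : BaI c0 w L b i d' := by
  refine ⟨?_, ?_, ?_, ?_, ?_, ?_, ?_, h.fr.tr f (by simp) (by simp)⟩
  · rw [f.tape (by simp), h.tY0]
  · rw [f.tape (by simp), h.tY1]
  · rw [f.head (by simp), h.h0]
  · rw [f.head (by simp), h.h3]
  · rw [f.tape (by simp)]
    exact h.va
  · simp only [TS.read]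
    rw [f.tape (by simp), f.head (by simp)]
    exact h.cy
  · refine h.lk.trans ?_
    intro a _ x _
    rw [f.tape (by simp)]

theorem base_arith {A b i w : ℕ} (hA : A < 2 ^ i) (hb : b < 2 ^ w) : (A + 2 ^ i) * b < 2 ^ (i + (w + 1)) := by
  have h1 : A + 2 ^ i < 2 ^ (i + 1) := by
    rw [pow_succ]
    omega
  have e : 2 ^ (i + (w + 1)) = 2 ^ (i + 1) * 2 ^ w := by
    rw [← pow_add]
    congr 1
    omega
  rw [e]
  exact Nat.mul_lt_mul'' h1 hb

theorem baseI_step {c0 d : TC X G} {w L b i : ℕ} (hi : i < w) (rZ : Ruler c0 (o .RKZ) (w + 1))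
    (hs1 : c0.head (o .Y1) = 0) (hCy : c0.head (o .Cy) = 0) (hb : vl (c0.tape (o .Y1)) 0 (w + 1) = b) (hlt : b < 2 ^ w)
    (hL : 2 * w ≤ L) (hL1 : 1 ≤ L) (h : BaI c0 w L b i d) :
    ∃ d', Run (baseI : Prog (FT ⊕ X) (Sym G)) d d' (8 * w + 20) ∧ BaI c0 w L b (i + 1) d' ∧ d'.tape (o .RU) = d.tape (o .RU) ∧ d'.head (o .RU) = d.head (o .RU) := by
  have hLz : ((2 * w : ℕ) : ℤ) ≤ (L : ℤ) := by exact_mod_cast hL
  push_cast at hLz
  have hiz : (i : ℤ) < w := by exact_mod_cast hi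
  have hi0 : (0 : ℤ) ≤ i := Int.natCast_nonneg i
  have hbit : (d.read (o .Y0)).isOne = (c0.tape (o .Y0) ((0 : ℤ) + (i : ℤ))).isOne := by
    simp only [TS.read]
    rw [h.tY0, h.h0, zero_add]
  have hv1 := vl_succ (c0.tape (o .Y0)) 0 i
  obtain ⟨d1, r1, v1, c1, l1, f1⟩ : ∃ d1, Run (.ite (fun s => (s (o .Y0)).isOne) (addR .RKZ .Y3 .Y1) skip : Prog (FT ⊕ X) (Sym G)) d d1 (8 * w + 18) ∧
      vl (d1.tape (o .Y3)) 0 (2 * w) = vl (c0.tape (o .Y0)) 0 (i + 1) * b ∧ (d1.read (o .Cy)).isOne = false ∧ Lk L d d1 ∧ Fr [.Y3, .Cy] [] d d1 := by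
    cases hq : (d.read (o .Y0)).isOne with
    | true =>
      rw [hq] at hbit
      rw [← hbit] at hv1
      simp only [Bool.toNat_true, one_mul] at hv1
      have hY1 : vl (d.tape (o .Y1)) (d.head (o .Y1)) (w + 1) = b := by
        rw [h.tY1, h.fr.head (by simp), hs1, hb]
      have hA := vl_lt (c0.tape (o .Y0)) 0 i
      have hov : vl (d.tape (o .Y3)) (i : ℤ) (w + 1) + b < 2 ^ (w + 1) := by
        apply vl_off_hov
        have h5 := vl_mono (d.tape (o .Y3)) 0 (show i + (w + 1) ≤ 2 * w by omega)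
        rw [h.va] at h5
        have h6 := base_arith (b := b) (w := w) hA hlt
        have e : (vl (c0.tape (o .Y0)) 0 i + 2 ^ i) * b = vl (c0.tape (o .Y0)) 0 i * b + 2 ^ i * b := by ring
        omega
      obtain ⟨d1, r1, a1, a2, a3, a4, f1⟩ := addR_spec' .RKZ .Y3 .Y1 (by decide) d
        (rZ.of_fr h.fr (by decide) (by simp)) h.cy (by rw [h.h3, hY1]; exact hov)
      rw [h.h3] at a1 a2
      rw [hY1] at a2
      have hCy0 : d.head (o .Cy) = 0 := by
        rw [h.fr.head (by simp), hCy]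
      refine ⟨d1, (Run.iteT (g := fun s => (s (o .Y0)).isOne) hq r1).mono (by omega), ?_, a3, ?_, f1⟩
      · rw [vl_off_eq (a := i) (n := w + 1) (u := b) (by omega) a1 a2, h.va, hv1]
        ring
      · refine Lk.reg f1 a1 a4 hCy0 hi0 ?_ hL1
        push_cast
        omega
    | false =>
      rw [hq] at hbit
      rw [← hbit] at hv1
      simp only [Bool.toNat_false, zero_mul, add_zero] at hv1
      refine ⟨d, (Run.iteF (g := fun s => (s (o .Y0)).isOne) hq (skip_spec d)).mono (by omega), ?_, h.cy, Lk.refl _ _, Fr.refl _ _ _⟩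
      rw [h.va, hv1]
  obtain ⟨d2, r2, e1, e2, s2⟩ := mv_spec (o .Y0 : FT ⊕ X) .R d1
  have f2 : Fr [] [.Y0] d1 d2 := fr_of_ruler_same s2 e2
  obtain ⟨d3, r3, e3, e4, s3⟩ := mv_spec (o .Y3 : FT ⊕ X) .R d2
  have f3 : Fr [] [.Y3] d2 d3 := fr_of_ruler_same s3 e4
  have f23 : Fr [] [.Y0, .Y3] d1 d3 := f2.tr f3 (by simp) (by simp)
  refine ⟨d3, (r1.seq (r2.seq r3)).mono (by omega), ⟨?_, ?_, ?_, ?_, ?_, ?_, ?_, ?_⟩, ?_, ?_⟩
  · rw [f23.tape (by simp), f1.tape (by simp), h.tY0]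
  · rw [f23.tape (by simp), f1.tape (by simp), h.tY1]
  · rw [f3.head (by simp), e1, f1.head (by simp), h.h0]
    simp [Dir.toInt]
  · rw [e3, f2.head (by simp), f1.head (by simp), h.h3]
    simp [Dir.toInt]
  · rw [f23.tape (by simp)]
    exact v1
  · simp only [TS.read]
    rw [f23.tape (by simp), f23.head (by simp)]
    exact c1
  · refine h.lk.trans (l1.trans ?_)
    intro a _ x _
    rw [f23.tape (by simp)]
  · have f13 : Fr [.Y3, .Cy] [.Y0, .Y3] d d3 := f1.tr f23 (by simp) (by simp)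
    exact h.fr.tr f13 (by simp) (by simp)
  · rw [f23.tape (by simp), f1.tape (a := .RU) (by simp)]
  · rw [f23.head (by simp), f1.head (by simp)]

/-- One slot of the bottom. -/
def baseB : Prog (FT ⊕ X) (Sym G) :=
  .seq (zro .RQd .Y0) (.seq (zro .RQd .Y1) (.seq (zro .RQd .Y3)
    (.seq (lod .RU .D .Y0) (.seq (lod .RU .T1 .Y1)
    (.seq (forR (o .RU) baseI) (.seq (adv .RU .Y0 .L) (.seq (adv .RU .Y3 .L) (sto .RQd .Y3 .P1))))))))

/-- The cost of one slot of the bottom. -/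
def BBC (w : ℕ) : ℕ :=
  3 * (8 * (2 * w) + 8) + 2 * (8 * w + 8) + (w * (8 * w + 20 + 4) + 4) + 2 * (4 * w + 4) + (8 * (2 * w) + 8)

theorem baseB_spec {c : TC X G} {w L : ℕ} (rU : Ruler c (o .RU) w) (rQ : Ruler c (o .RQd) (2 * w)) (rZ : Ruler c (o .RKZ) (w + 1))
    (h0 : c.head (o .Y0) = 0) (h1 : c.head (o .Y1) = 0) (h3 : c.head (o .Y3) = 0) (hCy : c.head (o .Cy) = 0)
    (hcy : (c.read (o .Cy)).isOne = false) (hw : 1 ≤ w) (hL : 2 * w ≤ L)
    (ht0 : 0 ≤ c.head (o .P1)) (htL : c.head (o .P1) + (2 * w : ℕ) ≤ L) :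
    ∃ c', Run (baseB : Prog (FT ⊕ X) (Sym G)) c c' (BBC w) ∧
      c'.head (o .D) = c.head (o .D) + w ∧ c'.head (o .T1) = c.head (o .T1) + w ∧ c'.head (o .P1) = c.head (o .P1) + (2 * w : ℕ) ∧
      vl (c'.tape (o .P1)) (c.head (o .P1)) (2 * w) = vl (c.tape (o .D)) (c.head (o .D)) w * vl (c.tape (o .T1)) (c.head (o .T1)) w ∧
      (∀ x, ¬ (c.head (o .P1) ≤ x ∧ x < c.head (o .P1) + (2 * w : ℕ)) → c'.tape (o .P1) x = c.tape (o .P1) x) ∧
      (c'.read (o .Cy)).isOne = false ∧ Lk L c c' ∧ Fr [.P1, .Y0, .Y1, .Y3, .Cy] [.D, .T1, .P1] c c' := by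
  have hLz : ((2 * w : ℕ) : ℤ) ≤ (L : ℤ) := by exact_mod_cast hL
  obtain ⟨c1, r1, a1, f1⟩ := zro_spec .RQd .Y0 (by decide) c rQ
  obtain ⟨c2, r2, a2, f2⟩ := zro_spec .RQd .Y1 (by decide) c1 (rQ.of_fr f1 (by simp) (by simp))
  have f12 : Fr [.Y0, .Y1] [] c c2 := f1.tr f2 (by simp) (by simp)
  obtain ⟨c3, r3, a3, f3⟩ := zro_spec .RQd .Y3 (by decide) c2 (rQ.of_fr f12 (by simp) (by simp))
  have f13 : Fr [.Y0, .Y1, .Y3] [] c c3 := f12.tr f3 (by simp) (by simp)
  obtain ⟨c4, r4, b1, b2, f4⟩ := lod_spec .RU .D .Y0 (by decide) c3 (rU.of_fr f13 (by simp) (by simp))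
  have f14 : Fr [.Y0, .Y1, .Y3] [.D] c c4 := f13.tr f4 (by simp) (by simp)
  obtain ⟨c5, r5, d1, d2, f5⟩ := lod_spec .RU .T1 .Y1 (by decide) c4 (rU.of_fr f14 (by simp) (by simp))
  have f15 : Fr [.Y0, .Y1, .Y3] [.D, .T1] c c5 := f14.tr f5 (by simp) (by simp)
  have hY0v : vl (c5.tape (o .Y0)) 0 w = vl (c.tape (o .D)) (c.head (o .D)) w := by
    have e1 : c5.tape (o .Y0) = c4.tape (o .Y0) := f5.tape (by simp)
    have e2 : c3.head (o .Y0) = 0 := by rw [f13.head (by simp), h0]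
    have e3 : c3.head (o .D) = c.head (o .D) := f13.head (by simp)
    have e4 : c3.tape (o .D) = c.tape (o .D) := f13.tape (by simp)
    rw [e1]
    rw [e2, e3, e4] at b2
    exact vl_of_copy b2
  have hY1v : vl (c5.tape (o .Y1)) 0 (w + 1) = vl (c.tape (o .T1)) (c.head (o .T1)) w := by
    have e2 : c4.head (o .Y1) = 0 := by rw [f14.head (by simp), h1]
    have e3 : c4.head (o .T1) = c.head (o .T1) := f14.head (by simp)
    have e4 : c4.tape (o .T1) = c.tape (o .T1) := f14.tape (by simp)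
    rw [e2, e3, e4] at d2
    refine vl_load (by omega) ?_ ?_
    · intro x h5 h6
      rw [d2, if_pos (by constructor <;> omega)]
      congr 2
      ring
    · intro x h5 h6
      rw [d2, if_neg (by omega), f4.tape (by decide), f3.tape (by decide), a2, f1.head (by simp), h1, if_pos (by
        push_cast
        constructor <;> omega)]
  have hY3v : vl (c5.tape (o .Y3)) 0 (2 * w) = 0 := by
    apply vl_eq_zero
    intro i hi
    have e1 : c5.tape (o .Y3) = c3.tape (o .Y3) := by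
      rw [f5.tape (by simp), f4.tape (by simp)]
    have e2 : c2.head (o .Y3) = 0 := by rw [f12.head (by simp), h3]
    rw [e1, a3, e2, if_pos (by
      push_cast
      constructor <;> omega)]
    rfl
  have hY1h : c5.head (o .Y1) = 0 := by rw [f15.head (by simp), h1]
  have hCy5 : c5.head (o .Cy) = 0 := by rw [f15.head (by simp), hCy]
  have hcy5 : (c5.read (o .Cy)).isOne = false := by
    simp only [TS.read]
    rw [f15.tape (by simp), f15.head (by simp)]
    exact hcy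
  have lk5 : Lk L c c5 := by
    refine Lk.of_fr f15 ?_
    intro a ha _ x hx
    have hx2 : ¬ (0 ≤ x ∧ x < ((2 * w : ℕ) : ℤ)) := by omega
    simp only [List.mem_cons, List.not_mem_nil, or_false] at ha
    rcases ha with rfl | rfl | rfl
    · rw [f5.tape (by simp)]
      have e2 : c3.head (o .Y0) = 0 := by rw [f13.head (by simp), h0]
      have hw0 : ¬ (0 ≤ x ∧ x < (w : ℤ)) := by
        push_cast at hx2
        omega
      rw [b2, e2, if_neg (by simpa using hw0), f3.tape (by simp), f2.tape (by simp), a1, h0, if_neg (by simpa using hx2)]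
    · have e2 : c4.head (o .Y1) = 0 := by rw [f14.head (by simp), h1]
      have hw0 : ¬ (0 ≤ x ∧ x < (w : ℤ)) := by
        push_cast at hx2
        omega
      rw [d2, e2, if_neg (by simpa using hw0), f4.tape (by simp), f3.tape (by simp), a2, f1.head (by simp), h1, if_neg (by simpa using hx2), f1.tape (by simp)]
    · rw [f5.tape (by simp), f4.tape (by simp), a3, f12.head (by simp), h3, if_neg (by simpa using hx2), f12.tape (by simp)]
  have hb := vl_lt (c.tape (o .T1)) (c.head (o .T1)) w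
  obtain ⟨e1, i1, hR1, r6⟩ := forU (R := .RU) (body := (baseI : Prog (FT ⊕ X) (Sym G))) (n := w) (c := c5)
    (fun i d => BaI c5 w L (vl (c.tape (o .T1)) (c.head (o .T1)) w) i d) (8 * w + 20) (rU.of_fr f15 (by simp) (by simp))
    ⟨rfl, rfl, by rw [f15.head (by simp), h0]; simp, by rw [f15.head (by simp), h3]; simp, by rw [hY3v]; simp [vl_zero], hcy5, Lk.refl _ _, Fr.refl _ _ _⟩
    (fun i d d' h f => h.mvR f)
    (by
      intro i hi d _ _ h
      exact baseI_step hi (rZ.of_fr f15 (by simp) (by simp)) hY1h hCy5 hY1v hb hL (by omega) h)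
  obtain ⟨e2, r7, g1, f7⟩ := adv_spec .RU .Y0 .L (by decide) (by simp) e1 hR1
  obtain ⟨e3, r8, g2, f8⟩ := adv_spec .RU .Y3 .L (by decide) (by simp) e2 (hR1.of_fr f7 (by simp) (by simp))
  have f78 : Fr [] [.Y0, .Y3] e1 e3 := f7.tr f8 (by simp) (by simp)
  have f56 : Fr [.Y3, .Cy] [.RU, .Y0, .Y3] c5 e3 := i1.fr.tr f78 (by simp) (by simp)
  have rU3 : Ruler e3 (o .RU) w := hR1.of_fr f78 (by simp) (by simp)
  have hY3h : e3.head (o .Y3) = 0 := by
    rw [g2, f7.head (by simp), i1.h3]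
    simp [Dir.toInt]
  have hY0h : e3.head (o .Y0) = 0 := by
    rw [f8.head (by simp), g1, i1.h0]
    simp [Dir.toInt]
  have f05 : Fr [.Y0, .Y1, .Y3, .Cy] [.D, .T1, .RU, .Y0, .Y3] c e3 := f15.tr f56 (by simp) (by simp)
  obtain ⟨e4, r9, k1, k2, f9⟩ := sto_spec .RQd .Y3 .P1 (by decide) e3 (rQ.of_fr f05 (by simp) (by simp))
  have hP1 : e3.head (o .P1) = c.head (o .P1) := f05.head (by simp)
  have hP1t : e3.tape (o .P1) = c.tape (o .P1) := f05.tape (by simp)
  rw [hP1, hY3h, hP1t] at k2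
  rw [hP1] at k1
  have hval : vl (e3.tape (o .Y3)) 0 (2 * w) = vl (c.tape (o .D)) (c.head (o .D)) w * vl (c.tape (o .T1)) (c.head (o .T1)) w := by
    rw [f78.tape (by simp), i1.va, hY0v]
  have r06 : Run (baseB : Prog (FT ⊕ X) (Sym G)) c e4 _ := r1.seq (r2.seq (r3.seq (r4.seq (r5.seq (r6.seq (r7.seq (r8.seq r9)))))))
  refine ⟨e4, r06.mono (by simp only [BBC]; omega), ?_, ?_, k1, ?_, ?_, ?_, ?_, ?_⟩
  · rw [f9.head (by simp), f56.head (by simp), f5.head (by simp), b1, f13.head (by simp)]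
  · rw [f9.head (by simp), f56.head (by simp), d1, f14.head (by simp)]
  · rw [← hval]
    have : vl (e4.tape (o .P1)) (c.head (o .P1)) (2 * w) = vl (e3.tape (o .Y3)) 0 (2 * w) := by
      apply vl_congr
      intro i hi
      rw [k2, if_pos (by
        push_cast
        constructor <;> omega)]
      simp
    exact this
  · intro x hx
    rw [k2, if_neg (by simpa using hx)]
  · simp only [TS.read]
    rw [f9.tape (by simp), f9.head (by simp), f78.tape (by simp), f78.head (by simp)]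
    exact i1.cy
  · refine lk5.trans (i1.lk.trans ?_)
    intro a ha x hx
    by_cases hP : a = FT.P1
    · subst hP
      have e5 : e1.tape (o .P1) = c.tape (o .P1) := by
        rw [i1.fr.tape (by simp), f15.tape (by simp)]
      rw [k2, if_neg, e5]
      rintro ⟨h8, h9⟩
      have : (c.head (o .P1)) + ((2 * w : ℕ) : ℤ) ≤ L := htL
      exact hx ⟨by omega, by omega⟩
    · rw [f9.tape (by simpa using hP), f78.tape (by simp)]
  · have fe : Fr [.P1, .Y0, .Y1, .Y3, .Cy] [.RU, .Y0, .Y3, .D, .T1, .P1] c e4 := f05.tr f9 (by simp) (by simp)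
    have hRUh : e4.head (o .RU) = c.head (o .RU) := by
      rw [f9.head (by simp), rU3.2, rU.2]
    have hY0e : e4.head (o .Y0) = c.head (o .Y0) := by
      rw [f9.head (by simp), hY0h, h0]
    have hY3e : e4.head (o .Y3) = c.head (o .Y3) := by
      rw [f9.head (by simp), hY3h, h3]
    exact Fr.fixA (Fr.fixA (Fr.fixA fe hRUh) hY0e) hY3e

/-- The bottom of the internal multiplier. -/
def baseP : Prog (FT ⊕ X) (Sym G) :=
  .seq (forR (o .RqM) baseB) (.seq (rewL .RqM .RU .D) (.seq (rewL .RqM .RU .T1) (rewL .RqM .RQd .P1)))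

/-- The cost of the bottom. -/
def BPC (cc w : ℕ) : ℕ :=
  (cc * (BBC w + 4) + 4) + ((cc * (4 * w + 8) + 4) + ((cc * (4 * w + 8) + 4) + (cc * (4 * (2 * w) + 8) + 4)))

/-- The invariant of the bottom. -/
structure BPI (c0 : TC X G) (w L : ℕ) (g : ℕ → ℕ) (i : ℕ) (d : TC X G) : Prop where
  tD : d.tape (o .D) = c0.tape (o .D)
  tT : d.tape (o .T1) = c0.tape (o .T1)
  hD : d.head (o .D) = ((i * w : ℕ) : ℤ)
  hT : d.head (o .T1) = ((i * w : ℕ) : ℤ)
  hP : d.head (o .P1) = ((i * (2 * w) : ℕ) : ℤ)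
  va : Arr (d.tape (o .P1)) (2 * w) i g
  cy : (d.read (o .Cy)).isOne = false
  lk : Lk L c0 d
  fr : Fr [.P1, .Y0, .Y1, .Y3, .Cy] [.RqM, .D, .T1, .P1] c0 d

theorem BPI.mvR {c0 d d' : TC X G} {w L : ℕ} {g : ℕ → ℕ} {i : ℕ} (h : BPI c0 w L g i d) (f : Fr [] [.RqM] d d') : BPI c0 w L g i d' := by
  refine ⟨?_, ?_, ?_, ?_, ?_, ?_, ?_, ?_, h.fr.tr f (by simp) (by simp)⟩
  · rw [f.tape (by simp), h.tD]
  · rw [f.tape (by simp), h.tT]
  · rw [f.head (by simp), h.hD]
  · rw [f.head (by simp), h.hT]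
  · rw [f.head (by simp), h.hP]
  · intro k hk
    rw [f.tape (by simp)]
    exact h.va k hk
  · simp only [TS.read]
    rw [f.tape (by simp), f.head (by simp)]
    exact h.cy
  · refine h.lk.trans ?_
    intro a _ x _
    rw [f.tape (by simp)]

theorem baseP_step {c0 d : TC X G} {w L cc : ℕ} {a b : ℕ → ℕ} {i : ℕ} (hi : i < cc)
    (rU : Ruler c0 (o .RU) w) (rQ : Ruler c0 (o .RQd) (2 * w)) (rZ : Ruler c0 (o .RKZ) (w + 1))
    (h0 : c0.head (o .Y0) = 0) (h1 : c0.head (o .Y1) = 0) (h3 : c0.head (o .Y3) = 0) (hCy : c0.head (o .Cy) = 0)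
    (hD : Arr (c0.tape (o .D)) w cc a) (hT : Arr (c0.tape (o .T1)) w cc b) (hw : 1 ≤ w) (hcL : cc * (2 * w) ≤ L) (hL : 2 * w ≤ L)
    (hI : BPI c0 w L (fun i => a i * b i) i d) :
    ∃ d', Run (baseB : Prog (FT ⊕ X) (Sym G)) d d' (BBC w) ∧ BPI c0 w L (fun i => a i * b i) (i + 1) d' ∧
      d'.tape (o .RqM) = d.tape (o .RqM) ∧ d'.head (o .RqM) = d.head (o .RqM) := by
  have hle : (i + 1) * (2 * w) ≤ cc * (2 * w) := Nat.mul_le_mul_right _ hi
  have e4 : (i + 1) * (2 * w) = i * (2 * w) + 2 * w := by ring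
  obtain ⟨d1, r1, a1, a2, a3, a4, a5, a6, a7, a8⟩ := baseB_spec (c := d) (L := L) (rU.of_fr hI.fr (by decide) (by simp)) (rQ.of_fr hI.fr (by decide) (by simp))
    (rZ.of_fr hI.fr (by decide) (by simp)) (by rw [hI.fr.head (by simp), h0]) (by rw [hI.fr.head (by simp), h1]) (by rw [hI.fr.head (by simp), h3])
    (by rw [hI.fr.head (by simp), hCy]) hI.cy hw hL (by rw [hI.hP]; positivity)
    (by
      rw [hI.hP]
      have : ((i * (2 * w) + 2 * w : ℕ) : ℤ) ≤ (L : ℤ) := by exact_mod_cast (by omega : i * (2 * w) + 2 * w ≤ L)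
      push_cast at this ⊢
      linarith)
  rw [hI.hP] at a4 a5
  refine ⟨d1, r1, ⟨?_, ?_, ?_, ?_, ?_, ?_, a6, hI.lk.trans a7, hI.fr.tr a8 (by simp) (by simp)⟩, a8.tape (by decide), a8.head (by simp)⟩
  · rw [a8.tape (by decide), hI.tD]
  · rw [a8.tape (by decide), hI.tT]
  · rw [a1, hI.hD]
    push_cast
    ring
  · rw [a2, hI.hT]
    push_cast
    ring
  · rw [a3, hI.hP]
    push_cast
    ring
  · intro k hk
    by_cases hk0 : k < i
    · have hkk : (k + 1) * (2 * w) ≤ i * (2 * w) := Nat.mul_le_mul_right _ hk0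
      have e5 : (k + 1) * (2 * w) = k * (2 * w) + 2 * w := by ring
      rw [← hI.va k hk0]
      apply vl_congr
      intro t ht
      have hlt : ((k * (2 * w) + t : ℕ) : ℤ) < ((i * (2 * w) : ℕ) : ℤ) := by exact_mod_cast (by omega : k * (2 * w) + t < i * (2 * w))
      push_cast at hlt
      rw [a5]
      push_cast
      omega
    · have hk3 : k = i := by omega
      subst hk3
      have hDv := hD k hi
      have hTv := hT k hi
      rw [← hI.tD, ← hI.hD] at hDv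
      rw [← hI.tT, ← hI.hT] at hTv
      rw [a4, hDv, hTv]

theorem baseP_spec {c : TC X G} {w L cc : ℕ} {a b : ℕ → ℕ}
    (rq : Ruler c (o .RqM) cc) (rU : Ruler c (o .RU) w) (rQ : Ruler c (o .RQd) (2 * w)) (rZ : Ruler c (o .RKZ) (w + 1))
    (h0 : c.head (o .Y0) = 0) (h1 : c.head (o .Y1) = 0) (h3 : c.head (o .Y3) = 0) (hCy : c.head (o .Cy) = 0)
    (hD0 : c.head (o .D) = 0) (hT0 : c.head (o .T1) = 0) (hP0 : c.head (o .P1) = 0)
    (hcy : (c.read (o .Cy)).isOne = false)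
    (hD : Arr (c.tape (o .D)) w cc a) (hT : Arr (c.tape (o .T1)) w cc b) (hw : 1 ≤ w) (hcL : cc * (2 * w) ≤ L) (hL : 2 * w ≤ L) :
    ∃ c', Run (baseP : Prog (FT ⊕ X) (Sym G)) c c' (BPC cc w) ∧ Arr (c'.tape (o .P1)) (2 * w) cc (fun i => a i * b i) ∧
      (c'.read (o .Cy)).isOne = false ∧ Lk L c c' ∧ Fr [.P1, .Y0, .Y1, .Y3, .Cy] [] c c' := by
  obtain ⟨d1, i1, hR1, r1⟩ := forU (R := .RqM) (body := (baseB : Prog (FT ⊕ X) (Sym G))) (n := cc) (c := c)
    (fun i d => BPI c w L (fun i => a i * b i) i d) (BBC w) rq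
    ⟨rfl, rfl, by simp [hD0], by simp [hT0], by simp [hP0], by intro k hk; simp at hk, hcy, Lk.refl _ _, Fr.refl _ _ _⟩
    (fun i d d' h f => h.mvR f)
    (by
      intro i hi d _ _ h
      exact baseP_step hi rU rQ rZ h0 h1 h3 hCy hD hT hw hcL hL h)
  obtain ⟨d2, r2, a2, f2⟩ := rewL_spec .RqM .RU .D (by decide) (by decide) (by decide) hR1 (rU.of_fr i1.fr (by decide) (by simp))
  obtain ⟨d3, r3, a3, f3⟩ := rewL_spec .RqM .RU .T1 (by decide) (by decide) (by decide) (hR1.of_fr f2 (by simp) (by simp))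
    ((rU.of_fr i1.fr (by decide) (by simp)).of_fr f2 (by simp) (by simp))
  have f23 : Fr [] [.D, .T1] d1 d3 := f2.tr f3 (by simp) (by simp)
  obtain ⟨d4, r4, a4, f4⟩ := rewL_spec .RqM .RQd .P1 (by decide) (by decide) (by decide) (hR1.of_fr f23 (by simp) (by simp))
    ((rQ.of_fr i1.fr (by decide) (by simp)).of_fr f23 (by simp) (by simp))
  have f24 : Fr [] [.D, .T1, .P1] d1 d4 := f23.tr f4 (by simp) (by simp)
  have hDe : d4.head (o .D) = c.head (o .D) := by
    rw [f4.head (by simp), f3.head (by simp), a2, i1.hD, hD0]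
    simp
  have hTe : d4.head (o .T1) = c.head (o .T1) := by
    rw [f4.head (by simp), a3, f2.head (by simp), i1.hT, hT0]
    simp
  have hPe : d4.head (o .P1) = c.head (o .P1) := by
    rw [a4, f23.head (by simp), i1.hP, hP0]
    simp
  have hRe : d4.head (o .RqM) = c.head (o .RqM) := by
    rw [f24.head (by simp), hR1.2, rq.2]
  refine ⟨d4, (r1.seq (r2.seq (r3.seq r4))).mono (by simp only [BPC]; omega), ?_, ?_, ?_, ?_⟩
  · rw [f24.tape (by simp)]
    exact i1.va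
  · simp only [TS.read]
    rw [f24.tape (by simp), f24.head (by simp)]
    exact i1.cy
  · refine i1.lk.trans ?_
    intro t _ x _
    rw [f24.tape (by simp)]
  · have fe : Fr [.P1, .Y0, .Y1, .Y3, .Cy] [.RqM, .D, .T1, .P1, .D, .T1, .P1] c d4 := i1.fr.tr f24 (by simp) (by simp)
    exact Fr.fixA (Fr.fixA (Fr.fixA (Fr.fixA (Fr.fixA (Fr.fixA (Fr.fixA fe hRe) hDe) hTe) hPe) hDe) hTe) hPe

end

end Vale.Agent.Lib.P338.F
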