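import Vale.Agent.Lib.P338.F.KarFwd

/-!
The ascending pass of the internal multiplier: the product of a level is obtained from three products of the next level.
-/

namespace Vale.Agent.Lib.P338.F

open Vale.Agent.Lib.P338 Prog

section
variable {G : Type}

/-- No overflow for an addition at an offset. -/
theorem vl_off_hov {τ : ℤ → Sym G} {a n u : ℕ} (h : vl τ 0 (a + n) + 2 ^ a * u < 2 ^ (a + n)) : vl τ (a : ℤ) n + u < 2 ^ n := by
  rw [vl_add] at h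
  simp only [zero_add] at h
  have hp : 0 < 2 ^ a := by positivity
  have e : 2 ^ (a + n) = 2 ^ a * 2 ^ n := pow_add 2 a n
  rw [e] at h
  have h2 : 2 ^ a * (vl τ (a : ℤ) n + u) < 2 ^ a * 2 ^ n := by
    rw [mul_add]
    omega
  exact Nat.lt_of_mul_lt_mul_left h2

/-- The result of an addition at an offset. -/
theorem vl_off_eq {τ τ' : ℤ → Sym G} {a n u N : ℕ} (hN : a + n ≤ N) (hout : ∀ x : ℤ, ¬ ((a : ℤ) ≤ x ∧ x < (a : ℤ) + n) → τ' x = τ x)
    (h : vl τ' (a : ℤ) n = vl τ (a : ℤ) n + u) : vl τ' 0 N = vl τ 0 N + 2 ^ a * u := by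
  obtain ⟨r, rfl⟩ : ∃ r, N = a + (n + r) := ⟨N - (a + n), by omega⟩
  rw [vl_add, vl_add τ, vl_add τ' (0 + (a : ℤ)) n r, vl_add τ (0 + (a : ℤ)) n r]
  simp only [zero_add]
  rw [h]
  have h1 : vl τ' 0 a = vl τ 0 a := by
    apply vl_congr
    intro i hi
    rw [hout _ (by omega)]
  have h2 : vl τ' ((a : ℤ) + n) r = vl τ ((a : ℤ) + n) r := by
    apply vl_congr
    intro i hi
    rw [hout _ (by omega)]
  rw [h1, h2]
  ring

variable {X : Type} [DecidableEq X]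

/-- The first part of a slot of the ascending pass. -/
def bwdL : Prog (FT ⊕ X) (Sym G) :=
  .seq (zro .RK .Y0) (.seq (zro .RK .Y1) (.seq (zro .RK .Y2) (.seq (zro .RK .Y3)
    (.seq (lod .RQd .P1 .Y0) (.seq (lod .RQd .P1 .Y1) (lod .RQd .P1 .Y2))))))

/-- The last part of a slot of the ascending pass. -/
def bwdT : Prog (FT ⊕ X) (Sym G) :=
  (.seq (adv .Rt .Y3 .R) (.seq (addR .RZ .Y3 .Y2) (.seq (adv .Rt .Y3 .L)
  (.seq (adv .Rt .Y3 .R) (.seq (adv .Rt .Y3 .R) (.seq (addR .RQd .Y3 .Y1) (.seq (adv .Rt .Y3 .L) (.seq (adv .Rt .Y3 .L)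
  (sto .RK .Y3 .P2)))))))))

/-- One slot of the ascending pass. -/
def bwdB : Prog (FT ⊕ X) (Sym G) :=
  .seq bwdL
  (.seq (subR .RQd .Y2 .Y0) (.seq (subR .RQd .Y2 .Y1)
  (.seq (addR .RK .Y3 .Y0) bwdT)))

/-- The cost of a slot. -/
def BWB (s V : ℕ) : ℕ :=
  4 * (8 * (2 * (s + V)) + 8) + 3 * (8 * (2 * V) + 8) + 2 * (8 * (2 * V) + 8) + (8 * (2 * (s + V)) + 9) + 6 * (4 * s + 4) +
    (8 * (s + 2 * V) + 9) + (8 * (2 * V) + 9) + (8 * (2 * (s + V)) + 8)

/-- The loading of three registers: the state of the registers after the first part of a slot. -/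
theorem bwdL_spec {c : TC X G} {s V : ℕ} (hs0 : c.head (o .Y0) = 0) (hs1 : c.head (o .Y1) = 0) (hs2 : c.head (o .Y2) = 0)
    (hs3 : c.head (o .Y3) = 0)
    (rK : Ruler c (o .RK) (2 * (s + V))) (rQ : Ruler c (o .RQd) (2 * V)) :
    ∃ c', Run (bwdL : Prog (FT ⊕ X) (Sym G)) c c' (4 * (8 * (2 * (s + V)) + 8) + 3 * (8 * (2 * V) + 8)) ∧
      c'.head (o .P1) = c.head (o .P1) + 3 * (2 * V : ℕ) ∧
      vl (c'.tape (o .Y0)) 0 (2 * V) = vl (c.tape (o .P1)) (c.head (o .P1)) (2 * V) ∧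
      vl (c'.tape (o .Y1)) 0 (2 * V) = vl (c.tape (o .P1)) (c.head (o .P1) + (2 * V : ℕ)) (2 * V) ∧
      vl (c'.tape (o .Y0)) 0 (2 * (s + V)) = vl (c.tape (o .P1)) (c.head (o .P1)) (2 * V) ∧
      vl (c'.tape (o .Y1)) 0 (2 * (s + V)) = vl (c.tape (o .P1)) (c.head (o .P1) + (2 * V : ℕ)) (2 * V) ∧
      (∀ x : ℤ, (2 * V : ℕ) ≤ x → x < (2 * (s + V) : ℕ) → c'.tape (o .Y2) x = .zero) ∧
      vl (c'.tape (o .Y2)) 0 (2 * V) = vl (c.tape (o .P1)) (c.head (o .P1) + 2 * (2 * V : ℕ)) (2 * V) ∧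
      (∀ x : ℤ, 0 ≤ x → x < (2 * (s + V) : ℕ) → c'.tape (o .Y3) x = .zero) ∧
      (∀ a, a ∈ [FT.Y0, .Y1, .Y2, .Y3] → ∀ x : ℤ, ¬ (0 ≤ x ∧ x < (2 * (s + V) : ℕ)) → c'.tape (o a) x = c.tape (o a) x) ∧
      Fr [.Y0, .Y1, .Y2, .Y3] [.P1] c c' := by
  obtain ⟨c1, r1, a1, f1⟩ := zro_spec .RK .Y0 (by decide) c rK
  obtain ⟨c2, r2, a2, f2⟩ := zro_spec .RK .Y1 (by decide) c1 (rK.of_fr f1 (by decide) (by simp))
  have f12 : Fr [.Y0, .Y1] [] c c2 := f1.trans f2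
  obtain ⟨c3, r3, a3, f3⟩ := zro_spec .RK .Y2 (by decide) c2 (rK.of_fr f12 (by decide) (by simp))
  have f13 : Fr [.Y0, .Y1, .Y2] [] c c3 := f12.tr f3 (by simp) (by simp)
  obtain ⟨c4, r4, a4, f4⟩ := zro_spec .RK .Y3 (by decide) c3 (rK.of_fr f13 (by decide) (by simp))
  have f14 : Fr [.Y0, .Y1, .Y2, .Y3] [] c c4 := f13.tr f4 (by simp) (by simp)
  have rQ4 := rQ.of_fr f14 (by decide) (by simp)
  obtain ⟨c5, r5, b1, b2, f5⟩ := lod_spec .RQd .P1 .Y0 (by decide) c4 rQ4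
  have rQ5 := rQ4.of_fr f5 (by decide) (by simp)
  obtain ⟨c6, r6, d1, d2, f6⟩ := lod_spec .RQd .P1 .Y1 (by decide) c5 rQ5
  have rQ6 := rQ5.of_fr f6 (by decide) (by simp)
  obtain ⟨c7, r7, g1, g2, f7⟩ := lod_spec .RQd .P1 .Y2 (by decide) c6 rQ6
  have f57 : Fr [.Y0, .Y1, .Y2] [.P1] c4 c7 := (f5.trans (f6.trans f7)).mono (by simp) (by simp)
  have f17 : Fr [.Y0, .Y1, .Y2, .Y3] [.P1] c c7 := f14.tr f57 (by simp) (by simp)
  have hP4 : c4.tape (o .P1) = c.tape (o .P1) := f14.tape (by decide)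
  have hP4h : c4.head (o .P1) = c.head (o .P1) := f14.head (by simp)
  have hP5 : c5.tape (o .P1) = c.tape (o .P1) := by rw [f5.tape (by decide), hP4]
  have hP6 : c6.tape (o .P1) = c.tape (o .P1) := by rw [f6.tape (by decide), hP5]
  have h5h : c5.head (o .P1) = c.head (o .P1) + (2 * V : ℕ) := by rw [b1, hP4h]
  have h6h : c6.head (o .P1) = c.head (o .P1) + 2 * (2 * V : ℕ) := by
    rw [d1, h5h]
    ring
  have hY04 : c4.head (o .Y0) = 0 := by rw [f14.head (by simp), hs0]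
  have hY15 : c5.head (o .Y1) = 0 := by rw [f5.head (by simp), f14.head (by simp), hs1]
  have hY26 : c6.head (o .Y2) = 0 := by rw [f6.head (by simp), f5.head (by simp), f14.head (by simp), hs2]
  have hle : 2 * V ≤ 2 * (s + V) := by omega
  have hY3 : ∀ x : ℤ, c7.tape (o .Y3) x = if 0 ≤ x ∧ x < (2 * (s + V) : ℕ) then .zero else c.tape (o .Y3) x := by
    intro x
    rw [f57.tape (by simp), a4, f13.head (by simp), hs3, zero_add, f13.tape (by simp)]
  have e0 : c7.tape (o .Y0) = c5.tape (o .Y0) := by rw [f7.tape (by decide), f6.tape (by decide)]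
  have e1 : c7.tape (o .Y1) = c6.tape (o .Y1) := f7.tape (by decide)
  have hzY0 : ∀ x : ℤ, c4.tape (o .Y0) x = if 0 ≤ x ∧ x < (2 * (s + V) : ℕ) then .zero else c.tape (o .Y0) x := by
    intro x
    rw [f4.tape (by decide), f3.tape (by decide), f2.tape (by decide), a1, hs0, zero_add]
  have hzY1 : ∀ x : ℤ, c5.tape (o .Y1) x = if 0 ≤ x ∧ x < (2 * (s + V) : ℕ) then .zero else c.tape (o .Y1) x := by
    intro x
    rw [f5.tape (by decide), f4.tape (by decide), f3.tape (by decide), a2, f1.head (by simp), hs1, zero_add, f1.tape (by decide)]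
  have hzY2 : ∀ x : ℤ, c6.tape (o .Y2) x = if 0 ≤ x ∧ x < (2 * (s + V) : ℕ) then .zero else c.tape (o .Y2) x := by
    intro x
    rw [f6.tape (by decide), f5.tape (by decide), f4.tape (by decide), a3, f12.head (by simp), hs2, zero_add, f12.tape (by decide)]
  refine ⟨c7, (r1.seq (r2.seq (r3.seq (r4.seq (r5.seq (r6.seq r7)))))).mono (by omega), ?_, ?_, ?_, ?_, ?_, ?_, ?_, ?_, ?_, f17⟩
  · rw [g1, h6h]
    ring
  · rw [e0]
    refine vl_load (le_refl _) ?_ ?_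
    · intro x h2 h3
      rw [b2, hY04, if_pos (by constructor <;> omega), hP4, hP4h]
      congr 2
      ring
    · intro x h2 h3
      omega
  · rw [e1]
    refine vl_load (le_refl _) ?_ ?_
    · intro x h2 h3
      rw [d2, hY15, if_pos (by constructor <;> omega), hP5, h5h]
      congr 2
      ring
    · intro x h2 h3
      omega
  · rw [e0]
    refine vl_load hle ?_ ?_
    · intro x h2 h3
      rw [b2, hY04, if_pos (by constructor <;> omega), hP4, hP4h]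
      congr 2
      ring
    · intro x h2 h3
      rw [b2, hY04, if_neg (by omega), hzY0, if_pos (by omega)]
  · rw [e1]
    refine vl_load hle ?_ ?_
    · intro x h2 h3
      rw [d2, hY15, if_pos (by constructor <;> omega), hP5, h5h]
      congr 2
      ring
    · intro x h2 h3
      rw [d2, hY15, if_neg (by omega), hzY1, if_pos (by omega)]
  · intro x h2 h3
    have h4 : (0 : ℤ) ≤ (2 * V : ℕ) := by positivity
    rw [g2, hY26, if_neg (by omega), hzY2, if_pos (by omega)]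
  · have := vl_of_copy g2
    rw [hY26, hP6, h6h] at this
    exact this
  · intro x h2 h3
    rw [hY3, if_pos ⟨h2, h3⟩]
  · intro a ha x hx
    simp only [List.mem_cons, List.not_mem_nil, or_false] at ha
    have h4 : (2 * V : ℕ) ≤ ((2 * (s + V) : ℕ) : ℤ) := by exact_mod_cast hle
    have h5 : (0 : ℤ) ≤ (2 * V : ℕ) := by positivity
    rcases ha with rfl | rfl | rfl | rfl
    · rw [e0, b2, hY04, if_neg (by omega), hzY0, if_neg hx]
    · rw [e1, d2, hY15, if_neg (by omega), hzY1, if_neg hx]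
    · rw [g2, hY26, if_neg (by omega), hzY2, if_neg hx]
    · rw [hY3, if_neg hx]

/-- A step on a register and on the carry is local. -/
theorem Lk.reg {c c' : TC X G} {Y : FT} {h : ℤ} {n L : ℕ} (f : Fr [Y, .Cy] [] c c') (hy : ∀ x, ¬ (h ≤ x ∧ x < h + n) → c'.tape (o Y) x = c.tape (o Y) x)
    (hc : ∀ x, x ≠ c.head (o .Cy) → c'.tape (o .Cy) x = c.tape (o .Cy) x) (hCy : c.head (o .Cy) = 0) (h0 : 0 ≤ h) (hL : h + n ≤ L) (hL1 : 1 ≤ L) : Lk L c c' := by
  refine Lk.of_fr f ?_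
  intro a ha _ x hx
  simp only [List.mem_cons, List.not_mem_nil, or_false] at ha
  have hL1z : (1 : ℤ) ≤ L := by exact_mod_cast hL1
  rcases ha with rfl | rfl
  · exact hy x (by omega)
  · exact hc x (by omega)

/-- An addition at an offset in the register `Y3`. -/
theorem addAt {c : TC X G} {R S : FT} {a n N u : ℕ} (hn : [R, .Y3, S, .Cy].Nodup) (rR : Ruler c (o R) n)
    (hcy : (c.read (o .Cy)).isOne = false) (hY3 : c.head (o .Y3) = (a : ℤ)) (hS : c.head (o S) = 0) (hu : vl (c.tape (o S)) 0 n = u)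
    (hN : N = a + n) (hov : vl (c.tape (o .Y3)) 0 N + 2 ^ a * u < 2 ^ N) :
    ∃ c', Run (addR R .Y3 S : Prog (FT ⊕ X) (Sym G)) c c' (8 * n + 9) ∧
      vl (c'.tape (o .Y3)) 0 N = vl (c.tape (o .Y3)) 0 N + 2 ^ a * u ∧
      (∀ x, ¬ ((a : ℤ) ≤ x ∧ x < (a : ℤ) + n) → c'.tape (o .Y3) x = c.tape (o .Y3) x) ∧
      (c'.read (o .Cy)).isOne = false ∧ (∀ x, x ≠ c.head (o .Cy) → c'.tape (o .Cy) x = c.tape (o .Cy) x) ∧ Fr [.Y3, .Cy] [] c c' := by
  subst hN
  have hov' := vl_off_hov hov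
  obtain ⟨c1, r1, a1, a2, a3, a4, f1⟩ := addR_spec' R .Y3 S hn c rR hcy (by
    rw [hY3, hS, hu]
    exact hov')
  rw [hY3] at a1 a2
  rw [hS, hu] at a2
  exact ⟨c1, r1, vl_off_eq le_rfl a1 a2, a1, a3, a4, f1⟩

theorem bwdT_spec {c : TC X G} {s V L z0 y z1 : ℕ} (rt : Ruler c (o .Rt) s) (rQ : Ruler c (o .RQd) (2 * V)) (rK : Ruler c (o .RK) (2 * (s + V)))
    (rZ : Ruler c (o .RZ) (s + 2 * V)) (hs3 : c.head (o .Y3) = 0) (hcy : (c.read (o .Cy)).isOne = false)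
    (hv3 : vl (c.tape (o .Y3)) 0 (2 * (s + V)) = z0) (hv2 : vl (c.tape (o .Y2)) 0 (s + 2 * V) = y) (hv1 : vl (c.tape (o .Y1)) 0 (2 * V) = z1)
    (hs1 : c.head (o .Y1) = 0) (hs2 : c.head (o .Y2) = 0) (hCy : c.head (o .Cy) = 0)
    (hlt : z0 + 2 ^ s * y + 2 ^ s * (2 ^ s * z1) < 2 ^ (2 * (s + V)))
    (hW : 2 * (s + V) ≤ L) (hL1 : 1 ≤ L) (ht0 : 0 ≤ c.head (o .P2)) (htL : c.head (o .P2) + (2 * (s + V) : ℕ) ≤ L) :
    ∃ c', Run (bwdT : Prog (FT ⊕ X) (Sym G)) c c' (6 * (4 * s + 4) + (8 * (s + 2 * V) + 9) + (8 * (2 * V) + 9) + (8 * (2 * (s + V)) + 8)) ∧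
      c'.head (o .P2) = c.head (o .P2) + (2 * (s + V) : ℕ) ∧
      vl (c'.tape (o .P2)) (c.head (o .P2)) (2 * (s + V)) = z0 + 2 ^ s * y + 2 ^ s * (2 ^ s * z1) ∧
      (∀ x, ¬ (c.head (o .P2) ≤ x ∧ x < c.head (o .P2) + (2 * (s + V) : ℕ)) → c'.tape (o .P2) x = c.tape (o .P2) x) ∧
      (c'.read (o .Cy)).isOne = false ∧ Lk L c c' ∧ Fr [.P2, .Y3, .Cy] [.P2] c c' := by
  have hpos : 0 < 2 ^ s := by positivity
  have hs0 : (0 : ℤ) ≤ s := Int.natCast_nonneg s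
  have hV0 : (0 : ℤ) ≤ V := Int.natCast_nonneg V
  have hWz : ((2 * (s + V) : ℕ) : ℤ) ≤ (L : ℤ) := by exact_mod_cast hW
  push_cast at hWz
  obtain ⟨c1, r1, a1, f1⟩ := adv_spec .Rt .Y3 .R (by decide) (by simp) c rt
  have ff1 : Lk L c c1 := Lk.of_fr f1 (by simp)
  have h1Y : c1.head (o .Y3) = ((s : ℕ) : ℤ) := by
    rw [a1, hs3]
    simp [Dir.toInt]
  have hY1 : c1.tape (o .Y3) = c.tape (o .Y3) := f1.tape (by simp)
  obtain ⟨c2, r2, b1, b2, b3, b4, f2⟩ := addAt (c := c1) (R := .RZ) (S := .Y2) (a := s) (n := s + 2 * V) (N := 2 * (s + V)) (u := y) (by decide)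
    (rZ.of_fr f1 (by simp) (by simp)) (by
      simp only [TS.read]
      rw [f1.tape (by simp), f1.head (by simp)]
      exact hcy) h1Y (by rw [f1.head (by simp), hs2]) (by rw [f1.tape (by simp)]; exact hv2) (by ring)
    (by
      rw [hY1, hv3]
      omega)
  rw [hY1, hv3] at b1
  have fl2 : Lk L c1 c2 := Lk.reg f2 b2 b4 (by rw [f1.head (by simp), hCy]) hs0 (by
    push_cast
    omega) hL1
  obtain ⟨c3, r3, d1, f3⟩ := adv_spec .Rt .Y3 .L (by decide) (by simp) c2 (rt.of_fr (f1.tr f2 (l2 := [.Y3, .Cy]) (m2 := [.Y3]) (by simp) (by simp)) (by decide) (by simp))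
  have h2Y : c2.head (o .Y3) = (s : ℤ) := by rw [f2.head (by simp), h1Y]
  have h3Y : c3.head (o .Y3) = 0 := by
    rw [d1, h2Y]
    simp [Dir.toInt]
  have f13 : Fr [.Y3, .Cy] [.Y3] c c3 := (f1.tr f2 (l2 := [.Y3, .Cy]) (m2 := [.Y3]) (by simp) (by simp)).tr f3 (by simp) (by simp)
  obtain ⟨c4, r4, g1, f4⟩ := adv_spec .Rt .Y3 .R (by decide) (by simp) c3 (rt.of_fr f13 (by decide) (by simp))
  have f14 : Fr [.Y3, .Cy] [.Y3] c c4 := f13.tr f4 (by simp) (by simp)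
  obtain ⟨c5, r5, k1, f5⟩ := adv_spec .Rt .Y3 .R (by decide) (by simp) c4 (rt.of_fr f14 (by decide) (by simp))
  have f15 : Fr [.Y3, .Cy] [.Y3] c c5 := f14.tr f5 (by simp) (by simp)
  have h5Y : c5.head (o .Y3) = ((2 * s : ℕ) : ℤ) := by
    rw [k1, g1, h3Y]
    simp only [Dir.toInt]
    push_cast
    ring
  have ht5 : c5.tape (o .Y3) = c2.tape (o .Y3) := by
    rw [f5.tape (by simp), f4.tape (by simp), f3.tape (by simp)]
  have e2s : 2 ^ (2 * s) = 2 ^ s * 2 ^ s := by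
    rw [two_mul, pow_add]
  obtain ⟨c6, r6, u1, u2, u3, u4, f6⟩ := addAt (c := c5) (R := .RQd) (S := .Y1) (a := 2 * s) (n := 2 * V) (N := 2 * (s + V)) (u := z1) (by decide)
    (rQ.of_fr f15 (by decide) (by simp)) (by
      simp only [TS.read]
      rw [f5.tape (by simp), f4.tape (by simp), f3.tape (by simp), f5.head (by simp), f4.head (by simp), f3.head (by simp)]
      exact b3) h5Y (by rw [f15.head (by simp), hs1]) (by rw [f15.tape (by simp)]; exact hv1) (by ring)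
    (by
      rw [ht5, b1, e2s]
      have e : 2 ^ s * 2 ^ s * z1 = 2 ^ s * (2 ^ s * z1) := by ring
      rw [e]
      exact hlt)
  rw [ht5, b1, e2s] at u1
  have fl6 : Lk L c5 c6 := Lk.reg f6 u2 u4 (by rw [f15.head (by simp), hCy]) (by positivity) (by
    push_cast
    omega) hL1
  have f16 : Fr [.Y3, .Cy] [.Y3] c c6 := f15.tr f6 (by simp) (by simp)
  obtain ⟨c7, r7, w1, f7⟩ := adv_spec .Rt .Y3 .L (by decide) (by simp) c6 (rt.of_fr f16 (by decide) (by simp))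
  have f17 : Fr [.Y3, .Cy] [.Y3] c c7 := f16.tr f7 (by simp) (by simp)
  obtain ⟨c8, r8, x1, f8⟩ := adv_spec .Rt .Y3 .L (by decide) (by simp) c7 (rt.of_fr f17 (by decide) (by simp))
  have f18 : Fr [.Y3, .Cy] [.Y3] c c8 := f17.tr f8 (by simp) (by simp)
  have h8Y : c8.head (o .Y3) = 0 := by
    rw [x1, w1, f6.head (by simp), h5Y]
    simp only [Dir.toInt]
    push_cast
    ring
  obtain ⟨c9, r9, y1, y2, f9⟩ := sto_spec .RK .Y3 .P2 (by decide) c8 (rK.of_fr f18 (by decide) (by simp))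
  have hP8 : c8.tape (o .P2) = c.tape (o .P2) := f18.tape (by simp)
  have hP8h : c8.head (o .P2) = c.head (o .P2) := f18.head (by simp)
  rw [hP8h] at y1 y2
  rw [hP8] at y2
  have ht8 : c8.tape (o .Y3) = c6.tape (o .Y3) := by
    rw [f8.tape (by simp), f7.tape (by simp)]
  have fl5 : Lk L c2 c5 := by
    refine Lk.of_fr ((f3.trans f4).trans f5) ?_
    intro a ha
    simp at ha
  have fl8 : Lk L c6 c8 := by
    refine Lk.of_fr (f7.trans f8) ?_
    intro a ha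
    simp at ha
  have fl9 : Lk L c8 c9 := by
    refine Lk.of_fr f9 ?_
    intro a ha _ x hx
    simp only [List.mem_singleton] at ha
    subst ha
    rw [y2, if_neg (by
      push_cast at htL ⊢
      omega), hP8]
  refine ⟨c9, (r1.seq (r2.seq (r3.seq (r4.seq (r5.seq (r6.seq (r7.seq (r8.seq r9)))))))).mono (by omega), ?_, ?_, ?_, ?_, ?_, ?_⟩
  · exact y1
  · rw [vl_of_copy y2, h8Y, ht8, u1]
    ring
  · intro x hx
    rw [y2, if_neg hx]
  · simp only [TS.read]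
    rw [f9.tape (by decide), f9.head (by simp), f8.tape (by decide), f7.tape (by decide), f8.head (by simp), f7.head (by simp)]
    exact u3
  · exact ff1.trans (fl2.trans (fl5.trans (fl6.trans (fl8.trans fl9))))
  · refine Fr.fixA (a := .Y3) (f18.tr f9 (by
      intro a ha
      simp only [List.mem_append, List.mem_cons, List.not_mem_nil, or_false] at ha ⊢
      tauto) (by simp)) ?_
    rw [f9.head (by simp), h8Y, hs3]

theorem bwdB_spec {c : TC X G} {s V L : ℕ} (rt : Ruler c (o .Rt) s) (rQ : Ruler c (o .RQd) (2 * V)) (rK : Ruler c (o .RK) (2 * (s + V)))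
    (rZ : Ruler c (o .RZ) (s + 2 * V)) (hs0 : c.head (o .Y0) = 0) (hs1 : c.head (o .Y1) = 0) (hs2 : c.head (o .Y2) = 0)
    (hs3 : c.head (o .Y3) = 0) (hcy : (c.read (o .Cy)).isOne = false) (hCy : c.head (o .Cy) = 0) {z0 z1 z2 : ℕ}
    (h0 : vl (c.tape (o .P1)) (c.head (o .P1)) (2 * V) = z0) (h1 : vl (c.tape (o .P1)) (c.head (o .P1) + (2 * V : ℕ)) (2 * V) = z1)
    (h2 : vl (c.tape (o .P1)) (c.head (o .P1) + 2 * (2 * V : ℕ)) (2 * V) = z2) (hz : z0 + z1 ≤ z2)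
    (hlt : z0 + 2 ^ s * (z2 - z0 - z1) + 2 ^ s * (2 ^ s * z1) < 2 ^ (2 * (s + V)))
    (hW : 2 * (s + V) ≤ L) (hL1 : 1 ≤ L) (ht0 : 0 ≤ c.head (o .P2)) (htL : c.head (o .P2) + (2 * (s + V) : ℕ) ≤ L) :
    ∃ c', Run (bwdB : Prog (FT ⊕ X) (Sym G)) c c' (BWB s V) ∧ c'.head (o .P1) = c.head (o .P1) + 3 * (2 * V : ℕ) ∧
      c'.head (o .P2) = c.head (o .P2) + (2 * (s + V) : ℕ) ∧
      vl (c'.tape (o .P2)) (c.head (o .P2)) (2 * (s + V)) = z0 + 2 ^ s * (z2 - z0 - z1) + 2 ^ s * (2 ^ s * z1) ∧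
      (∀ x, ¬ (c.head (o .P2) ≤ x ∧ x < c.head (o .P2) + (2 * (s + V) : ℕ)) → c'.tape (o .P2) x = c.tape (o .P2) x) ∧
      (c'.read (o .Cy)).isOne = false ∧ Lk L c c' ∧ Fr [.P2, .Y0, .Y1, .Y2, .Y3, .Cy] [.P1, .P2] c c' := by
  obtain ⟨c1, r1, a0, a1, a2, a3, a4, a5, a6, a7, a8, f1⟩ := bwdL_spec hs0 hs1 hs2 hs3 rK rQ
  rw [h0] at a1 a3
  rw [h1] at a2 a4
  rw [h2] at a6
  have rQ1 := rQ.of_fr f1 (by decide) (by simp)
  have hcy1 : (c1.read (o .Cy)).isOne = false := by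
    simp only [TS.read]
    rw [f1.tape (by decide), f1.head (by simp)]
    exact hcy
  have hY01 : c1.head (o .Y0) = 0 := by rw [f1.head (by simp), hs0]
  have hY11 : c1.head (o .Y1) = 0 := by rw [f1.head (by simp), hs1]
  have hY21 : c1.head (o .Y2) = 0 := by rw [f1.head (by simp), hs2]
  have hY31 : c1.head (o .Y3) = 0 := by rw [f1.head (by simp), hs3]
  have hC1 : c1.head (o .Cy) = 0 := by rw [f1.head (by simp), hCy]
  -- the first subtraction
  obtain ⟨c2, r2, b1, b2, b3, b4, b5, f2⟩ := subR_spec .RQd .Y2 .Y0 (by decide) c1 rQ1 hcy1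
  rw [hY21, hY01, a6, a1] at b2 b3
  rw [hY21] at b1
  have hz1 : z0 ≤ z2 := by omega
  have v2 := b2 hz1
  have hcy2 : (c2.read (o .Cy)).isOne = false := by
    rw [b3]
    simpa using hz1
  have rQ2 := rQ1.of_fr f2 (by decide) (by simp)
  have hY12 : c2.head (o .Y1) = 0 := by rw [f2.head (by simp), hY11]
  have hY22 : c2.head (o .Y2) = 0 := by rw [f2.head (by simp), hY21]
  -- the second subtraction
  obtain ⟨c3, r3, d1, d2, d3, d4, d5, f3⟩ := subR_spec .RQd .Y2 .Y1 (by decide) c2 rQ2 hcy2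
  have hY1t : c2.tape (o .Y1) = c1.tape (o .Y1) := f2.tape (by decide)
  rw [hY22, hY12, v2, hY1t, a2] at d2 d3
  rw [hY22] at d1
  have hz2 : z1 ≤ z2 - z0 := by omega
  have v3 := d2 hz2
  have hcy3 : (c3.read (o .Cy)).isOne = false := by
    rw [d3]
    simpa using hz2
  have f13 : Fr [.Y2, .Cy] [] c1 c3 := f2.tr f3 (by simp) (by simp)
  -- the extension of the difference by zeros
  have hvY2 : vl (c3.tape (o .Y2)) 0 (s + 2 * V) = z2 - z0 - z1 := by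
    rw [add_comm s, vl_add, v3, vl_eq_zero, mul_zero, add_zero]
    intro i hi
    have hlo : ¬ ((0 : ℤ) ≤ (0 : ℤ) + (2 * V : ℕ) + (i : ℤ) ∧ (0 : ℤ) + (2 * V : ℕ) + (i : ℤ) < (0 : ℤ) + (2 * V : ℕ)) := by omega
    rw [d1 _ hlo, b1 _ hlo, a5 _ (by omega) (by push_cast; omega)]
    rfl
  -- the sum
  have hY0t : c3.tape (o .Y0) = c1.tape (o .Y0) := f13.tape (by decide)
  have hY1t3 : c3.tape (o .Y1) = c1.tape (o .Y1) := f13.tape (by decide)
  have hY3t : c3.tape (o .Y3) = c1.tape (o .Y3) := f13.tape (by decide)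
  have rK3 := rK.of_fr (f1.tr f13 (l2 := [.Y0, .Y1, .Y2, .Y3, .Cy]) (m2 := [.P1]) (by simp) (by simp)) (by decide) (by simp)
  have hY33 : c3.head (o .Y3) = 0 := by rw [f13.head (by simp), hY31]
  have hY03 : c3.head (o .Y0) = 0 := by rw [f13.head (by simp), hY01]
  have hzero3 : vl (c3.tape (o .Y3)) 0 (2 * (s + V)) = 0 := by
    rw [hY3t]
    apply vl_eq_zero
    intro i hi
    rw [a7 _ (by omega) (by push_cast; omega)]
    rfl
  have hpos : 0 < 2 ^ s := by positivity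
  have hle0 : z0 ≤ z0 + 2 ^ s * (z2 - z0 - z1) + 2 ^ s * (2 ^ s * z1) := by
    rw [add_assoc]
    exact Nat.le_add_right _ _
  obtain ⟨c4, r4, g1, g2, g3, g4, f4⟩ := addR_spec' .RK .Y3 .Y0 (by decide) c3 rK3 hcy3 (by
    rw [hY33, hY03, hzero3, hY0t, a3]
    omega)
  rw [hY33, hzero3, hY03, hY0t, a3, zero_add] at g2
  rw [hY33] at g1
  have f14 : Fr [.Y2, .Y3, .Cy] [] c1 c4 := f13.tr f4 (by simp) (by simp)
  have f04 : Fr [.Y0, .Y1, .Y2, .Y3, .Cy] [.P1] c c4 := f1.tr f14 (by simp) (by simp)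
  have hP2 : c4.tape (o .P2) = c.tape (o .P2) := f04.tape (by decide)
  have hP2h : c4.head (o .P2) = c.head (o .P2) := f04.head (by simp)
  have hP1h : c4.head (o .P1) = c1.head (o .P1) := f14.head (by simp)
  obtain ⟨c5, r5, m1, m2, m3, m4, m5, f5⟩ := bwdT_spec (c := c4) (z0 := z0) (y := z2 - z0 - z1) (z1 := z1) (L := L)
    (rt.of_fr f04 (by decide) (by simp)) (rQ.of_fr f04 (by decide) (by simp)) (rK.of_fr f04 (by decide) (by simp)) (rZ.of_fr f04 (by decide) (by simp))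
    (by rw [f4.head (by simp), hY33]) g3 g2 (by rw [f4.tape (by decide)]; exact hvY2) (by rw [f4.tape (by decide), hY1t3]; exact a2)
    (by rw [f14.head (by simp), hY11]) (by rw [f14.head (by simp), hY21]) (by rw [f14.head (by simp), hC1]) hlt hW hL1 (by rw [hP2h]; exact ht0) (by rw [hP2h]; exact htL)
  rw [hP2h] at m1 m2 m3
  rw [hP2] at m3
  have hL1z : (0 : ℤ) ≤ ((2 * V : ℕ) : ℤ) := by positivity
  have hLz : ((2 * (s + V) : ℕ) : ℤ) ≤ (L : ℤ) := by exact_mod_cast hW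
  have hLe : ((2 * V : ℕ) : ℤ) ≤ (L : ℤ) := by
    have : 2 * V ≤ L := by omega
    exact_mod_cast this
  have l1 : Lk L c c1 := by
    refine Lk.of_fr f1 ?_
    intro a ha _ x hx
    exact a8 a ha x (by omega)
  have l2 : Lk L c1 c2 := Lk.reg f2 (h := 0) (n := 2 * V) (by simpa using b1) b5 hC1 (le_refl _) (by omega) hL1
  have l3 : Lk L c2 c3 := Lk.reg f3 (h := 0) (n := 2 * V) (by simpa using d1) d5 (by rw [f2.head (by simp), hC1]) (le_refl _) (by omega) hL1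
  have l4 : Lk L c3 c4 := Lk.reg f4 (h := 0) (n := 2 * (s + V)) (by simpa using g1) g4 (by rw [f13.head (by simp), hC1]) (le_refl _) (by omega) hL1
  refine ⟨c5, (r1.seq (r2.seq (r3.seq (r4.seq r5)))).mono (by simp only [BWB]; omega), ?_, m1, m2, m3, m4, l1.trans (l2.trans (l3.trans (l4.trans m5))), ?_⟩
  · rw [f5.head (by simp), hP1h, a0]
  · exact f04.tr f5 (by
      intro a ha
      simp only [List.mem_append, List.mem_cons, List.not_mem_nil, or_false] at ha ⊢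
      tauto) (by simp)

/-- The invariant of the ascending pass. -/
structure BwI (c0 : TC X G) (s V L : ℕ) (g' : ℕ → ℕ) (i : ℕ) (d : TC X G) : Prop where
  tP : d.tape (o .P1) = c0.tape (o .P1)
  hP : d.head (o .P1) = ((i * (3 * (2 * V)) : ℕ) : ℤ)
  hT : d.head (o .P2) = ((i * (2 * (s + V)) : ℕ) : ℤ)
  va : Arr (d.tape (o .P2)) (2 * (s + V)) i g'
  cy : (d.read (o .Cy)).isOne = false
  lk : Lk L c0 d
  fr : Fr [.P2, .Y0, .Y1, .Y2, .Y3, .Cy] [.Rq, .P1, .P2] c0 d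

theorem BwI.mvR {c0 d d' : TC X G} {s V L : ℕ} {g' : ℕ → ℕ} {i : ℕ} (h : BwI c0 s V L g' i d) (f : Fr [] [.Rq] d d') :
    BwI c0 s V L g' i d' := by
  refine ⟨?_, ?_, ?_, ?_, ?_, ?_, h.fr.tr f (by simp) (by simp)⟩
  · rw [f.tape (by simp), h.tP]
  · rw [f.head (by simp), h.hP]
  · rw [f.head (by simp), h.hT]
  · intro k hk
    rw [f.tape (by simp)]
    exact h.va k hk
  · simp only [TS.read]
    rw [f.tape (by simp), f.head (by simp)]
    exact h.cy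
  · refine h.lk.trans ?_
    intro a _ x _
    rw [f.tape (by simp)]

theorem bwd_step {c0 d : TC X G} {s V L cc : ℕ} {g g' : ℕ → ℕ} {i : ℕ} (hi : i < cc)
    (rt : Ruler c0 (o .Rt) s) (rQ : Ruler c0 (o .RQd) (2 * V)) (rK : Ruler c0 (o .RK) (2 * (s + V)))
    (rZ : Ruler c0 (o .RZ) (s + 2 * V)) (hs0 : c0.head (o .Y0) = 0) (hs1 : c0.head (o .Y1) = 0) (hs2 : c0.head (o .Y2) = 0)
    (hs3 : c0.head (o .Y3) = 0) (hCy : c0.head (o .Cy) = 0)
    (hA : Arr (c0.tape (o .P1)) (2 * V) (3 * cc) g)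
    (hg : ∀ i, i < cc → g (3 * i) + g (3 * i + 1) ≤ g (3 * i + 2) ∧
      g' i = g (3 * i) + 2 ^ s * (g (3 * i + 2) - g (3 * i) - g (3 * i + 1)) + 2 ^ s * (2 ^ s * g (3 * i + 1)) ∧ g' i < 2 ^ (2 * (s + V)))
    (hW : 2 * (s + V) ≤ L) (hL1 : 1 ≤ L) (hcL : cc * (2 * (s + V)) ≤ L) (hI : BwI c0 s V L g' i d) :
    ∃ d', Run (bwdB : Prog (FT ⊕ X) (Sym G)) d d' (BWB s V) ∧ BwI c0 s V L g' (i + 1) d' ∧
      d'.tape (o .Rq) = d.tape (o .Rq) ∧ d'.head (o .Rq) = d.head (o .Rq) := by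
  obtain ⟨g1, g2, g3⟩ := hg i hi
  have e1 : ((3 * i) * (2 * V) : ℕ) = i * (3 * (2 * V)) := by ring
  have e2 : ((3 * i + 1) * (2 * V) : ℕ) = i * (3 * (2 * V)) + 2 * V := by ring
  have e3 : ((3 * i + 2) * (2 * V) : ℕ) = i * (3 * (2 * V)) + 2 * (2 * V) := by ring
  have v0 := hA (3 * i) (by omega)
  have v1 := hA (3 * i + 1) (by omega)
  have v2 := hA (3 * i + 2) (by omega)
  rw [e1] at v0
  rw [e2] at v1
  rw [e3] at v2
  have hle : (i + 1) * (2 * (s + V)) ≤ cc * (2 * (s + V)) := Nat.mul_le_mul_right _ hi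
  have e4 : (i + 1) * (2 * (s + V)) = i * (2 * (s + V)) + 2 * (s + V) := by ring
  obtain ⟨d1, r1, a1, a2, a3, a4, a5, a6, a7⟩ := bwdB_spec (c := d) (L := L)
    (rt.of_fr hI.fr (by decide) (by simp)) (rQ.of_fr hI.fr (by decide) (by simp)) (rK.of_fr hI.fr (by decide) (by simp)) (rZ.of_fr hI.fr (by decide) (by simp))
    (by rw [hI.fr.head (by simp), hs0]) (by rw [hI.fr.head (by simp), hs1]) (by rw [hI.fr.head (by simp), hs2]) (by rw [hI.fr.head (by simp), hs3]) hI.cy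
    (by rw [hI.fr.head (by simp), hCy])
    (z0 := g (3 * i)) (z1 := g (3 * i + 1)) (z2 := g (3 * i + 2))
    (by rw [hI.tP, hI.hP]; exact v0)
    (by
      rw [hI.tP, hI.hP, ← v1]
      congr 1)
    (by
      rw [hI.tP, hI.hP, ← v2]
      congr 1)
    g1 (by rw [← g2]; exact g3) hW hL1 (by rw [hI.hT]; positivity)
    (by
      rw [hI.hT]
      have : ((i * (2 * (s + V)) + 2 * (s + V) : ℕ) : ℤ) ≤ (L : ℤ) := by exact_mod_cast (by omega : i * (2 * (s + V)) + 2 * (s + V) ≤ L)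
      push_cast at this ⊢
      linarith)
  rw [hI.hT] at a3 a4
  rw [← g2] at a3
  refine ⟨d1, r1, ⟨?_, ?_, ?_, ?_, a5, hI.lk.trans a6, hI.fr.tr a7 (by simp) (by simp)⟩, a7.tape (by decide), a7.head (by simp)⟩
  · rw [a7.tape (by decide), hI.tP]
  · rw [a1, hI.hP]
    push_cast
    ring
  · rw [a2, hI.hT]
    push_cast
    ring
  · intro k hk
    by_cases hk0 : k < i
    · have hkk : (k + 1) * (2 * (s + V)) ≤ i * (2 * (s + V)) := Nat.mul_le_mul_right _ hk0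
      have e5 : (k + 1) * (2 * (s + V)) = k * (2 * (s + V)) + 2 * (s + V) := by ring
      rw [← hI.va k hk0]
      apply vl_congr
      intro j hj
      have hlt : ((k * (2 * (s + V)) + j : ℕ) : ℤ) < ((i * (2 * (s + V)) : ℕ) : ℤ) := by
        exact_mod_cast (by omega : k * (2 * (s + V)) + j < i * (2 * (s + V)))
      rw [a4]
      push_cast at hlt ⊢
      omega
    · have hk1 : k = i := by omega
      subst hk1
      exact a3

/-- The ascending pass. -/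
def bwd : Prog (FT ⊕ X) (Sym G) :=
  .seq (forR (o .Rq) bwdB) (.seq (rewL .RqM .RQd .P1) (.seq (rewL .Rq .RK .P2) (.seq (bcpy .Rq .RK .P2 .P1) (.seq (rewL .Rq .RK .P2) (rewL .Rq .RK .P1)))))

/-- The cost of the ascending pass. -/
def BWC (cc s V : ℕ) : ℕ :=
  (cc * (BWB s V + 4) + 4) + (((3 * cc) * (4 * (2 * V) + 8) + 4) + ((cc * (4 * (2 * (s + V)) + 8) + 4) + ((cc * (4 * (2 * (s + V)) + 8) + 4) +
    ((cc * (4 * (2 * (s + V)) + 8) + 4) + (cc * (4 * (2 * (s + V)) + 8) + 4)))))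

theorem bwd_spec {c : TC X G} {s V L cc : ℕ} {g g' : ℕ → ℕ}
    (rq : Ruler c (o .Rq) cc) (rq3 : Ruler c (o .RqM) (3 * cc)) (rt : Ruler c (o .Rt) s) (rQ : Ruler c (o .RQd) (2 * V)) (rK : Ruler c (o .RK) (2 * (s + V)))
    (rZ : Ruler c (o .RZ) (s + 2 * V)) (hs0 : c.head (o .Y0) = 0) (hs1 : c.head (o .Y1) = 0) (hs2 : c.head (o .Y2) = 0)
    (hs3 : c.head (o .Y3) = 0) (hCy : c.head (o .Cy) = 0) (hP0 : c.head (o .P1) = 0) (hT0 : c.head (o .P2) = 0)
    (hcy : (c.read (o .Cy)).isOne = false)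
    (hA : Arr (c.tape (o .P1)) (2 * V) (3 * cc) g)
    (hg : ∀ i, i < cc → g (3 * i) + g (3 * i + 1) ≤ g (3 * i + 2) ∧
      g' i = g (3 * i) + 2 ^ s * (g (3 * i + 2) - g (3 * i) - g (3 * i + 1)) + 2 ^ s * (2 ^ s * g (3 * i + 1)) ∧ g' i < 2 ^ (2 * (s + V)))
    (hW : 2 * (s + V) ≤ L) (hL1 : 1 ≤ L) (hcL : cc * (2 * (s + V)) ≤ L) :
    ∃ c', Run (bwd : Prog (FT ⊕ X) (Sym G)) c c' (BWC cc s V) ∧ Arr (c'.tape (o .P1)) (2 * (s + V)) cc g' ∧
      c'.head (o .P1) = 0 ∧ c'.head (o .P2) = 0 ∧ (c'.read (o .Cy)).isOne = false ∧ Lk L c c' ∧ Fr [.P1, .P2, .Y0, .Y1, .Y2, .Y3, .Cy] [] c c' := by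
  obtain ⟨d1, i1, hR1, r1⟩ := forU (R := .Rq) (body := (bwdB : Prog (FT ⊕ X) (Sym G))) (n := cc) (c := c)
    (fun i d => BwI c s V L g' i d) (BWB s V) rq
    ⟨rfl, by simp [hP0], by simp [hT0], by intro k hk; simp at hk, hcy, Lk.refl _ _, Fr.refl _ _ _⟩
    (fun i d d' h f => h.mvR f)
    (by
      intro i hi d _ _ h
      exact bwd_step hi rt rQ rK rZ hs0 hs1 hs2 hs3 hCy hA hg hW hL1 hcL h)
  have rq31 : Ruler d1 (o .RqM) (3 * cc) := rq3.of_fr i1.fr (by decide) (by simp)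
  have rQ1 : Ruler d1 (o .RQd) (2 * V) := rQ.of_fr i1.fr (by decide) (by simp)
  have rK1 : Ruler d1 (o .RK) (2 * (s + V)) := rK.of_fr i1.fr (by decide) (by simp)
  obtain ⟨d2, r2, a2, f2⟩ := rewL_spec .RqM .RQd .P1 (by decide) (by decide) (by decide) rq31 rQ1
  obtain ⟨d3, r3, a3, f3⟩ := rewL_spec .Rq .RK .P2 (by decide) (by decide) (by decide) (hR1.of_fr f2 (by simp) (by simp))
    (rK1.of_fr f2 (by simp) (by simp))
  have f23 : Fr [] [.P1, .P2] d1 d3 := f2.tr f3 (by simp) (by simp)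
  obtain ⟨d4, r4, a4, a5, a6, f4⟩ := bcpy_spec .Rq .RK .P2 .P1 (by decide)
    (hR1.of_fr f23 (by simp) (by simp)) (rK1.of_fr f23 (by simp) (by simp))
  have f24 : Fr [.P1] [.P1, .P2] d1 d4 := f23.tr f4 (by simp) (by simp)
  obtain ⟨d5, r5, a7, f5⟩ := rewL_spec .Rq .RK .P2 (by decide) (by decide) (by decide)
    (hR1.of_fr f24 (by simp) (by simp)) (rK1.of_fr f24 (by simp) (by simp))
  have f25 : Fr [.P1] [.P1, .P2] d1 d5 := f24.tr f5 (by simp) (by simp)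
  obtain ⟨d6, r6, a8, f6⟩ := rewL_spec .Rq .RK .P1 (by decide) (by decide) (by decide)
    (hR1.of_fr f25 (by simp) (by simp)) (rK1.of_fr f25 (by simp) (by simp))
  have f26 : Fr [.P1] [.P1, .P2] d1 d6 := f25.tr f6 (by simp) (by simp)
  have h2S : d2.head (o .P1) = 0 := by
    rw [a2, i1.hP]
    push_cast
    ring
  have h3T : d3.head (o .P2) = 0 := by
    rw [a3, f2.head (by simp), i1.hT]
    simp
  have h3S : d3.head (o .P1) = 0 := by
    rw [f3.head (by simp), h2S]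
  have h4S : d4.head (o .P1) = ((cc * (2 * (s + V)) : ℕ) : ℤ) := by
    rw [a5, h3S, zero_add]
  have h4T : d4.head (o .P2) = ((cc * (2 * (s + V)) : ℕ) : ℤ) := by
    rw [a4, h3T, zero_add]
  have hT3 : d3.tape (o .P2) = d1.tape (o .P2) := f23.tape (by simp)
  have hS6 : d6.tape (o .P1) = d4.tape (o .P1) := by
    rw [f6.tape (by simp), f5.tape (by simp)]
  have hcell : ∀ x, d4.tape (o .P1) x = if 0 ≤ x ∧ x < ((cc * (2 * (s + V)) : ℕ) : ℤ) then bitW (d1.tape (o .P2) x) else c.tape (o .P1) x := by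
    intro x
    rw [a6, h3S, zero_add, h3T, hT3, f23.tape (by simp), i1.tP]
    simp
  have hL : ((cc * (2 * (s + V)) : ℕ) : ℤ) ≤ (L : ℤ) := by exact_mod_cast hcL
  refine ⟨d6, (r1.seq (r2.seq (r3.seq (r4.seq (r5.seq r6))))).mono (by simp only [BWC]; omega), ?_, ?_, ?_, ?_, ?_, ?_⟩
  · intro k hk
    rw [hS6, ← i1.va k hk]
    apply vl_congr
    intro j hj
    have hkk : (k + 1) * (2 * (s + V)) ≤ cc * (2 * (s + V)) := Nat.mul_le_mul_right _ hk
    have e4 : (k + 1) * (2 * (s + V)) = k * (2 * (s + V)) + 2 * (s + V) := by ring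
    have hlt : ((k * (2 * (s + V)) + j : ℕ) : ℤ) < ((cc * (2 * (s + V)) : ℕ) : ℤ) := by
      exact_mod_cast (by omega : k * (2 * (s + V)) + j < cc * (2 * (s + V)))
    rw [hcell, if_pos]
    · simp
    · constructor
      · positivity
      · exact_mod_cast hlt
  · rw [a8, f5.head (by simp), h4S]
    simp
  · rw [f6.head (by simp), a7, h4T]
    simp
  · simp only [TS.read]
    rw [f26.tape (by simp), f26.head (by simp)]
    exact i1.cy
  · refine i1.lk.trans ?_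
    refine Lk.of_fr f26 ?_
    intro a ha _ x hx
    simp only [List.mem_singleton] at ha
    subst ha
    rw [hS6, hcell, if_neg (by omega), ← i1.tP]
  · have f16 : Fr [.P2, .Y0, .Y1, .Y2, .Y3, .Cy, .P1] [.Rq, .P1, .P2, .P1, .P2] c d6 := i1.fr.tr f26 (by simp) (by simp)
    have hRq : Ruler d6 (o .Rq) cc := hR1.of_fr f26 (by simp) (by simp)
    have hS6h : d6.head (o .P1) = c.head (o .P1) := by
      rw [hP0, a8, f5.head (by simp), h4S]
      simp
    have hT6h : d6.head (o .P2) = c.head (o .P2) := by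
      rw [hT0, f6.head (by simp), a7, h4T]
      simp
    have e1 := Fr.fixR f16 rq hRq
    have e2 := Fr.fixA e1 hS6h
    have e3 := Fr.fixA e2 hT6h
    have e4 := Fr.fixA e3 hS6h
    have e5 := Fr.fixA e4 hT6h
    exact e5.mono (by
      intro a ha
      simp only [List.mem_cons, List.not_mem_nil, or_false] at ha ⊢
      tauto) (by simp)

end

end Vale.Agent.Lib.P338.F
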