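import Vale.Agent.Lib.P338.F.RulerF

/-!
The environment of the internal multiplier: rulers, frames, locality of the writes, arrays of fixed width slots.
-/

namespace Vale.Agent.Lib.P338.F

open Vale.Agent.Lib.P338 Prog

section
variable {X G : Type}

/-- The tapes which are not rulers during the internal multiplication. -/
abbrev nK : List FT := [.X1, .X2, .X3, .D, .T1, .T2, .P1, .P2, .Y0, .Y1, .Y2, .Y3, .Cy, .Rn]

/-- The tapes with data. -/
abbrev bLK : List FT := [.D, .T1, .T2, .P1, .P2, .Y0, .Y1, .Y2, .Y3, .Cy]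

/-- The rulers used. -/
abbrev kR : List FT := [.Rp, .Tmp, .RA1, .Rm, .Rn, .Rdf, .Ra, .Rs, .Rq, .RqM, .Rt, .RU, .RUp, .RQd, .RK, .RZ, .RKZ, .RZt, .RKZt]

/-- All tapes touched by the internal multiplication, but for the heads of the operands. -/
abbrev kU : List FT := .X3 :: .RS :: bLK ++ kR

/-- Locality of the writes on the data tapes. -/
def Lk (L : ℕ) (c c' : TC X G) : Prop :=
  ∀ a, a ∈ bLK → ∀ x : ℤ, ¬ (0 ≤ x ∧ x < (L : ℤ)) → c'.tape (o a) x = c.tape (o a) x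

theorem Lk.refl (L : ℕ) (c : TC X G) : Lk L c c := fun _ _ _ _ => rfl

theorem Lk.trans {L : ℕ} {c c1 c2 : TC X G} (h : Lk L c c1) (h' : Lk L c1 c2) : Lk L c c2 :=
  fun a ha x hx => (h' a ha x hx).trans (h a ha x hx)

theorem Lk.of_fr {L : ℕ} {c c' : TC X G} {l m : List FT} (f : Fr l m c c')
    (h : ∀ a, a ∈ l → a ∈ bLK → ∀ x : ℤ, ¬ (0 ≤ x ∧ x < (L : ℤ)) → c'.tape (o a) x = c.tape (o a) x) : Lk L c c' := by
  intro a ha x hx
  by_cases hl : a ∈ l
  · exact h a hl ha x hx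
  · rw [f.tape hl]

/-- The untouched tapes are kept. -/
def Ut (c c' : TC X G) : Prop :=
  ∀ a, a ∉ kU → c'.tape (o a) = c.tape (o a) ∧ c'.head (o a) = c.head (o a)

theorem Ut.refl (c : TC X G) : Ut c c := fun _ _ => ⟨rfl, rfl⟩

theorem Ut.trans {c c1 c2 : TC X G} (h : Ut c c1) (h' : Ut c1 c2) : Ut c c2 :=
  fun a ha => ⟨(h' a ha).1.trans (h a ha).1, (h' a ha).2.trans (h a ha).2⟩

theorem Ut.of_fr {c c' : TC X G} {l m : List FT} (f : Fr l m c c') (hl : ∀ a ∈ l, a ∈ kU) (hm : ∀ a ∈ m, a ∈ kU) : Ut c c' :=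
  fun a ha => ⟨f.tape fun h => ha (hl a h), f.head fun h => ha (hm a h)⟩

/-- The non rulers are kept. -/
def NF (c c' : TC X G) : Prop :=
  ∀ a, a ∈ nK → c'.tape (o a) = c.tape (o a) ∧ c'.head (o a) = c.head (o a)

theorem NF.refl (c : TC X G) : NF c c := fun _ _ => ⟨rfl, rfl⟩

theorem NF.trans {c c1 c2 : TC X G} (h : NF c c1) (h' : NF c1 c2) : NF c c2 :=
  fun a ha => ⟨(h' a ha).1.trans (h a ha).1, (h' a ha).2.trans (h a ha).2⟩

theorem NF.of_fr {c c' : TC X G} {l m : List FT} (f : Fr l m c c') (hl : ∀ a ∈ l, a ∉ nK) (hm : ∀ a ∈ m, a ∉ nK) : NF c c' :=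
  fun a ha => ⟨f.tape fun h => hl a h ha, f.head fun h => hm a h ha⟩

/-- A step on the rulers only. -/
def KR (c c' : TC X G) : Prop := NF c c' ∧ Ut c c'

theorem KR.refl (c : TC X G) : KR c c := ⟨NF.refl c, Ut.refl c⟩

theorem KR.trans {c c1 c2 : TC X G} (h : KR c c1) (h' : KR c1 c2) : KR c c2 := ⟨h.1.trans h'.1, h.2.trans h'.2⟩

theorem KR.lk {L : ℕ} {c c' : TC X G} (h : KR c c') : Lk L c c' := fun a ha _ _ => by
  have hn : a ∈ nK := by
    revert a
    decide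
  rw [(h.1 a hn).1]

/-- The environment of rulers. -/
structure KEnv (B : ℕ) (c : TC X G) (e : FT → ℕ) : Prop where
  ru : ∀ a, a ∉ nK → Ruler c (o a) (e a)
  le : ∀ a, a ∉ nK → e a ≤ B

theorem KEnv.conv {B : ℕ} {c : TC X G} {e e' : FT → ℕ} (h : KEnv B c e) (he : ∀ a, e' a = e a) : KEnv B c e' := by
  have : e' = e := funext he
  rw [this]
  exact h

/-- The environment is kept by a step on the data tapes. -/
theorem KEnv.of_fr {B : ℕ} {c c' : TC X G} {e : FT → ℕ} {l m : List FT} (h : KEnv B c e) (f : Fr l m c c') (hl : ∀ a ∈ l, a ∈ nK) (hm : ∀ a ∈ m, a ∈ nK) :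
    KEnv B c' e :=
  ⟨fun a ha => (h.ru a ha).of_fr f (fun hh => ha (hl a hh)) (fun hh => ha (hm a hh)), h.le⟩

theorem KEnv.upd {B : ℕ} {c c' : TC X G} {e : FT → ℕ} {R : FT} {n : ℕ} (h : KEnv B c e) (f : Fr [R] [] c c') (hr : Ruler c' (o R) n) (hn : n ≤ B) :
    KEnv B c' (Function.update e R n) := by
  refine ⟨?_, ?_⟩
  · intro a ha
    by_cases hb : a = R
    · subst hb
      rw [Function.update_self]
      exact hr
    · rw [Function.update_of_ne hb]
      exact (h.ru a ha).of_fr f (by simpa using hb) (by simp)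
  · intro a ha
    by_cases hb : a = R
    · subst hb
      rw [Function.update_self]
      exact hn
    · rw [Function.update_of_ne hb]
      exact h.le a ha

theorem KR.of_fr1 {c c' : TC X G} {R : FT} (f : Fr [R] [] c c') (hR : R ∉ nK) (hU : R ∈ kU) : KR c c' := by
  refine ⟨NF.of_fr f ?_ (by simp), Ut.of_fr f ?_ (by simp)⟩
  · intro a ha
    simp only [List.mem_singleton] at ha
    subst ha
    exact hR
  · intro a ha
    simp only [List.mem_singleton] at ha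
    subst ha
    exact hU

variable [DecidableEq X]

theorem raddK {B : ℕ} {c : TC X G} {e : FT → ℕ} (h : KEnv B c e) (S R : FT) (hS : S ∉ nK) (hR : R ∉ nK) (hSR : S ≠ R) (hU : R ∈ kU)
    {n : ℕ} (hn : n = e R + e S) (hb : n ≤ B) :
    ∃ c', Run (radd (o S) (o R) : Prog (FT ⊕ X) (Sym G)) c c' (10 * B + 8) ∧ KEnv B c' (Function.update e R n) ∧ KR c c' := by
  obtain ⟨c', r, a, f⟩ := raddF S R hSR c (h.ru S hS) (h.ru R hR)
  have h1 := h.le S hS
  have h2 := h.le R hR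
  refine ⟨c', r.mono (by omega), ?_, KR.of_fr1 f hR hU⟩
  rw [hn] at hb ⊢
  exact h.upd f a hb

theorem rsubK {B : ℕ} {c : TC X G} {e : FT → ℕ} (h : KEnv B c e) (S R : FT) (hS : S ∉ nK) (hR : R ∉ nK) (hSR : S ≠ R) (hU : R ∈ kU)
    {n : ℕ} (hn : n = e R - e S) (hle : e S ≤ e R) :
    ∃ c', Run (rsub (o S) (o R) : Prog (FT ⊕ X) (Sym G)) c c' (8 * B + 16) ∧ KEnv B c' (Function.update e R n) ∧ KR c c' := by
  obtain ⟨c', r, a, f⟩ := rsubF S R hSR c (h.ru S hS) (h.ru R hR) hle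
  have h1 := h.le S hS
  have h2 := h.le R hR
  refine ⟨c', r.mono (by omega), ?_, KR.of_fr1 f hR hU⟩
  rw [hn]
  exact h.upd f a (by omega)

theorem rincK {B : ℕ} {c : TC X G} {e : FT → ℕ} (h : KEnv B c e) (R : FT) (hR : R ∉ nK) (hU : R ∈ kU)
    {n : ℕ} (hn : n = e R + 1) (hb : n ≤ B) :
    ∃ c', Run (rinc (o R) : Prog (FT ⊕ X) (Sym G)) c c' (4 * B + 9) ∧ KEnv B c' (Function.update e R n) ∧ KR c c' := by
  obtain ⟨c', r, a, f⟩ := rincF R c (h.ru R hR)
  have h2 := h.le R hR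
  refine ⟨c', r.mono (by omega), ?_, KR.of_fr1 f hR hU⟩
  rw [hn] at hb ⊢
  exact h.upd f a hb

theorem rclrK {B : ℕ} {c : TC X G} {e : FT → ℕ} (h : KEnv B c e) (R : FT) (hR : R ∉ nK) (hU : R ∈ kU) :
    ∃ c', Run (rclr (o R) : Prog (FT ⊕ X) (Sym G)) c c' (4 * B + 4) ∧ KEnv B c' (Function.update e R 0) ∧ KR c c' := by
  obtain ⟨c', r, a, f⟩ := rclrF R c (h.ru R hR)
  have h2 := h.le R hR
  exact ⟨c', r.mono (by omega), h.upd f a (by omega), KR.of_fr1 f hR hU⟩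

theorem rpowK {B : ℕ} {c : TC X G} {e : FT → ℕ} (h : KEnv B c e) (E R T : FT) (hE : E ∉ nK) (hR : R ∉ nK) (hT : T ∉ nK)
    (h1 : E ≠ R) (h2 : E ≠ T) (h3 : R ≠ T) (hU : R ∈ kU) (hR0 : e R = 0) (hT0 : e T = 0) {n : ℕ} (hn : n = 2 ^ e E) (hb : n ≤ B) :
    ∃ c', Run (rpow (o E) (o R) (o T) : Prog (FT ⊕ X) (Sym G)) c c' (104 * B + 32) ∧ KEnv B c' (Function.update e R n) ∧ KR c c' := by
  obtain ⟨c', r, a, f⟩ := rpowF E R T h1 h2 h3 c (h.ru E hE) (by rw [← hR0]; exact h.ru R hR) (by rw [← hT0]; exact h.ru T hT)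
  have hlt : e E < 2 ^ e E := Nat.lt_two_pow_self
  rw [hn] at hb ⊢
  exact ⟨c', r.mono (by omega), h.upd f a hb, KR.of_fr1 f hR hU⟩

/-! Moving heads and copying by blocks -/

/-- Rewind by `n` blocks. -/
def rewL (R Rw Y : FT) : Prog (FT ⊕ X) (Sym G) := forR (o R) (adv Rw Y .L)

theorem rewL_spec (R Rw Y : FT) (h1 : R ≠ Rw) (h2 : R ≠ Y) (h3 : Rw ≠ Y) {c : TC X G} {n w : ℕ} (rR : Ruler c (o R) n) (rW : Ruler c (o Rw) w) :
    ∃ c', Run (rewL R Rw Y : Prog (FT ⊕ X) (Sym G)) c c' (n * (4 * w + 8) + 4) ∧ c'.head (o Y) = c.head (o Y) - ((n * w : ℕ) : ℤ) ∧ Fr [] [Y] c c' := by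
  obtain ⟨c', ⟨i1, i2⟩, hR, r⟩ := forU (R := R) (body := (adv Rw Y .L : Prog (FT ⊕ X) (Sym G))) (n := n) (c := c)
    (fun i d => d.head (o Y) = c.head (o Y) - ((i * w : ℕ) : ℤ) ∧ Fr [] [R, Y] c d) (4 * w + 4) rR
    ⟨by simp, Fr.refl _ _ _⟩
    (by
      rintro i d d' ⟨a1, a2⟩ f
      refine ⟨?_, a2.tr f (by simp) (by simp)⟩
      rw [f.head (by simpa using h2.symm), a1])
    (by
      rintro i _ d h4 h5 ⟨a1, a2⟩
      have hw : Ruler d (o Rw) w := rW.of_fr a2 (by simp) (by simp [h1.symm, h3])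
      obtain ⟨d1, r1, b1, f1⟩ := adv_spec Rw Y .L h3 (by simp) d hw
      have e : d1.tape (o R) = d.tape (o R) := f1.tape (by simp)
      have e2 : d1.head (o R) = d.head (o R) := f1.head (by simpa using h2)
      refine ⟨d1, r1, ⟨?_, a2.tr f1 (by simp) (by simp)⟩, e, e2⟩
      rw [b1, a1]
      simp only [Dir.toInt]
      push_cast
      ring)
  have f := Fr.fixR i2 rR hR
  exact ⟨c', r, i1.trans (by rw [Nat.cast_mul]), f⟩

/-- Copy `n` blocks; both heads advance. -/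
def bcpy (R Rw S T : FT) : Prog (FT ⊕ X) (Sym G) := forR (o R) (str Rw S T)

theorem bcpy_spec (R Rw S T : FT) (hn : [R, Rw, S, T].Nodup) {c : TC X G} {n w : ℕ} (rR : Ruler c (o R) n) (rW : Ruler c (o Rw) w) :
    ∃ c', Run (bcpy R Rw S T : Prog (FT ⊕ X) (Sym G)) c c' (n * (4 * w + 8) + 4) ∧
      c'.head (o S) = c.head (o S) + ((n * w : ℕ) : ℤ) ∧ c'.head (o T) = c.head (o T) + ((n * w : ℕ) : ℤ) ∧
      (∀ x, c'.tape (o T) x = if c.head (o T) ≤ x ∧ x < c.head (o T) + ((n * w : ℕ) : ℤ)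
        then bitW (c.tape (o S) (c.head (o S) + (x - c.head (o T)))) else c.tape (o T) x) ∧
      Fr [T] [S, T] c c' := by
  have hn' := hn
  simp only [List.nodup_cons, List.mem_cons, List.not_mem_nil, or_false, not_or] at hn'
  obtain ⟨⟨h1, h2, h3⟩, ⟨h4, h5⟩, h6, _⟩ := hn'
  obtain ⟨c', ⟨i1, i2, i3, i4⟩, hR, r⟩ := forU (R := R) (body := (str Rw S T : Prog (FT ⊕ X) (Sym G))) (n := n) (c := c)
    (fun i d => d.head (o S) = c.head (o S) + ((i * w : ℕ) : ℤ) ∧ d.head (o T) = c.head (o T) + ((i * w : ℕ) : ℤ) ∧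
      (∀ x, d.tape (o T) x = if c.head (o T) ≤ x ∧ x < c.head (o T) + ((i * w : ℕ) : ℤ)
        then bitW (c.tape (o S) (c.head (o S) + (x - c.head (o T)))) else c.tape (o T) x) ∧
      Fr [T] [R, S, T] c d) (4 * w + 4) rR
    ⟨by simp, by simp, by
      intro x
      rw [if_neg (by simp)], Fr.refl _ _ _⟩
    (by
      rintro i d d' ⟨a1, a2, a3, a4⟩ f
      refine ⟨?_, ?_, ?_, a4.tr f (by simp) (by simp)⟩
      · rw [f.head (by simpa using Ne.symm h2), a1]
      · rw [f.head (by simpa using Ne.symm h3), a2]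
      · intro x
        rw [f.tape (by simp), a3])
    (by
      rintro i _ d h7 h8 ⟨a1, a2, a3, a4⟩
      have hw : Ruler d (o Rw) w := rW.of_fr a4 (by simpa using h5) (by simp [Ne.symm h1, h4, h5])
      obtain ⟨d1, r1, b1, b2, b3, f1⟩ := str_spec Rw S T (by simp [h4, h5, h6]) d hw
      have e : d1.tape (o R) = d.tape (o R) := f1.tape (by simpa using h3)
      have e2 : d1.head (o R) = d.head (o R) := f1.head (by simp [h2, h3])
      have hS : d.tape (o S) = c.tape (o S) := a4.tape (by simpa using h6)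
      refine ⟨d1, r1, ⟨?_, ?_, ?_, a4.tr f1 (by simp) (by simp)⟩, e, e2⟩
      · rw [b1, a1]
        push_cast
        ring
      · rw [b2, a2]
        push_cast
        ring
      · intro x
        rw [b3, a2, a1, hS]
        have e3 : ((i + 1) * w : ℕ) = i * w + w := by ring
        rw [e3]
        push_cast
        push_cast at a3
        by_cases hx : c.head (o T) + (i : ℤ) * (w : ℤ) ≤ x ∧ x < c.head (o T) + (i : ℤ) * (w : ℤ) + (w : ℤ)
        · rw [if_pos hx, if_pos (by constructor <;> nlinarith [hx.1, hx.2, mul_nonneg (Int.natCast_nonneg i) (Int.natCast_nonneg w)])]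
          congr 2
          ring
        · rw [if_neg hx, a3]
          by_cases hy : c.head (o T) ≤ x ∧ x < c.head (o T) + (i : ℤ) * (w : ℤ)
          · rw [if_pos hy, if_pos (by constructor <;> nlinarith [hy.1, hy.2, mul_nonneg (Int.natCast_nonneg i) (Int.natCast_nonneg w), Int.natCast_nonneg w])]
          · rw [if_neg hy, if_neg]
            rintro ⟨h9, h10⟩
            have h11 : x < c.head (o T) + (i : ℤ) * (w : ℤ) + (w : ℤ) := by linarith
            by_cases h12 : x < c.head (o T) + (i : ℤ) * (w : ℤ)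
            · exact hy ⟨h9, h12⟩
            · exact hx ⟨not_lt.1 h12, h11⟩)
  refine ⟨c', r, i1, i2, i3, ?_⟩
  exact Fr.fixR i4 rR hR

end

/-- An array of numbers in slots of fixed width. -/
def Arr {G : Type} (τ : ℤ → Sym G) (w n : ℕ) (f : ℕ → ℕ) : Prop := ∀ i, i < n → vl τ ((i * w : ℕ) : ℤ) w = f i

end Vale.Agent.Lib.P338.F
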