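import Mathlib

/-!
The arithmetic of the breadth first form of Karatsuba's multiplication.
-/

namespace Vale.Agent.Lib.P338.F

/-- The next level: every number gives its low part, its high part and their sum. -/
def nxt (s : ℕ) (f : ℕ → ℕ) (i : ℕ) : ℕ :=
  if i % 3 = 0 then f (i / 3) % 2 ^ s
  else if i % 3 = 1 then f (i / 3) / 2 ^ s
  else f (i / 3) % 2 ^ s + f (i / 3) / 2 ^ s

theorem nxt_0 (s : ℕ) (f : ℕ → ℕ) (i : ℕ) : nxt s f (3 * i) = f i % 2 ^ s := by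
  have h1 : (3 * i) % 3 = 0 := by omega
  have h2 : (3 * i) / 3 = i := by omega
  simp [nxt, h1, h2]

theorem nxt_1 (s : ℕ) (f : ℕ → ℕ) (i : ℕ) : nxt s f (3 * i + 1) = f i / 2 ^ s := by
  have h1 : (3 * i + 1) % 3 = 1 := by omega
  have h2 : (3 * i + 1) / 3 = i := by omega
  simp [nxt, h1, h2]

theorem nxt_2 (s : ℕ) (f : ℕ → ℕ) (i : ℕ) : nxt s f (3 * i + 2) = f i % 2 ^ s + f i / 2 ^ s := by
  have h1 : (3 * i + 2) % 3 = 2 := by omega
  have h2 : (3 * i + 2) / 3 = i := by omega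
  simp [nxt, h1, h2]

/-- The numbers of a level. -/
def lev (j x : ℕ) : ℕ → ℕ → ℕ
  | 0 => fun _ => x
  | l + 1 => nxt (2 ^ (j - 1 - l)) (lev j x l)

theorem split_bound {a s l : ℕ} (ha : a < 2 ^ (2 * s + l)) :
    a % 2 ^ s + a / 2 ^ s < 2 ^ (s + (l + 1)) := by
  have h1 : a % 2 ^ s < 2 ^ s := Nat.mod_lt _ (by positivity)
  have h2 : a / 2 ^ s < 2 ^ (s + l) := by
    apply Nat.div_lt_of_lt_mul
    rw [← pow_add]
    have e : s + (s + l) = 2 * s + l := by ring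
    rwa [e]
  have h3 : 2 ^ s ≤ 2 ^ (s + l) := Nat.pow_le_pow_right (by norm_num) (by omega)
  have h4 : 2 ^ (s + (l + 1)) = 2 * 2 ^ (s + l) := by
    rw [← add_assoc, pow_succ]
    ring
  omega

theorem lev_lt {j x : ℕ} (hx : x < 2 ^ (2 ^ j)) : ∀ l, l ≤ j → ∀ i, lev j x l i < 2 ^ (2 ^ (j - l) + l) := by
  intro l
  induction l with
  | zero =>
    intro _ i
    simpa [lev] using hx
  | succ l ih =>
    intro hl i
    have h1 := ih (by omega) (i / 3)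
    have e1 : j - l = (j - 1 - l) + 1 := by omega
    have e2 : j - (l + 1) = j - 1 - l := by omega
    rw [e1, pow_succ] at h1
    rw [e2]
    change nxt (2 ^ (j - 1 - l)) (lev j x l) i < _
    generalize j - 1 - l = d at *
    have e3 : 2 ^ d * 2 + l = 2 * 2 ^ d + l := by ring
    rw [e3] at h1
    have h2 := split_bound h1
    simp only [nxt]
    generalize lev j x l (i / 3) % 2 ^ 2 ^ d = u at *
    generalize lev j x l (i / 3) / 2 ^ 2 ^ d = v at *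
    split_ifs <;> omega

/-- The products of a level. -/
def prd (j x y l i : ℕ) : ℕ := lev j x l i * lev j y l i

theorem prd_lt {j x y : ℕ} (hx : x < 2 ^ (2 ^ j)) (hy : y < 2 ^ (2 ^ j)) {l : ℕ} (hl : l ≤ j) (i : ℕ) {W : ℕ}
    (hW : 2 ^ (j - l) + l ≤ W) : prd j x y l i < 2 ^ (2 * W) := by
  have h1 := lt_of_lt_of_le (lev_lt hx l hl i) (Nat.pow_le_pow_right (by norm_num) hW)
  have h2 := lt_of_lt_of_le (lev_lt hy l hl i) (Nat.pow_le_pow_right (by norm_num) hW)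
  have e : 2 ^ (2 * W) = 2 ^ W * 2 ^ W := by
    rw [two_mul, pow_add]
  rw [e]
  exact Nat.mul_lt_mul'' h1 h2

/-- The identity of Karatsuba. -/
theorem kara_id (s a b : ℕ) :
    (a % 2 ^ s * (b % 2 ^ s)) + (a / 2 ^ s * (b / 2 ^ s)) ≤ (a % 2 ^ s + a / 2 ^ s) * (b % 2 ^ s + b / 2 ^ s) ∧
    a * b = (a % 2 ^ s * (b % 2 ^ s)) +
      2 ^ s * ((a % 2 ^ s + a / 2 ^ s) * (b % 2 ^ s + b / 2 ^ s) - (a % 2 ^ s * (b % 2 ^ s)) - (a / 2 ^ s * (b / 2 ^ s))) +
      2 ^ s * (2 ^ s * (a / 2 ^ s * (b / 2 ^ s))) := by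
  have ha := Nat.mod_add_div a (2 ^ s)
  have hb := Nat.mod_add_div b (2 ^ s)
  generalize a % 2 ^ s = a0 at *
  generalize a / 2 ^ s = a1 at *
  generalize b % 2 ^ s = b0 at *
  generalize b / 2 ^ s = b1 at *
  generalize 2 ^ s = S at *
  subst ha hb
  have e : (a0 + a1) * (b0 + b1) = a0 * b0 + a1 * b1 + (a0 * b1 + a1 * b0) := by ring
  rw [e]
  have e2 : a0 * b0 + a1 * b1 + (a0 * b1 + a1 * b0) - a0 * b0 - a1 * b1 = a0 * b1 + a1 * b0 := by omega
  rw [e2]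
  refine ⟨by omega, by ring⟩

/-- The value of a slot of a level from the three slots of the next one. -/
theorem prd_step (j x y l i : ℕ) :
    let s := 2 ^ (j - 1 - l)
    let z0 := prd j x y (l + 1) (3 * i)
    let z1 := prd j x y (l + 1) (3 * i + 1)
    let z2 := prd j x y (l + 1) (3 * i + 2)
    z0 + z1 ≤ z2 ∧ prd j x y l i = z0 + 2 ^ s * (z2 - z0 - z1) + 2 ^ s * (2 ^ s * z1) := by
  intro s z0 z1 z2
  simp only [z0, z1, z2, prd, lev, nxt_0, nxt_1, nxt_2]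
  exact kara_id s _ _

/-- The size of a level. -/
theorem level_size (j l E : ℕ) (hl : l ≤ j) : 3 ^ l * (2 ^ (j - l) + E) ≤ 3 ^ j * (1 + E) := by
  have h1 : 3 ^ l * 2 ^ (j - l) ≤ 3 ^ j := by
    have h2 : 2 ^ (j - l) ≤ 3 ^ (j - l) := Nat.pow_le_pow_left (by norm_num) _
    calc 3 ^ l * 2 ^ (j - l) ≤ 3 ^ l * 3 ^ (j - l) := Nat.mul_le_mul_left _ h2
      _ = 3 ^ j := by
        rw [← pow_add]
        congr 1
        omega
  have h3 : 3 ^ l ≤ 3 ^ j := Nat.pow_le_pow_right (by norm_num) hl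
  have h4 : 3 ^ l * E ≤ 3 ^ j * E := Nat.mul_le_mul_right _ h3
  rw [mul_add, mul_add, mul_one]
  omega

end Vale.Agent.Lib.P338.F
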