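import Vale.Agent.Lib.P338.F.KarEnv
import Vale.Agent.Lib.P338.F.KarMath

/-!
The descending pass of the internal multiplier: every number of a level is split into its low part, its high part and their sum.
-/

namespace Vale.Agent.Lib.P338.F

open Vale.Agent.Lib.P338 Prog

section
variable {X G : Type} [DecidableEq X]

/-- Addition, with the locality of the carry cell. -/
theorem addR_spec' (R Y S : FT) (h : [R, Y, S, FT.Cy].Nodup) (c : TC X G) {n : ℕ} (hR : Ruler c (o R) n)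
    (hcy : (c.read (o .Cy)).isOne = false)
    (hov : vl (c.tape (o Y)) (c.head (o Y)) n + vl (c.tape (o S)) (c.head (o S)) n < 2 ^ n) :
    ∃ c', Run (addR R Y S : Prog (FT ⊕ X) (Sym G)) c c' (8 * n + 9) ∧
      (∀ x, ¬ (c.head (o Y) ≤ x ∧ x < c.head (o Y) + n) → c'.tape (o Y) x = c.tape (o Y) x) ∧
      vl (c'.tape (o Y)) (c.head (o Y)) n = vl (c.tape (o Y)) (c.head (o Y)) n + vl (c.tape (o S)) (c.head (o S)) n ∧
      (c'.read (o .Cy)).isOne = false ∧ (∀ x, x ≠ c.head (o .Cy) → c'.tape (o .Cy) x = c.tape (o .Cy) x) ∧ Fr [Y, .Cy] [] c c' := by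
  simp only [List.nodup_cons, List.mem_cons, List.not_mem_nil, or_false, not_or] at h
  obtain ⟨⟨h1, h2, h3⟩, ⟨h4, h5⟩, h6, _⟩ := h
  have e1 : (o R : FT ⊕ X) ≠ o Y := by simpa using h1
  have e2 : (o R : FT ⊕ X) ≠ o S := by simpa using h2
  have e3 : (o R : FT ⊕ X) ≠ o .Cy := by simpa using h3
  have e4 : (o Y : FT ⊕ X) ≠ o S := by simpa using h4
  have e5 : (o Y : FT ⊕ X) ≠ o .Cy := by simpa using h5
  have e6 : (o S : FT ⊕ X) ≠ o .Cy := by simpa using h6
  obtain ⟨c1, r1, a1, a2, a3, a4, a5, a6, a7, a8⟩ := faPass_spec addOp 1 addOp_eq (o R) (o Y) (o S) .R (o .Cy)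
    e1 e2 e3 e4 e5 e6 c hR
  have hR1 : Ruler c1 (o R) n := hR.of_same a8 (by simp; exact ⟨h1, h2, h3⟩)
  obtain ⟨c2, r2, b1, b2, b3⟩ := mvBy_spec (o R) (o S) .L e2 (by simp) c1 hR1
  obtain ⟨c3, r3, d1, d2, d4⟩ := act1_spec (o .Cy) (fun _ => .zero) .S c2
  have hY : c3.tape (o Y) = c1.tape (o Y) := by
    rw [d4.tape (by simp; exact h5), b3.tape (by simp; exact h4)]
  have hYh : c3.head (o Y) = c.head (o Y) := by
    rw [d4.head (by simp; exact h5), b3.head (by simp; exact h4), a1]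
  rw [srcBit_R_sum] at a7
  simp only [hcy, Bool.toNat_false, Nat.cast_zero, add_zero, one_mul] at a7
  have hno : (c1.read (o .Cy)).isOne = false := by
    by_contra hb
    have hb' : (c1.read (o .Cy)).isOne = true := by simpa using hb
    rw [hb'] at a7
    simp only [Bool.toNat_true, Nat.cast_one, mul_one] at a7
    have hp : (0 : ℤ) ≤ (vl (c1.tape (o Y)) (c.head (o Y)) n : ℤ) := by positivity
    have : (2 : ℤ) ^ n ≤ ((vl (c.tape (o Y)) (c.head (o Y)) n + vl (c.tape (o S)) (c.head (o S)) n : ℕ) : ℤ) := by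
      push_cast
      linarith
    have h2n : ((2 ^ n : ℕ) : ℤ) ≤ ((vl (c.tape (o Y)) (c.head (o Y)) n + vl (c.tape (o S)) (c.head (o S)) n : ℕ) : ℤ) := by
      push_cast
      linarith
    have := Int.ofNat_le.1 h2n
    omega
  rw [hno] at a7
  simp only [Bool.toNat_false, Nat.cast_zero, mul_zero, add_zero] at a7
  have s4 : Same [o Y, o S, o .Cy] c c3 := (a8.trans (b3.trans d4)).mono (by simp)
  have hCh : c2.head (o .Cy) = c.head (o .Cy) := by
    rw [b3.head (by simp; exact (Ne.symm h6)), a5]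
  refine ⟨c3, (r1.seq (r2.seq r3)).mono (by omega), ?_, ?_, ?_, ?_, ?_⟩
  · intro x hx
    rw [hY, a2 x hx]
  · rw [hY]
    have : (vl (c1.tape (o Y)) (c.head (o Y)) n : ℤ) = ((vl (c.tape (o Y)) (c.head (o Y)) n + vl (c.tape (o S)) (c.head (o S)) n : ℕ) : ℤ) := by
      push_cast
      exact a7
    exact_mod_cast this
  · simp only [TS.read]
    rw [d2, d1]
    simp [Dir.toInt]
  · intro x hx
    rw [d2, if_neg (by rw [hCh]; exact hx), b3.tape (by simp; exact (Ne.symm h6)), a6 x hx]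
  · refine Fr.of_same s4 (by simp) ?_ ?_
    · intro a ha hb
      simp only [List.mem_cons, List.not_mem_nil, or_false, Sum.inl.injEq, not_or] at ha hb
      rcases hb with rfl | rfl | rfl
      · exact absurd rfl ha.1
      · rw [d4.tape (by simp; exact h6), b2, a4]
      · exact absurd rfl ha.2
    · intro a _ hb
      simp only [List.mem_cons, List.not_mem_nil, or_false, Sum.inl.injEq] at hb
      rcases hb with rfl | rfl | rfl
      · exact hYh
      · rw [d4.head (by simp; exact h6), b1, a3]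
        simp [Dir.toInt]
      · rw [d1, b3.head (by simp; exact (Ne.symm h6)), a5]
        simp [Dir.toInt]

/-- The value of the register after a load over zeros. -/
theorem vl_load {τ σ : ℤ → Sym G} {h : ℤ} {s V : ℕ} (hsV : s ≤ V)
    (hin : ∀ x : ℤ, 0 ≤ x → x < s → τ x = bitW (σ (h + x))) (hz : ∀ x : ℤ, (s : ℤ) ≤ x → x < V → τ x = .zero) :
    vl τ 0 V = vl σ h s := by
  obtain ⟨d, rfl⟩ : ∃ d, V = s + d := ⟨V - s, by omega⟩
  rw [vl_add]
  have h1 : vl τ (0 + (s : ℤ)) d = 0 := by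
    apply vl_eq_zero
    intro i hi
    rw [hz _ (by omega) (by push_cast; omega)]
    rfl
  rw [h1, mul_zero, add_zero]
  apply vl_congr
  intro i hi
  rw [hin _ (by omega) (by omega)]
  simp

/-- A slot split in two. -/
theorem vl_split {τ : ℤ → Sym G} {h : ℤ} {s V a : ℕ} (ha : vl τ h (s + V) = a) :
    vl τ h s = a % 2 ^ s ∧ vl τ (h + s) V = a / 2 ^ s := by
  rw [vl_add] at ha
  have h1 := vl_lt τ h s
  subst ha
  constructor
  · rw [Nat.add_mul_mod_self_left, Nat.mod_eq_of_lt h1]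
  · rw [Nat.add_mul_div_left _ _ (by positivity), Nat.div_eq_of_lt h1, zero_add]

/-- One slot of the descending pass. -/
def fwdB (S : FT) : Prog (FT ⊕ X) (Sym G) :=
  .seq (zro .RU .Y0) (.seq (zro .RU .Y1) (.seq (lod .Rt S .Y0) (.seq (lod .RU S .Y1)
    (.seq (sto .RU .Y0 .T2) (.seq (sto .RU .Y1 .T2) (.seq (addR .RU .Y0 .Y1) (sto .RU .Y0 .T2)))))))

/-- The tapes which the operand tape of the descending pass must differ from. -/
abbrev fwL : List FT := [.RU, .Rt, .Y0, .Y1, .T2, .Cy, .Rq, .RqM, .RUp]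

theorem fwdB_spec (S : FT) (hS : S ∉ fwL) {c : TC X G} {s V L : ℕ}
    (rt : Ruler c (o .Rt) s) (rU : Ruler c (o .RU) V) (hsV : s ≤ V) (h0 : c.head (o .Y0) = 0) (h1 : c.head (o .Y1) = 0)
    (hcy : (c.read (o .Cy)).isOne = false) (hCy : c.head (o .Cy) = 0)
    (hov : vl (c.tape (o S)) (c.head (o S)) s + vl (c.tape (o S)) (c.head (o S) + s) V < 2 ^ V)
    (hV : V ≤ L) (hL1 : 1 ≤ L) (ht0 : 0 ≤ c.head (o .T2)) (htL : c.head (o .T2) + 3 * V ≤ L) :
    ∃ c', Run (fwdB S : Prog (FT ⊕ X) (Sym G)) c c' (80 * V + 80) ∧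
      c'.head (o S) = c.head (o S) + s + V ∧ c'.head (o .T2) = c.head (o .T2) + 3 * V ∧
      vl (c'.tape (o .T2)) (c.head (o .T2)) V = vl (c.tape (o S)) (c.head (o S)) s ∧
      vl (c'.tape (o .T2)) (c.head (o .T2) + V) V = vl (c.tape (o S)) (c.head (o S) + s) V ∧
      vl (c'.tape (o .T2)) (c.head (o .T2) + 2 * V) V = vl (c.tape (o S)) (c.head (o S)) s + vl (c.tape (o S)) (c.head (o S) + s) V ∧
      (∀ x, ¬ (c.head (o .T2) ≤ x ∧ x < c.head (o .T2) + 3 * V) → c'.tape (o .T2) x = c.tape (o .T2) x) ∧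
      (c'.read (o .Cy)).isOne = false ∧ Lk L c c' ∧ Fr [.T2, .Y0, .Y1, .Cy] [S, .T2] c c' := by
  simp only [fwL, List.mem_cons, List.not_mem_nil, or_false, not_or] at hS
  obtain ⟨n1, n2, n3, n4, n5, n6, _, _, _⟩ := hS
  have m1 : FT.RU ≠ S := Ne.symm n1
  have m2 : FT.Rt ≠ S := Ne.symm n2
  have m3 : FT.Y0 ≠ S := Ne.symm n3
  have m4 : FT.Y1 ≠ S := Ne.symm n4
  have m5 : FT.T2 ≠ S := Ne.symm n5
  have m6 : FT.Cy ≠ S := Ne.symm n6
  obtain ⟨c1, r1, a1, f1⟩ := zro_spec .RU .Y0 (by decide) c rU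
  obtain ⟨c2, r2, a2, f2⟩ := zro_spec .RU .Y1 (by decide) c1 (rU.of_fr f1 (by decide) (by simp))
  have f12 : Fr [.Y0, .Y1] [] c c2 := f1.trans f2
  obtain ⟨c3, r3, b1, b2, f3⟩ := lod_spec .Rt S .Y0 (by simp [n1, n2, n3, m2, m3]) c2 (rt.of_fr f12 (by decide) (by simp))
  have f13 : Fr [.Y0, .Y1] [S] c c3 := f12.tr f3 (by simp) (by simp)
  obtain ⟨c4, r4, d1, d2, f4⟩ := lod_spec .RU S .Y1 (by simp [m1, n4, m4]) c3 (rU.of_fr f13 (by decide) (by simp [m1]))
  have f14 : Fr [.Y0, .Y1] [S] c c4 := f13.tr f4 (by simp) (by simp)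
  obtain ⟨c5, r5, g1, g2, f5⟩ := sto_spec .RU .Y0 .T2 (by decide) c4 (rU.of_fr f14 (by decide) (by simp [m1]))
  have f15 : Fr [.Y0, .Y1, .T2] [S, .T2] c c5 := f14.tr f5 (by simp) (by simp)
  obtain ⟨c6, r6, k1, k2, f6⟩ := sto_spec .RU .Y1 .T2 (by decide) c5 (rU.of_fr f15 (by decide) (by simp [m1]))
  have f16 : Fr [.Y0, .Y1, .T2] [S, .T2] c c6 := f15.tr f6 (by simp) (by simp)
  -- values of the registers
  have hc2Y0 : c2.head (o .Y0) = 0 := by rw [f12.head (by simp), h0]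
  have hc3Y1 : c3.head (o .Y1) = 0 := by rw [f13.head (by simp [m4]), h1]
  have hc1Y1 : c1.head (o .Y1) = 0 := by rw [f1.head (by simp), h1]
  have hS2 : c2.tape (o S) = c.tape (o S) := f12.tape (by simp [n3, n4])
  have hS2h : c2.head (o S) = c.head (o S) := f12.head (by simp)
  have hS3 : c3.tape (o S) = c.tape (o S) := by rw [f3.tape (by simpa using n3), hS2]
  have hS3h : c3.head (o S) = c.head (o S) + s := by rw [b1, hS2h]
  have v0 : vl (c3.tape (o .Y0)) 0 V = vl (c.tape (o S)) (c.head (o S)) s := by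
    refine vl_load hsV ?_ ?_
    · intro x h2 h3
      rw [b2, hc2Y0, if_pos (by constructor <;> omega), hS2h, hS2]
      congr 2
      ring
    · intro x h2 h3
      rw [b2, hc2Y0, if_neg (by omega), f2.tape (by decide), a1, h0, if_pos (by constructor <;> omega)]
  have v1 : vl (c4.tape (o .Y1)) 0 V = vl (c.tape (o S)) (c.head (o S) + s) V := by
    rw [← hc3Y1, vl_of_copy d2, hS3h, hS3]
  have hY04 : c4.tape (o .Y0) = c3.tape (o .Y0) := f4.tape (by decide)
  have hY14 : c5.tape (o .Y1) = c4.tape (o .Y1) := f5.tape (by decide)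
  have hY05 : c5.tape (o .Y0) = c3.tape (o .Y0) := by rw [f5.tape (by decide), hY04]
  have hY06 : c6.tape (o .Y0) = c3.tape (o .Y0) := by rw [f6.tape (by decide), hY05]
  have hY16 : c6.tape (o .Y1) = c4.tape (o .Y1) := by rw [f6.tape (by decide), hY14]
  have hh0 : c6.head (o .Y0) = 0 := by rw [f16.head (by simp [m3]), h0]
  have hh1 : c6.head (o .Y1) = 0 := by rw [f16.head (by simp [m4]), h1]
  have hT0 : c4.head (o .T2) = c.head (o .T2) := f14.head (by simp [m5])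
  have hT04 : c4.tape (o .T2) = c.tape (o .T2) := f14.tape (by simp)
  -- the stores
  have hY0h4 : c4.head (o .Y0) = 0 := by rw [f14.head (by simp [m3]), h0]
  have hY1h5 : c5.head (o .Y1) = 0 := by rw [f15.head (by simp [m4]), h1]
  have s1 : vl (c5.tape (o .T2)) (c.head (o .T2)) V = vl (c.tape (o S)) (c.head (o S)) s := by
    rw [← hT0, vl_of_copy g2, hY0h4, hY04, v0]
  have hT5 : c5.head (o .T2) = c.head (o .T2) + V := by rw [g1, hT0]
  have s2 : vl (c6.tape (o .T2)) (c.head (o .T2) + V) V = vl (c.tape (o S)) (c.head (o S) + s) V := by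
    rw [← hT5, vl_of_copy k2, hY1h5, hY14, v1]
  have hT6 : c6.head (o .T2) = c.head (o .T2) + 2 * V := by
    rw [k1, hT5]
    ring
  have hcy6 : (c6.read (o .Cy)).isOne = false := by
    simp only [TS.read]
    rw [f16.tape (by decide), f16.head (by simp [m6])]
    exact hcy
  have rU6 : Ruler c6 (o .RU) V := rU.of_fr f16 (by decide) (by simp [m1])
  obtain ⟨c7, r7, u1, u2, u3, u4, f7⟩ := addR_spec' .RU .Y0 .Y1 (by decide) c6 rU6 hcy6 (by
    rw [hh0, hh1, hY06, hY16, v0, v1]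
    exact hov)
  rw [hh0] at u1 u2
  rw [hh1, hY06, hY16, v0, v1] at u2
  have rU7 : Ruler c7 (o .RU) V := rU6.of_fr f7 (by decide) (by simp)
  obtain ⟨c8, r8, w1, w2, f8⟩ := sto_spec .RU .Y0 .T2 (by decide) c7 rU7
  have hT7 : c7.head (o .T2) = c.head (o .T2) + 2 * V := by rw [f7.head (by simp), hT6]
  have hY07h : c7.head (o .Y0) = 0 := by rw [f7.head (by simp), hh0]
  have s3 : vl (c8.tape (o .T2)) (c.head (o .T2) + 2 * V) V = vl (c.tape (o S)) (c.head (o S)) s + vl (c.tape (o S)) (c.head (o S) + s) V := by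
    rw [← hT7, vl_of_copy w2, hY07h]
    simpa using u2
  have hT7t : c7.tape (o .T2) = c6.tape (o .T2) := f7.tape (by decide)
  have f78 : Fr [.Y0, .Cy, .T2] [.T2] c6 c8 := f7.tr f8 (by simp) (by simp)
  have f18 : Fr [.T2, .Y0, .Y1, .Cy] [S, .T2] c c8 := f16.tr f78 (by
    intro a ha
    simp only [List.mem_append, List.mem_cons, List.not_mem_nil, or_false] at ha ⊢
    tauto) (by simp)
  have hT2tape : ∀ x, ¬ (c.head (o .T2) ≤ x ∧ x < c.head (o .T2) + 3 * V) → c8.tape (o .T2) x = c.tape (o .T2) x := by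
    intro x hx
    have h3 : c8.tape (o .T2) x = c7.tape (o .T2) x := by
      rw [w2, hT7, if_neg (by omega)]
    have h4 : c6.tape (o .T2) x = c5.tape (o .T2) x := by
      rw [k2, hT5, if_neg (by omega)]
    have h5 : c5.tape (o .T2) x = c4.tape (o .T2) x := by
      rw [g2, hT0, if_neg (by omega)]
    rw [h3, hT7t, h4, h5, hT04]
  have hV0 : (0 : ℤ) ≤ V := Int.natCast_nonneg V
  have q1 : ∀ x, ¬ (c.head (o .T2) + V ≤ x ∧ x < c.head (o .T2) + 3 * V) → c8.tape (o .T2) x = c5.tape (o .T2) x := by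
    intro x hx
    rw [w2, hT7, if_neg (by omega), hT7t, k2, hT5, if_neg (by omega)]
  have q2 : ∀ x, ¬ (c.head (o .T2) + 2 * V ≤ x ∧ x < c.head (o .T2) + 3 * V) → c8.tape (o .T2) x = c6.tape (o .T2) x := by
    intro x hx
    rw [w2, hT7, if_neg (by omega), hT7t]
  refine ⟨c8, (r1.seq (r2.seq (r3.seq (r4.seq (r5.seq (r6.seq (r7.seq r8))))))).mono (by omega), ?_, ?_, ?_, ?_, s3, hT2tape, ?_, ?_, f18⟩
  · rw [f78.head (by simpa using m5.symm), f6.head (by simpa using m5.symm), f5.head (by simpa using m5.symm), d1, hS3h]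
  · rw [w1, hT7]
    ring
  · rw [← s1]
    apply vl_congr
    intro i hi
    rw [q1 _ (by omega)]
  · rw [← s2]
    apply vl_congr
    intro i hi
    rw [q2 _ (by omega)]
  · simp only [TS.read]
    rw [f8.tape (by decide), f8.head (by simp)]
    exact u3
  · refine Lk.of_fr f18 ?_
    intro a ha _ x hx
    simp only [List.mem_cons, List.not_mem_nil, or_false] at ha
    have hLz : (V : ℤ) ≤ L := by exact_mod_cast hV
    rcases ha with rfl | rfl | rfl | rfl
    · exact hT2tape x (by omega)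
    · rw [f8.tape (by decide), u1 x (by omega), hY06, b2, hc2Y0, if_neg (by omega), f2.tape (by decide), a1, h0, if_neg (by omega)]
    · rw [f8.tape (by decide), f7.tape (by decide), hY16, d2, hc3Y1, if_neg (by omega), f3.tape (by decide), a2, hc1Y1, if_neg (by omega), f1.tape (by decide)]
    · have hC6 : c6.head (o .Cy) = 0 := by rw [f16.head (by simp [m6]), hCy]
      have hL1z : (1 : ℤ) ≤ L := by exact_mod_cast hL1
      rw [f8.tape (by decide), u4 x (by omega), f16.tape (by decide)]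

/-- The invariant of the descending pass. -/
structure FwI (S : FT) (c0 : TC X G) (s V L : ℕ) (f : ℕ → ℕ) (i : ℕ) (d : TC X G) : Prop where
  tS : d.tape (o S) = c0.tape (o S)
  hS : d.head (o S) = ((i * (s + V) : ℕ) : ℤ)
  hT : d.head (o .T2) = ((3 * i * V : ℕ) : ℤ)
  va : Arr (d.tape (o .T2)) V (3 * i) (nxt s f)
  cy : (d.read (o .Cy)).isOne = false
  lk : Lk L c0 d
  fr : Fr [.T2, .Y0, .Y1, .Cy] [.Rq, S, .T2] c0 d

theorem FwI.mvR {S : FT} (hS : S ∉ fwL) {c0 d d' : TC X G} {s V L : ℕ} {f : ℕ → ℕ} {i : ℕ} (h : FwI S c0 s V L f i d) (g : Fr [] [.Rq] d d') :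
    FwI S c0 s V L f i d' := by
  have n7 : S ≠ .Rq := fun e => hS (by rw [e]; decide)
  refine ⟨?_, ?_, ?_, ?_, ?_, ?_, h.fr.tr g (by simp) (by simp)⟩
  · rw [g.tape (by simp), h.tS]
  · rw [g.head (by simpa using n7), h.hS]
  · rw [g.head (by simp), h.hT]
  · intro k hk
    rw [g.tape (by simp)]
    exact h.va k hk
  · simp only [TS.read]
    rw [g.tape (by simp), g.head (by simp)]
    exact h.cy
  · refine h.lk.trans ?_
    intro a _ x _
    rw [g.tape (by simp)]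

theorem fwd_step (S : FT) (hS : S ∉ fwL) {c0 d : TC X G} {s V L cc : ℕ} {f : ℕ → ℕ} {i : ℕ} (hi : i < cc)
    (rt : Ruler c0 (o .Rt) s) (rU : Ruler c0 (o .RU) V) (hsV : s ≤ V) (h0 : c0.head (o .Y0) = 0) (h1 : c0.head (o .Y1) = 0) (hCy : c0.head (o .Cy) = 0)
    (hA : Arr (c0.tape (o S)) (s + V) cc f) (hb : ∀ i, i < cc → f i % 2 ^ s + f i / 2 ^ s < 2 ^ V)
    (hV : V ≤ L) (hL1 : 1 ≤ L) (hcL : 3 * cc * V ≤ L) (hI : FwI S c0 s V L f i d) :
    ∃ d', Run (fwdB S : Prog (FT ⊕ X) (Sym G)) d d' (80 * V + 80) ∧ FwI S c0 s V L f (i + 1) d' ∧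
      d'.tape (o .Rq) = d.tape (o .Rq) ∧ d'.head (o .Rq) = d.head (o .Rq) := by
  have n1 : S ≠ .RU := fun e => hS (by rw [e]; decide)
  have n2 : S ≠ .Rt := fun e => hS (by rw [e]; decide)
  have n3 : S ≠ .Y0 := fun e => hS (by rw [e]; decide)
  have n4 : S ≠ .Y1 := fun e => hS (by rw [e]; decide)
  have n5 : S ≠ .T2 := fun e => hS (by rw [e]; decide)
  have n6 : S ≠ .Cy := fun e => hS (by rw [e]; decide)
  have n7 : S ≠ .Rq := fun e => hS (by rw [e]; decide)
  have hsp := vl_split (hA i hi)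
  have hd0 : d.head (o S) + (s : ℤ) = (((i * (s + V) + s : ℕ)) : ℤ) := by
    rw [hI.hS]
    push_cast
    ring
  have e3 : 3 * (i + 1) * V = 3 * i * V + 3 * V := by ring
  have hle : 3 * (i + 1) * V ≤ 3 * cc * V := Nat.mul_le_mul_right _ (Nat.mul_le_mul_left _ hi)
  obtain ⟨d1, r1, a1, a2, a3, a4, a5, a6, a7, a8, a9⟩ := fwdB_spec S hS (c := d) (s := s) (V := V) (L := L)
    (rt.of_fr hI.fr (by decide) (by simp [Ne.symm n2])) (rU.of_fr hI.fr (by decide) (by simp [Ne.symm n1])) hsV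
    (by rw [hI.fr.head (by simp [Ne.symm n3]), h0]) (by rw [hI.fr.head (by simp [Ne.symm n4]), h1]) hI.cy
    (by rw [hI.fr.head (by simp [Ne.symm n6]), hCy])
    (by
      rw [hI.tS, hI.hS]
      rw [hsp.1, hsp.2]
      exact hb i hi)
    hV hL1
    (by rw [hI.hT]; positivity)
    (by
      rw [hI.hT]
      have : ((3 * i * V + 3 * V : ℕ) : ℤ) ≤ (L : ℤ) := by exact_mod_cast (by omega : 3 * i * V + 3 * V ≤ L)
      push_cast at this ⊢
      linarith)
  rw [hI.tS, hI.hS] at a3 a4 a5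
  rw [hI.hT] at a3 a4 a5 a6
  rw [hsp.1] at a3 a5
  rw [hsp.2] at a4 a5
  refine ⟨d1, r1, ⟨?_, ?_, ?_, ?_, a7, hI.lk.trans a8, hI.fr.tr a9 (by simp) (by simp)⟩, a9.tape (by decide), a9.head (by simp [Ne.symm n7])⟩
  · rw [a9.tape (by simp [n5, n3, n4, n6]), hI.tS]
  · rw [a1, hI.hS]
    push_cast
    ring
  · rw [a2, hI.hT, e3]
    push_cast
    ring
  · intro k hk
    rw [Nat.mul_add] at hk
    by_cases hk0 : k < 3 * i
    · have hkk : (k + 1) * V ≤ 3 * i * V := Nat.mul_le_mul_right _ hk0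
      have e4 : (k + 1) * V = k * V + V := by ring
      rw [← hI.va k hk0]
      apply vl_congr
      intro j hj
      have hlt : ((k * V + j : ℕ) : ℤ) < ((3 * i * V : ℕ) : ℤ) := by exact_mod_cast (by omega : k * V + j < 3 * i * V)
      push_cast at hlt
      rw [a6]
      push_cast
      omega
    · have hk3 : k = 3 * i ∨ k = 3 * i + 1 ∨ k = 3 * i + 2 := by omega
      rcases hk3 with rfl | rfl | rfl
      · rw [nxt_0]
        exact a3
      · rw [nxt_1, ← a4]
        congr 1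
        have e5 : (3 * i + 1) * V = 3 * i * V + V := by ring
        rw [e5]
        push_cast
        ring
      · rw [nxt_2, ← a5]
        congr 1
        have e5 : (3 * i + 2) * V = 3 * i * V + 2 * V := by ring
        rw [e5]
        push_cast
        ring

/-- The descending pass: a level is replaced by the next one. -/
def fwd (S : FT) : Prog (FT ⊕ X) (Sym G) :=
  .seq (forR (o .Rq) (fwdB S)) (.seq (rewL .Rq .RUp S) (.seq (rewL .RqM .RU .T2) (.seq (bcpy .RqM .RU .T2 S) (.seq (rewL .RqM .RU .T2) (rewL .RqM .RU S)))))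

/-- The cost of the descending pass. -/
def FWC (cc s V : ℕ) : ℕ :=
  (cc * (80 * V + 80 + 4) + 4) + ((cc * (4 * (s + V) + 8) + 4) + (((3 * cc) * (4 * V + 8) + 4) + (((3 * cc) * (4 * V + 8) + 4) + (((3 * cc) * (4 * V + 8) + 4) + ((3 * cc) * (4 * V + 8) + 4)))))

theorem fwd_spec (S : FT) (hS : S ∉ fwL) {c : TC X G} {s V L cc : ℕ} {f : ℕ → ℕ}
    (rq : Ruler c (o .Rq) cc) (rq3 : Ruler c (o .RqM) (3 * cc)) (rt : Ruler c (o .Rt) s) (rU : Ruler c (o .RU) V) (rW : Ruler c (o .RUp) (s + V))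
    (hsV : s ≤ V) (h0 : c.head (o .Y0) = 0) (h1 : c.head (o .Y1) = 0) (hCy : c.head (o .Cy) = 0) (hS0 : c.head (o S) = 0) (hT0 : c.head (o .T2) = 0)
    (hcy : (c.read (o .Cy)).isOne = false)
    (hA : Arr (c.tape (o S)) (s + V) cc f) (hb : ∀ i, i < cc → f i % 2 ^ s + f i / 2 ^ s < 2 ^ V)
    (hV : V ≤ L) (hL1 : 1 ≤ L) (hcL : 3 * cc * V ≤ L) (hSb : S ∈ bLK) :
    ∃ c', Run (fwd S : Prog (FT ⊕ X) (Sym G)) c c' (FWC cc s V) ∧ Arr (c'.tape (o S)) V (3 * cc) (nxt s f) ∧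
      c'.head (o S) = 0 ∧ c'.head (o .T2) = 0 ∧ (c'.read (o .Cy)).isOne = false ∧ Lk L c c' ∧ Fr [S, .T2, .Y0, .Y1, .Cy] [] c c' := by
  have n1 : S ≠ .RU := fun e => hS (by rw [e]; decide)
  have n2 : S ≠ .T2 := fun e => hS (by rw [e]; decide)
  have n3 : S ≠ .Rq := fun e => hS (by rw [e]; decide)
  have n4 : S ≠ .RqM := fun e => hS (by rw [e]; decide)
  have n5 : S ≠ .RUp := fun e => hS (by rw [e]; decide)
  have n6 : S ≠ .Y0 := fun e => hS (by rw [e]; decide)
  have n7 : S ≠ .Y1 := fun e => hS (by rw [e]; decide)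
  have n8 : S ≠ .Cy := fun e => hS (by rw [e]; decide)
  obtain ⟨d1, i1, hR1, r1⟩ := forU (R := .Rq) (body := (fwdB S : Prog (FT ⊕ X) (Sym G))) (n := cc) (c := c)
    (fun i d => FwI S c s V L f i d) (80 * V + 80) rq
    ⟨rfl, by simp [hS0], by simp [hT0], by intro k hk; simp at hk, hcy, Lk.refl _ _, Fr.refl _ _ _⟩
    (fun i d d' h g => h.mvR hS g)
    (by
      intro i hi d _ _ h
      exact fwd_step S hS hi rt rU hsV h0 h1 hCy hA hb hV hL1 hcL h)
  have rq1 : Ruler d1 (o .Rq) cc := hR1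
  have rq31 : Ruler d1 (o .RqM) (3 * cc) := rq3.of_fr i1.fr (by decide) (by simp [Ne.symm n4])
  have rU1 : Ruler d1 (o .RU) V := rU.of_fr i1.fr (by decide) (by simp [Ne.symm n1])
  have rW1 : Ruler d1 (o .RUp) (s + V) := rW.of_fr i1.fr (by decide) (by simp [Ne.symm n5])
  obtain ⟨d2, r2, a2, f2⟩ := rewL_spec .Rq .RUp S (by decide) (Ne.symm n3) (Ne.symm n5) rq1 rW1
  obtain ⟨d3, r3, a3, f3⟩ := rewL_spec .RqM .RU .T2 (by decide) (by decide) (by decide) (rq31.of_fr f2 (by simp) (by simp [Ne.symm n4]))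
    (rU1.of_fr f2 (by simp) (by simp [Ne.symm n1]))
  have f23 : Fr [] [S, .T2] d1 d3 := f2.tr f3 (by simp) (by simp)
  obtain ⟨d4, r4, a4, a5, a6, f4⟩ := bcpy_spec .RqM .RU .T2 S (by simp [n1, n2, n4, Ne.symm n1, Ne.symm n2, Ne.symm n4])
    (rq31.of_fr f23 (by simp) (by simp [Ne.symm n4])) (rU1.of_fr f23 (by simp) (by simp [Ne.symm n1]))
  have f24 : Fr [S] [S, .T2] d1 d4 := f23.tr f4 (by simp) (by simp)
  obtain ⟨d5, r5, a7, f5⟩ := rewL_spec .RqM .RU .T2 (by decide) (by decide) (by decide)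
    (rq31.of_fr f24 (by simp [Ne.symm n4]) (by simp [Ne.symm n4])) (rU1.of_fr f24 (by simp [Ne.symm n1]) (by simp [Ne.symm n1]))
  have f25 : Fr [S] [S, .T2] d1 d5 := f24.tr f5 (by simp) (by simp)
  obtain ⟨d6, r6, a8, f6⟩ := rewL_spec .RqM .RU S (by decide) (Ne.symm n4) (Ne.symm n1)
    (rq31.of_fr f25 (by simp [Ne.symm n4]) (by simp [Ne.symm n4])) (rU1.of_fr f25 (by simp [Ne.symm n1]) (by simp [Ne.symm n1]))
  have f26 : Fr [S] [S, .T2] d1 d6 := f25.tr f6 (by simp) (by simp)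
  have h2S : d2.head (o S) = 0 := by
    rw [a2, i1.hS]
    simp
  have h3T : d3.head (o .T2) = 0 := by
    rw [a3, f2.head (by simpa using n2.symm), i1.hT]
    simp
  have h3S : d3.head (o S) = 0 := by
    rw [f3.head (by simpa using n2), h2S]
  have h4S : d4.head (o S) = ((3 * cc * V : ℕ) : ℤ) := by
    rw [a5, h3S, zero_add]
  have h4T : d4.head (o .T2) = ((3 * cc * V : ℕ) : ℤ) := by
    rw [a4, h3T, zero_add]
  have hT3 : d3.tape (o .T2) = d1.tape (o .T2) := f23.tape (by simp)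
  have hS6 : d6.tape (o S) = d4.tape (o S) := by
    rw [f6.tape (by simp), f5.tape (by simp)]
  have hcell : ∀ x, d4.tape (o S) x = if 0 ≤ x ∧ x < ((3 * cc * V : ℕ) : ℤ) then bitW (d1.tape (o .T2) x) else c.tape (o S) x := by
    intro x
    rw [a6, h3S, zero_add, h3T, hT3, f23.tape (by simp), i1.tS]
    simp
  have hL : ((3 * cc * V : ℕ) : ℤ) ≤ (L : ℤ) := by exact_mod_cast hcL
  refine ⟨d6, (r1.seq (r2.seq (r3.seq (r4.seq (r5.seq r6))))).mono (by simp only [FWC]; omega), ?_, ?_, ?_, ?_, ?_, ?_⟩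
  · intro k hk
    rw [hS6, ← i1.va k hk]
    apply vl_congr
    intro j hj
    have hkk : (k + 1) * V ≤ 3 * cc * V := Nat.mul_le_mul_right _ hk
    have e4 : (k + 1) * V = k * V + V := by ring
    have hlt : ((k * V + j : ℕ) : ℤ) < ((3 * cc * V : ℕ) : ℤ) := by exact_mod_cast (by omega : k * V + j < 3 * cc * V)
    rw [hcell, if_pos]
    · simp
    · constructor
      · positivity
      · exact_mod_cast hlt
  · rw [a8, f5.head (by simpa using n2), h4S]
    simp
  · rw [f6.head (by simpa using n2.symm), a7, h4T]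
    simp
  · simp only [TS.read]
    rw [f26.tape (by simpa using (Ne.symm n8)), f26.head (by simp [Ne.symm n8])]
    exact i1.cy
  · refine i1.lk.trans ?_
    refine Lk.of_fr f26 ?_
    intro a ha _ x hx
    simp only [List.mem_singleton] at ha
    subst ha
    rw [hS6, hcell, if_neg (by omega), ← i1.tS]
  · have f16 : Fr [.T2, .Y0, .Y1, .Cy, S] [.Rq, S, .T2, S, .T2] c d6 := i1.fr.tr f26 (by simp) (by simp)
    have hRq : Ruler d6 (o .Rq) cc := rq1.of_fr f26 (by simpa using n3.symm) (by simp [Ne.symm n3])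
    have hS6h : d6.head (o S) = c.head (o S) := by
      rw [hS0, a8, f5.head (by simpa using n2), h4S]
      simp
    have hT6h : d6.head (o .T2) = c.head (o .T2) := by
      rw [hT0, f6.head (by simpa using n2.symm), a7, h4T]
      simp
    have e1 := Fr.fixR f16 rq hRq
    have e2 := Fr.fixA e1 hS6h
    have e3 := Fr.fixA e2 hT6h
    have e4 := Fr.fixA e3 hS6h
    have e5 := Fr.fixA e4 hT6h
    exact e5.mono (by
      intro a ha
      simp only [List.mem_cons, List.not_mem_nil, or_false] at ha ⊢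
      tauto) (by simp)

end

end Vale.Agent.Lib.P338.F
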