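import Vale.Agent.Lib.P338.F.KarStart

/-!
The passes of the internal multiplier: all the levels.
-/

namespace Vale.Agent.Lib.P338.F

open Vale.Agent.Lib.P338 Prog

theorem FWC_le {j l : ℕ} (hl : l < j) : FWC (3 ^ l) (sL j l) (vL j l) ≤ 200 * (3 ^ j * (j + 2)) := by
  have h1 := wd_bound (j := j) (l := l) hl.le
  have h2 := wd_bound (j := j) (l := l + 1) hl
  rw [← wL_eq hl] at h1
  rw [← vL_eq hl, pow_succ] at h2
  have h3 : 3 ^ l * 3 ≤ 3 ^ j := by
    rw [← pow_succ]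
    exact Nat.pow_le_pow_right (by norm_num) hl
  have h4 : 3 ^ j ≤ 3 ^ j * (j + 2) := Nat.le_mul_of_pos_right _ (by omega)
  have h5 : 1 ≤ 3 ^ j := Nat.one_le_pow _ _ (by norm_num)
  have e1 : FWC (3 ^ l) (sL j l) (vL j l) = 128 * (3 ^ l * vL j l) + 188 * 3 ^ l + 4 * (3 ^ l * wL j l) + 24 := by
    simp only [FWC, wL]
    ring
  have e2 : 3 ^ l * 3 * vL j l = 3 * (3 ^ l * vL j l) := by ring
  rw [e1]
  rw [e2] at h2
  generalize 3 ^ j * (j + 2) = Z at *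
  generalize 3 ^ l * vL j l = P at *
  generalize 3 ^ l * wL j l = Q at *
  generalize 3 ^ l = cc at *
  omega

theorem BWC_le {j l : ℕ} (hl : l < j) : BWC (3 ^ l) (sL j l) (vL j l) ≤ 400 * (3 ^ j * (j + 2)) := by
  have h1 := wd_bound (j := j) (l := l) hl.le
  have h2 := wd_bound (j := j) (l := l + 1) hl
  rw [← wL_eq hl] at h1
  rw [← vL_eq hl, pow_succ] at h2
  have h3 : 3 ^ l * 3 ≤ 3 ^ j := by
    rw [← pow_succ]
    exact Nat.pow_le_pow_right (by norm_num) hl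
  have h4 : 3 ^ j ≤ 3 ^ j * (j + 2) := Nat.le_mul_of_pos_right _ (by omega)
  have h5 : 1 ≤ 3 ^ j := Nat.one_le_pow _ _ (by norm_num)
  have e1 : BWC (3 ^ l) (sL j l) (vL j l) = 128 * (3 ^ l * wL j l) + 136 * (3 ^ l * vL j l) + 32 * (3 ^ l * sL j l) + 191 * 3 ^ l + 24 := by
    simp only [BWC, BWB, wL]
    ring
  have e2 : 3 ^ l * 3 * vL j l = 3 * (3 ^ l * vL j l) := by ring
  have e3 : 3 ^ l * wL j l = 3 ^ l * sL j l + 3 ^ l * vL j l := by
    simp only [wL]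
    ring
  rw [e1]
  rw [e2] at h2
  rw [e3] at h1 ⊢
  generalize 3 ^ j * (j + 2) = Z at *
  generalize 3 ^ l * vL j l = P at *
  generalize 3 ^ l * sL j l = Q at *
  generalize 3 ^ l = cc at *
  omega

theorem SLC_mono {B l j : ℕ} (hl : l ≤ j) : SLC B l ≤ SLC B j := by
  have h1 : l * (34 * B + 28 + 4) ≤ j * (34 * B + 28 + 4) := Nat.mul_le_mul_right _ hl
  simp only [SLC, P3C]
  omega

theorem eL_indep {z1 z2 z3 j l l' : ℕ} {a : FT} (h1 : a ∉ slL) (h2 : a ≠ .Ra) : eL z1 z2 z3 j l a = eL z1 z2 z3 j l' a := by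
  cases a <;> first | rfl | exact absurd (by decide) h1 | exact absurd rfl h2

section
variable {X G : Type} [DecidableEq X]

omit [DecidableEq X] in
theorem Arr.cast {τ τ' : ℤ → Sym G} {w w' n n' : ℕ} {f f' : ℕ → ℕ} (h : Arr τ w n f) (e1 : τ' = τ) (e2 : w' = w) (e3 : n' = n) (e4 : f' = f) : Arr τ' w' n' f' := by
  subst e1 e2 e3 e4
  exact h

theorem fwdOne {S : FT} (hS : S ∉ fwL) (hSb : S ∈ bLK) {c0 d : TC X G} {z1 z2 z3 j i x : ℕ} (hi : i < j) (hx : x < 2 ^ (2 ^ j))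
    (hK : KI c0 (LL j) d) (he : KEnv (LL j) d (eL z1 z2 z3 j i)) (hA : Arr (d.tape (o S)) (wd j i) (3 ^ i) (lev j x i)) :
    ∃ d', Run (fwd S : Prog (FT ⊕ X) (Sym G)) d d' (FWC (3 ^ i) (sL j i) (vL j i)) ∧ Arr (d'.tape (o S)) (wd j (i + 1)) (3 ^ (i + 1)) (lev j x (i + 1)) ∧
      KI c0 (LL j) d' ∧ Fr [S, .T2, .Y0, .Y1, .Cy] [] d d' := by
  obtain ⟨v1, v2, v3, v4, v5, v6, v7⟩ := level_vals hi
  have ha := area_bound (j := j) (l := i + 1) hi
  rw [← vL_eq hi, pow_succ] at ha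
  have e2 : 3 ^ i * 3 * (2 * vL j i) = 2 * (3 * 3 ^ i * vL j i) := by ring
  rw [e2] at ha
  have hle : vL j i ≤ wL j i := v4
  obtain ⟨d', r, a1, a2, a3, a4, a5, a6⟩ := fwd_spec S hS (c := d) (s := sL j i) (V := vL j i) (L := LL j) (cc := 3 ^ i) (f := lev j x i)
    (he.ru .Rq (by decide)) (he.ru .RqM (by decide)) (he.ru .Rt (by decide)) (he.ru .RU (by decide)) (he.ru .RUp (by decide)) v3
    (hK.hd .Y0 (by decide)) (hK.hd .Y1 (by decide)) (hK.hd .Cy (by decide)) (hK.hd S hSb) (hK.hd .T2 (by decide)) hK.cy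
    (hA.cast rfl (wL_eq hi) rfl rfl)
    (by
      intro k _
      have h1 := lev_lt hx (i + 1) (by omega) (3 * k + 2)
      change nxt (2 ^ (j - 1 - i)) (lev j x i) (3 * k + 2) < _ at h1
      rw [nxt_2] at h1
      refine lt_of_lt_of_le h1 (Nat.pow_le_pow_right (by norm_num) ?_)
      have e3 : j - (i + 1) = j - 1 - i := by omega
      rw [e3]
      simp only [vL, sL]
      omega)
    (by omega) v5 (by omega) hSb
  refine ⟨d', r, a1.cast rfl (vL_eq hi).symm (by rw [pow_succ]; ring) rfl, hK.of_fr a6 ?_ a5 a4, a6⟩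
  intro a ha
  simp only [List.mem_cons, List.not_mem_nil, or_false] at ha
  rcases ha with rfl | rfl | rfl | rfl | rfl
  · exact hSb
  all_goals decide

/-- One level of the descending passes. -/
def fwdS : Prog (FT ⊕ X) (Sym G) := .seq setL (.seq (fwd .D) (.seq (fwd .T1) (rinc (o .Ra))))

/-- The environment during the descending passes. -/
def eAK (j i : ℕ) : FT → ℕ := Function.update (eL 0 0 0 j (i - 1)) .Ra i

/-- The cost of one level of the descending passes. -/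
def FSC (j : ℕ) : ℕ := SLC (LL j) j + (200 * (3 ^ j * (j + 2)) + (200 * (3 ^ j * (j + 2)) + (4 * LL j + 9)))

/-- The invariant of the descending passes. -/
structure FPI (c0 : TC X G) (j x y i : ℕ) (d : TC X G) : Prop where
  ki : KI c0 (LL j) d
  ev : KEnv (LL j) d (eAK j i)
  aD : Arr (d.tape (o .D)) (wd j i) (3 ^ i) (lev j x i)
  aT : Arr (d.tape (o .T1)) (wd j i) (3 ^ i) (lev j y i)

theorem FPI.mvN {c0 d d' : TC X G} {j x y i : ℕ} (h : FPI c0 j x y i d) (f : Fr [] [.Rn] d d') : FPI c0 j x y i d' := by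
  refine ⟨h.ki.mvN f, h.ev.of_fr f (by simp) (by decide), ?_, ?_⟩
  · rw [f.tape (by simp)]
    exact h.aD
  · rw [f.tape (by simp)]
    exact h.aT

theorem fwdS_step {c0 d : TC X G} {j x y i : ℕ} (hi : i < j) (hx : x < 2 ^ (2 ^ j)) (hy : y < 2 ^ (2 ^ j)) (h : FPI c0 j x y i d) :
    ∃ d', Run (fwdS : Prog (FT ⊕ X) (Sym G)) d d' (FSC j) ∧ FPI c0 j x y (i + 1) d' ∧ d'.tape (o .Rn) = d.tape (o .Rn) ∧ d'.head (o .Rn) = d.head (o .Rn) := by
  obtain ⟨d1, r1, h1, k1⟩ := setL_spec (z1 := 0) (z2 := 0) (z3 := 0) (l := i) h.ev hi (by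
    intro a ha
    cases a <;> first | rfl | exact absurd (by decide) ha)
  have hK1 := h.ki.of_kr k1
  obtain ⟨d2, r2, a1, hK2, f2⟩ := fwdOne (S := .D) (by decide) (by decide) hi hx hK1 h1 (by
    rw [(k1.1 .D (by decide)).1]
    exact h.aD)
  have h2 : KEnv (LL j) d2 (eL 0 0 0 j i) := h1.of_fr f2 (by decide) (by simp)
  obtain ⟨d3, r3, a2, hK3, f3⟩ := fwdOne (S := .T1) (by decide) (by decide) hi hy hK2 h2 (by
    rw [f2.tape (by decide), (k1.1 .T1 (by decide)).1]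
    exact h.aT)
  have h3 : KEnv (LL j) d3 (eL 0 0 0 j i) := h2.of_fr f3 (by decide) (by simp)
  obtain ⟨d4, r4, h4, k4⟩ := rincK h3 .Ra (by decide) (by decide) (n := i + 1) rfl (by
    have := (level_vals hi).2.2.2.2.2.1
    have h5 : vL j i ≤ wL j i := (level_vals hi).2.2.2.1
    have h6 := (level_vals hi).2.1
    have h7 : j + 1 ≤ vL j i := this
    omega)
  have c1 := FWC_le hi
  have c2 := SLC_mono (B := LL j) hi.le
  refine ⟨d4, (r1.seq (r2.seq (r3.seq r4))).mono (by simp only [FSC]; omega), ⟨hK3.of_kr k4, ?_, ?_, ?_⟩, ?_, ?_⟩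
  · exact h4.conv (by intro a; cases a <;> rfl)
  · rw [(k4.1 .D (by decide)).1, f3.tape (by decide)]
    exact a1
  · rw [(k4.1 .T1 (by decide)).1]
    exact a2
  · rw [(k4.1 .Rn (by decide)).1, f3.tape (by decide), f2.tape (by decide), (k1.1 .Rn (by decide)).1]
  · rw [(k4.1 .Rn (by decide)).2, f3.head (by simp), f2.head (by simp), (k1.1 .Rn (by decide)).2]

/-- The descending passes. -/
def fwdP : Prog (FT ⊕ X) (Sym G) := forR (o .Rn) fwdS

theorem fwdP_spec {c0 c : TC X G} {j x y : ℕ} (hx : x < 2 ^ (2 ^ j)) (hy : y < 2 ^ (2 ^ j)) (hK : KI c0 (LL j) c) (he : KEnv (LL j) c (eL 0 0 0 j 0))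
    (hRn : Ruler c (o .Rn) j) (hD : Arr (c.tape (o .D)) (wd j 0) 1 (lev j x 0)) (hT : Arr (c.tape (o .T1)) (wd j 0) 1 (lev j y 0)) :
    ∃ c', Run (fwdP : Prog (FT ⊕ X) (Sym G)) c c' (j * (FSC j + 4) + 4) ∧ FPI c0 j x y j c' ∧ Ruler c' (o .Rn) j := by
  obtain ⟨c', i1, hR1, r1⟩ := forU (R := .Rn) (body := (fwdS : Prog (FT ⊕ X) (Sym G))) (n := j) (c := c)
    (fun i d => FPI c0 j x y i d) (FSC j) hRn
    ⟨hK, he.conv (by intro a; cases a <;> rfl), by simpa using hD, by simpa using hT⟩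
    (fun i d d' h f => h.mvN f)
    (by
      intro i hi d _ _ h
      exact fwdS_step hi hx hy h)
  exact ⟨c', r1, i1, hR1⟩

/-- The rulers of the bottom and of the end. -/
def midP : Prog (FT ⊕ X) (Sym G) :=
  .seq (radd (o .RU) (o .RKZ)) (.seq (rinc (o .RKZ)) (.seq (radd (o .RqM) (o .RZt)) (radd (o .RQd) (o .RKZt))))

theorem vL_last {j : ℕ} (hj : 1 ≤ j) : vL j (j - 1) = j + 2 := by
  have e : j - 1 - (j - 1) = 0 := by omega
  simp only [vL, sL, e, pow_zero]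
  omega

theorem wd_last (j : ℕ) : wd j j = j + 2 := by
  simp only [wd, Nat.sub_self, pow_zero]
  omega

theorem three_last {j : ℕ} (hj : 1 ≤ j) : 3 * 3 ^ (j - 1) = 3 ^ j := by
  obtain ⟨i, rfl⟩ : ∃ i, j = i + 1 := ⟨j - 1, by omega⟩
  simp only [Nat.add_sub_cancel]
  rw [pow_succ]
  ring

theorem midP_spec {c : TC X G} {j : ℕ} (hj : 1 ≤ j) (h : KEnv (LL j) c (eAK j j)) :
    ∃ c', Run (midP : Prog (FT ⊕ X) (Sym G)) c c' (3 * (10 * LL j + 8) + (4 * LL j + 9)) ∧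
      KEnv (LL j) c' (Function.update (Function.update (Function.update (eAK j j) .RKZ (j + 3)) .RZt (3 ^ j)) .RKZt (2 * (j + 2))) ∧ KR c c' := by
  have l1 := LL_ge j
  have h1 : 1 ≤ 3 ^ j := Nat.one_le_pow _ _ (by norm_num)
  have h2 : j + 2 ≤ 3 ^ j * (j + 2) := Nat.le_mul_of_pos_left _ (by omega)
  have h3 : 2 * (j + 2) ≤ LL j := by
    have e : LL j = 3 ^ j * (j + 2) + 3 ^ j * (j + 2) := by
      simp only [LL]
      ring
    omega
  have hU : eAK j j .RU = j + 2 := vL_last hj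
  have hQ : eAK j j .RqM = 3 ^ j := three_last hj
  have hD : eAK j j .RQd = 2 * (j + 2) := by
    change 2 * vL j (j - 1) = _
    rw [vL_last hj]
  obtain ⟨c1, r1, h4, k1⟩ := raddK h .RU .RKZ (by decide) (by decide) (by decide) (by decide) (n := j + 2) (by
    change j + 2 = 0 + eAK j j .RU
    omega) (by omega)
  obtain ⟨c2, r2, h5, k2⟩ := rincK h4 .RKZ (by decide) (by decide) (n := j + 3) rfl (by omega)
  obtain ⟨c3, r3, h6, k3⟩ := raddK h5 .RqM .RZt (by decide) (by decide) (by decide) (by decide) (n := 3 ^ j) (by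
    change 3 ^ j = 0 + eAK j j .RqM
    omega) (by omega)
  obtain ⟨c4, r4, h7, k4⟩ := raddK h6 .RQd .RKZt (by decide) (by decide) (by decide) (by decide) (n := 2 * (j + 2)) (by
    change 2 * (j + 2) = 0 + eAK j j .RQd
    omega) h3
  refine ⟨c4, (r1.seq (r2.seq (r3.seq r4))).mono (by omega), ?_, k1.trans (k2.trans (k3.trans k4))⟩
  exact h7.conv (by intro a; cases a <;> rfl)

/-- The invariant of the ascending passes. -/
structure BPJ (c0 : TC X G) (j x y z1 z2 z3 t : ℕ) (d : TC X G) : Prop where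
  ki : KI c0 (LL j) d
  ev : ∃ e, KEnv (LL j) d e ∧ ∀ a, a ∉ slL → e a = eL z1 z2 z3 j (j - t) a
  aP : Arr (d.tape (o .P1)) (2 * wd j (j - t)) (3 ^ (j - t)) (prd j x y (j - t))

theorem BPJ.mvN {c0 d d' : TC X G} {j x y z1 z2 z3 t : ℕ} (h : BPJ c0 j x y z1 z2 z3 t d) (f : Fr [] [.Rn] d d') : BPJ c0 j x y z1 z2 z3 t d' := by
  obtain ⟨e, he, hb⟩ := h.ev
  refine ⟨h.ki.mvN f, ⟨e, he.of_fr f (by simp) (by decide), hb⟩, ?_⟩
  rw [f.tape (by simp)]
  exact h.aP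

/-- One level of the ascending passes. -/
def bwdS : Prog (FT ⊕ X) (Sym G) := .seq (rsub (o .RA1) (o .Ra)) (.seq setL bwd)

/-- The cost of one level of the ascending passes. -/
def BSC (j : ℕ) : ℕ := (8 * LL j + 16) + (SLC (LL j) j + 400 * (3 ^ j * (j + 2)))

theorem bwdS_step {c0 d : TC X G} {j x y z1 z2 z3 t : ℕ} (ht : t < j) (hx : x < 2 ^ (2 ^ j)) (hy : y < 2 ^ (2 ^ j)) (h : BPJ c0 j x y z1 z2 z3 t d) :
    ∃ d', Run (bwdS : Prog (FT ⊕ X) (Sym G)) d d' (BSC j) ∧ BPJ c0 j x y z1 z2 z3 (t + 1) d' ∧ d'.tape (o .Rn) = d.tape (o .Rn) ∧ d'.head (o .Rn) = d.head (o .Rn) := by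
  obtain ⟨e, he, hb⟩ := h.ev
  obtain ⟨l, hl⟩ : ∃ l, l = j - (t + 1) := ⟨_, rfl⟩
  have e1 : j - t = l + 1 := by omega
  have hl2 : l < j := by omega
  have hP := h.aP
  rw [e1] at hP hb
  have hRa : e .Ra = l + 1 := hb .Ra (by decide)
  have hA1 : e .RA1 = 1 := hb .RA1 (by decide)
  obtain ⟨d1, r1, h1, k1⟩ := rsubK he .RA1 .Ra (by decide) (by decide) (by decide) (by decide) (n := l) (by rw [hRa, hA1]; omega) (by rw [hRa, hA1]; omega)
  have hK1 := h.ki.of_kr k1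
  obtain ⟨d2, r2, h2, k2⟩ := setL_spec (z1 := z1) (z2 := z2) (z3 := z3) (l := l) h1 hl2 (by
    intro a ha
    by_cases hr : a = .Ra
    · subst hr
      exact Function.update_self _ _ _
    · rw [Function.update_of_ne hr, hb a ha]
      exact eL_indep ha hr)
  have hK2 := hK1.of_kr k2
  obtain ⟨v1, v2, v3, v4, v5, v6, v7⟩ := level_vals hl2
  have hP2 : Arr (d2.tape (o .P1)) (2 * vL j l) (3 * 3 ^ l) (prd j x y (l + 1)) := by
    refine hP.cast ?_ ?_ ?_ rfl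
    · rw [(k2.1 .P1 (by decide)).1, (k1.1 .P1 (by decide)).1]
    · rw [vL_eq hl2]
    · rw [pow_succ]
      ring
  have hW : wL j l = sL j l + vL j l := rfl
  have hcL : 3 ^ l * (2 * wL j l) ≤ LL j := by
    rw [wL_eq hl2]
    exact area_bound hl2.le
  obtain ⟨d3, r3, a1, a2, a3, a4, a5, f3⟩ := bwd_spec (c := d2) (s := sL j l) (V := vL j l) (L := LL j) (cc := 3 ^ l) (g := prd j x y (l + 1)) (g' := prd j x y l)
    (h2.ru .Rq (by decide)) (h2.ru .RqM (by decide)) (h2.ru .Rt (by decide)) (h2.ru .RQd (by decide)) (h2.ru .RK (by decide)) (h2.ru .RZ (by decide))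
    (hK2.hd .Y0 (by decide)) (hK2.hd .Y1 (by decide)) (hK2.hd .Y2 (by decide)) (hK2.hd .Y3 (by decide)) (hK2.hd .Cy (by decide)) (hK2.hd .P1 (by decide)) (hK2.hd .P2 (by decide)) hK2.cy
    hP2
    (by
      intro i _
      have h5 := prd_step j x y l i
      refine ⟨h5.1, h5.2, ?_⟩
      apply prd_lt hx hy hl2.le
      change _ ≤ wL j l
      rw [wL_eq hl2]
      simp only [wd]
      omega)
    v2 v5 hcL
  have c1 := BWC_le hl2
  have c2 := SLC_mono (B := LL j) hl2.le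
  have hK3 : KI c0 (LL j) d3 := hK2.of_fr f3 (by decide) a5 a4
  have e2 : j - (t + 1) = l := hl.symm
  refine ⟨d3, (r1.seq (r2.seq r3)).mono (by simp only [BSC]; omega), ⟨hK3, ⟨eL z1 z2 z3 j l, h2.of_fr f3 (by decide) (by simp), ?_⟩, ?_⟩, ?_, ?_⟩
  · intro a _
    rw [e2]
  · rw [e2]
    exact a1.cast rfl (by rw [← hW, wL_eq hl2]) rfl rfl
  · rw [f3.tape (by decide), (k2.1 .Rn (by decide)).1, (k1.1 .Rn (by decide)).1]
  · rw [f3.head (by simp), (k2.1 .Rn (by decide)).2, (k1.1 .Rn (by decide)).2]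

/-- The ascending passes. -/
def bwdP : Prog (FT ⊕ X) (Sym G) := forR (o .Rn) bwdS

theorem bwdP_spec {c0 c : TC X G} {j x y z1 z2 z3 : ℕ} (hx : x < 2 ^ (2 ^ j)) (hy : y < 2 ^ (2 ^ j)) (h0 : BPJ c0 j x y z1 z2 z3 0 c)
    (hRn : Ruler c (o .Rn) j) :
    ∃ c', Run (bwdP : Prog (FT ⊕ X) (Sym G)) c c' (j * (BSC j + 4) + 4) ∧ BPJ c0 j x y z1 z2 z3 j c' ∧ Ruler c' (o .Rn) j := by
  obtain ⟨c', i1, hR1, r1⟩ := forU (R := .Rn) (body := (bwdS : Prog (FT ⊕ X) (Sym G))) (n := j) (c := c)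
    (fun t d => BPJ c0 j x y z1 z2 z3 t d) (BSC j) hRn h0
    (fun i d d' h f => h.mvN f)
    (by
      intro i hi d _ _ h
      exact bwdS_step hi hx hy h)
  exact ⟨c', r1, i1, hR1⟩

end

end Vale.Agent.Lib.P338.F
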