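import Vale.Agent.Lib.P338.F.KarBase

/-!
The rulers of a level of the internal multiplier.
-/

namespace Vale.Agent.Lib.P338.F

open Vale.Agent.Lib.P338 Prog

/-- The half size of the numbers which are split at level `l`. -/
def sL (j l : ℕ) : ℕ := 2 ^ (j - 1 - l)
/-- The width of the slots of the next level. -/
def vL (j l : ℕ) : ℕ := sL j l + (j + 1)
/-- The width of the slots of level `l`. -/
def wL (j l : ℕ) : ℕ := sL j l + vL j l
/-- The width of the slots of level `l`. -/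
def wd (j l : ℕ) : ℕ := 2 ^ (j - l) + (j + 1)
/-- The extent of all the data. -/
def LL (j : ℕ) : ℕ := 3 ^ j * (2 * (j + 2))

theorem wL_eq {j l : ℕ} (hl : l < j) : wL j l = wd j l := by
  have e : j - l = (j - 1 - l) + 1 := by omega
  simp only [wL, vL, sL, wd]
  rw [e, pow_succ]
  ring_nf

theorem vL_eq {j l : ℕ} (hl : l < j) : vL j l = wd j (l + 1) := by
  have e : j - (l + 1) = j - 1 - l := by omega
  simp only [vL, sL, wd, e]

theorem two_pow_le_three (j : ℕ) : 2 ^ j ≤ 3 ^ j := Nat.pow_le_pow_left (by norm_num) _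

theorem LL_ge (j : ℕ) : 3 ^ j * (j + 2) ≤ LL j ∧ 2 * 2 ^ j ≤ LL j ∧ j + 1 ≤ LL j ∧ 1 ≤ LL j ∧ 2 * 3 ^ j ≤ LL j := by
  have h1 : 1 ≤ 3 ^ j := Nat.one_le_pow _ _ (by norm_num)
  have h2 := two_pow_le_three j
  have h3 : j + 2 ≤ 3 ^ j * (j + 2) := Nat.le_mul_of_pos_left _ (by omega)
  have e : LL j = 3 ^ j * (j + 2) + 3 ^ j * (j + 2) := by
    simp only [LL]
    ring
  have e2 : 3 ^ j * (j + 2) = 3 ^ j * j + 2 * 3 ^ j := by ring
  omega

theorem wd_bound {j l : ℕ} (hl : l ≤ j) : 3 ^ l * wd j l ≤ 3 ^ j * (j + 2) := by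
  have := level_size j l (j + 1) hl
  simp only [wd]
  have e : 1 + (j + 1) = j + 2 := by ring
  rwa [e] at this

theorem wd_bound' {j l : ℕ} (hl : l ≤ j) : 2 * wd j l ≤ LL j := by
  have h1 := wd_bound hl
  have h2 : wd j l ≤ 3 ^ l * wd j l := Nat.le_mul_of_pos_left _ (by positivity)
  have h3 := (LL_ge j).1
  have e : LL j = 3 ^ j * (j + 2) + 3 ^ j * (j + 2) := by
    simp only [LL]
    ring
  omega

theorem area_bound {j l : ℕ} (hl : l ≤ j) : 3 ^ l * (2 * wd j l) ≤ LL j := by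
  have h1 := wd_bound hl
  have e : LL j = 2 * (3 ^ j * (j + 2)) := by
    simp only [LL]
    ring
  have e2 : 3 ^ l * (2 * wd j l) = 2 * (3 ^ l * wd j l) := by ring
  omega

/-- The environment of rulers at level `l`. -/
def eL (z1 z2 z3 j l : ℕ) : FT → ℕ
  | .RS => 2 ^ j
  | .R2S => 2 * 2 ^ j
  | .Rp => 2 * 2 ^ j
  | .RA1 => 1
  | .Rm => j + 1
  | .Rdf => j - 1
  | .Ra => l
  | .Rs => j - 1 - l
  | .Rq => 3 ^ l
  | .RqM => 3 * 3 ^ l
  | .Rt => sL j l
  | .RU => vL j l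
  | .RUp => wL j l
  | .RQd => 2 * vL j l
  | .RK => 2 * wL j l
  | .RZ => sL j l + 2 * vL j l
  | .RKZ => z1
  | .RZt => z2
  | .RKZt => z3
  | _ => 0

/-- The rulers set for a level. -/
abbrev slL : List FT := [.Tmp, .Rq, .RqM, .Rs, .Rt, .RU, .RUp, .RQd, .RK, .RZ]

section
variable {X G : Type} [DecidableEq X]

omit [DecidableEq X] in
theorem KEnv.upd2 {B : ℕ} {c c' : TC X G} {e : FT → ℕ} {R S : FT} {n m : ℕ} (h : KEnv B c e) (f : Fr [R, S] [] c c')
    (hr : Ruler c' (o R) n) (hs : Ruler c' (o S) m) (hn : n ≤ B) (hm : m ≤ B) :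
    KEnv B c' (Function.update (Function.update e R n) S m) := by
  refine ⟨?_, ?_⟩
  · intro a ha
    by_cases hb : a = S
    · subst hb
      rw [Function.update_self]
      exact hs
    · rw [Function.update_of_ne hb]
      by_cases hc : a = R
      · subst hc
        rw [Function.update_self]
        exact hr
      · rw [Function.update_of_ne hc]
        exact (h.ru a ha).of_fr f (by simp [hb, hc]) (by simp)
  · intro a ha
    by_cases hb : a = S
    · subst hb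
      rw [Function.update_self]
      exact hm
    · rw [Function.update_of_ne hb]
      by_cases hc : a = R
      · subst hc
        rw [Function.update_self]
        exact hn
      · rw [Function.update_of_ne hc]
        exact h.le a ha

/-- Multiply by three. -/
def trip : Prog (FT ⊕ X) (Sym G) :=
  .seq (radd (o .Rq) (o .Tmp)) (.seq (radd (o .Tmp) (o .Rq)) (.seq (radd (o .Tmp) (o .Rq)) (rclr (o .Tmp))))

/-- The power of three. -/
def pw3 : Prog (FT ⊕ X) (Sym G) :=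
  .seq (rclr (o .Tmp)) (.seq (rclr (o .Rq)) (.seq (rinc (o .Rq)) (forR (o .Ra) trip)))

theorem trip_spec {c : TC X G} {n B : ℕ} (rq : Ruler c (o .Rq) n) (rt : Ruler c (o .Tmp) 0) (hn : 3 * n ≤ B) :
    ∃ c', Run (trip : Prog (FT ⊕ X) (Sym G)) c c' (34 * B + 28) ∧ Ruler c' (o .Rq) (3 * n) ∧ Ruler c' (o .Tmp) 0 ∧ Fr [.Rq, .Tmp] [] c c' := by
  obtain ⟨c1, r1, a1, f1⟩ := raddF .Rq .Tmp (by decide) c rq rt
  rw [zero_add] at a1
  obtain ⟨c2, r2, a2, f2⟩ := raddF .Tmp .Rq (by decide) c1 a1 (rq.of_fr f1 (by simp) (by simp))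
  have f12 : Fr [.Rq, .Tmp] [] c c2 := f1.tr f2 (by simp) (by simp)
  obtain ⟨c3, r3, a3, f3⟩ := raddF .Tmp .Rq (by decide) c2 (a1.of_fr f2 (by simp) (by simp)) a2
  obtain ⟨c4, r4, a4, f4⟩ := rclrF .Tmp c3 ((a1.of_fr f2 (by simp) (by simp)).of_fr f3 (by simp) (by simp))
  have e : n + n + n = 3 * n := by ring
  rw [e] at a3
  have f13 : Fr [.Rq, .Tmp] [] c c3 := f12.tr f3 (by simp) (by simp)
  refine ⟨c4, (r1.seq (r2.seq (r3.seq r4))).mono (by
    have : 6 * n ≤ 2 * B := by omega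
    omega), a3.of_fr f4 (by simp) (by simp), a4, f13.tr f4 (by simp) (by simp)⟩

/-- The cost of the power of three. -/
def P3C (B l : ℕ) : ℕ := (4 * B + 4) + ((4 * B + 4) + ((4 * B + 9) + (l * (34 * B + 28 + 4) + 4)))

theorem pw3_spec {c : TC X G} {e : FT → ℕ} {B l : ℕ} (h : KEnv B c e) (hl : e .Ra = l) (hq : 3 ^ l ≤ B) (hB : 1 ≤ B) :
    ∃ c', Run (pw3 : Prog (FT ⊕ X) (Sym G)) c c' (P3C B l) ∧ KEnv B c' (Function.update (Function.update e .Rq (3 ^ l)) .Tmp 0) ∧ KR c c' := by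
  obtain ⟨c1, r1, h1, k1⟩ := rclrK h .Tmp (by decide) (by decide)
  obtain ⟨c2, r2, h2, k2⟩ := rclrK h1 .Rq (by decide) (by decide)
  obtain ⟨c3, r3, h3, k3⟩ := rincK h2 .Rq (by decide) (by decide) (n := 1) rfl hB
  have rq3 : Ruler c3 (o .Rq) 1 := h3.ru .Rq (by decide)
  have rt3 : Ruler c3 (o .Tmp) 0 := h3.ru .Tmp (by decide)
  have ra3 : Ruler c3 (o .Ra) l := by
    rw [← hl]
    exact h3.ru .Ra (by decide)
  obtain ⟨c4, ⟨i1, i2, i3⟩, hR4, r4⟩ := forU (R := .Ra) (body := (trip : Prog (FT ⊕ X) (Sym G))) (n := l) (c := c3)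
    (fun i d => Ruler d (o .Rq) (3 ^ i) ∧ Ruler d (o .Tmp) 0 ∧ Fr [.Rq, .Tmp] [.Ra] c3 d) (34 * B + 28) ra3
    ⟨by simpa using rq3, rt3, Fr.refl _ _ _⟩
    (by
      rintro i d d' ⟨a1, a2, a3⟩ f
      exact ⟨a1.of_fr f (by simp) (by simp), a2.of_fr f (by simp) (by simp), a3.tr f (by simp) (by simp)⟩)
    (by
      rintro i hi d _ _ ⟨a1, a2, a3⟩
      have hp : 3 * 3 ^ i ≤ B := by
        have h5 : 3 ^ (i + 1) ≤ 3 ^ l := Nat.pow_le_pow_right (by norm_num) hi
        rw [pow_succ] at h5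
        omega
      obtain ⟨d1, r5, b1, b2, f5⟩ := trip_spec a1 a2 hp
      refine ⟨d1, r5, ⟨?_, b2, a3.tr f5 (by simp) (by simp)⟩, f5.tape (by simp), f5.head (by simp)⟩
      rw [pow_succ, mul_comm]
      exact b1)
  have f4 : Fr [.Rq, .Tmp] [] c3 c4 := Fr.fixR (by
    have : Fr [.Rq, .Tmp] [.Ra] c3 c4 := i3
    exact this) ra3 hR4
  have h4 := h3.upd2 f4 i1 i2 hq (by omega)
  refine ⟨c4, (r1.seq (r2.seq (r3.seq r4))).mono (by simp only [P3C]; omega), ?_, k1.trans (k2.trans (k3.trans ⟨NF.of_fr f4 (by decide) (by simp), Ut.of_fr f4 (by decide) (by simp)⟩))⟩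
  exact h4.conv (by intro a; cases a <;> rfl)

/-- The rulers of a level: first part. -/
def setA : Prog (FT ⊕ X) (Sym G) :=
  .seq pw3 (.seq (rclr (o .RqM)) (.seq (radd (o .Rq) (o .RqM)) (.seq (radd (o .Rq) (o .RqM)) (.seq (radd (o .Rq) (o .RqM))
  (.seq (rclr (o .Rs)) (.seq (radd (o .Rdf) (o .Rs)) (rsub (o .Ra) (o .Rs))))))))

/-- The rulers of a level: second part. -/
def setB : Prog (FT ⊕ X) (Sym G) :=
  .seq (rclr (o .Rt)) (.seq (rpow (o .Rs) (o .Rt) (o .Tmp))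
  (.seq (rclr (o .RU)) (.seq (radd (o .Rt) (o .RU)) (.seq (radd (o .Rm) (o .RU))
  (.seq (rclr (o .RUp)) (.seq (radd (o .Rt) (o .RUp)) (radd (o .RU) (o .RUp))))))))

/-- The rulers of a level: third part. -/
def setC : Prog (FT ⊕ X) (Sym G) :=
  .seq (rclr (o .RQd)) (.seq (radd (o .RU) (o .RQd)) (.seq (radd (o .RU) (o .RQd))
  (.seq (rclr (o .RK)) (.seq (radd (o .RUp) (o .RK)) (.seq (radd (o .RUp) (o .RK))
  (.seq (rclr (o .RZ)) (.seq (radd (o .RQd) (o .RZ)) (radd (o .Rt) (o .RZ)))))))))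

/-- The rulers of a level, from the ruler holding the level. -/
def setL : Prog (FT ⊕ X) (Sym G) := .seq setA (.seq setB setC)

/-- The cost of the rulers of a level. -/
def SLC (B l : ℕ) : ℕ := (P3C B l + (2 * (4 * B + 4) + 4 * (10 * B + 8) + (8 * B + 16))) + ((3 * (4 * B + 4) + 104 * B + 32 + 4 * (10 * B + 8)) + (3 * (4 * B + 4) + 6 * (10 * B + 8)))

theorem level_vals {j l : ℕ} (hl : l < j) :
    3 * 3 ^ l ≤ LL j ∧ 2 * wL j l ≤ LL j ∧ sL j l ≤ vL j l ∧ vL j l ≤ wL j l ∧ 1 ≤ LL j ∧ j + 1 ≤ vL j l ∧ 3 ^ l ≤ LL j := by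
  have h1 : 3 ^ (l + 1) ≤ 3 ^ j := Nat.pow_le_pow_right (by norm_num) hl
  rw [pow_succ] at h1
  have h2 := LL_ge j
  have h3 : 2 * wL j l ≤ LL j := by
    rw [wL_eq hl]
    exact wd_bound' hl.le
  have h4 : wL j l = sL j l + vL j l := rfl
  have h5 : vL j l = sL j l + (j + 1) := rfl
  omega

theorem setA_spec {c : TC X G} {e : FT → ℕ} {B l r d : ℕ} (h : KEnv B c e) (hRa : e .Ra = l) (hRd : e .Rdf = d) (hld : l ≤ d) (hr : r = d - l) (hd : d ≤ B)
    (v1 : 3 * 3 ^ l ≤ B) (hB : 1 ≤ B) :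
    ∃ c', Run (setA : Prog (FT ⊕ X) (Sym G)) c c' (P3C B l + (2 * (4 * B + 4) + 4 * (10 * B + 8) + (8 * B + 16))) ∧
      KEnv B c' (Function.update (Function.update (Function.update (Function.update e .Rq (3 ^ l)) .Tmp 0) .RqM (3 * 3 ^ l)) .Rs r) ∧ KR c c' := by
  obtain ⟨c1, r1, h1, k1⟩ := pw3_spec h hRa (by omega) hB
  obtain ⟨c2, r2, h2, k2⟩ := rclrK h1 .RqM (by decide) (by decide)
  obtain ⟨c3, r3, h3, k3⟩ := raddK h2 .Rq .RqM (by decide) (by decide) (by decide) (by decide) (n := 3 ^ l) (by change 3 ^ l = 0 + 3 ^ l; omega) (by omega)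
  obtain ⟨c4, r4, h4, k4⟩ := raddK h3 .Rq .RqM (by decide) (by decide) (by decide) (by decide) (n := 2 * 3 ^ l) (by change 2 * 3 ^ l = 3 ^ l + 3 ^ l; omega) (by omega)
  obtain ⟨c5, r5, h5, k5⟩ := raddK h4 .Rq .RqM (by decide) (by decide) (by decide) (by decide) (n := 3 * 3 ^ l) (by change 3 * 3 ^ l = 2 * 3 ^ l + 3 ^ l; omega) v1
  obtain ⟨c6, r6, h6, k6⟩ := rclrK h5 .Rs (by decide) (by decide)
  obtain ⟨c7, r7, h7, k7⟩ := raddK h6 .Rdf .Rs (by decide) (by decide) (by decide) (by decide) (n := d) (by change d = 0 + e .Rdf; omega) (by omega)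
  obtain ⟨c8, r8, h8, k8⟩ := rsubK h7 .Ra .Rs (by decide) (by decide) (by decide) (by decide) (n := r) (by change r = d - e .Ra; omega) (by change e .Ra ≤ d; omega)
  refine ⟨c8, (r1.seq (r2.seq (r3.seq (r4.seq (r5.seq (r6.seq (r7.seq r8))))))).mono (by omega), ?_, k1.trans (k2.trans (k3.trans (k4.trans (k5.trans (k6.trans (k7.trans k8))))))⟩
  exact h8.conv (by
    intro a
    cases a <;> rfl)

theorem setB_spec {c : TC X G} {e : FT → ℕ} {B s V W : ℕ} (h : KEnv B c e) (hTmp : e .Tmp = 0) (hs : s = 2 ^ e .Rs) (hV : V = s + e .Rm) (hW : W = s + V) (hWB : W ≤ B) :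
    ∃ c', Run (setB : Prog (FT ⊕ X) (Sym G)) c c' (3 * (4 * B + 4) + 104 * B + 32 + 4 * (10 * B + 8)) ∧
      KEnv B c' (Function.update (Function.update (Function.update e .Rt s) .RU V) .RUp W) ∧ KR c c' := by
  obtain ⟨c9, r9, h9, k9⟩ := rclrK h .Rt (by decide) (by decide)
  obtain ⟨c10, r10, h10, k10⟩ := rpowK h9 .Rs .Rt .Tmp (by decide) (by decide) (by decide) (by decide) (by decide) (by decide) (by decide) rfl hTmp (n := s) hs (by omega)
  obtain ⟨c11, r11, h11, k11⟩ := rclrK h10 .RU (by decide) (by decide)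
  obtain ⟨c12, r12, h12, k12⟩ := raddK h11 .Rt .RU (by decide) (by decide) (by decide) (by decide) (n := s) (by change s = 0 + s; omega) (by omega)
  obtain ⟨c13, r13, h13, k13⟩ := raddK h12 .Rm .RU (by decide) (by decide) (by decide) (by decide) (n := V) (by change V = s + e .Rm; omega) (by omega)
  obtain ⟨c14, r14, h14, k14⟩ := rclrK h13 .RUp (by decide) (by decide)
  obtain ⟨c15, r15, h15, k15⟩ := raddK h14 .Rt .RUp (by decide) (by decide) (by decide) (by decide) (n := s) (by change s = 0 + s; omega) (by omega)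
  obtain ⟨c16, r16, h16, k16⟩ := raddK h15 .RU .RUp (by decide) (by decide) (by decide) (by decide) (n := W) (by change W = s + V; omega) (by omega)
  refine ⟨c16, (r9.seq (r10.seq (r11.seq (r12.seq (r13.seq (r14.seq (r15.seq r16))))))).mono (by omega), ?_, k9.trans (k10.trans (k11.trans (k12.trans (k13.trans (k14.trans (k15.trans k16))))))⟩
  exact h16.conv (by
    intro a
    cases a <;> rfl)

theorem setC_spec {c : TC X G} {e : FT → ℕ} {B s V W : ℕ} (h : KEnv B c e) (hs : e .Rt = s) (hV : e .RU = V) (hW : e .RUp = W) (hWB : 2 * W ≤ B) (hVW : s + V ≤ W) :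
    ∃ c', Run (setC : Prog (FT ⊕ X) (Sym G)) c c' (3 * (4 * B + 4) + 6 * (10 * B + 8)) ∧
      KEnv B c' (Function.update (Function.update (Function.update e .RQd (2 * V)) .RK (2 * W)) .RZ (s + 2 * V)) ∧ KR c c' := by
  obtain ⟨c17, r17, h17, k17⟩ := rclrK h .RQd (by decide) (by decide)
  obtain ⟨c18, r18, h18, k18⟩ := raddK h17 .RU .RQd (by decide) (by decide) (by decide) (by decide) (n := V) (by change V = 0 + e .RU; omega) (by omega)
  obtain ⟨c19, r19, h19, k19⟩ := raddK h18 .RU .RQd (by decide) (by decide) (by decide) (by decide) (n := 2 * V) (by change 2 * V = V + e .RU; omega) (by omega)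
  obtain ⟨c20, r20, h20, k20⟩ := rclrK h19 .RK (by decide) (by decide)
  obtain ⟨c21, r21, h21, k21⟩ := raddK h20 .RUp .RK (by decide) (by decide) (by decide) (by decide) (n := W) (by change W = 0 + e .RUp; omega) (by omega)
  obtain ⟨c22, r22, h22, k22⟩ := raddK h21 .RUp .RK (by decide) (by decide) (by decide) (by decide) (n := 2 * W) (by change 2 * W = W + e .RUp; omega) (by omega)
  obtain ⟨c23, r23, h23, k23⟩ := rclrK h22 .RZ (by decide) (by decide)
  obtain ⟨c24, r24, h24, k24⟩ := raddK h23 .RQd .RZ (by decide) (by decide) (by decide) (by decide) (n := 2 * V) (by change 2 * V = 0 + 2 * V; omega) (by omega)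
  obtain ⟨c25, r25, h25, k25⟩ := raddK h24 .Rt .RZ (by decide) (by decide) (by decide) (by decide) (n := s + 2 * V) (by change s + 2 * V = 2 * V + e .Rt; omega) (by omega)
  refine ⟨c25, (r17.seq (r18.seq (r19.seq (r20.seq (r21.seq (r22.seq (r23.seq (r24.seq r25)))))))).mono (by omega), ?_, k17.trans (k18.trans (k19.trans (k20.trans (k21.trans (k22.trans (k23.trans (k24.trans k25)))))))⟩
  exact h25.conv (by
    intro a
    cases a <;> rfl)

theorem setL_spec {c : TC X G} {e : FT → ℕ} {z1 z2 z3 j l : ℕ} (h : KEnv (LL j) c e) (hl : l < j) (hb : ∀ a, a ∉ slL → e a = eL z1 z2 z3 j l a) :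
    ∃ c', Run (setL : Prog (FT ⊕ X) (Sym G)) c c' (SLC (LL j) l) ∧ KEnv (LL j) c' (eL z1 z2 z3 j l) ∧ KR c c' := by
  obtain ⟨v1, v2, v3, v4, v5, v6, v7⟩ := level_vals hl
  have v8 : wL j l = sL j l + vL j l := rfl
  have v9 : vL j l = sL j l + (j + 1) := rfl
  have hRa : e .Ra = l := hb .Ra (by decide)
  have hRd : e .Rdf = j - 1 := hb .Rdf (by decide)
  have hRm : e .Rm = j + 1 := hb .Rm (by decide)
  obtain ⟨c1, r1, h1, k1⟩ := setA_spec h hRa hRd (by omega) (r := j - 1 - l) rfl (by omega) v1 v5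
  obtain ⟨c2, r2, h2, k2⟩ := setB_spec h1 rfl (s := sL j l) (V := vL j l) (W := wL j l) rfl (by
    change vL j l = sL j l + e .Rm
    omega) rfl (by omega)
  obtain ⟨c3, r3, h3, k3⟩ := setC_spec h2 (s := sL j l) (V := vL j l) (W := wL j l) rfl rfl rfl v2 (by omega)
  refine ⟨c3, (r1.seq (r2.seq r3)).mono (by simp only [SLC]; omega), ?_, k1.trans (k2.trans k3)⟩
  exact h3.conv (by
    intro a
    cases a <;> first | rfl | (refine (hb _ ?_).symm; decide))

end

end Vale.Agent.Lib.P338.F
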