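import Vale.Agent.Lib.P338.F.KarSet

/-!
The start of the internal multiplier: the rulers and the operands.
-/

namespace Vale.Agent.Lib.P338.F

open Vale.Agent.Lib.P338 Prog

section
variable {X G : Type} [DecidableEq X]

/-- The invariant of the internal multiplier. -/
structure KI (c0 : TC X G) (L : ℕ) (d : TC X G) : Prop where
  lk : Lk L c0 d
  ut : Ut c0 d
  tx1 : d.tape (o .X1) = c0.tape (o .X1)
  tx2 : d.tape (o .X2) = c0.tape (o .X2)
  tx3 : d.tape (o .X3) = c0.tape (o .X3)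
  hx1 : d.head (o .X1) = c0.head (o .X1)
  hx2 : d.head (o .X2) = c0.head (o .X2)
  hx3 : d.head (o .X3) = c0.head (o .X3)
  hd : ∀ a, a ∈ bLK → d.head (o a) = 0
  cy : (d.read (o .Cy)).isOne = false

omit [DecidableEq X] in
theorem KI.of_kr {c0 d d' : TC X G} {L : ℕ} (h : KI c0 L d) (f : KR d d') : KI c0 L d' := by
  refine ⟨h.lk.trans f.lk, h.ut.trans f.2, ?_, ?_, ?_, ?_, ?_, ?_, ?_, ?_⟩
  · rw [(f.1 .X1 (by decide)).1, h.tx1]
  · rw [(f.1 .X2 (by decide)).1, h.tx2]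
  · rw [(f.1 .X3 (by decide)).1, h.tx3]
  · rw [(f.1 .X1 (by decide)).2, h.hx1]
  · rw [(f.1 .X2 (by decide)).2, h.hx2]
  · rw [(f.1 .X3 (by decide)).2, h.hx3]
  · intro a ha
    have hn : a ∈ nK := by
      revert a
      decide
    rw [(f.1 a hn).2, h.hd a ha]
  · simp only [TS.read]
    rw [(f.1 .Cy (by decide)).1, (f.1 .Cy (by decide)).2]
    exact h.cy

omit [DecidableEq X] in
theorem KI.of_fr {c0 d d' : TC X G} {L : ℕ} {l : List FT} (h : KI c0 L d) (f : Fr l [] d d') (hl : ∀ a ∈ l, a ∈ bLK) (hk : Lk L d d')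
    (hc : (d'.read (o .Cy)).isOne = false) : KI c0 L d' := by
  have n1 : FT.X1 ∉ l := fun hh => absurd (hl _ hh) (by decide)
  have n2 : FT.X2 ∉ l := fun hh => absurd (hl _ hh) (by decide)
  have n3 : FT.X3 ∉ l := fun hh => absurd (hl _ hh) (by decide)
  refine ⟨h.lk.trans hk, h.ut.trans (Ut.of_fr f ?_ (by simp)), ?_, ?_, ?_, ?_, ?_, ?_, ?_, hc⟩
  · intro a ha
    have := hl a ha
    revert a
    simp only [List.mem_append, List.mem_cons, List.not_mem_nil, or_false]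
    intro a _ h3
    tauto
  · rw [f.tape n1, h.tx1]
  · rw [f.tape n2, h.tx2]
  · rw [f.tape n3, h.tx3]
  · rw [f.head (by simp), h.hx1]
  · rw [f.head (by simp), h.hx2]
  · rw [f.head (by simp), h.hx3]
  · intro a ha
    rw [f.head (by simp), h.hd a ha]

omit [DecidableEq X] in
theorem KI.mvN {c0 d d' : TC X G} {L : ℕ} (h : KI c0 L d) (f : Fr [] [.Rn] d d') : KI c0 L d' := by
  refine ⟨?_, h.ut.trans (Ut.of_fr f (by simp) (by decide)), ?_, ?_, ?_, ?_, ?_, ?_, ?_, ?_⟩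
  · refine h.lk.trans ?_
    intro a _ x _
    rw [f.tape (by simp)]
  · rw [f.tape (by simp), h.tx1]
  · rw [f.tape (by simp), h.tx2]
  · rw [f.tape (by simp), h.tx3]
  · rw [f.head (by simp), h.hx1]
  · rw [f.head (by simp), h.hx2]
  · rw [f.head (by simp), h.hx3]
  · intro a ha
    have hn : a ≠ .Rn := by
      rintro rfl
      exact absurd ha (by decide)
    rw [f.head (by simpa using hn), h.hd a ha]
  · simp only [TS.read]
    rw [f.tape (by simp), f.head (by simp)]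
    exact h.cy

/-- The tapes of the interface of the internal multiplier. -/
abbrev ifL : List FT := [.X1, .X2, .X3, .RS, .R2S]

/-- The start of the internal multiplier. -/
structure KS (c : TC X G) (j : ℕ) : Prop where
  rs : Ruler c (o .RS) (2 ^ j)
  r2s : Ruler c (o .R2S) (2 * 2 ^ j)
  h1 : c.head (o .X1) = 0
  h2 : c.head (o .X2) = 0
  h3 : c.head (o .X3) = 0
  bl : ∀ a, a ∉ ifL → Ruler c (o a) 0

/-- The loop computing the exponent. -/
def stLoop : Prog (FT ⊕ X) (Sym G) :=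
  .loop (fun s => (s (o .RS)).isOne)
    (.seq (rinc (o .Rm)) (.seq (adv .Rp .RS .R) (.seq (radd (o .Rp) (o .Tmp)) (.seq (radd (o .Tmp) (o .Rp)) (rclr (o .Tmp))))))

/-- The cost of the loop computing the exponent. -/
def SLp (j : ℕ) : ℕ := (j + 1) * ((4 * j + 9 + (4 * 2 ^ j + 4) + (6 * 2 ^ j + 8) + (10 * 2 ^ j + 8) + (4 * 2 ^ j + 4)) + 1) + 1

theorem stLoop_spec {c : TC X G} {j : ℕ} (rS : c.tape (o .RS) = runT (2 ^ j)) (hS : c.head (o .RS) = 0)
    (rp : Ruler c (o .Rp) 1) (rm : Ruler c (o .Rm) 0) (rt : Ruler c (o .Tmp) 0) :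
    ∃ c', Run (stLoop : Prog (FT ⊕ X) (Sym G)) c c' (SLp j) ∧ Ruler c' (o .Rp) (2 * 2 ^ j) ∧ Ruler c' (o .Rm) (j + 1) ∧ Ruler c' (o .Tmp) 0 ∧
      c'.tape (o .RS) = runT (2 ^ j) ∧ c'.head (o .RS) = ((2 * 2 ^ j : ℕ) : ℤ) - 1 ∧ Fr [.Rp, .Rm, .Tmp] [.RS] c c' := by
  obtain ⟨c', ⟨i1, i2, i3, i4, i5, i6⟩, r⟩ := Run.loop (g := fun s : FT ⊕ X → Sym G => (s (o .RS)).isOne)
    (b := .seq (rinc (o .Rm)) (.seq (adv .Rp .RS .R) (.seq (radd (o .Rp) (o .Tmp)) (.seq (radd (o .Tmp) (o .Rp)) (rclr (o .Tmp))))))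
    (fun i d => Ruler d (o .Rp) (2 ^ i) ∧ Ruler d (o .Rm) i ∧ Ruler d (o .Tmp) 0 ∧ d.tape (o .RS) = runT (2 ^ j) ∧
      d.head (o .RS) = ((2 ^ i : ℕ) : ℤ) - 1 ∧ Fr [.Rp, .Rm, .Tmp] [.RS] c d) (j + 1)
    (fun _ => 4 * j + 9 + (4 * 2 ^ j + 4) + (6 * 2 ^ j + 8) + (10 * 2 ^ j + 8) + (4 * 2 ^ j + 4)) (c := c)
    ⟨by simpa using rp, rm, rt, rS, by simp [hS], Fr.refl _ _ _⟩
    (by
      rintro i hi d ⟨a1, a2, a3, a4, a5, a6⟩
      have hp : 2 ^ i ≤ 2 ^ j := Nat.pow_le_pow_right (by norm_num) (by omega)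
      have hp0 : 1 ≤ 2 ^ i := Nat.one_le_two_pow
      constructor
      · simp only [TS.read]
        have hp' : ((2 ^ i : ℕ) : ℤ) ≤ ((2 ^ j : ℕ) : ℤ) := by exact_mod_cast hp
        have hp0' : (1 : ℤ) ≤ ((2 ^ i : ℕ) : ℤ) := by exact_mod_cast hp0
        rw [a4, a5, runT_in (by linarith) (by linarith)]
        rfl
      · obtain ⟨d1, r1, b1, f1⟩ := rincF .Rm d a2
        obtain ⟨d2, r2, b2, f2⟩ := adv_spec .Rp .RS .R (by decide) (by simp) d1 (a1.of_fr f1 (by simp) (by simp))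
        have f12 : Fr [.Rm] [.RS] d d2 := f1.tr f2 (by simp) (by simp)
        obtain ⟨d3, r3, b3, f3⟩ := raddF .Rp .Tmp (by decide) d2 (a1.of_fr f12 (by simp) (by simp)) (a3.of_fr f12 (by simp) (by simp))
        rw [zero_add] at b3
        have f13 : Fr [.Rm, .Tmp] [.RS] d d3 := f12.tr f3 (by simp) (by simp)
        obtain ⟨d4, r4, b4, f4⟩ := raddF .Tmp .Rp (by decide) d3 b3 (a1.of_fr f13 (by simp) (by simp))
        have f14 : Fr [.Rm, .Tmp, .Rp] [.RS] d d4 := f13.tr f4 (by simp) (by simp)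
        obtain ⟨d5, r5, b5, f5⟩ := rclrF .Tmp d4 (b3.of_fr f4 (by simp) (by simp))
        have f15 : Fr [.Rm, .Tmp, .Rp] [.RS] d d5 := f14.tr f5 (by simp) (by simp)
        refine ⟨d5, (r1.seq (r2.seq (r3.seq (r4.seq r5)))).mono (by omega), ?_, ?_, b5, ?_, ?_, a6.tr f15 (by simp) (by simp)⟩
        · have e : 2 ^ (i + 1) = 2 ^ i + 2 ^ i := by
            rw [pow_succ]
            ring
          rw [e]
          exact b4.of_fr f5 (by simp) (by simp)
        · exact ((((b1.of_fr f2 (by simp) (by simp)).of_fr f3 (by simp) (by simp)).of_fr f4 (by simp) (by simp)).of_fr f5 (by simp) (by simp))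
        · rw [f15.tape (by simp), a4]
        · have e : ((2 ^ (i + 1) : ℕ) : ℤ) = ((2 ^ i : ℕ) : ℤ) + ((2 ^ i : ℕ) : ℤ) := by
            rw [pow_succ]
            push_cast
            ring
          have e3 : d5.head (o .RS) = d2.head (o .RS) := by
            rw [f5.head (by simp), f4.head (by simp), f3.head (by simp)]
          rw [e3, b2, f1.head (by simp), a5, e]
          simp only [Dir.toInt]
          push_cast
          ring)
    (by
      rintro d ⟨a1, a2, a3, a4, a5, a6⟩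
      simp only [TS.read]
      have e : ((2 ^ (j + 1) : ℕ) : ℤ) = ((2 ^ j : ℕ) : ℤ) + ((2 ^ j : ℕ) : ℤ) := by
        rw [pow_succ]
        push_cast
        ring
      have hp0 : 1 ≤ 2 ^ j := Nat.one_le_two_pow
      have hp0z : ((1 : ℕ) : ℤ) ≤ ((2 ^ j : ℕ) : ℤ) := by exact_mod_cast hp0
      rw [a4, a5, runT_out (by
        right
        rw [e]
        push_cast at hp0z ⊢
        omega)]
      rfl)
  have e : 2 ^ (j + 1) = 2 * 2 ^ j := by
    rw [pow_succ]
    ring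
  rw [e] at i1 i5
  refine ⟨c', r.mono ?_, i1, i2, i3, i4, i5, i6⟩
  simp only [SLp, Finset.sum_const, Finset.card_range, smul_eq_mul]
  omega

omit [DecidableEq X] in
theorem KI.of_rn {c0 d d' : TC X G} {L : ℕ} (h : KI c0 L d) (f : Fr [.Rn] [] d d') : KI c0 L d' := by
  refine ⟨?_, h.ut.trans (Ut.of_fr f (by decide) (by simp)), ?_, ?_, ?_, ?_, ?_, ?_, ?_, ?_⟩
  · refine h.lk.trans ?_
    intro a ha x _
    rw [f.tape (by
      simp only [List.mem_singleton]
      rintro rfl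
      exact absurd ha (by decide))]
  · rw [f.tape (by simp), h.tx1]
  · rw [f.tape (by simp), h.tx2]
  · rw [f.tape (by simp), h.tx3]
  · rw [f.head (by simp), h.hx1]
  · rw [f.head (by simp), h.hx2]
  · rw [f.head (by simp), h.hx3]
  · intro a ha
    rw [f.head (by simp), h.hd a ha]
  · simp only [TS.read]
    rw [f.tape (by simp), f.head (by simp)]
    exact h.cy

omit [DecidableEq X] in
theorem KI.init {c : TC X G} {j : ℕ} (s : KS c j) (L : ℕ) : KI c L c := by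
  refine ⟨Lk.refl _ _, Ut.refl _, rfl, rfl, rfl, rfl, rfl, rfl, ?_, ?_⟩
  · intro a ha
    refine (s.bl a ?_).2
    revert a
    decide
  · simp only [TS.read]
    rw [(s.bl .Cy (by decide)).1, runT_out (by omega)]
    rfl

/-- The rulers after the start. -/
def eS (j : ℕ) : FT → ℕ
  | .RS => 2 ^ j
  | .R2S => 2 * 2 ^ j
  | .Rp => 2 * 2 ^ j
  | .RA1 => 1
  | .Rm => j + 1
  | .Rdf => j - 1
  | _ => 0

/-- The rulers after the loop computing the exponent. -/
def eS0 (j : ℕ) : FT → ℕ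
  | .RS => 2 ^ j
  | .R2S => 2 * 2 ^ j
  | .Rp => 2 * 2 ^ j
  | .Rm => j + 1
  | _ => 0

/-- The first part of the start. -/
def stK1 : Prog (FT ⊕ X) (Sym G) :=
  .seq (rinc (o .Rp)) (.seq stLoop (.seq (adv .R2S .RS .L) (mv (o .RS) .R)))

/-- The start. -/
def stK : Prog (FT ⊕ X) (Sym G) :=
  .seq stK1 (.seq (rinc (o .RA1)) (.seq (radd (o .Rm) (o .Rdf)) (.seq (rsub (o .RA1) (o .Rdf)) (.seq (rsub (o .RA1) (o .Rdf))
  (.seq (radd (o .Rdf) (o .Rn)) (rinc (o .Rn)))))))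

/-- The cost of the first part of the start. -/
def SK1 (j : ℕ) : ℕ := 9 + (SLp j + ((4 * (2 * 2 ^ j) + 4) + 1))

theorem stK1_spec {c : TC X G} {j : ℕ} (s : KS c j) :
    ∃ c', Run (stK1 : Prog (FT ⊕ X) (Sym G)) c c' (SK1 j) ∧ KEnv (LL j) c' (eS0 j) ∧ Fr [.Rp, .Rm, .Tmp] [] c c' := by
  obtain ⟨l1, l2, l3, l4, _⟩ := LL_ge j
  obtain ⟨c1, r1, a1, f1⟩ := rincF .Rp c (s.bl .Rp (by decide))
  obtain ⟨c2, r2, b1, b2, b3, b4, b5, f2⟩ := stLoop_spec (j := j) (c := c1) (by rw [f1.tape (by simp)]; exact s.rs.1) (by rw [f1.head (by simp)]; exact s.rs.2) (by simpa using a1)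
    ((s.bl .Rm (by decide)).of_fr f1 (by simp) (by simp)) ((s.bl .Tmp (by decide)).of_fr f1 (by simp) (by simp))
  have f12 : Fr [.Rp, .Rm, .Tmp] [.RS] c c2 := f1.tr f2 (by simp) (by simp)
  obtain ⟨c3, r3, d1, f3⟩ := adv_spec .R2S .RS .L (by decide) (by simp) c2 (s.r2s.of_fr f12 (by simp) (by simp))
  obtain ⟨c4, r4, g1, g2, g3⟩ := mv_spec (o .RS : FT ⊕ X) .R c3
  have f4 : Fr [] [.RS] c3 c4 := fr_of_ruler_same g3 g2
  have f34 : Fr [] [.RS] c2 c4 := f3.tr f4 (by simp) (by simp)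
  have f14 : Fr [.Rp, .Rm, .Tmp] [.RS] c c4 := f12.tr f34 (by simp) (by simp)
  have hS : Ruler c4 (o .RS) (2 ^ j) := by
    refine ⟨?_, ?_⟩
    · rw [g2, f3.tape (by simp), b4]
    · rw [g1, d1, b5]
      simp only [Dir.toInt]
      push_cast
      ring
  have f0 : Fr [.Rp, .Rm, .Tmp] [] c c4 := Fr.fixA (a := .RS) (f14.mono (by simp) (by simp)) (by rw [hS.2, s.rs.2])
  refine ⟨c4, (r1.seq (r2.seq (r3.seq r4))).mono (by simp only [SK1]; omega), ⟨?_, ?_⟩, f0⟩
  · intro a ha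
    by_cases h1 : a = .RS
    · subst h1
      exact hS
    by_cases h2 : a = .R2S
    · subst h2
      exact s.r2s.of_fr f14 (by simp) (by simp)
    by_cases h3 : a = .Rp
    · subst h3
      exact b1.of_fr f34 (by simp) (by simp)
    by_cases h4 : a = .Rm
    · subst h4
      exact b2.of_fr f34 (by simp) (by simp)
    by_cases h5 : a = .Tmp
    · subst h5
      exact b3.of_fr f34 (by simp) (by simp)
    have e : eS0 j a = 0 := by
      cases a <;> first | rfl | exact absurd rfl h1 | exact absurd rfl h2 | exact absurd rfl h3 | exact absurd rfl h4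
    rw [e]
    have hn : a ∉ ifL := by
      intro hm
      simp only [List.mem_cons, List.not_mem_nil, or_false] at hm
      rcases hm with rfl | rfl | rfl | rfl | rfl
      · exact absurd (by decide) ha
      · exact absurd (by decide) ha
      · exact absurd (by decide) ha
      · exact h1 rfl
      · exact h2 rfl
    exact (s.bl a hn).of_fr f14 (by simp [h3, h4, h5]) (by simp [h1])
  · intro a _
    cases a <;> first | exact Nat.zero_le _ | skip
    · exact le_trans (by simp only [eS0]; omega) l2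
    · exact l2
    · exact l3
    · exact l2

/-- The cost of the start. -/
def SKC (j : ℕ) : ℕ := SK1 j + ((4 * LL j + 9) + ((10 * LL j + 8) + (2 * (8 * LL j + 16) + (10 * LL j + 8 + (4 * LL j + 9)))))

theorem stK_spec {c : TC X G} {j : ℕ} (s : KS c j) (hj : 1 ≤ j) :
    ∃ c', Run (stK : Prog (FT ⊕ X) (Sym G)) c c' (SKC j) ∧ KEnv (LL j) c' (eS j) ∧ Ruler c' (o .Rn) j ∧ KI c (LL j) c' := by
  obtain ⟨l1, l2, l3, l4, _⟩ := LL_ge j
  obtain ⟨c1, r1, h1, f1⟩ := stK1_spec s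
  have k1 : KR c c1 := ⟨NF.of_fr f1 (by decide) (by simp), Ut.of_fr f1 (by decide) (by simp)⟩
  obtain ⟨c2, r2, h2, k2⟩ := rincK h1 .RA1 (by decide) (by decide) (n := 1) rfl l4
  obtain ⟨c3, r3, h3, k3⟩ := raddK h2 .Rm .Rdf (by decide) (by decide) (by decide) (by decide) (n := j + 1) (by change j + 1 = 0 + (j + 1); omega) l3
  obtain ⟨c4, r4, h4, k4⟩ := rsubK h3 .RA1 .Rdf (by decide) (by decide) (by decide) (by decide) (n := j) (by change j = (j + 1) - 1; omega) (by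
    change 1 ≤ j + 1
    omega)
  obtain ⟨c5, r5, h5, k5⟩ := rsubK h4 .RA1 .Rdf (by decide) (by decide) (by decide) (by decide) (n := j - 1) (by change j - 1 = j - 1; omega) (by
    change 1 ≤ j
    omega)
  have k15 : KR c c5 := k1.trans (k2.trans (k3.trans (k4.trans k5)))
  have rn : Ruler c5 (o .Rn) 0 := by
    have := s.bl .Rn (by decide)
    exact ⟨(k15.1 .Rn (by decide)).1.trans this.1, (k15.1 .Rn (by decide)).2.trans this.2⟩
  obtain ⟨c6, r6, a6, f6⟩ := raddF .Rdf .Rn (by decide) c5 (h5.ru .Rdf (by decide)) rn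
  obtain ⟨c7, r7, a7, f7⟩ := rincF .Rn c6 a6
  have f67 : Fr [.Rn] [] c5 c7 := f6.tr f7 (by simp) (by simp)
  have e : 0 + Function.update (Function.update (Function.update (Function.update (eS0 j) .RA1 1) .Rdf (j + 1)) .Rdf j) .Rdf (j - 1) .Rdf + 1 = j := by
    change 0 + (j - 1) + 1 = j
    omega
  rw [e] at a7
  refine ⟨c7, ?_, ?_, a7, ((KI.init s _).of_kr k15).of_rn f67⟩
  · refine (r1.seq (r2.seq (r3.seq (r4.seq (r5.seq (r6.seq r7)))))).mono ?_
    have e2 : Function.update (Function.update (Function.update (Function.update (eS0 j) .RA1 1) .Rdf (j + 1)) .Rdf j) .Rdf (j - 1) .Rdf = j - 1 := rfl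
    rw [e2] at *
    simp only [SKC]
    omega
  · exact (h5.of_fr f67 (by simp) (by simp)).conv (by intro a; cases a <;> rfl)

/-- Load an operand in a slot. -/
def loadK (S Xs : FT) : Prog (FT ⊕ X) (Sym G) := .seq (zro .RUp S) (cpy .RS Xs S)

theorem load_spec {S Xs : FT} (n1 : FT.RUp ≠ S) (n2 : [FT.RS, Xs, S].Nodup) (hSb : S ∈ bLK) (n3 : S ≠ .Cy) {c : TC X G} {K W L : ℕ}
    (rW : Ruler c (o .RUp) W) (rS : Ruler c (o .RS) K) (hKW : K ≤ W) (hWL : W ≤ L) (h0 : c.head (o S) = 0) (h1 : c.head (o Xs) = 0) :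
    ∃ c', Run (loadK S Xs : Prog (FT ⊕ X) (Sym G)) c c' ((8 * W + 8) + (12 * K + 12)) ∧ vl (c'.tape (o S)) 0 W = vl (c.tape (o Xs)) 0 K ∧
      (c'.read (o .Cy)).isOne = (c.read (o .Cy)).isOne ∧ Lk L c c' ∧ Fr [S] [] c c' := by
  have n2' := n2
  simp only [List.nodup_cons, List.mem_cons, List.not_mem_nil, or_false, not_or] at n2'
  obtain ⟨⟨m1, m2⟩, m3, _⟩ := n2'
  obtain ⟨c1, r1, a1, f1⟩ := zro_spec .RUp S n1 c rW
  obtain ⟨c2, r2, b1, f2⟩ := cpy_spec .RS Xs S n2 c1 (rS.of_fr f1 (by simpa using m2) (by simp))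
  have f12 : Fr [S] [] c c2 := f1.tr f2 (by simp) (by simp)
  have hS1 : c1.head (o S) = 0 := by rw [f1.head (by simp), h0]
  have hX1 : c1.head (o Xs) = 0 := by rw [f1.head (by simp), h1]
  have hX1t : c1.tape (o Xs) = c.tape (o Xs) := f1.tape (by simpa using m3)
  rw [hS1, hX1, hX1t] at b1
  have hWz : (W : ℤ) ≤ L := by exact_mod_cast hWL
  have hKz : (K : ℤ) ≤ W := by exact_mod_cast hKW
  refine ⟨c2, (r1.seq r2).mono le_rfl, ?_, ?_, ?_, f12⟩
  · refine vl_load (h := 0) hKW ?_ ?_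
    · intro x h2 h3
      rw [b1, if_pos (by push_cast; constructor <;> omega)]
      congr 2
      ring
    · intro x h2 h3
      rw [b1, if_neg (by push_cast; omega), a1, h0, if_pos (by push_cast; constructor <;> omega)]
  · simp only [TS.read]
    rw [f12.tape (by simpa using Ne.symm n3), f12.head (by simp)]
  · refine Lk.of_fr f12 ?_
    intro a ha _ x hx
    simp only [List.mem_singleton] at ha
    subst ha
    rw [b1, if_neg (by push_cast; omega), a1, h0, if_neg (by push_cast; omega)]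

/-- The rulers of the first level and the operands. -/
def initK : Prog (FT ⊕ X) (Sym G) := .seq setL (.seq (loadK .D .X1) (loadK .T1 .X2))

/-- The cost of the rulers of the first level and the operands. -/
def IKC (j : ℕ) : ℕ := SLC (LL j) 0 + (2 * ((8 * wL j 0 + 8) + (12 * 2 ^ j + 12)))

theorem initK_spec {c0 c : TC X G} {j : ℕ} (hj : 1 ≤ j) (hK : KI c0 (LL j) c) (he : KEnv (LL j) c (eS j)) (h1 : c0.head (o .X1) = 0) (h2 : c0.head (o .X2) = 0) :
    ∃ c', Run (initK : Prog (FT ⊕ X) (Sym G)) c c' (IKC j) ∧ KEnv (LL j) c' (eL 0 0 0 j 0) ∧ KI c0 (LL j) c' ∧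
      Arr (c'.tape (o .D)) (wd j 0) 1 (lev j (vl (c0.tape (o .X1)) 0 (2 ^ j)) 0) ∧
      Arr (c'.tape (o .T1)) (wd j 0) 1 (lev j (vl (c0.tape (o .X2)) 0 (2 ^ j)) 0) ∧
      c'.tape (o .Rn) = c.tape (o .Rn) ∧ c'.head (o .Rn) = c.head (o .Rn) := by
  have hj0 : 0 < j := hj
  obtain ⟨c1, r1, h3, k1⟩ := setL_spec (z1 := 0) (z2 := 0) (z3 := 0) (l := 0) he hj0 (by
    intro a ha
    cases a <;> first | rfl | exact absurd (by decide) ha)
  have hK1 := hK.of_kr k1
  have hW : wL j 0 = wd j 0 := wL_eq hj0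
  have hwL : wd j 0 ≤ LL j := by
    have := wd_bound' (j := j) (l := 0) (by omega)
    omega
  have hKW : 2 ^ j ≤ wd j 0 := by
    simp only [wd, Nat.sub_zero]
    omega
  obtain ⟨c2, r2, a1, a2, a3, f2⟩ := load_spec (S := .D) (Xs := .X1) (by decide) (by decide) (by decide) (by decide) (c := c1) (L := LL j) (K := 2 ^ j) (W := wd j 0)
    (by rw [← hW]; exact h3.ru .RUp (by decide)) (h3.ru .RS (by decide)) hKW hwL (hK1.hd .D (by decide)) (by rw [hK1.hx1, h1])
  have hK2 : KI c0 (LL j) c2 := hK1.of_fr f2 (by decide) a3 (by rw [a2]; exact hK1.cy)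
  have h4 : KEnv (LL j) c2 (eL 0 0 0 j 0) := h3.of_fr f2 (by decide) (by simp)
  obtain ⟨c3, r3, b1, b2, b3, f3⟩ := load_spec (S := .T1) (Xs := .X2) (by decide) (by decide) (by decide) (by decide) (c := c2) (L := LL j) (K := 2 ^ j) (W := wd j 0)
    (by rw [← hW]; exact h4.ru .RUp (by decide)) (h4.ru .RS (by decide)) hKW hwL (hK2.hd .T1 (by decide)) (by rw [hK2.hx2, h2])
  have hK3 : KI c0 (LL j) c3 := hK2.of_fr f3 (by decide) b3 (by rw [b2]; exact hK2.cy)
  have h5 : KEnv (LL j) c3 (eL 0 0 0 j 0) := h4.of_fr f3 (by decide) (by simp)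
  refine ⟨c3, (r1.seq (r2.seq r3)).mono ?_, h5, hK3, ?_, ?_, ?_, ?_⟩
  · rw [← hW]
    simp only [IKC]
    omega
  · intro i hi
    have hi0 : i = 0 := by omega
    subst hi0
    simp only [Nat.zero_mul, Nat.cast_zero, lev]
    rw [f3.tape (by decide), a1, hK1.tx1]
  · intro i hi
    have hi0 : i = 0 := by omega
    subst hi0
    simp only [Nat.zero_mul, Nat.cast_zero, lev]
    rw [b1, hK2.tx2]
  · rw [f3.tape (by decide), f2.tape (by decide), (k1.1 .Rn (by decide)).1]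
  · rw [f3.head (by simp), f2.head (by simp), (k1.1 .Rn (by decide)).2]

end

end Vale.Agent.Lib.P338.F
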