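import Vale.Agent.Lib.P338.F.KarPass

/-!
The complete internal multiplier.
-/

namespace Vale.Agent.Lib.P338.F

open Vale.Agent.Lib.P338 Prog

section
variable {G : Type}

/-- The low part of a number with small value. -/
theorem vl_lowK {τ : ℤ → Sym G} {u v z : ℕ} (h : vl τ 0 (u + v) = z) (hz : z < 2 ^ u) : vl τ 0 u = z := by
  rw [vl_add] at h
  have h1 : vl τ (0 + (u : ℤ)) v = 0 := by
    by_contra hne
    have h2 : 1 ≤ vl τ (0 + (u : ℤ)) v := Nat.one_le_iff_ne_zero.2 hne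
    have h3 : 2 ^ u * 1 ≤ 2 ^ u * vl τ (0 + (u : ℤ)) v := Nat.mul_le_mul_left _ h2
    omega
  rw [h1] at h
  simpa using h

end

section
variable {X G : Type} [DecidableEq X]

omit [DecidableEq X] in
theorem fr_of_same1 {a : FT} {c c' : TC X G} (s : Same [o a] c c') : Fr [a] [a] c c' := by
  refine Fr.of_same s (by simp) ?_ ?_
  · intro b hb hm
    simp only [List.mem_singleton, Sum.inl.injEq] at hm
    subst hm
    simp at hb
  · intro b hb hm
    simp only [List.mem_singleton, Sum.inl.injEq] at hm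
    subst hm
    simp at hb

/-- Erase a tape. -/
def er1 (a : FT) : Prog (FT ⊕ X) (Sym G) := forR (o .RZt) (fillBy (o .RKZt) (o a) .blank)

theorem er1_spec {a : FT} (h1 : a ≠ .RZt) (h2 : a ≠ .RKZt) {c : TC X G} {n k : ℕ} (rZ : Ruler c (o .RZt) n) (rK : Ruler c (o .RKZt) k) (h0 : c.head (o a) = 0) :
    ∃ c', Run (er1 a : Prog (FT ⊕ X) (Sym G)) c c' (n * (4 * k + 4 + 4) + 4) ∧
      (∀ x, c'.tape (o a) x = if 0 ≤ x ∧ x < ((n * k : ℕ) : ℤ) then .blank else c.tape (o a) x) ∧ Fr [a] [a] c c' := by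
  have hK : (o .RKZt : FT ⊕ X) ≠ o a := by simpa using Ne.symm h2
  obtain ⟨c', ⟨i1, i2, i3⟩, hR, r⟩ := forU (R := .RZt) (body := (fillBy (o .RKZt) (o a) .blank : Prog (FT ⊕ X) (Sym G))) (n := n) (c := c)
    (fun i d => d.head (o a) = ((i * k : ℕ) : ℤ) ∧ (∀ x, d.tape (o a) x = if 0 ≤ x ∧ x < ((i * k : ℕ) : ℤ) then .blank else c.tape (o a) x) ∧ Fr [a] [.RZt, a] c d)
    (4 * k + 4) rZ
    ⟨by simp [h0], by intro x; rw [if_neg (by simp)], Fr.refl _ _ _⟩
    (by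
      rintro i d d' ⟨a1, a2, a3⟩ f
      refine ⟨?_, ?_, a3.tr f (by simp) (by simp)⟩
      · rw [f.head (by simpa using h1), a1]
      · intro x
        rw [f.tape (by simp), a2])
    (by
      rintro i _ d _ _ ⟨a1, a2, a3⟩
      obtain ⟨d1, r1, b1, b2, s1⟩ := fillBy_spec (o .RKZt) (o a) .blank hK d (rK.of_fr a3 (by simpa using Ne.symm h2) (by simp [Ne.symm h1, Ne.symm h2]))
      have f1 : Fr [a] [a] d d1 := fr_of_same1 s1
      refine ⟨d1, r1, ⟨?_, ?_, a3.tr f1 (by simp) (by simp)⟩, f1.tape (by simpa using Ne.symm h1), f1.head (by simpa using Ne.symm h1)⟩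
      · rw [b1, a1, add_mul, one_mul]
        push_cast
        ring
      · intro x
        rw [b2, a1, a2]
        have e : ((i + 1) * k : ℕ) = i * k + k := by ring
        rw [e]
        have h5 : (0 : ℤ) ≤ ((i * k : ℕ) : ℤ) := Int.natCast_nonneg _
        have h6 : (0 : ℤ) ≤ (k : ℤ) := Int.natCast_nonneg _
        push_cast
        push_cast at h5
        by_cases hx : (i : ℤ) * k ≤ x ∧ x < (i : ℤ) * k + k
        · rw [if_pos hx, if_pos (by omega)]
        · rw [if_neg hx]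
          by_cases hy : 0 ≤ x ∧ x < (i : ℤ) * k
          · rw [if_pos hy, if_pos (by omega)]
          · rw [if_neg hy, if_neg (by omega)])
  refine ⟨c', r, i2, ?_⟩
  exact Fr.fixR i3 rZ hR

/-- Erase some tapes. -/
def erAll : List FT → Prog (FT ⊕ X) (Sym G)
  | [] => skip
  | a :: l => .seq (er1 a) (erAll l)

theorem erAll_spec (l : List FT) (hl : ∀ a ∈ l, a ≠ .RZt ∧ a ≠ .RKZt) (hn : l.Nodup) {c : TC X G} {n k : ℕ} (rZ : Ruler c (o .RZt) n) (rK : Ruler c (o .RKZt) k)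
    (h0 : ∀ a ∈ l, c.head (o a) = 0) :
    ∃ c', Run (erAll l : Prog (FT ⊕ X) (Sym G)) c c' (l.length * (n * (4 * k + 4 + 4) + 4) + 1) ∧
      (∀ a ∈ l, ∀ x, c'.tape (o a) x = if 0 ≤ x ∧ x < ((n * k : ℕ) : ℤ) then .blank else c.tape (o a) x) ∧ Fr l l c c' := by
  induction l generalizing c with
  | nil =>
    exact ⟨c, skip_spec c |>.mono (by simp), by simp, Fr.refl _ _ _⟩
  | cons a l ih =>
    have hn' := List.nodup_cons.1 hn
    obtain ⟨c1, r1, a1, f1⟩ := er1_spec (hl a (by simp)).1 (hl a (by simp)).2 rZ rK (h0 a (by simp))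
    have ne1 : FT.RZt ≠ a := Ne.symm (hl a (by simp)).1
    have ne2 : FT.RKZt ≠ a := Ne.symm (hl a (by simp)).2
    obtain ⟨c2, r2, a2, f2⟩ := ih (fun b hb => hl b (by simp [hb])) hn'.2 (rZ.of_fr f1 (by simpa using ne1) (by simpa using ne1))
      (rK.of_fr f1 (by simpa using ne2) (by simpa using ne2)) (by
        intro b hb
        have hba : b ≠ a := fun e => hn'.1 (e ▸ hb)
        rw [f1.head (by simpa using hba)]
        exact h0 b (by simp [hb]))
    refine ⟨c2, (r1.seq r2).mono ?_, ?_, f1.tr f2 (by simp) (by simp)⟩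
    · simp only [List.length_cons]
      have e : (l.length + 1) * (n * (4 * k + 4 + 4) + 4) = l.length * (n * (4 * k + 4 + 4) + 4) + (n * (4 * k + 4 + 4) + 4) := by ring
      omega
    · intro b hb x
      simp only [List.mem_cons] at hb
      by_cases hba : b = a
      · subst hba
        rw [f2.tape hn'.1]
        exact a1 x
      · have hb' : b ∈ l := by
          rcases hb with rfl | h
          · exact absurd rfl hba
          · exact h
        rw [a2 b hb' x, f1.tape (by simpa using hba)]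

/-- Clear some rulers. -/
def clrAll : List FT → Prog (FT ⊕ X) (Sym G)
  | [] => skip
  | a :: l => .seq (rclr (o a)) (clrAll l)

theorem clrAll_spec (l : List FT) {c : TC X G} {B : ℕ} (hr : ∀ a ∈ l, ∃ n, n ≤ B ∧ Ruler c (o a) n) :
    ∃ c', Run (clrAll l : Prog (FT ⊕ X) (Sym G)) c c' (l.length * (4 * B + 4) + 1) ∧ (∀ a ∈ l, Ruler c' (o a) 0) ∧ Fr l [] c c' := by
  induction l generalizing c with
  | nil =>
    exact ⟨c, skip_spec c |>.mono (by simp), by simp, Fr.refl _ _ _⟩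
  | cons a l ih =>
    obtain ⟨n, hn, ra⟩ := hr a (by simp)
    obtain ⟨c1, r1, a1, f1⟩ := rclrF a c ra
    obtain ⟨c2, r2, a2, f2⟩ := ih (c := c1) (by
      intro b hb
      by_cases hba : b = a
      · subst hba
        exact ⟨0, by omega, a1⟩
      · obtain ⟨m, hm, rb⟩ := hr b (by simp [hb])
        exact ⟨m, hm, rb.of_fr f1 (by simpa using hba) (by simp)⟩)
    refine ⟨c2, (r1.seq r2).mono ?_, ?_, f1.tr f2 (by simp) (by simp)⟩
    · simp only [List.length_cons]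
      have e : (l.length + 1) * (4 * B + 4) = l.length * (4 * B + 4) + (4 * B + 4) := by ring
      have h4 : 4 * n + 4 ≤ 4 * B + 4 := by omega
      omega
    · intro b hb
      simp only [List.mem_cons] at hb
      by_cases hbl : b ∈ l
      · exact a2 b hbl
      · rcases hb with rfl | h
        · exact a1.of_fr f2 hbl (by simp)
        · exact absurd h hbl

/-- The end of the internal multiplier: all the work tapes are blank again. -/
def erP : Prog (FT ⊕ X) (Sym G) := .seq (erAll bLK) (clrAll kR)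

/-- The passes of the internal multiplier. -/
def karM : Prog (FT ⊕ X) (Sym G) := .seq stK (.seq initK (.seq fwdP (.seq midP (.seq baseP bwdP))))

/-- The complete internal multiplier. -/
def kar : Prog (FT ⊕ X) (Sym G) := .seq karM (.seq (cpy .R2S .P1 .X3) erP)

/-- The cost of the passes of the internal multiplier. -/
def KMC (j : ℕ) : ℕ :=
  SKC j + (IKC j + ((j * (FSC j + 4) + 4) + ((3 * (10 * LL j + 8) + (4 * LL j + 9)) + (BPC (3 ^ j) (j + 2) + (j * (BSC j + 4) + 4)))))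

/-- The cost of the complete internal multiplier. -/
def KC (j : ℕ) : ℕ :=
  KMC j + ((12 * (2 * 2 ^ j) + 12) + ((10 * (3 ^ j * (4 * (2 * (j + 2)) + 4 + 4) + 4) + 1) + (19 * (4 * LL j + 4) + 1)))

/-- The state after all the passes, before the output. -/
theorem kar_main {c : TC X G} {j : ℕ} (hj : 1 ≤ j) (s : KS c j) :
    ∃ c7, Run (karM : Prog (FT ⊕ X) (Sym G)) c c7 (KMC j) ∧
      Ruler c7 (o .Rn) j ∧ KI c (LL j) c7 ∧ Arr (c7.tape (o .P1)) (2 * wd j 0) 1 (prd j (vl (c.tape (o .X1)) 0 (2 ^ j)) (vl (c.tape (o .X2)) 0 (2 ^ j)) 0) ∧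
      ∃ e, KEnv (LL j) c7 e ∧ ∀ a, a ∉ slL → e a = eL (j + 3) (3 ^ j) (2 * (j + 2)) j 0 a := by
  obtain ⟨c1, r1, h1, rn1, k1⟩ := stK_spec s hj
  obtain ⟨c2, r2, h2, k2, aD, aT, t2, h2n⟩ := initK_spec hj k1 h1 s.h1 s.h2
  have hx := vl_lt (c.tape (o .X1)) 0 (2 ^ j)
  have hy := vl_lt (c.tape (o .X2)) 0 (2 ^ j)
  have rn2 : Ruler c2 (o .Rn) j := ⟨t2.trans rn1.1, h2n.trans rn1.2⟩
  obtain ⟨c3, r3, fp, rn3⟩ := fwdP_spec hx hy k2 h2 rn2 aD aT
  obtain ⟨c4, r4, h4, k4⟩ := midP_spec hj fp.ev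
  have kI4 := fp.ki.of_kr k4
  have rq : Ruler c4 (o .RqM) (3 * 3 ^ (j - 1)) := h4.ru .RqM (by decide)
  have rU : Ruler c4 (o .RU) (vL j (j - 1)) := h4.ru .RU (by decide)
  have rQ : Ruler c4 (o .RQd) (2 * vL j (j - 1)) := h4.ru .RQd (by decide)
  have rZ : Ruler c4 (o .RKZ) (j + 3) := h4.ru .RKZ (by decide)
  rw [three_last hj] at rq
  rw [vL_last hj] at rU rQ
  have hL2 : 2 * (j + 2) ≤ LL j := by
    have h9 := wd_bound' (j := j) (l := j) le_rfl
    rwa [wd_last] at h9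
  obtain ⟨c5, r5, a5, cy5, lk5, f5⟩ := baseP_spec (c := c4) (w := j + 2) (L := LL j) (cc := 3 ^ j) (a := lev j _ j) (b := lev j _ j) rq rU rQ rZ
    (kI4.hd .Y0 (by decide)) (kI4.hd .Y1 (by decide)) (kI4.hd .Y3 (by decide)) (kI4.hd .Cy (by decide)) (kI4.hd .D (by decide)) (kI4.hd .T1 (by decide)) (kI4.hd .P1 (by decide))
    kI4.cy
    (fp.aD.cast (by rw [(k4.1 .D (by decide)).1]) (wd_last j).symm rfl rfl)
    (fp.aT.cast (by rw [(k4.1 .T1 (by decide)).1]) (wd_last j).symm rfl rfl)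
    (by omega) le_rfl hL2
  have kI5 : KI c (LL j) c5 := kI4.of_fr f5 (by decide) lk5 cy5
  have h5 := h4.of_fr f5 (by decide) (by simp)
  have bp0 : BPJ c j (vl (c.tape (o .X1)) 0 (2 ^ j)) (vl (c.tape (o .X2)) 0 (2 ^ j)) (j + 3) (3 ^ j) (2 * (j + 2)) 0 c5 := by
    refine ⟨kI5, ⟨_, h5, ?_⟩, ?_⟩
    · intro a ha
      cases a <;> first | rfl | exact absurd (by decide) ha
    · simp only [Nat.sub_zero]
      rw [wd_last]
      exact a5
  have rn5 : Ruler c5 (o .Rn) j := by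
    have e1 := (k4.1 .Rn (by decide))
    exact ⟨(f5.tape (by decide)).trans (e1.1.trans rn3.1), (f5.head (by simp)).trans (e1.2.trans rn3.2)⟩
  obtain ⟨c6, r6, bp, rn6⟩ := bwdP_spec hx hy bp0 rn5
  refine ⟨c6, r1.seq (r2.seq (r3.seq (r4.seq (r5.seq r6)))), rn6, bp.ki, ?_, ?_⟩
  · have h9 := bp.aP
    simp only [Nat.sub_self, pow_zero] at h9
    exact h9
  · obtain ⟨e, he, hb⟩ := bp.ev
    refine ⟨e, he, ?_⟩
    simp only [Nat.sub_self] at hb
    exact hb

theorem prod_lt {x y u : ℕ} (hx : x < 2 ^ u) (hy : y < 2 ^ u) : x * y < 2 ^ (2 * u) := by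
  have e : 2 ^ (2 * u) = 2 ^ u * 2 ^ u := by
    rw [two_mul, pow_add]
  rw [e]
  exact Nat.mul_lt_mul'' hx hy

theorem kar_spec {c : TC X G} {j : ℕ} (hj : 1 ≤ j) (s : KS c j) :
    ∃ c', Run (kar : Prog (FT ⊕ X) (Sym G)) c c' (KC j) ∧
      vl (c'.tape (o .X3)) 0 (2 * 2 ^ j) = vl (c.tape (o .X1)) 0 (2 ^ j) * vl (c.tape (o .X2)) 0 (2 ^ j) ∧
      (∀ a, a ≠ .X3 → c'.tape (o a) = c.tape (o a)) ∧
      (∀ a, a ∈ ifL → c'.head (o a) = c.head (o a)) := by
  obtain ⟨c7, r7, rn7, k7, a7, e, he, hb⟩ := kar_main hj s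
  have hx := vl_lt (c.tape (o .X1)) 0 (2 ^ j)
  have hy := vl_lt (c.tape (o .X2)) 0 (2 ^ j)
  have r2s : Ruler c7 (o .R2S) (2 * 2 ^ j) := by
    have := he.ru .R2S (by decide)
    rwa [hb .R2S (by decide)] at this
  have rzt : Ruler c7 (o .RZt) (3 ^ j) := by
    have := he.ru .RZt (by decide)
    rwa [hb .RZt (by decide)] at this
  have rkz : Ruler c7 (o .RKZt) (2 * (j + 2)) := by
    have := he.ru .RKZt (by decide)
    rwa [hb .RKZt (by decide)] at this
  have rs7 : Ruler c7 (o .RS) (2 ^ j) := by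
    have := he.ru .RS (by decide)
    rwa [hb .RS (by decide)] at this
  obtain ⟨c8, r8, a8, f8⟩ := cpy_spec .R2S .P1 .X3 (by decide) c7 r2s
  have hX3 : c7.head (o .X3) = 0 := by rw [k7.hx3, s.h3]
  have hP1 : c7.head (o .P1) = 0 := k7.hd .P1 (by decide)
  rw [hX3, hP1] at a8
  have hv8 : vl (c8.tape (o .X3)) 0 (2 * 2 ^ j) = vl (c.tape (o .X1)) 0 (2 ^ j) * vl (c.tape (o .X2)) 0 (2 ^ j) := by
    have h1 := a7 0 (by omega)
    simp only [Nat.zero_mul, Nat.cast_zero] at h1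
    have e2 : 2 * wd j 0 = 2 * 2 ^ j + 2 * (j + 1) := by
      simp only [wd, Nat.sub_zero]
      ring
    rw [e2] at h1
    have h2 := vl_lowK (z := vl (c.tape (o .X1)) 0 (2 ^ j) * vl (c.tape (o .X2)) 0 (2 ^ j)) h1 (prod_lt hx hy)
    rw [← h2]
    exact vl_of_copy (h := 0) (hs := 0) (by
      intro x
      simpa using a8 x)
  obtain ⟨c9, r9, a9, f9⟩ := erAll_spec bLK (by decide) (by decide) (rzt.of_fr f8 (by decide) (by simp)) (rkz.of_fr f8 (by decide) (by simp)) (n := 3 ^ j) (k := 2 * (j + 2)) (by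
    intro a ha
    have h3 : a ≠ .X3 := by
      rintro rfl
      exact absurd ha (by decide)
    rw [f8.head (by simp)]
    exact k7.hd a ha)
  have f79 : Fr (FT.X3 :: bLK) bLK c7 c9 := f8.tr f9 (by simp) (by simp)
  have hbnd : j ≤ LL j := by
    have := (LL_ge j).2.2.1
    omega
  have D1 : ∀ a ∈ bLK, a ∉ kR ∧ a ∉ ifL ∧ a ≠ .X3 := by decide
  have D2 : ∀ a ∈ kR, a ∉ ifL := by decide
  have D3 : ∀ a ∈ kU, a = .X3 ∨ a = .RS ∨ a ∈ bLK ∨ a ∈ kR := by decide
  have D4 : ∀ a ∈ FT.X3 :: bLK ++ kR, a = .X3 ∨ a ∈ bLK ∨ a ∈ kR := by decide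
  obtain ⟨c10, r10, a10, f10⟩ := clrAll_spec kR (c := c9) (B := LL j) (by
    intro a ha
    by_cases hn : a = .Rn
    · subst hn
      exact ⟨j, hbnd, rn7.of_fr f79 (by decide) (by decide)⟩
    · have h3 : a ∉ nK ∧ a ∉ FT.X3 :: bLK ∧ a ∉ bLK := by
        revert a
        decide
      exact ⟨e a, he.le a h3.1, (he.ru a h3.1).of_fr f79 h3.2.1 h3.2.2⟩)
  have r9' : Run (erAll bLK : Prog (FT ⊕ X) (Sym G)) c8 c9 (10 * (3 ^ j * (4 * (2 * (j + 2)) + 4 + 4) + 4) + 1) := r9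
  have r10' : Run (clrAll kR : Prog (FT ⊕ X) (Sym G)) c9 c10 (19 * (4 * LL j + 4) + 1) := r10
  have fA : Fr (FT.X3 :: bLK ++ kR) bLK c7 c10 := f79.tr f10 (by simp) (by simp)
  have rs10 : Ruler c10 (o .RS) (2 ^ j) := rs7.of_fr fA (by decide) (by decide)
  have r2s10 : Ruler c10 (o .R2S) (2 * 2 ^ j) := r2s.of_fr fA (by decide) (by decide)
  refine ⟨c10, (r7.seq (r8.seq (r9'.seq r10'))).mono (by simp only [KC]; omega), ?_, ?_, ?_⟩
  · rw [f10.tape (by decide), f9.tape (by decide)]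
    exact hv8
  · intro a ha
    by_cases h1 : a ∈ bLK
    · have h3 : a ∉ kR ∧ a ∉ ifL ∧ a ≠ .X3 := D1 a h1
      rw [f10.tape h3.1, (s.bl a h3.2.1).1]
      funext x
      rw [a9 a h1 x]
      by_cases hx2 : 0 ≤ x ∧ x < ((3 ^ j * (2 * (j + 2)) : ℕ) : ℤ)
      · rw [if_pos hx2, runT_out (by omega)]
      · rw [if_neg hx2, f8.tape (by simpa using h3.2.2), k7.lk a h1 x hx2, (s.bl a h3.2.1).1]
    by_cases h2 : a ∈ kR
    · rw [(a10 a h2).1, (s.bl a (D2 a h2)).1]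
    by_cases h4 : a = .RS
    · subst h4
      rw [rs10.1, s.rs.1]
    · have h5 : a ∉ kU := by
        intro hm
        rcases D3 a hm with h | h | h | h
        · exact ha h
        · exact h4 h
        · exact h1 h
        · exact h2 h
      have h6 : a ∉ FT.X3 :: bLK ++ kR := by
        intro hm
        rcases D4 a hm with h | h | h
        · exact ha h
        · exact h1 h
        · exact h2 h
      rw [fA.tape h6, (k7.ut a h5).1]
  · intro a ha
    simp only [List.mem_cons, List.not_mem_nil, or_false] at ha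
    rcases ha with rfl | rfl | rfl | rfl | rfl
    · rw [fA.head (by decide), k7.hx1]
    · rw [fA.head (by decide), k7.hx2]
    · rw [fA.head (by decide), k7.hx3]
    · rw [rs10.2, s.rs.2]
    · rw [r2s10.2, s.r2s.2]

end

theorem SLC_eq (B l : ℕ) : SLC B l = l * (34 * B + 32) + 296 * B + 213 := by
  simp only [SLC, P3C]
  ring

/-- The cost of the internal multiplier. -/
theorem KC_le (j : ℕ) (hj : 1 ≤ j) : KC j ≤ 10000 * (3 ^ j * (j + 2) ^ 3) := by
  obtain ⟨t, ht⟩ : ∃ t, t = 3 ^ j := ⟨_, rfl⟩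
  obtain ⟨K, hK⟩ : ∃ K, K = 2 ^ j := ⟨_, rfl⟩
  obtain ⟨A, hA⟩ : ∃ A, A = j + 2 := ⟨_, rfl⟩
  obtain ⟨Z, hZ⟩ : ∃ Z, Z = t * A := ⟨_, rfl⟩
  have ht1 : 1 ≤ t := by
    rw [ht]
    exact Nat.one_le_pow _ _ (by norm_num)
  have hKt : K ≤ t := by
    rw [hK, ht]
    exact two_pow_le_three j
  have hB : LL j = 2 * Z := by
    simp only [LL]
    rw [← ht, ← hA, hZ]
    ring
  have hA3 : 3 ≤ A := by omega
  have hjA : j + 1 ≤ A := by omega
  have hAZ : A ≤ Z := by
    rw [hZ]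
    exact Nat.le_mul_of_pos_left _ (by omega)
  have htZ : t ≤ Z := by
    rw [hZ]
    exact Nat.le_mul_of_pos_right _ (by omega)
  have hZZ : Z ≤ A * Z := Nat.le_mul_of_pos_left _ (by omega)
  have hAA : A * A ≤ A * Z := Nat.mul_le_mul_left _ hAZ
  have hAZZ : A * Z ≤ A * (A * Z) := Nat.le_mul_of_pos_left _ (by omega)
  have hW : 3 ^ j * (j + 2) ^ 3 = A * (A * Z) := by
    rw [← ht, ← hA, hZ]
    ring
  rw [hW]
  have hK2 : 2 ^ j = K := hK.symm
  have h3j : 3 ^ j = t := ht.symm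
  have hZ2 : 3 ^ j * (j + 2) = Z := by
    rw [← ht, ← hA, hZ]
  have hS : SLC (LL j) j ≤ 68 * (A * Z) + 32 * A + 592 * Z + 213 := by
    rw [SLC_eq, hB]
    have h1 : j * (34 * (2 * Z) + 32) ≤ A * (34 * (2 * Z) + 32) := Nat.mul_le_mul_right _ (by omega)
    have e : A * (34 * (2 * Z) + 32) = 68 * (A * Z) + 32 * A := by ring
    omega
  have hS0 : SLC (LL j) 0 ≤ 592 * Z + 213 := by
    rw [SLC_eq, hB]
    omega
  have hF : FSC j + 4 ≤ 68 * (A * Z) + 32 * A + 1000 * Z + 226 := by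
    simp only [FSC]
    rw [hZ2]
    omega
  have hF2 : j * (FSC j + 4) ≤ 68 * (A * (A * Z)) + 32 * (A * A) + 1000 * (A * Z) + 226 * A := by
    calc j * (FSC j + 4) ≤ A * (68 * (A * Z) + 32 * A + 1000 * Z + 226) := Nat.mul_le_mul (by omega) hF
      _ = _ := by ring
  have hG : BSC j + 4 ≤ 68 * (A * Z) + 32 * A + 1100 * Z + 226 := by
    simp only [BSC]
    rw [hZ2]
    omega
  have hG2 : j * (BSC j + 4) ≤ 68 * (A * (A * Z)) + 32 * (A * A) + 1100 * (A * Z) + 226 * A := by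
    calc j * (BSC j + 4) ≤ A * (68 * (A * Z) + 32 * A + 1100 * Z + 226) := Nat.mul_le_mul (by omega) hG
      _ = _ := by ring
  have hSLp : SLp j ≤ 24 * Z + 4 * (A * A) + 34 * A + 1 := by
    simp only [SLp]
    rw [hK2]
    have h1 : (j + 1) * (4 * j + 9 + (4 * K + 4) + (6 * K + 8) + (10 * K + 8) + (4 * K + 4) + 1) ≤ A * (24 * t + 4 * A + 34) :=
      Nat.mul_le_mul hjA (by omega)
    have e : A * (24 * t + 4 * A + 34) = 24 * (t * A) + 4 * (A * A) + 34 * A := by ring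
    rw [hZ]
    omega
  have hSK : SKC j ≤ 24 * Z + 4 * (A * A) + 34 * A + 8 * t + 1000 + 100 * Z := by
    simp only [SKC, SK1]
    rw [hK2]
    omega
  have hwL : wL j 0 = K + (j + 1) := by
    rw [wL_eq (by omega), hK]
    simp [wd]
  have hIK : IKC j ≤ 592 * Z + 213 + 16 * K + 16 * A + 16 + 24 * t + 24 := by
    simp only [IKC]
    rw [hwL, hK2]
    omega
  have hBP : BPC (3 ^ j) (j + 2) = 8 * (A * Z) + 128 * Z + 88 * t + 16 := by
    simp only [BPC, BBC]
    rw [h3j, ← hA, hZ]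
    ring
  have hE : 3 ^ j * (4 * (2 * (j + 2)) + 4 + 4) = 8 * Z + 8 * t := by
    rw [h3j, ← hA, hZ]
    ring
  simp only [KC, KMC]
  rw [hBP, hE, hK2]
  clear hBP hE hwL hS hS0 hF hG hSLp hZ2 h3j hK2 hW hZ hA hK ht
  generalize FSC j = a1 at *
  generalize BSC j = a2 at *
  generalize SKC j = a3 at *
  generalize IKC j = a4 at *
  have e1 : j * (a1 + 4) + 4 ≤ 68 * (A * (A * Z)) + 32 * (A * A) + 1000 * (A * Z) + 226 * A + 4 := by omega
  generalize j * (a1 + 4) = b1 at *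
  generalize j * (a2 + 4) = b2 at *
  generalize A * (A * Z) = W at *
  generalize A * Z = U at *
  generalize A * A = V at *
  generalize LL j = B at *
  omega

end Vale.Agent.Lib.P338.F
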