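import Vale.Agent.Lib.P338.F.KarTop

/-!
Renaming the tapes of a program: a program on the tapes `T` runs on tapes of a larger machine, with all its
work tapes at arbitrary head positions.
-/

namespace Vale.Agent.Lib.P338.F

open Vale.Agent.Lib.P338 Prog

section lift
variable {T T' Γ : Type}

/-- A renaming of tapes, with its inverse on the range. -/
structure TE (T T' : Type) where
  ι : T → T'
  back : T' → Option T
  back_ι : ∀ t, back (ι t) = some t
  ι_back : ∀ x t, back x = some t → ι t = x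

variable (E : TE T T')

/-- The symbols read on the renamed tapes. -/
def TE.rd (s : T' → Γ) : T → Γ := fun t => s (E.ι t)

/-- The renamed set of active tapes. -/
def TE.bs (ts : T → Bool) : T' → Bool := fun x =>
  match E.back x with
  | some t => ts t
  | none => false

/-- The renamed writes. -/
def TE.wr (s : T' → Γ) (w : T → Γ) : T' → Γ := fun x =>
  match E.back x with
  | some t => w t
  | none => s x

/-- The renamed moves. -/
def TE.dr (d : T → Dir) : T' → Dir := fun x =>
  match E.back x with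
  | some t => d t
  | none => .S

/-- The renamed program. -/
def liftP : Prog T Γ → Prog T' Γ
  | .act ts F => .act (E.bs ts) (fun s => (E.wr s (F (E.rd s)).1, E.dr (F (E.rd s)).2))
  | .seq a b => .seq (liftP a) (liftP b)
  | .ite g a b => .ite (fun s => g (E.rd s)) (liftP a) (liftP b)
  | .loop g b => .loop (fun s => g (E.rd s)) (liftP b)
  | .call ts SQ fin s0 Sδ =>
      .call (E.bs ts) SQ fin s0 (fun q s => (Sδ q (E.rd s)).map fun r => (r.1, E.wr s r.2.1, E.dr r.2.2))

/-- The relation between a configuration and a renamed one, with head offsets. -/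
structure LRel (d : T → ℤ) (c : TS T Γ) (C : TS T' Γ) : Prop where
  tp : ∀ t x, C.tape (E.ι t) (x + d t) = c.tape t x
  hd : ∀ t, C.head (E.ι t) = c.head t + d t

/-- The other tapes are not touched. -/
def LOut (C C' : TS T' Γ) : Prop := ∀ x, E.back x = none → C'.tape x = C.tape x ∧ C'.head x = C.head x

theorem LOut.refl (C : TS T' Γ) : LOut E C C := fun _ _ => ⟨rfl, rfl⟩

theorem LOut.trans {C C1 C2 : TS T' Γ} (h : LOut E C C1) (h' : LOut E C1 C2) : LOut E C C2 :=
  fun x hx => ⟨(h' x hx).1.trans (h x hx).1, (h' x hx).2.trans (h x hx).2⟩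

variable {E}

theorem LRel.rd {d : T → ℤ} {c : TS T Γ} {C : TS T' Γ} (h : LRel E d c C) : E.rd C.read = c.read := by
  funext t
  simp only [TE.rd, TS.read]
  rw [h.hd, h.tp]

theorem bs_ι (ts : T → Bool) (t : T) : E.bs ts (E.ι t) = ts t := by
  simp only [TE.bs, E.back_ι]

theorem wr_ι (s : T' → Γ) (w : T → Γ) (t : T) : E.wr s w (E.ι t) = w t := by
  simp only [TE.wr, E.back_ι]

theorem dr_ι (d : T → Dir) (t : T) : E.dr d (E.ι t) = d t := by
  simp only [TE.dr, E.back_ι]

theorem bs_none (ts : T → Bool) {x : T'} (h : E.back x = none) : E.bs ts x = false := by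
  simp only [TE.bs, h]

theorem wr_none (s : T' → Γ) (w : T → Γ) {x : T'} (h : E.back x = none) : E.wr s w x = s x := by
  simp only [TE.wr, h]

theorem dr_none (d : T → Dir) {x : T'} (h : E.back x = none) : E.dr d x = .S := by
  simp only [TE.dr, h]

/-- One step of a renamed program. -/
theorem lift_apply {d : T → ℤ} {c : TS T Γ} {C : TS T' Γ} (h : LRel E d c C) (ts : T → Bool) (w : T → Γ) (dir : T → Dir) :
    LRel E d (c.apply (clampW ts c.read w) (clampD ts dir))
      (C.apply (clampW (E.bs ts) C.read (E.wr C.read w)) (clampD (E.bs ts) (E.dr dir))) ∧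
    LOut E C (C.apply (clampW (E.bs ts) C.read (E.wr C.read w)) (clampD (E.bs ts) (E.dr dir))) := by
  refine ⟨⟨?_, ?_⟩, ?_⟩
  · intro t x
    simp only [TS.apply, clampW]
    rw [h.hd]
    have e : (x + d t = c.head t + d t) ↔ x = c.head t := by omega
    by_cases hx : x = c.head t
    · rw [if_pos (by rw [hx]), if_pos hx, bs_ι, wr_ι]
      by_cases ht : ts t = true
      · rw [if_pos ht, if_pos ht]
      · rw [if_neg ht, if_neg ht]
        simp only [TS.read]
        rw [h.hd, h.tp]
    · rw [if_neg (by rwa [e]), if_neg hx, h.tp]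
  · intro t
    simp only [TS.apply, clampD]
    rw [h.hd, bs_ι, dr_ι]
    by_cases ht : ts t = true
    · rw [if_pos ht]
      ring
    · rw [if_neg ht]
      ring
  · intro x hx
    simp only [TS.apply, clampW, clampD]
    rw [bs_none ts hx]
    simp only [Bool.false_eq_true, if_false]
    constructor
    · funext i
      by_cases hi : i = C.head x
      · rw [if_pos hi, hi]
        rfl
      · rw [if_neg hi]
    · simp [Dir.toInt]

theorem lift_subrun {SQ : Type} {ts : T → Bool} {Sδ : SQ → (T → Γ) → Option (SQ × (T → Γ) × (T → Dir))} {q : SQ} {c c' : TS T Γ} {n : ℕ}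
    (h : SubRun ts Sδ q c c' n) {d : T → ℤ} {C : TS T' Γ} (hr : LRel E d c C) :
    ∃ C', SubRun (E.bs ts) (fun q s => (Sδ q (E.rd s)).map fun r => (r.1, E.wr s r.2.1, E.dr r.2.2)) q C C' n ∧ LRel E d c' C' ∧ LOut E C C' := by
  induction h generalizing C with
  | done hq =>
    refine ⟨C, .done ?_, hr, LOut.refl E C⟩
    rw [hr.rd, hq]
    rfl
  | @step q c q' w dir c2 n hq _ ih =>
    obtain ⟨a1, a2⟩ := lift_apply hr ts w dir
    obtain ⟨C2, r2, b1, b2⟩ := ih a1
    refine ⟨C2, .step ?_ r2, b1, a2.trans E b2⟩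
    rw [hr.rd, hq]
    rfl

/-- The simulation of a program by its renaming. -/
theorem lift_exec {P : Prog T Γ} {c c' : TS T Γ} {n : ℕ} (h : Exec P c c' n) {d : T → ℤ} {C : TS T' Γ} (hr : LRel E d c C) :
    ∃ C', Exec (liftP E P) C C' n ∧ LRel E d c' C' ∧ LOut E C C' := by
  induction h generalizing C with
  | @act ts F c =>
    obtain ⟨a1, a2⟩ := lift_apply hr ts (F c.read).1 (F c.read).2
    refine ⟨_, ?_, a1, a2⟩
    have := Exec.act (ts := E.bs ts) (F := fun s => (E.wr s (F (E.rd s)).1, E.dr (F (E.rd s)).2)) (c := C)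
    simp only [hr.rd] at this
    exact this
  | seq _ _ ih1 ih2 =>
    obtain ⟨C1, r1, a1, b1⟩ := ih1 hr
    obtain ⟨C2, r2, a2, b2⟩ := ih2 a1
    exact ⟨C2, .seq r1 r2, a2, b1.trans E b2⟩
  | iteT hg _ ih =>
    obtain ⟨C1, r1, a1, b1⟩ := ih hr
    refine ⟨C1, .iteT ?_ r1, a1, b1⟩
    simp only [hr.rd]
    exact hg
  | iteF hg _ ih =>
    obtain ⟨C1, r1, a1, b1⟩ := ih hr
    refine ⟨C1, .iteF ?_ r1, a1, b1⟩
    simp only [hr.rd]
    exact hg
  | loopDone hg =>
    refine ⟨C, .loopDone ?_, hr, LOut.refl E C⟩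
    simp only [hr.rd]
    exact hg
  | loopStep hg _ _ ih1 ih2 =>
    obtain ⟨C1, r1, a1, b1⟩ := ih1 hr
    obtain ⟨C2, r2, a2, b2⟩ := ih2 a1
    refine ⟨C2, .loopStep ?_ r1 r2, a2, b1.trans E b2⟩
    simp only [hr.rd]
    exact hg
  | call hs =>
    obtain ⟨C1, r1, a1, b1⟩ := lift_subrun hs hr
    exact ⟨C1, .call r1, a1, b1⟩

theorem lift_run {P : Prog T Γ} {c c' : TS T Γ} {n : ℕ} (h : Run P c c' n) {d : T → ℤ} {C : TS T' Γ} (hr : LRel E d c C) :
    ∃ C', Run (liftP E P) C C' n ∧ LRel E d c' C' ∧ LOut E C C' := by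
  obtain ⟨k, hk, he⟩ := h
  obtain ⟨C', r, a, b⟩ := lift_exec he hr
  exact ⟨C', ⟨k, hk, r⟩, a, b⟩

end lift

end Vale.Agent.Lib.P338.F
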