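import Vale.Agent.Lib.P338.F.Corol2

/-!
The little-o form of the reduction, for every side length and without any regularity assumption.
-/

namespace Vale.Agent.Lib.P338.F

open Vale.Agent.Lib.P338 Filter Topology

theorem two_pow_clog_le (m : ℕ) (hm : 1 ≤ m) : 2 ^ Nat.clog 2 m ≤ 2 * m := by
  rcases Nat.lt_or_ge m 2 with h | h
  · have : m = 1 := by omega
    subst this
    simp
  · have h2 : 2 ^ (Nat.clog 2 m).pred < m := Nat.pow_pred_clog_lt_self (by norm_num) (by omega)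
    have h3 : 1 ≤ Nat.clog 2 m := Nat.clog_pos (by norm_num) h
    have e : Nat.clog 2 m = (Nat.clog 2 m).pred + 1 := by
      simp only [Nat.pred_eq_sub_one]
      omega
    rw [e, pow_succ]
    simp only [Nat.pred_eq_sub_one] at h2 ⊢
    omega

/-- The size of the big product, compared to the side. -/
theorem nf_le (m : ℕ) (hm : 1 ≤ m) : nf m ≤ 2 ^ 21 * (m * m) := by
  have h1 := two_pow_clog_le m hm
  have h2 : nf m = 2 ^ 19 * (2 ^ Nat.clog 2 m * 2 ^ Nat.clog 2 m) := by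
    simp only [nf]
    rw [pow_add, two_mul, pow_add]
    ring
  have h3 := Nat.mul_le_mul h1 h1
  rw [h2]
  calc 2 ^ 19 * (2 ^ Nat.clog 2 m * 2 ^ Nat.clog 2 m) ≤ 2 ^ 19 * (2 * m * (2 * m)) := Nat.mul_le_mul_left _ h3
    _ = _ := by ring

theorem le_nf (m : ℕ) : m ≤ nf m := by
  have h1 : m ≤ 2 ^ Nat.clog 2 m := Nat.le_pow_clog (by norm_num) _
  have h2 : 2 ^ Nat.clog 2 m ≤ nf m := Nat.pow_le_pow_right (by norm_num) (by omega)
  omega

theorem le_Kf (m : ℕ) : Nat.clog 2 m ≤ Kf m := by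
  have h1 := K_ge m
  have h2 := Kf_eq m
  simp only [Aa, ap, a0] at h1
  omega

/-- The number of classical rounds is negligible compared to the logarithm of the side. -/
theorem lf_le_eps {η : ℝ} (hη : 0 < η) : ∃ M : ℕ, ∀ m : ℕ, M ≤ m → (lf m : ℝ) ≤ η * Real.log m := by
  have hl2 : 0 < Real.log 2 := Real.log_pos (by norm_num)
  obtain ⟨a₁, ha₁⟩ := lf_eps (ε := η * Real.log 2 / 2) (by positivity)
  refine ⟨2 ^ (a₁ + 1), fun m hm => ?_⟩
  have hm2 : 2 ≤ m := by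
    have : 2 ^ 1 ≤ 2 ^ (a₁ + 1) := Nat.pow_le_pow_right (by norm_num) (by omega)
    omega
  have h1 : a₁ + 1 ≤ Nat.clog 2 m := by
    have : Nat.clog 2 (2 ^ (a₁ + 1)) ≤ Nat.clog 2 m := Nat.clog_mono_right 2 hm
    rwa [Nat.clog_pow 2 _ (by norm_num)] at this
  have h2 := ha₁ (Nat.clog 2 m) (by omega)
  refine le_trans h2 ?_
  have h3 : 2 ^ (Nat.clog 2 m - 1) < m := by
    have := Nat.pow_pred_clog_lt_self (b := 2) (by norm_num) (x := m) (by omega)
    simpa using this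
  have hmr : (0 : ℝ) < m := by
    have : 0 < m := by omega
    exact_mod_cast this
  have h4 : (((Nat.clog 2 m - 1 : ℕ) : ℝ)) * Real.log 2 ≤ Real.log m := by
    have h5 : ((2 : ℝ) ^ (Nat.clog 2 m - 1)) ≤ m := by exact_mod_cast h3.le
    have h6 := Real.log_le_log (by positivity) h5
    rwa [Real.log_pow] at h6
  have e1 : ((Nat.clog 2 m - 1 : ℕ) : ℝ) = (Nat.clog 2 m : ℝ) - 1 := by
    have : 1 ≤ Nat.clog 2 m := by omega
    push_cast [this]
    ring
  rw [e1] at h4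
  have h7 : (1 : ℝ) * Real.log 2 ≤ Real.log m := by
    have h8 : (2 : ℝ) ≤ m := by exact_mod_cast hm2
    rw [one_mul]
    exact Real.log_le_log (by norm_num) h8
  have h9 : (Nat.clog 2 m : ℝ) * Real.log 2 ≤ 2 * Real.log m := by nlinarith
  calc η * Real.log 2 / 2 * (Nat.clog 2 m : ℝ) = (η / 2) * ((Nat.clog 2 m : ℝ) * Real.log 2) := by ring
    _ ≤ (η / 2) * (2 * Real.log m) := mul_le_mul_of_nonneg_left h9 (by positivity)
    _ = _ := by ring

/-- The comparison of the logarithm of the size of the big product and the side. -/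
theorem nf_log (m : ℕ) (hm : 2 ≤ m) : ((nf m : ℝ) * Real.log (nf m)) ≤ 2 ^ 21 * 23 * ((m : ℝ) ^ 2 * Real.log m) := by
  have h1 : ((nf m : ℕ) : ℝ) ≤ 2 ^ 21 * ((m : ℝ) * m) := by exact_mod_cast nf_le m (by omega)
  have hmr : (2 : ℝ) ≤ m := by exact_mod_cast hm
  have hm0 : (0 : ℝ) < m := by linarith
  have hnf : (0 : ℝ) < nf m := by
    have : 0 < nf m := by
      simp only [nf]
      positivity
    exact_mod_cast this
  have hl : Real.log 2 ≤ Real.log m := Real.log_le_log (by norm_num) hmr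
  have hl2 : 0 < Real.log 2 := Real.log_pos (by norm_num)
  have h2 : Real.log (nf m) ≤ 23 * Real.log m := by
    have h3 : Real.log (nf m) ≤ Real.log (2 ^ 21 * ((m : ℝ) * m)) := Real.log_le_log hnf h1
    rw [Real.log_mul (by norm_num) (by positivity), Real.log_mul (by positivity) (by positivity), Real.log_pow] at h3
    push_cast at h3
    linarith
  have hlm : 0 ≤ Real.log m := by linarith
  have hlnf : 0 ≤ Real.log (nf m) := by
    apply Real.log_nonneg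
    have : 1 ≤ nf m := by
      simp only [nf]
      exact Nat.one_le_two_pow
    exact_mod_cast this
  calc (nf m : ℝ) * Real.log (nf m) ≤ (2 ^ 21 * ((m : ℝ) * m)) * (23 * Real.log m) :=
        mul_le_mul h1 h2 hlnf (by positivity)
    _ = _ := by ring

theorem Kf_log (m : ℕ) : Real.log (Kf m) ≤ 3 * lf m := by
  have h : ((Kf m : ℕ) : ℝ) = (2 : ℝ) ^ (Nat.clog 2 (Nat.clog 2 m + 5) + 3) := by
    simp only [Kf]
    push_cast
    rfl
  rw [h, Real.log_pow]
  have hl : Real.log 2 ≤ 1 := by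
    have := Real.log_le_sub_one_of_pos (x := 2) (by norm_num)
    linarith
  have hl0 : 0 < Real.log 2 := Real.log_pos (by norm_num)
  have e : ((Nat.clog 2 (Nat.clog 2 m + 5) + 3 : ℕ) : ℝ) ≤ 3 * lf m := by
    have h2 : Nat.clog 2 (Nat.clog 2 m + 5) + 3 ≤ 3 * lf m := by
      simp only [lf]
      omega
    exact_mod_cast h2
  calc ((Nat.clog 2 (Nat.clog 2 m + 5) + 3 : ℕ) : ℝ) * Real.log 2 ≤ ((Nat.clog 2 (Nat.clog 2 m + 5) + 3 : ℕ) : ℝ) * 1 :=
        mul_le_mul_of_nonneg_left hl (by positivity)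
    _ ≤ _ := by linarith

/-- The real arithmetic of the little-o argument. -/
theorem little_core {s K T T0 m2 L C lg ε η X : ℝ} (hK : 0 < K) (hC : 0 ≤ C) (hm2 : 0 ≤ m2) (hL : 0 ≤ L) (hlg : 0 ≤ lg)
    (hε : 0 ≤ ε) (hη : 0 ≤ η) (hε1 : ε ≤ 1)
    (h : K * s ≤ C * (K * (T + m2 * L) + m2 * T0)) (hT : T ≤ ε * (X * (m2 * lg))) (hT0 : T0 ≤ ε * (K * (3 * L)))
    (hLe : L ≤ η * lg) : s ≤ C * ((ε * X + 4 * η) * (m2 * lg)) := by
  have h1 : m2 * T0 ≤ m2 * (ε * (K * (3 * L))) := mul_le_mul_of_nonneg_left hT0 hm2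
  have h2 : m2 * (ε * (K * (3 * L))) ≤ K * (m2 * (3 * L)) := by
    have e : m2 * (ε * (K * (3 * L))) = ε * (K * (m2 * (3 * L))) := by ring
    rw [e]
    have h3 : 0 ≤ K * (m2 * (3 * L)) := by positivity
    nlinarith
  have h4 : K * s ≤ K * (C * (T + m2 * L + m2 * (3 * L))) := by
    have h5 : C * (K * (T + m2 * L) + m2 * T0) ≤ C * (K * (T + m2 * L) + K * (m2 * (3 * L))) :=
      mul_le_mul_of_nonneg_left (by linarith) hC
    have e : K * (C * (T + m2 * L + m2 * (3 * L))) = C * (K * (T + m2 * L) + K * (m2 * (3 * L))) := by ring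
    rw [e]
    linarith
  have h6 := le_of_mul_le_mul_left h4 hK
  refine le_trans h6 (mul_le_mul_of_nonneg_left ?_ hC)
  have h7 : m2 * L ≤ m2 * (η * lg) := mul_le_mul_of_nonneg_left hLe hm2
  have e : (ε * X + 4 * η) * (m2 * lg) = ε * (X * (m2 * lg)) + 4 * (m2 * (η * lg)) := by ring
  rw [e]
  have e2 : m2 * (3 * L) = 3 * (m2 * L) := by ring
  rw [e2]
  linarith

theorem cast_main {s K T T0 m L C0 : ℕ} (h : K * s ≤ C0 * (K * (T + m * m * L) + m * m * T0)) (C : ℝ) (hC : C = (C0 : ℝ) + 1) :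
    (K : ℝ) * s ≤ C * ((K : ℝ) * ((T : ℝ) + (m : ℝ) ^ 2 * L) + (m : ℝ) ^ 2 * T0) := by
  have h9 : (K : ℝ) * s ≤ (C0 : ℝ) * ((K : ℝ) * ((T : ℝ) + (m : ℝ) * m * L) + (m : ℝ) * m * T0) := by
    exact_mod_cast h
  have e : (m : ℝ) * m = (m : ℝ) ^ 2 := by ring
  rw [e] at h9
  refine le_trans h9 (mul_le_mul_of_nonneg_right (by rw [hC]; linarith) (by positivity))

theorem little_final {C ε X η ε₀ Den s : ℝ} (hε₀ : 0 < ε₀) (hC0 : 0 < C) (hX0 : 0 < X) (hε2 : ε ≤ ε₀ / (4 * C * X))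
    (hη : η = ε₀ / (16 * C)) (hden : 0 < Den) (h10 : s ≤ C * ((ε * X + 4 * η) * Den)) : s / Den < ε₀ := by
  rw [div_lt_iff₀ hden]
  refine lt_of_le_of_lt h10 ?_
  have h11 : ε * X ≤ ε₀ / (4 * C) := by
    have h12 := mul_le_mul_of_nonneg_right hε2 hX0.le
    have e : ε₀ / (4 * C * X) * X = ε₀ / (4 * C) := by
      field_simp
    rwa [e] at h12
  have h13 : C * (ε * X + 4 * η) ≤ ε₀ / 2 := by
    have e1 : 4 * η = ε₀ / (4 * C) := by
      rw [hη]
      field_simp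
      norm_num
    rw [e1]
    have h14 : C * (ε * X + ε₀ / (4 * C)) ≤ C * (ε₀ / (4 * C) + ε₀ / (4 * C)) :=
      mul_le_mul_of_nonneg_left (by linarith) hC0.le
    have e2 : C * (ε₀ / (4 * C) + ε₀ / (4 * C)) = ε₀ / 2 := by
      field_simp
      norm_num
    linarith
  have e : C * ((ε * X + 4 * η) * Den) = (C * (ε * X + 4 * η)) * Den := by ring
  rw [e]
  have h15 : (C * (ε * X + 4 * η)) * Den ≤ (ε₀ / 2) * Den :=
    mul_le_mul_of_nonneg_right h13 hden.le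
  have h16 : (ε₀ / 2) * Den < ε₀ * Den := by
    have : 0 < ε₀ * Den := by positivity
    linarith
  linarith

/-- The little-o form. -/
theorem little (A : MTM) (τ : ℕ → ℕ) (hA : Multiplies A τ)
    (hτ : Tendsto (fun n : ℕ => (τ n : ℝ) / (n * Real.log n)) atTop (𝓝 0)) :
    ∃ (B : MTM) (σ : ℕ → ℕ), TransposesAll B σ ∧
      Tendsto (fun m : ℕ => (σ m : ℝ) / ((m : ℝ) ^ 2 * Real.log m)) atTop (𝓝 0) := by
  obtain ⟨B, σ, C0, hB, hle⟩ := reduction2 A A τ τ hA hA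
  refine ⟨B, σ, hB, ?_⟩
  rw [Metric.tendsto_atTop]
  intro ε₀ hε₀
  obtain ⟨C, hC⟩ : ∃ C : ℝ, C = (C0 : ℝ) + 1 := ⟨_, rfl⟩
  have hC0 : 0 < C := by
    rw [hC]
    positivity
  obtain ⟨X, hX⟩ : ∃ X : ℝ, X = 2 ^ 21 * 23 := ⟨_, rfl⟩
  have hX0 : 0 < X := by
    rw [hX]
    positivity
  obtain ⟨ε, hε⟩ : ∃ ε : ℝ, ε = min 1 (ε₀ / (4 * C * X)) := ⟨_, rfl⟩
  have hε0 : 0 < ε := by
    rw [hε]
    exact lt_min (by norm_num) (by positivity)
  have hε1 : ε ≤ 1 := by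
    rw [hε]
    exact min_le_left _ _
  have hε2 : ε ≤ ε₀ / (4 * C * X) := by
    rw [hε]
    exact min_le_right _ _
  obtain ⟨η, hη⟩ : ∃ η : ℝ, η = ε₀ / (16 * C) := ⟨_, rfl⟩
  have hη0 : 0 < η := by
    rw [hη]
    positivity
  -- The bound for the multiplier
  have hlim := (Metric.tendsto_atTop.1 hτ) ε hε0
  obtain ⟨N₀, hN₀⟩ := hlim
  have hτb : ∀ n : ℕ, max N₀ 2 ≤ n → (τ n : ℝ) ≤ ε * ((n : ℝ) * Real.log n) := by
    intro n hn
    have h1 := hN₀ n (le_trans (le_max_left _ _) hn)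
    have h2 : 2 ≤ n := le_trans (le_max_right _ _) hn
    have hnr : (2 : ℝ) ≤ n := by exact_mod_cast h2
    have hlog : 0 < Real.log n := Real.log_pos (by linarith)
    have hp : (0 : ℝ) < (n : ℝ) * Real.log n := by positivity
    rw [Real.dist_eq, sub_zero] at h1
    have h3 := (abs_lt.1 h1).2
    rw [div_lt_iff₀ hp] at h3
    exact h3.le
  obtain ⟨M₁, hM₁⟩ := lf_le_eps hη0
  refine ⟨max (max (max N₀ 2) M₁) (2 ^ (max N₀ 2)), fun m hm => ?_⟩
  have hm1 : max N₀ 2 ≤ m := le_trans (le_trans (le_max_left _ _) (le_max_left _ _)) hm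
  have hm2 : M₁ ≤ m := le_trans (le_trans (le_max_right _ _) (le_max_left _ _)) hm
  have hm3 : 2 ^ (max N₀ 2) ≤ m := le_trans (le_max_right _ _) hm
  have hm22 : 2 ≤ m := le_trans (le_max_right _ _) hm1
  have hmr : (2 : ℝ) ≤ m := by exact_mod_cast hm22
  have hlogm : 0 < Real.log m := Real.log_pos (by linarith)
  have hden : (0 : ℝ) < (m : ℝ) ^ 2 * Real.log m := by positivity
  have h1 := hle m (by omega)
  -- The big product
  have h2 : max N₀ 2 ≤ nf m := le_trans hm1 (le_nf m)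
  have h3 := hτb _ h2
  have h4 := nf_log m hm22
  rw [← hX] at h4
  have hT : (τ (nf m) : ℝ) ≤ ε * (X * ((m : ℝ) ^ 2 * Real.log m)) :=
    le_trans h3 (mul_le_mul_of_nonneg_left h4 hε0.le)
  -- The small product
  have h5 : max N₀ 2 ≤ Kf m := by
    have h6 : max N₀ 2 ≤ Nat.clog 2 m := by
      have : Nat.clog 2 (2 ^ (max N₀ 2)) ≤ Nat.clog 2 m := Nat.clog_mono_right 2 hm3
      rwa [Nat.clog_pow 2 _ (by norm_num)] at this
    exact le_trans h6 (le_Kf m)
  have h6 := hτb _ h5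
  have h7 := Kf_log m
  have hKr : (0 : ℝ) < Kf m := by exact_mod_cast Kf_pos m
  have hT0 : (τ (Kf m) : ℝ) ≤ ε * ((Kf m : ℝ) * (3 * lf m)) :=
    le_trans h6 (mul_le_mul_of_nonneg_left (mul_le_mul_of_nonneg_left h7 hKr.le) hε0.le)
  -- The main inequality
  have h8 := cast_main h1 C hC
  have h10 := little_core (s := σ m) (K := Kf m) (T := τ (nf m)) (T0 := τ (Kf m)) (m2 := (m : ℝ) ^ 2) (L := lf m) (C := C)
    (lg := Real.log m) (ε := ε) (η := η) (X := X) hKr hC0.le (sq_nonneg _) (Nat.cast_nonneg _) hlogm.le hε0.le hη0.le hε1 h8 hT hT0 (hM₁ m hm2)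
  rw [Real.dist_eq, sub_zero, abs_of_nonneg (div_nonneg (Nat.cast_nonneg _) hden.le)]
  exact little_final hε₀ hC0 hX0 hε2 hη hden h10

end Vale.Agent.Lib.P338.F
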