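import Vale.Agent.Lib.P338.F.Field

/-!
Loops driven by rulers, with frames.
-/

namespace Vale.Agent.Lib.P338.F

open Vale.Agent.Lib.P338 Prog

section
variable {X G : Type} [DecidableEq X]

theorem fr_of_ruler_same {R : FT} {c c' : TC X G} (h : Same [o R] c c') (h2 : c'.tape (o R) = c.tape (o R)) :
    Fr [] [R] c c' := by
  refine Fr.of_same h (by simp) ?_ ?_
  · intro a _ hb
    simp only [List.mem_singleton, Sum.inl.injEq] at hb
    subst hb
    exact h2
  · intro a ha hb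
    simp only [List.mem_singleton, Sum.inl.injEq] at hb
    subst hb
    simp at ha

/-- The rule for a for loop. -/
theorem forE {R : FT} {body : Prog (FT ⊕ X) (Sym G)} {n : ℕ} (Inv : ℕ → TC X G → Prop) (cost : ℕ → ℕ) {c : TC X G}
    (hR : Ruler c (o R) n) (h0 : Inv 0 c)
    (hI : ∀ i c c', Inv i c → Fr [] [R] c c' → Inv i c')
    (hstep : ∀ i < n, ∀ c : TC X G, c.tape (o R) = runT n → c.head (o R) = (i : ℤ) → Inv i c →
      ∃ c', Run body c c' (cost i) ∧ Inv (i + 1) c' ∧ c'.tape (o R) = c.tape (o R) ∧ c'.head (o R) = c.head (o R)) :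
    ∃ c', Inv n c' ∧ Ruler c' (o R) n ∧
      Run (forR (o R) body) c c' (∑ i ∈ Finset.range n, (cost i + 2) + 1 + (2 * n + 3)) := by
  obtain ⟨c1, ⟨h1, h2, h3⟩, r1⟩ := Run.loop (g := fun s => (s (o R)).isOne) (b := .seq body (mv (o R) .R))
    (fun i c => c.tape (o R) = runT n ∧ c.head (o R) = i ∧ Inv i c) n (fun i => cost i + 1) (c := c)
    ⟨hR.1, by simp [hR.2], h0⟩
    (by
      rintro i hi c ⟨h1, h2, h3⟩
      constructor
      · simp only [TS.read, h1, h2]
        rw [cast_runT_in hi]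
        rfl
      · obtain ⟨c1, r1, hc1, f1, f2⟩ := hstep i hi c h1 h2 h3
        obtain ⟨c2, r2, h4, h5, s⟩ := mv_spec (o R) .R c1
        refine ⟨c2, r1.seq r2, ?_, ?_, ?_⟩
        · rw [h5, f1, h1]
        · rw [h4, f2, h2]
          simp [Dir.toInt]
        · exact hI _ _ _ hc1 (fr_of_ruler_same s h5))
    (by
      rintro c ⟨h1, h2, _⟩
      simp only [TS.read, h1, h2]
      rw [runT_out (by right; exact le_rfl)]
      rfl)
  obtain ⟨c2, r2, hR2, s2⟩ := rew_ruler (o R) c1 h1 h2 le_rfl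
  refine ⟨c2, hI _ _ _ h3 (fr_of_ruler_same s2 (hR2.1.trans h1.symm)), hR2, ?_⟩
  refine (r1.seq r2).mono (le_of_eq ?_)
  simp only [add_assoc]

/-- The rule for a for loop with uniform cost. -/
theorem forU {R : FT} {body : Prog (FT ⊕ X) (Sym G)} {n : ℕ} (Inv : ℕ → TC X G → Prop) (C : ℕ) {c : TC X G}
    (hR : Ruler c (o R) n) (h0 : Inv 0 c)
    (hI : ∀ i c c', Inv i c → Fr [] [R] c c' → Inv i c')
    (hstep : ∀ i < n, ∀ c : TC X G, c.tape (o R) = runT n → c.head (o R) = (i : ℤ) → Inv i c →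
      ∃ c', Run body c c' C ∧ Inv (i + 1) c' ∧ c'.tape (o R) = c.tape (o R) ∧ c'.head (o R) = c.head (o R)) :
    ∃ c', Inv n c' ∧ Ruler c' (o R) n ∧ Run (forR (o R) body) c c' (n * (C + 4) + 4) := by
  obtain ⟨c', h1, h2, h3⟩ := forE Inv (fun _ => C) hR h0 hI hstep
  refine ⟨c', h1, h2, h3.mono ?_⟩
  rw [Finset.sum_const, Finset.card_range, smul_eq_mul, mul_add n C 4]
  have : n * (C + 2) = n * C + 2 * n := by ring
  omega

omit [DecidableEq X] in
theorem Fr.fixR {l m : List FT} {R : FT} {n : ℕ} {c c' : TC X G} (f : Fr l (R :: m) c c') (h1 : Ruler c (o R) n)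
    (h2 : Ruler c' (o R) n) : Fr l m c c' := by
  refine ⟨f.tp, ?_, f.cl⟩
  intro a ha
  by_cases hb : a = R
  · subst hb
    rw [h2.2, h1.2]
  · exact f.hd a (by simp [hb, ha])

/-- Head moved back: the frame has no moved heads. -/
theorem Fr.fix1 {l : List FT} {a : FT} {c c' : TC X G} (h : Fr l [a] c c') (he : c'.head (o a) = c.head (o a)) :
    Fr l [] c c' := by
  refine ⟨h.tp, ?_, h.cl⟩
  intro b _
  by_cases hb : b = a
  · subst hb
    exact he
  · exact h.hd b (by simpa using hb)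

end

end Vale.Agent.Lib.P338.F
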