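import Vale.Agent.Lib.P338.F.MulInG

/-!
The multiplication stage: run the simulated multiplier, read its output, clean its tapes.
-/

namespace Vale.Agent.Lib.P338.F

open Vale.Agent.Lib.P338 Prog

section
variable {A : MTM} {X G : Type} (E : Emb A X G) [DecidableEq X]

/-- Make the cell under the head a visited cell. -/
noncomputable def touchC (Y : FT ⊕ X) : Prog (FT ⊕ X) (Sym G) :=
  act1 Y (fun s => .a (E.sy (dec E (s Y))) (flagOf (s Y))) .S

/-- Find the origin of a simulated tape. -/
noncomputable def goOrigin (Y : FT ⊕ X) : Prog (FT ⊕ X) (Sym G) :=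
  .seq (touchC E Y) (.seq (sc0 (fun s => s.nonBlank && !flagOf s) Y .L fun x => x)
    (.ite (fun s => !(s Y).nonBlank) (.seq (mv Y .R) (sc0 (fun s => !flagOf s) Y .R fun x => x)) skip))

/-- Erase the visited part of a simulated tape. -/
noncomputable def cleanT (Y : FT ⊕ X) : Prog (FT ⊕ X) (Sym G) :=
  .seq (touchC E Y) (.seq (sc0 Sym.nonBlank Y .L fun x => x) (.seq (mv Y .R) (sc0 Sym.nonBlank Y .R fun _ => .blank)))

/-- Erase several simulated tapes. -/
noncomputable def cleanAll : List A.T → Prog (FT ⊕ X) (Sym G)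
  | [] => skip
  | t :: l => .seq (cleanT E (st E t)) (cleanAll l)

/-- A cell of the output of the simulated machine as a bit. -/
noncomputable def rdBit (s : Sym G) : Sym G := Sym.ofBit (decide (dec E s = A.b1))

/-- Copy the output of the simulated machine to `W`, most significant bit first. -/
noncomputable def mulOut (R W : FT) : Prog (FT ⊕ X) (Sym G) :=
  .seq (mvBy (o R) (o W) .R) (.seq (mv (o W) .L)
    (.seq (copyD (o R) (st E A.out) .R (o W) .L (rdBit E)) (mv (o W) .R)))

/-- The multiplication stage. -/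
noncomputable def mul (R1 R2 W1 W2 W3 : FT) : Prog (FT ⊕ X) (Sym G) :=
  .seq (mulIn E R1 R2 W1 W2) (.seq (runA E) (.seq (goOrigin E (st E A.out)) (.seq (mulOut E R2 W3)
    (cleanAll E (@Finset.univ A.T A.fT).toList))))

/-- The visited part of a tape is an interval. -/
def Itv (τ : ℤ → Sym G) (lo hi : ℤ) : Prop :=
  (∀ x, lo ≤ x → x < hi → (τ x).nonBlank = true) ∧ (∀ x, (x < lo ∨ hi ≤ x) → τ x = .blank)

theorem touchC_spec (Y : FT ⊕ X) (c : TC X G) {lo hi : ℤ} (hI : Itv (c.tape Y) lo hi)
    (h1 : lo - 1 ≤ c.head Y) (h2 : c.head Y ≤ hi) :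
    ∃ c', Run (touchC E Y) c c' 1 ∧ c'.head Y = c.head Y ∧
      Itv (c'.tape Y) (min lo (c.head Y)) (max hi (c.head Y + 1)) ∧
      (∀ x, dec E (c'.tape Y x) = dec E (c.tape Y x)) ∧
      (∀ x, flagOf (c'.tape Y x) = flagOf (c.tape Y x)) ∧
      Same [Y] c c' := by
  obtain ⟨c', r, a1, a2, a3⟩ := act1_spec Y (fun s => .a (E.sy (dec E (s Y))) (flagOf (s Y))) .S c
  refine ⟨c', r, by rw [a1]; simp [Dir.toInt], ⟨?_, ?_⟩, ?_, ?_, a3⟩
  · intro x hx1 hx2
    rw [a2]
    by_cases hx : x = c.head Y
    · rw [if_pos hx]; rfl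
    · rw [if_neg hx]
      exact hI.1 x (by omega) (by omega)
  · intro x hx
    rw [a2, if_neg (by omega)]
    exact hI.2 x (by omega)
  · intro x
    rw [a2]
    by_cases hx : x = c.head Y
    · rw [if_pos hx, hx]; exact dec_a E _ _
    · rw [if_neg hx]
  · intro x
    rw [a2]
    by_cases hx : x = c.head Y
    · rw [if_pos hx, hx]; rfl
    · rw [if_neg hx]

theorem cleanT_spec (Y : FT ⊕ X) (c : TC X G) {lo hi : ℤ} {Λ : ℕ} (hI : Itv (c.tape Y) lo hi)
    (h1 : lo - 1 ≤ c.head Y) (h2 : c.head Y ≤ hi) (h3 : lo ≤ hi) (hΛ : hi - lo ≤ Λ) :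
    ∃ c', Run (cleanT E Y) c c' (4 * Λ + 12) ∧ (∀ x, c'.tape Y x = .blank) ∧ Same [Y] c c' := by
  obtain ⟨c1, r1, a1, a2, _, _, a5⟩ := touchC_spec E Y c hI h1 h2
  set lo' := min lo (c.head Y) with hlo'
  set hi' := max hi (c.head Y + 1) with hhi'
  have hlo1 : lo' ≤ c.head Y := by omega
  have hhi1 : c.head Y < hi' := by omega
  -- scan to the left end
  obtain ⟨c2, r2, b1, b2, b3, b4⟩ := sc0_spec Sym.nonBlank Y .L (fun x => x) (by simp) c1
    (c.head Y - lo' + 1).toNat
    (by
      intro i hi0
      rw [a1]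
      simp only [Dir.toInt]
      apply a2.1 <;> omega)
    (by
      rw [a1]
      simp only [Dir.toInt]
      rw [a2.2 _ (by left; omega)]
      rfl)
  have t2 : c2.tape Y = c1.tape Y := same_of_hit_miss b2 b3
  have hh2 : c2.head Y = lo' - 1 := by
    rw [b1, a1]
    simp only [Dir.toInt]
    omega
  obtain ⟨c3, r3, d1, d2, d3⟩ := mv_spec Y .R c2
  have hh3 : c3.head Y = lo' := by
    rw [d1, hh2]
    simp only [Dir.toInt]
    ring
  have t3 : c3.tape Y = c1.tape Y := by rw [d2, t2]
  -- erase
  obtain ⟨c4, r4, f1, f2, f3, f4⟩ := sc0_spec Sym.nonBlank Y .R (fun _ => .blank) (by simp) c3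
    (hi' - lo').toNat
    (by
      intro i hi0
      rw [t3, hh3]
      simp only [Dir.toInt, mul_one]
      apply a2.1 <;> omega)
    (by
      rw [t3, hh3]
      simp only [Dir.toInt, mul_one]
      rw [a2.2 _ (by right; omega)]
      rfl)
  refine ⟨c4, (r1.seq (r2.seq (r3.seq r4))).mono (by omega), ?_, (a5.trans (b4.trans (d3.trans f4))).mono (by simp)⟩
  intro x
  by_cases hx : lo' ≤ x ∧ x < hi'
  · have := f2 (x - lo').toNat (by omega)
    rw [hh3] at this
    simp only [Dir.toInt, mul_one] at this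
    have e : lo' + ((x - lo').toNat : ℤ) = x := by omega
    rw [e] at this
    exact this
  · rw [f3 x (by
      rw [hh3]
      intro j hj he
      simp only [Dir.toInt, mul_one] at he
      omega), t3]
    exact a2.2 x (by omega)

theorem cleanAll_spec (l : List A.T) (hl : l.Nodup) (c : TC X G) {Λ : ℕ}
    (h : ∀ t ∈ l, ∃ lo hi, Itv (c.tape (st E t)) lo hi ∧ lo - 1 ≤ c.head (st E t) ∧
      c.head (st E t) ≤ hi ∧ lo ≤ hi ∧ hi - lo ≤ Λ) :
    ∃ c', Run (cleanAll E l) c c' (l.length * (4 * Λ + 12) + 1) ∧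
      (∀ t ∈ l, ∀ x, c'.tape (st E t) x = .blank) ∧
      (∀ t, (∀ u ∈ l, t ≠ st E u) → c'.tape t = c.tape t ∧ c'.head t = c.head t) := by
  induction l generalizing c with
  | nil =>
    refine ⟨c, skip_spec c |>.mono (by simp), by simp, fun _ _ => ⟨rfl, rfl⟩⟩
  | cons t l ih =>
    simp only [List.nodup_cons] at hl
    obtain ⟨lo, hi, h1, h2, h3, h4, h5⟩ := h t (by simp)
    obtain ⟨c1, r1, a1, a2⟩ := cleanT_spec E (st E t) c h1 h2 h3 h4 h5
    obtain ⟨c2, r2, b1, b2⟩ := ih hl.2 c1 (by
      intro u hu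
      have hne : (st E u : FT ⊕ X) ∉ [(st E t : FT ⊕ X)] := by
        simp only [List.mem_singleton, Sum.inr.injEq]
        intro he
        have he' := tp_inj E he
        subst he'
        exact hl.1 hu
      rw [a2.tape hne, a2.head hne]
      exact h u (by simp [hu]))
    refine ⟨c2, (r1.seq r2).mono ?_, ?_, ?_⟩
    · simp only [List.length_cons]
      rw [add_mul]
      omega
    · intro u hu x
      simp only [List.mem_cons] at hu
      rcases hu with rfl | hu
      · rw [(b2 _ (by
          intro v hv he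
          simp only [Sum.inr.injEq] at he
          have he' := tp_inj E he
          subst he'
          exact hl.1 hv)).1]
        exact a1 x
      · exact b1 u hu x
    · intro t' ht'
      have e1 := b2 t' (fun u hu => ht' u (by simp [hu]))
      have e2 := a2 t' (by
        simp only [List.mem_singleton]
        exact ht' t (by simp))
      exact ⟨e1.1.trans e2.1, e1.2.trans e2.2⟩

theorem goOrigin_spec (Y : FT ⊕ X) (c : TC X G) {lo hi base : ℤ} (hI : Itv (c.tape Y) lo hi)
    (h1 : lo - 1 ≤ c.head Y) (h2 : c.head Y ≤ hi) (h3 : lo ≤ base) (h4 : base < hi)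
    (hf : ∀ x, flagOf (c.tape Y x) = true ↔ x = base) :
    ∃ c', Run (goOrigin E Y) c c' (4 * (hi - lo).toNat + 12) ∧ c'.head Y = base ∧
      Itv (c'.tape Y) (min lo (c.head Y)) (max hi (c.head Y + 1)) ∧
      (∀ x, dec E (c'.tape Y x) = dec E (c.tape Y x)) ∧ Same [Y] c c' := by
  obtain ⟨c1, r1, a1, a2, a3, a4, a5⟩ := touchC_spec E Y c hI h1 h2
  set lo' := min lo (c.head Y) with hlo'
  set hi' := max hi (c.head Y + 1) with hhi'
  have hf1 : ∀ x, flagOf (c1.tape Y x) = true ↔ x = base := fun x => by rw [a4]; exact hf x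
  have hbase : lo' ≤ base ∧ base < hi' := by omega
  by_cases hcase : base ≤ c.head Y
  · -- the origin is to the left
    obtain ⟨c2, r2, b1, b2, b3, b4⟩ := sc0_spec (fun s => s.nonBlank && !flagOf s) Y .L (fun x => x) (by simp) c1
      (c.head Y - base).toNat
      (by
        intro i hi0
        rw [a1]
        simp only [Dir.toInt, Bool.and_eq_true, Bool.not_eq_true']
        constructor
        · apply a2.1 <;> omega
        · cases hb : flagOf (c1.tape Y (c.head Y + (i : ℤ) * -1))
          · rfl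
          · have := (hf1 _).1 hb
            omega)
      (by
        rw [a1]
        simp only [Dir.toInt]
        have e : c.head Y + ((c.head Y - base).toNat : ℤ) * -1 = base := by omega
        rw [e, (hf1 base).2 rfl]
        simp)
    have t2 : c2.tape Y = c1.tape Y := same_of_hit_miss b2 b3
    have hh2 : c2.head Y = base := by
      rw [b1, a1]
      simp only [Dir.toInt]
      omega
    have hrd : (!(c2.read Y).nonBlank) = false := by
      simp only [TS.read, t2, hh2]
      rw [a2.1 _ hbase.1 hbase.2]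
      rfl
    have r3 := Run.iteF (a := .seq (mv Y .R) (sc0 (fun s => !flagOf s) Y .R fun x => x)) (g := fun s => !(s Y).nonBlank) hrd (skip_spec c2)
    refine ⟨c2, (r1.seq (r2.seq r3)).mono ?_, hh2, by rw [t2]; exact a2, by intro x; rw [t2]; exact a3 x,
      (a5.trans b4).mono (by simp)⟩
    omega
  · -- the origin is to the right
    obtain ⟨c2, r2, b1, b2, b3, b4⟩ := sc0_spec (fun s => s.nonBlank && !flagOf s) Y .L (fun x => x) (by simp) c1
      (c.head Y - lo' + 1).toNat
      (by
        intro i hi0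
        rw [a1]
        simp only [Dir.toInt, Bool.and_eq_true, Bool.not_eq_true']
        constructor
        · apply a2.1 <;> omega
        · cases hb : flagOf (c1.tape Y (c.head Y + (i : ℤ) * -1))
          · rfl
          · have := (hf1 _).1 hb
            omega)
      (by
        rw [a1]
        simp only [Dir.toInt]
        rw [a2.2 _ (by left; omega)]
        rfl)
    have t2 : c2.tape Y = c1.tape Y := same_of_hit_miss b2 b3
    have hh2 : c2.head Y = lo' - 1 := by
      rw [b1, a1]
      simp only [Dir.toInt]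
      omega
    have hrd : (!(c2.read Y).nonBlank) = true := by
      simp only [TS.read, t2, hh2]
      rw [a2.2 _ (by left; omega)]
      rfl
    obtain ⟨c3, r3, d1, d2, d3⟩ := mv_spec Y .R c2
    have hh3 : c3.head Y = lo' := by
      rw [d1, hh2]
      simp only [Dir.toInt]
      ring
    have t3 : c3.tape Y = c1.tape Y := by rw [d2, t2]
    obtain ⟨c4, r4, f1, f2, f3, f4⟩ := sc0_spec (fun s => !flagOf s) Y .R (fun x => x) (by simp) c3
      (base - lo').toNat
      (by
        intro i hi0
        rw [t3, hh3]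
        simp only [Dir.toInt, mul_one, Bool.not_eq_true']
        cases hb : flagOf (c1.tape Y (lo' + (i : ℤ)))
        · rfl
        · have := (hf1 _).1 hb
          omega)
      (by
        rw [t3, hh3]
        simp only [Dir.toInt, mul_one]
        have e : lo' + ((base - lo').toNat : ℤ) = base := by omega
        rw [e, (hf1 base).2 rfl]
        rfl)
    have t4 : c4.tape Y = c3.tape Y := same_of_hit_miss f2 f3
    have hh4 : c4.head Y = base := by
      rw [f1, hh3]
      simp only [Dir.toInt, mul_one]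
      omega
    have r5 := Run.iteT (b := skip) (g := fun s => !(s Y).nonBlank) hrd (r3.seq r4)
    refine ⟨c4, (r1.seq (r2.seq r5)).mono ?_, hh4, by rw [t4, t3]; exact a2, by intro x; rw [t4, t3]; exact a3 x,
      (a5.trans (b4.trans (d3.trans f4))).mono (by simp)⟩
    omega

/-- The cost bound of the multiplication stage. -/
def mulCost (k n T : ℕ) : ℕ := 64 * n + 64 + T + (k + 1) * (4 * (2 * n + 2 + T) + 12)

theorem sim_base {c : TC X G} {a : A.Cfg} {base lo hi : A.T → ℤ} (h : SimT E c a base lo hi) (t : A.T) :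
    lo t ≤ base t ∧ base t < hi t := by
  obtain ⟨_, _, _, _, _, h8, h9⟩ := h t
  have h10 : ¬ (base t < lo t ∨ hi t ≤ base t) := by
    intro hh
    have e1 := h8 _ hh
    have e2 := (h9 (base t)).2 rfl
    rw [e1] at e2
    simp at e2
  omega

theorem rdBit_bitSym (b : Bool) : Sym.isOne (rdBit E (.a (E.sy (A.bitSym b)) false)) = b := by
  cases b
  · simp [rdBit, MTM.bitSym, A.b0_ne_b1]
  · simp [rdBit, MTM.bitSym]

theorem mul_spec {τ : ℕ → ℕ} (hA : Multiplies A τ) (R1 R2 W1 W2 W3 : FT) (hd : [R1, R2, W1, W2, W3].Nodup) (c : TC X G) {n : ℕ} (hn : 1 ≤ n)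
    (hR : Ruler c (o R1) n) (hR4 : Ruler c (o R2) (2 * n))
    (h1 : c.head (o W1) = 0) (h2 : c.head (o W2) = 0) (h3 : c.head (o W3) = 0)
    (hB : Clean c) :
    ∃ c', Run (mul E R1 R2 W1 W2 W3) c c' (mulCost (@Finset.univ A.T A.fT).card n (τ n)) ∧
      vl (c'.tape (o W3)) 0 (2 * n) = vl (c.tape (o W1)) 0 n * vl (c.tape (o W2)) 0 n ∧
      Fr [W3] [] c c' := by
  have hd' := hd
  simp only [List.nodup_cons, List.mem_cons, List.not_mem_nil, or_false, not_or] at hd'
  obtain ⟨⟨h12, h13, h14, h15⟩, ⟨h23, h24, h25⟩, ⟨h34, h35⟩, h45, _⟩ := hd'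
  have nA : ∀ a : FT, (Sum.inl a : FT ⊕ X) ∉ allA E := not_mem_allA E
  obtain ⟨c1, r1, sim1, s1⟩ := mulIn_spec E R1 R2 W1 W2 (by simp [h12, h13, h14, h23, h24, h34]) c hn hR hR4 h1 h2 (fun t x => hB _ x)
  obtain ⟨t, ht, a', hrun, hstop, hpost⟩ := hA n hn _ _ (length_bigE (c.tape (o W1)) n) (length_bigE (c.tape (o W2)) n)
  obtain ⟨c2, lo2, hi2, sub, sim2, hb⟩ := sim_run E t sim1 hrun hstop
  have r2 : Run (runA E) c1 c2 (τ n + 1) := ⟨t + 1, by omega, Exec.call sub⟩
  have s2 : Same (allA E) c1 c2 := by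
    intro u hu
    exact sub.frame (isA_false E hu)
  -- find the origin of the output tape
  obtain ⟨f1, f2, f3, f4, f5, f6, f7⟩ := sim2 A.out
  obtain ⟨g1, g2⟩ := sim_base E sim2 A.out
  have hIout : Itv (c2.tape (st E A.out)) (lo2 A.out) (hi2 A.out) := ⟨f5, f6⟩
  obtain ⟨c3, r3, i1, i2, i3, i4⟩ := goOrigin_spec E (st E A.out) c2 hIout f3 f4 g1 g2 f7
  set base := c.head (st E A.out) with hbase
  have nO : ∀ a : FT, (Sum.inl a : FT ⊕ X) ∉ [st E A.out] := by simp
  have s12 : Same (allA E) c c2 := (s1.trans s2).mono (by simp)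
  have hR4c3 : Ruler c3 (o R2) (2 * n) := (hR4.of_same s12 (nA _)).of_same i4 (nO _)
  -- copy the output to W3
  obtain ⟨c4, r4, j1, j2, j3⟩ := mvBy_spec (o R2) (o W3) .R (by simpa using h25) (by simp) c3 hR4c3
  obtain ⟨c5, r5, k1, k2, k3⟩ := mv_spec (o W3) .L c4
  have hR4c5 : Ruler c5 (o R2) (2 * n) := (hR4c3.of_same j3 (by simpa using h25)).of_same k3 (by simpa using h25)
  obtain ⟨c6, r6, l1, l2, l3, l4, l5, l6⟩ := copyD_spec (o R2) (st E A.out) .R (o W3) .L (rdBit E)
    (by simp) (by simpa using h25) (by simp) (by simp) (by simp) c5 hR4c5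
  obtain ⟨c7, r7, m1, m2, m3⟩ := mv_spec (o W3) .R c6
  have hW5 : c5.head (o W3) = 2 * (n : ℤ) - 1 := by
    rw [k1, j1, i4.head (nO _), s12.head (nA _), h3]
    simp only [Dir.toInt]
    push_cast
    ring
  have hout5 : c5.head (st E A.out) = base := by
    rw [k3.head (by simp), j3.head (by simp), i1]
  have tout5 : c5.tape (st E A.out) = c3.tape (st E A.out) := by
    rw [k3.tape (by simp), j3.tape (by simp)]
  -- the value
  have hZ : val (bigE (c.tape (o W1)) n) * val (bigE (c.tape (o W2)) n) =
      vl (c.tape (o W1)) 0 n * vl (c.tape (o W2)) 0 n := by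
    rw [val_bigE, val_bigE]
  set Z := val (bigE (c.tape (o W1)) n) * val (bigE (c.tape (o W2)) n) with hZdef
  have hZlt : Z < 2 ^ (2 * n) := by
    rw [hZ, two_mul, pow_add]
    exact Nat.mul_lt_mul'' (vl_lt _ _ _) (vl_lt _ _ _)
  have hcell : ∀ j : ℕ, j < 2 * n → dec E (c3.tape (st E A.out) (base + j)) =
      A.bitSym (Nat.testBit Z (2 * n - 1 - j)) := by
    intro j hj
    rw [i3, f1]
    exact hpost j hj
  have hval : vl (c7.tape (o W3)) 0 (2 * n) = Z := by
    have : vl (c7.tape (o W3)) 0 (2 * n) = Z % 2 ^ (2 * n) := by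
      apply vl_of_testBit
      intro i hi
      have hj : 2 * n - 1 - i < 2 * n := by omega
      have := l4 (2 * n - 1 - i) hj
      rw [hW5, hout5, tout5] at this
      simp only [Dir.toInt, mul_one] at this
      have e : 2 * (n : ℤ) - 1 + ((2 * n - 1 - i : ℕ) : ℤ) * -1 = 0 + (i : ℤ) := by
        omega
      rw [e] at this
      rw [m2, this]
      have e2 : rdBit E (c3.tape (st E A.out) (base + ((2 * n - 1 - i : ℕ) : ℤ))) =
          Sym.ofBit (decide (A.bitSym (Nat.testBit Z (2 * n - 1 - (2 * n - 1 - i))) = A.b1)) := by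
        unfold rdBit
        rw [hcell _ hj]
      rw [e2, Sym.isOne_ofBit]
      have e3 : 2 * n - 1 - (2 * n - 1 - i) = i := by omega
      rw [e3]
      cases hb' : Nat.testBit Z i
      · simp [MTM.bitSym, A.b0_ne_b1]
      · simp [MTM.bitSym]
    rw [this, Nat.mod_eq_of_lt hZlt]
  -- erase the simulated tapes
  have hinc := hb
  have hRunHi : ∀ u, (fun t => if t = A.inp then c.head (st E t) + 2 * (n : ℤ) + 1 else c.head (st E t) + 1) u -
      c.head (st E u) ≤ 2 * n + 1 := by
    intro u
    by_cases hu : u = A.inp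
    · simp only [if_pos hu]; omega
    · simp only [if_neg hu]; omega
  have hw : ∀ u, hi2 u - lo2 u ≤ 2 * n + 1 + τ n := by
    intro u
    have e1 := hb u
    have e2 := hRunHi u
    beta_reduce at e1 e2
    have : (t : ℤ) ≤ τ n := by exact_mod_cast ht
    omega
  have hOutKeep : c7.tape (st E A.out) = c3.tape (st E A.out) := by
    rw [m3.tape (by simp), l2, tout5]
  have hOutHead : c7.head (st E A.out) = base + 2 * n := by
    rw [m3.head (by simp), l1, hout5]
    simp only [Dir.toInt]
    push_cast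
    ring
  have hOther : ∀ u, u ≠ A.out → c7.tape (st E u) = c2.tape (st E u) ∧ c7.head (st E u) = c2.head (st E u) := by
    intro u hu
    have hne : (st E u : FT ⊕ X) ≠ st E A.out := by
      simp only [ne_eq, Sum.inr.injEq]
      exact fun h => hu (tp_inj E h)
    have s37 : Same [st E A.out, o W3] c2 c7 := by
      have := (i4.trans (j3.trans (k3.trans (l6.trans m3))))
      exact this.mono (by
        intro x hx
        simp only [List.mem_append, List.mem_cons, List.not_mem_nil, or_false] at hx ⊢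
        tauto)
    have hnm : (st E u : FT ⊕ X) ∉ [st E A.out, o W3] := by
      simp only [List.mem_cons, List.not_mem_nil, or_false, not_or]
      exact ⟨hne, by simp⟩
    exact ⟨s37.tape hnm, s37.head hnm⟩
  obtain ⟨c8, r8, n1, n2⟩ := cleanAll_spec E (@Finset.univ A.T A.fT).toList (Finset.nodup_toList _) c7
    (Λ := 2 * n + 2 + τ n) (by
      intro u _
      by_cases hu : u = A.out
      · subst hu
        have hlast : base + 2 * (n : ℤ) - 1 < max (hi2 A.out) (c2.head (st E A.out) + 1) := by
          by_contra hcon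
          have e := i2.2 (base + ((2 * n - 1 : ℕ) : ℤ)) (by
            right
            push_cast [Nat.cast_sub (show 1 ≤ 2 * n by omega)]
            omega)
          have e2 := hcell (2 * n - 1) (by omega)
          rw [e] at e2
          simp only [dec_blank] at e2
          cases hx : Nat.testBit Z (2 * n - 1 - (2 * n - 1)) <;> simp only [hx, MTM.bitSym, if_true, Bool.false_eq_true, if_false] at e2
          · exact A.blank_ne_b0 e2
          · exact A.blank_ne_b1 e2
        have hlow : min (lo2 A.out) (c2.head (st E A.out)) ≤ base := by omega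
        refine ⟨min (lo2 A.out) (c2.head (st E A.out)), max (hi2 A.out) (c2.head (st E A.out) + 1), ?_, ?_, ?_, ?_, ?_⟩
        · change Itv (c7.tape (st E A.out)) _ _
          rw [hOutKeep]
          exact i2
        · change _ ≤ c7.head (st E A.out)
          rw [hOutHead]
          omega
        · change c7.head (st E A.out) ≤ _
          rw [hOutHead]
          omega
        · omega
        · have := hw A.out
          have e3 : (st E A.out) = (st E A.out : FT ⊕ X) := rfl
          rw [e3] at hlast ⊢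
          omega
      · obtain ⟨o1, o2⟩ := hOther u hu
        obtain ⟨_, _, p3, p4, p5, p6, _⟩ := sim2 u
        obtain ⟨p7, p8⟩ := sim_base E sim2 u
        refine ⟨lo2 u, hi2 u, ?_, ?_, ?_, ?_, ?_⟩
        · rw [o1]
          exact ⟨p5, p6⟩
        · rw [o2]; exact p3
        · rw [o2]; exact p4
        · omega
        · have := hw u
          omega)
  have hW8 : ∀ u : FT ⊕ X, (∀ v ∈ (@Finset.univ A.T A.fT).toList, u ≠ st E v) →
      c8.tape u = c7.tape u ∧ c8.head u = c7.head u := n2
  have hW3 := hW8 (o W3) (by simp)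
  have s78 : Same (allA E) c7 c8 := by
    intro u hu
    exact hW8 u (fun v _ he => hu (he ▸ mem_allA E v))
  have hW3h : c8.head (o W3) = 0 := by
    rw [hW3.2, m1, l3, k1, j1, i4.head (nO _), s12.head (nA _), h3]
    simp only [Dir.toInt]
    push_cast
    ring
  have s9 : Same (o W3 :: allA E) c c8 := by
    have := (s12.trans (i4.trans (j3.trans (k3.trans (l6.trans (m3.trans s78))))))
    exact this.mono (by
      intro x hx
      have hO : st E A.out ∈ allA E := mem_allA E A.out
      by_cases hxA : x ∈ allA E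
      · exact List.mem_cons_of_mem _ hxA
      · have hne : x ≠ st E A.out := fun e => hxA (e ▸ hO)
        simp only [List.mem_append, List.mem_cons, List.not_mem_nil, or_false] at hx ⊢
        tauto)
  refine ⟨c8, ?_, ?_, ?_, ?_, ?_⟩
  · have hgo : 4 * (hi2 A.out - lo2 A.out).toNat + 12 ≤ 4 * (2 * n + 1 + τ n) + 12 := by
      have := hw A.out
      omega
    have hcard : (@Finset.univ A.T A.fT).toList.length = (@Finset.univ A.T A.fT).card := Finset.length_toList _
    rw [hcard] at r8
    refine (r1.seq (r2.seq (r3.seq ((r4.seq (r5.seq (r6.seq r7))).seq r8)))).mono ?_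
    unfold mulCost
    generalize (@Finset.univ A.T A.fT).card = k at *
    have e : (k + 1) * (4 * (2 * n + 2 + τ n) + 12) = k * (4 * (2 * n + 2 + τ n) + 12) + (4 * (2 * n + 2 + τ n) + 12) := by ring
    rw [e]
    have hN : 1 ≤ 1 := le_refl 1
    omega
  · rw [hW3.1, hval, hZ]
  · intro a ha
    exact s9.tape (by
      simp only [List.mem_cons, not_or]
      simp only [List.mem_singleton] at ha
      exact ⟨by simpa using ha, nA a⟩)
  · intro a _
    by_cases ha : a = W3
    · subst ha
      rw [hW3h, h3]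
    · exact s9.head (by
        simp only [List.mem_cons, not_or]
        exact ⟨by simpa using ha, nA a⟩)
  · intro hc t x
    by_cases ht : (Sum.inr t : FT ⊕ X) ∈ allA E
    · simp only [allA, List.mem_map, Finset.mem_toList, Sum.inr.injEq] at ht
      obtain ⟨u, _, rfl⟩ := ht
      exact n1 u (Finset.mem_toList.2 (@Finset.mem_univ _ A.fT u)) x
    · rw [s9.tape (by
        simp only [List.mem_cons, not_or]
        exact ⟨by simp, ht⟩)]
      exact hc t x

end

end Vale.Agent.Lib.P338.F
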