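import Vale.Agent.Lib.P338.F.Top
import Vale.Agent.Lib.P338.F.MulG
import Vale.Agent.Lib.P338.F.DefsG

/-!
The machine of the single scale reduction.
-/

namespace Vale.Agent.Lib.P338.F

open Vale.Agent.Lib.P338 Prog

/-- The finite set of own tapes. -/
noncomputable def finFT : Fintype FT := by
  refine Fintype.ofList [.In, .Out, .D, .T1, .T2, .P1, .P2, .P3, .RB1, .RB2, .R3N, .R6N, .X1, .X2, .X3, .RS, .R2S, .RL, .RW,
    .Cy, .Fl, .Tz, .Y0, .Y1, .Y2, .Y3, .FA, .FB, .GA, .GB, .ZA, .ZB, .Qr, .Mu, .Eta, .One, .Zer, .MTw,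
    .VA, .VB, .RA, .RB, .SA, .SB, .WA, .WB, .IA, .IB, .QA, .QB, .MA, .MB, .DA, .DB, .AA, .BA, .BB, .CA, .PA, .PB, .SF,
    .Rm, .Rdf, .Rmp, .Rn, .RP, .Rs, .Rrh, .Rq, .RqM, .RqP, .Rp, .RN, .R2N, .RNM, .RU, .RUp, .RQd,
    .RK, .RZ, .RKZ, .RZt, .RKZt, .Rt, .Rpt, .Rsv, .Sv, .RA1, .RKp, .Tmp, .Tmq, .Tmr,
    .Ea1, .Eb1, .Ea2, .Eb2, .Rq2, .RqMM, .RAA, .Ra, .Rap, .Rkk, .RX] ?_
  intro x
  cases x <;> decide

/-- The alphabet of the machine is finite. -/
noncomputable def finSymF (G : Type) (h : Fintype G) : Fintype (Sym G) :=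
  letI := h
  Fintype.ofInjective
    (fun s : Sym G => match s with
      | .blank => (Sum.inl 0 : Fin 4 ⊕ (G × Bool))
      | .zero => Sum.inl 1
      | .one => Sum.inl 2
      | .mark => Sum.inl 3
      | .a g b => Sum.inr (g, b))
    (by
      intro s t hst
      cases s <;> cases t <;> simp_all)

/-- The embedding of the first machine. -/
def embL (A A0 : MTM) : Emb A (A.T ⊕ A0.T) (A.Γ ⊕ A0.Γ) where
  tp := Sum.inl
  back := fun x => match x with
    | Sum.inl t => some t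
    | Sum.inr _ => none
  back_tp := fun _ => rfl
  tp_back := by
    intro x t h
    cases x with
    | inl u => simpa using h
    | inr u => simp at h
  sy := Sum.inl
  ds := fun g => match g with
    | Sum.inl x => x
    | Sum.inr _ => A.blank
  ds_sy := fun _ => rfl

/-- The embedding of the second machine. -/
def embR (A A0 : MTM) : Emb A0 (A.T ⊕ A0.T) (A.Γ ⊕ A0.Γ) where
  tp := Sum.inr
  back := fun x => match x with
    | Sum.inr t => some t
    | Sum.inl _ => none
  back_tp := fun _ => rfl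
  tp_back := by
    intro x t h
    cases x with
    | inr u => simpa using h
    | inl u => simp at h
  sy := Sum.inr
  ds := fun g => match g with
    | Sum.inr x => x
    | Sum.inl _ => A0.blank
  ds_sy := fun _ => rfl

section
variable (A A0 : MTM)

/-- The program using `A` for the big products and `A0` for the small ones. -/
noncomputable def prog2 : Prog (FT ⊕ (A.T ⊕ A0.T)) (Sym (A.Γ ⊕ A0.Γ)) :=
  top (mul (embR A A0) .RS .R2S .X1 .X2 .X3) (mul (embL A A0) .RB1 .RB2 .P1 .P2 .P3)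

/-- The machine using `A` for the big products and `A0` for the small ones. -/
noncomputable def machine2 : MTM :=
  compile (@instFintypeSum _ _ finFT (@instFintypeSum _ _ A.fT A0.fT)) (finSymF _ (@instFintypeSum _ _ A.fΓ A0.fΓ)) (prog2 A A0)
    (o .In) (o .Out) Sym.blank Sym.zero Sym.one Sym.mark (by simp) (by simp) (by simp) (by simp) (by simp) (by simp)

theorem machine2_bitSym (b : Bool) : (machine2 A A0).bitSym b = (Sym.ofBit b : Sym (A.Γ ⊕ A0.Γ)) := by
  cases b <;> rfl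

/-- The time of the machine. -/
noncomputable def time2 (τ τ0 : ℕ → ℕ) (m : ℕ) : ℕ :=
  TOC m (mulCost (@Finset.univ A0.T A0.fT).card (Kd m) (τ0 (Kd m))) (mulCost (@Finset.univ A.T A.fT).card (nn m) (τ (nn m)))

end

theorem init_wordF (M : MTM) (b : ℕ → Bool) (n : ℕ) (t : M.T) (x : ℤ) :
    (M.init ((List.range n).map fun i => M.bitSym (b i))).tape t x =
      if t = M.inp ∧ 0 ≤ x ∧ x < n then M.bitSym (b x.toNat) else M.blank := by
  change (if t = M.inp ∧ 0 ≤ x then ((List.range n).map fun i => M.bitSym (b i)).getD x.toNat M.blank else M.blank) = _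
  by_cases h1 : t = M.inp
  · by_cases h2 : 0 ≤ x
    · rw [if_pos ⟨h1, h2⟩]
      by_cases h3 : x < n
      · rw [if_pos ⟨h1, h2, h3⟩, List.getD_eq_getElem _ _ (by simp; omega)]
        simp only [List.getElem_map, List.getElem_range]
      · rw [if_neg (by tauto), List.getD_eq_default]
        simp only [List.length_map, List.length_range]
        omega
    · rw [if_neg (by tauto), if_neg (by tauto)]
  · rw [if_neg (by tauto), if_neg (by tauto)]

/-- A run of a program from the initial configuration gives a halting run of the compiled machine. -/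
theorem compile_haltsWithin {T Γ : Type} (fT : Fintype T) (fΓ : Fintype Γ) (P : Prog T Γ) (inp out : T)
    (blank b0 b1 sep : Γ) (h1 : blank ≠ b0) (h2 : blank ≠ b1) (h3 : blank ≠ sep) (h4 : b0 ≠ b1)
    (h5 : b0 ≠ sep) (h6 : b1 ≠ sep) (w : List Γ) {c' : TS T Γ} {b : ℕ} (tp : T → ℤ → Γ) (hd : T → ℤ)
    (htp : tp = (MTM.init (compile fT fΓ P inp out blank b0 b1 sep h1 h2 h3 h4 h5 h6) w).tape) (hhd : hd = fun _ => 0)
    (r : Run P ⟨tp, hd⟩ c' b)
    (post : (compile fT fΓ P inp out blank b0 b1 sep h1 h2 h3 h4 h5 h6).Cfg → Prop)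
    (hp : post ⟨none, c'.tape, c'.head⟩) :
    MTM.HaltsWithin (compile fT fΓ P inp out blank b0 b1 sep h1 h2 h3 h4 h5 h6) w b post := by
  subst htp hhd
  obtain ⟨t, ht, hrun, hstop⟩ := compile_halts fT fΓ P inp out blank b0 b1 sep h1 h2 h3 h4 h5 h6 r
  exact ⟨t, ht, ⟨none, c'.tape, c'.head⟩, hrun, hstop, hp⟩

/-- A program with the right behaviour on initial configurations gives a machine transposing matrices. -/
theorem compile_transposes {X G : Type} [DecidableEq X] (fX : Fintype X) (fG : Fintype G) (P : Prog (FT ⊕ X) (Sym G)) (σ : ℕ → ℕ)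
    (hP : ∀ m, 1 ≤ m → ∀ (c : TC X G) (τ : ℤ → Sym G), (∀ a, a ≠ FT.In → c.tape (o a) = runT 0) → c.tape (o .In) = τ → (∀ a, c.head (o a) = 0) → Clean c →
      Shp (m * m) τ → ∃ c', Run P c c' (σ m) ∧
        (∀ k r, k < m → r < m → c'.tape (o .Out) ((k * m + r : ℕ) : ℤ) = Sym.ofBit (τ ((r * m + k : ℕ) : ℤ)).isOne) ∧
        (∀ x : ℤ, (x < 0 ∨ ((m * m : ℕ) : ℤ) ≤ x) → c'.tape (o .Out) x = .blank)) :
    TransposesAll (compile (@instFintypeSum _ _ finFT fX) (finSymF G fG) P (o .In) (o .Out) Sym.blank Sym.zero Sym.one Sym.mark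
      (by simp) (by simp) (by simp) (by simp) (by simp) (by simp)) σ := by
  intro m hm f
  set f0 : ℕ → Bool := fun i => f (i / m) (i % m) with hf0
  set M := compile (@instFintypeSum _ _ finFT fX) (finSymF G fG) P (o .In) (o .Out) Sym.blank Sym.zero Sym.one Sym.mark
      (by simp) (by simp) (by simp) (by simp) (by simp) (by simp) with hM
  have hbit : ∀ b : Bool, M.bitSym b = (Sym.ofBit b : Sym G) := by
    intro b
    cases b <;> rfl
  set I := M.init ((List.range (m * m)).map fun i => M.bitSym (f0 i)) with hI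
  let c : TC X G := ⟨I.tape, I.head⟩
  have hcT : ∀ t x, c.tape t x = if t = o .In ∧ 0 ≤ x ∧ x < ((m * m : ℕ) : ℤ) then Sym.ofBit (f0 x.toNat) else Sym.blank := by
    intro t x
    have := init_wordF M f0 (m * m) t x
    by_cases h : t = o .In ∧ 0 ≤ x ∧ x < ((m * m : ℕ) : ℤ)
    · rw [if_pos h]
      exact this.trans ((if_pos h).trans (hbit _))
    · rw [if_neg h]
      exact this.trans (if_neg h)
  have h0 : ∀ a, a ≠ FT.In → c.tape (o a) = runT 0 := by
    intro a ha
    funext x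
    rw [hcT, if_neg, runT_out (by omega)]
    rintro ⟨h1, _⟩
    exact ha (Sum.inl_injective h1)
  have hcl : Clean c := by
    intro t x
    rw [hcT, if_neg]
    rintro ⟨h1, _⟩
    simp [o] at h1
  have hS : Shp (m * m) (c.tape (o .In)) := by
    constructor
    · intro x h1 h2
      rw [hcT, if_pos ⟨rfl, h1, h2⟩]
      simp
    · intro x hx
      rw [hcT, if_neg]
      rintro ⟨_, h1, h2⟩
      omega
  obtain ⟨c', r, o1, o2⟩ := hP m hm c _ h0 rfl (fun _ => rfl) hcl hS
  refine compile_haltsWithin _ _ P _ _ _ _ _ _ _ _ _ _ _ _ _ I.tape I.head rfl rfl r _ ⟨?_, ?_⟩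
  · intro r' k hr' hk
    refine (o1 k r' hk hr').trans ?_
    refine Eq.trans ?_ (hbit (f r' k)).symm
    have hlt : r' * m + k < m * m := by
      have : (r' + 1) * m ≤ m * m := Nat.mul_le_mul_right _ hr'
      rw [add_mul, one_mul] at this
      omega
    have hx : (0 : ℤ) ≤ ((r' * m + k : ℕ) : ℤ) ∧ ((r' * m + k : ℕ) : ℤ) < ((m * m : ℕ) : ℤ) :=
      ⟨by positivity, by exact_mod_cast hlt⟩
    rw [hcT, if_pos ⟨rfl, hx⟩, Sym.isOne_ofBit]
    congr 1
    have hm0 : 0 < m := hm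
    simp only [hf0, Int.toNat_natCast]
    rw [add_comm (r' * m) k, Nat.add_mul_div_right _ _ hm0, Nat.div_eq_of_lt hk, zero_add,
      Nat.add_mul_mod_self_right, Nat.mod_eq_of_lt hk]
  · intro i hi
    exact o2 i hi

theorem machine2_transposes {A A0 : MTM} {τ τ0 : ℕ → ℕ} (hA : Multiplies A τ) (hA0 : Multiplies A0 τ0) :
    TransposesAll (machine2 A A0) (time2 A A0 τ τ0) := by
  refine compile_transposes _ _ (prog2 A A0) _ ?_
  intro m hm c τ' h0 h1 h2 h3 h4
  have hK : 1 ≤ Kd m := by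
    have := Wd_le_K m
    omega
  have hn : 1 ≤ nn m := Nat.one_le_two_pow
  have hs : SmulOK (mul (embR A A0) .RS .R2S .X1 .X2 .X3) (Kd m) (mulCost (@Finset.univ A0.T A0.fT).card (Kd m) (τ0 (Kd m))) :=
    fun c r1 r2 h1 h2 h3 hcl => mul_spec (embR A A0) hA0 .RS .R2S .X1 .X2 .X3 (by decide) c hK r1 r2 h1 h2 h3 hcl
  have hb : BmulOK (mul (embL A A0) .RB1 .RB2 .P1 .P2 .P3) (nn m) (mulCost (@Finset.univ A.T A.fT).card (nn m) (τ (nn m))) :=
    fun c r1 r2 h1 h2 h3 hcl => mul_spec (embL A A0) hA .RB1 .RB2 .P1 .P2 .P3 (by decide) c hn r1 r2 h1 h2 h3 hcl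
  exact top_spec hm hs hb h0 h1 h2 h3 h4

end Vale.Agent.Lib.P338.F
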