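import Vale.Agent.Lib.P338.F.Lift
import Vale.Agent.Lib.P338.F.Final

/-!
The machine of the reduction with the internal multiplier for the small products.
-/

namespace Vale.Agent.Lib.P338.F

open Vale.Agent.Lib.P338 Prog

section
variable {Y G : Type}

/-- The renaming of the internal multiplier: the tapes of the interface are kept, the others are sent to work tapes. -/
def teK (Y : Type) : TE (FT ⊕ Empty) (FT ⊕ (FT ⊕ Y)) where
  ι := fun t => match t with
    | Sum.inl a => if a ∈ ifL then Sum.inl a else Sum.inr (Sum.inl a)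
    | Sum.inr e => e.elim
  back := fun x => match x with
    | Sum.inl a => if a ∈ ifL then some (Sum.inl a) else none
    | Sum.inr (Sum.inl a) => if a ∈ ifL then none else some (Sum.inl a)
    | Sum.inr (Sum.inr _) => none
  back_ι := by
    intro t
    cases t with
    | inl a =>
      by_cases h : a ∈ ifL
      · simp [h]
      · simp [h]
    | inr e => exact e.elim
  ι_back := by
    intro x t h
    cases t with
    | inl a =>
      rcases x with b | b | b
      · by_cases hb : b ∈ ifL
        · simp only [hb, if_true, Option.some.injEq, Sum.inl.injEq] at h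
          subst h
          simp [hb]
        · simp [hb] at h
      · by_cases hb : b ∈ ifL
        · simp [hb] at h
        · simp only [hb, if_false, Option.some.injEq, Sum.inl.injEq] at h
          subst h
          simp [hb]
      · simp at h
    | inr e => exact e.elim

theorem ι_if {a : FT} (h : a ∈ ifL) : (teK Y).ι (Sum.inl a) = Sum.inl a := if_pos h

theorem ι_nif {a : FT} (h : a ∉ ifL) : (teK Y).ι (Sum.inl a) = Sum.inr (Sum.inl a) := if_neg h

theorem back_nif {a : FT} (h : a ∉ ifL) : (teK Y).back (Sum.inl a) = none := if_neg h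

theorem back_if {a : FT} (h : a ∈ ifL) : (teK Y).back (Sum.inr (Sum.inl a)) = none := if_pos h

theorem back_y (y : Y) : (teK Y).back (Sum.inr (Sum.inr y)) = none := rfl

/-- The configuration of the internal multiplier read from a configuration of the machine. -/
def pullK (C : TC (FT ⊕ Y) G) : TC Empty G :=
  ⟨fun t x => C.tape ((teK Y).ι t) (x + C.head ((teK Y).ι t)), fun _ => 0⟩

theorem pullK_rel (C : TC (FT ⊕ Y) G) : LRel (teK Y) (fun t => C.head ((teK Y).ι t)) (pullK C) C :=
  ⟨fun _ _ => rfl, fun _ => by simp [pullK]⟩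

theorem pullK_tape_if {C : TC (FT ⊕ Y) G} {a : FT} (h : a ∈ ifL) (x : ℤ) (h0 : C.head (Sum.inl a) = 0) :
    (pullK C).tape (Sum.inl a) x = C.tape (Sum.inl a) x := by
  simp only [pullK, ι_if h, h0, add_zero]

theorem pullK_ks {C : TC (FT ⊕ Y) G} {j : ℕ} (r1 : Ruler C (o .RS) (2 ^ j)) (r2 : Ruler C (o .R2S) (2 * 2 ^ j)) (hcl : Clean C) :
    KS (pullK C) j := by
  refine ⟨⟨?_, rfl⟩, ⟨?_, rfl⟩, rfl, rfl, rfl, ?_⟩
  · funext x
    rw [pullK_tape_if (by decide) x r1.2]
    exact congrFun r1.1 x
  · funext x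
    rw [pullK_tape_if (by decide) x r2.2]
    exact congrFun r2.1 x
  · intro a ha
    refine ⟨?_, rfl⟩
    funext x
    simp only [pullK, ι_nif ha]
    rw [hcl, runT_out (by omega)]

variable [DecidableEq Y]

/-- The renamed internal multiplier satisfies the specification of the small products. -/
theorem karLift_ok {j : ℕ} (hj : 1 ≤ j) : SmulOK (liftP (teK Y) kar : Prog (FT ⊕ (FT ⊕ Y)) (Sym G)) (2 ^ j) (KC j) := by
  intro C r1 r2 h1 h2 h3 hcl
  obtain ⟨c', r, v, t1, t2⟩ := kar_spec hj (pullK_ks r1 r2 hcl)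
  obtain ⟨C', R, rel, out⟩ := lift_run r (pullK_rel C)
  have hIf : ∀ a, a ∈ ifL → ∀ x, C'.tape (Sum.inl a) (x + C.head (Sum.inl a)) = c'.tape (Sum.inl a) x := by
    intro a ha x
    have := rel.tp (Sum.inl a) x
    simpa only [ι_if ha] using this
  have hIfh : ∀ a, a ∈ ifL → C'.head (Sum.inl a) = c'.head (Sum.inl a) + C.head (Sum.inl a) := by
    intro a ha
    have := rel.hd (Sum.inl a)
    simpa only [ι_if ha] using this
  have hNif : ∀ a, a ∉ ifL → ∀ x, C'.tape (Sum.inr (Sum.inl a)) (x + C.head (Sum.inr (Sum.inl a))) = c'.tape (Sum.inl a) x := by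
    intro a ha x
    have := rel.tp (Sum.inl a) x
    simpa only [ι_nif ha] using this
  refine ⟨C', R, ?_, ?_, ?_, ?_⟩
  · simp only [vr]
    have e1 : vl (C'.tape (o .X3)) 0 (2 * 2 ^ j) = vl (c'.tape (o .X3)) 0 (2 * 2 ^ j) := by
      apply vl_congr
      intro i _
      have := hIf .X3 (by decide) ((0 : ℤ) + i)
      rw [show (Sum.inl FT.X3 : FT ⊕ (FT ⊕ Y)) = o .X3 from rfl, h3, add_zero] at this
      rw [this]
    rw [e1, v]
    congr 1
    · apply vl_congr
      intro i _
      rw [pullK_tape_if (by decide) _ h1]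
    · apply vl_congr
      intro i _
      rw [pullK_tape_if (by decide) _ h2]
  · intro a ha
    by_cases hif : a ∈ ifL
    · funext y
      have hne : a ≠ .X3 := by simpa using ha
      have e1 := hIf a hif (y - C.head (Sum.inl a))
      rw [sub_add_cancel, t1 a hne] at e1
      have e2 : (pullK C).tape (Sum.inl a) (y - C.head (Sum.inl a)) = C.tape (Sum.inl a) y := by
        simp only [pullK, ι_if hif, sub_add_cancel]
      rw [e2] at e1
      exact e1
    · exact (out _ (back_nif hif)).1
  · intro a _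
    by_cases hif : a ∈ ifL
    · have e1 := hIfh a hif
      rw [t2 a hif] at e1
      change C'.head (Sum.inl a) = C.head (Sum.inl a)
      rw [e1]
      simp [pullK]
    · exact (out _ (back_nif hif)).2
  · intro hc t x
    rcases t with a | y
    · by_cases hif : a ∈ ifL
      · rw [(out _ (back_if hif)).1]
        exact hc _ x
      · have hne : a ≠ .X3 := by
          rintro rfl
          exact hif (by decide)
        have e1 := hNif a hif (x - C.head (Sum.inr (Sum.inl a)))
        rw [sub_add_cancel, t1 a hne] at e1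
        rw [e1]
        simp only [pullK, ι_nif hif]
        exact hc _ _
    · rw [(out _ (back_y y)).1]
      exact hc _ x

end

/-- The embedding of the multiplier in the machine. -/
def embI (A : MTM) : Emb A (FT ⊕ A.T) A.Γ where
  tp := Sum.inr
  back := fun x => match x with
    | Sum.inr t => some t
    | Sum.inl _ => none
  back_tp := fun _ => rfl
  tp_back := by
    intro x t h
    cases x with
    | inr u => simpa using h
    | inl u => simp at h
  sy := id
  ds := id
  ds_sy := fun _ => rfl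

section
variable (A : MTM)

/-- The program using `A` for the big products and the internal multiplier for the small ones. -/
noncomputable def prog3 : Prog (FT ⊕ (FT ⊕ A.T)) (Sym A.Γ) :=
  top (liftP (teK A.T) kar) (mul (embI A) .RB1 .RB2 .P1 .P2 .P3)

/-- The machine using `A` for the big products and the internal multiplier for the small ones. -/
noncomputable def machine3 : MTM :=
  compile (@instFintypeSum _ _ finFT (@instFintypeSum _ _ finFT A.fT)) (finSymF _ A.fΓ) (prog3 A)
    (o .In) (o .Out) Sym.blank Sym.zero Sym.one Sym.mark (by simp) (by simp) (by simp) (by simp) (by simp) (by simp)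

/-- The time of the machine. -/
noncomputable def time3 (τ : ℕ → ℕ) (m : ℕ) : ℕ :=
  TOC m (KC (cA m + 3)) (mulCost (@Finset.univ A.T A.fT).card (nn m) (τ (nn m)))

end

theorem machine3_transposes {A : MTM} {τ : ℕ → ℕ} (hA : Multiplies A τ) :
    TransposesAll (machine3 A) (time3 A τ) := by
  refine compile_transposes _ _ (prog3 A) _ ?_
  intro m hm c τ' h0 h1 h2 h3 h4
  have hn : 1 ≤ nn m := Nat.one_le_two_pow
  have hs : SmulOK (liftP (teK A.T) kar : Prog (FT ⊕ (FT ⊕ A.T)) (Sym A.Γ)) (Kd m) (KC (cA m + 3)) := karLift_ok (by omega)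
  have hb : BmulOK (mul (embI A) .RB1 .RB2 .P1 .P2 .P3) (nn m) (mulCost (@Finset.univ A.T A.fT).card (nn m) (τ (nn m))) :=
    fun c r1 r2 h1 h2 h3 hcl => mul_spec (embI A) hA .RB1 .RB2 .P1 .P2 .P3 (by decide) c hn r1 r2 h1 h2 h3 hcl
  exact top_spec hm hs hb h0 h1 h2 h3 h4

/-- The exponent of the size of the small products. -/
def Jf (m : ℕ) : ℕ := Nat.clog 2 (Nat.clog 2 m + 5) + 3

theorem Kf_Jf (m : ℕ) : Kf m = 2 ^ Jf m := rfl

theorem cA_Jf (m : ℕ) : cA m + 3 = Jf m := rfl

theorem lf_Jf (m : ℕ) : lf m + 2 = Jf m := rfl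

/-- The time of the machine in terms of the big product. -/
theorem time3_le (A : MTM) (τ : ℕ → ℕ) (m : ℕ) (hm : 1 ≤ m) :
    2 ^ Jf m * time3 A τ m ≤ (10000000000000000 + 1000000000 * ((@Finset.univ A.T A.fT).card + 1)) *
      (2 ^ Jf m * τ (nf m) + m * m * (3 ^ Jf m * (Jf m + 2) ^ 3)) := by
  simp only [time3]
  generalize (@Finset.univ A.T A.fT).card = k
  have h1 := TOC_le m (KC (Jf m)) (mulCost k (nn m) (τ (nn m)))
  have h2 := mulCost_le k (nn m) (τ (nn m))
  have hJ1 : 1 ≤ Jf m := by
    have := lf_Jf m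
    omega
  have h3 := KC_le (Jf m) hJ1
  have h4 : qq m * qq m * 2 ^ Jf m ≤ 1024 * dn m := q_sq_K m
  have h5 := rh_le m
  have h6 := lf_Jf m
  have h7 := dn_le m hm
  have h8 := dn_pos m
  have h9 := nn_eq m
  rw [nf_eq] at h1 h2 h9 ⊢
  rw [cA_Jf]
  generalize Jf m = J at *
  generalize τ (nf m) = T at *
  obtain ⟨P, hP⟩ : ∃ P, P = 3 ^ J * (J + 2) ^ 3 := ⟨_, rfl⟩
  rw [← hP] at h3 ⊢
  have h10 : 2 ^ J * (rh m + 1) ≤ P := by
    rw [hP]
    apply Nat.mul_le_mul (two_pow_le_three J)
    calc rh m + 1 ≤ J + 2 := by omega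
      _ = (J + 2) ^ 1 := by ring
      _ ≤ (J + 2) ^ 3 := Nat.pow_le_pow_right (by omega) (by omega)
  obtain ⟨K, hK⟩ : ∃ K, K = 2 ^ J := ⟨_, rfl⟩
  rw [← hK] at h4 h10 ⊢
  have hKP : K ≤ P := le_trans (Nat.le_mul_of_pos_right _ (by omega)) h10
  generalize TOC m (KC J) (mulCost k (nf m) T) = t at *
  generalize mulCost k (nf m) T = TB at *
  generalize KC J = SC at *
  have hD : dn m * P ≤ 1024 * (m * m * P) := by
    calc dn m * P ≤ (1024 * (m * m)) * P := Nat.mul_le_mul_right _ h7
      _ = _ := by ring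
  have a1 : K * (dn m * (rh m + 1)) ≤ dn m * P := by
    calc K * (dn m * (rh m + 1)) = dn m * (K * (rh m + 1)) := by ring
      _ ≤ _ := Nat.mul_le_mul_left _ h10
  have a2 : K * (qq m * qq m * SC) ≤ 10240000 * (dn m * P) := by
    calc K * (qq m * qq m * SC) = (qq m * qq m * K) * SC := by ring
      _ ≤ (1024 * dn m) * (10000 * P) := Nat.mul_le_mul h4 h3
      _ = _ := by ring
  have a3 : K * TB ≤ 100 * ((k + 1) * (2049 * (dn m * P) + K * T)) := by
    have b1 : K * (nf m + T + 1) ≤ 2049 * (dn m * P) + K * T := by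
      have e : K * (nf m + T + 1) = K * nf m + K * T + K := by ring
      have b2 : K * nf m ≤ 2048 * (dn m * P) := by
        rw [h9]
        calc K * (2048 * dn m) = 2048 * (dn m * K) := by ring
          _ ≤ _ := Nat.mul_le_mul_left _ (Nat.mul_le_mul_left _ hKP)
      have b3 : K ≤ dn m * P := by
        calc K ≤ P := hKP
          _ ≤ dn m * P := Nat.le_mul_of_pos_left _ h8
      omega
    calc K * TB ≤ K * (100 * ((k + 1) * (nf m + T + 1))) := Nat.mul_le_mul_left _ h2
      _ = 100 * ((k + 1) * (K * (nf m + T + 1))) := by ring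
      _ ≤ _ := Nat.mul_le_mul_left _ (Nat.mul_le_mul_left _ b1)
  obtain ⟨X, hX⟩ : ∃ X, X = K * T + m * m * P := ⟨_, rfl⟩
  have hDX : dn m * P ≤ 1024 * X := by
    rw [hX]
    have e : 1024 * (K * T + m * m * P) = 1024 * (K * T) + 1024 * (m * m * P) := by ring
    omega
  have a4 : (k + 1) * (2049 * (dn m * P) + K * T) ≤ (k + 1) * (2049 * 1024 * X + X) := by
    apply Nat.mul_le_mul_left
    rw [hX] at hDX ⊢
    omega
  have e2 : (k + 1) * (2049 * 1024 * X + X) = 2098177 * ((k + 1) * X) := by ring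
  have e3 : (10000000000000000 + 1000000000 * (k + 1)) * (K * T + m * m * P) = 10000000000000000 * X + 1000000000 * ((k + 1) * X) := by
    rw [← hX]
    ring
  rw [e3]
  have a5 : K * t ≤ 1000000000 * (K * (dn m * (rh m + 1))) + 400000 * (K * (qq m * qq m * SC)) + 2 * (K * TB) := by
    calc K * t ≤ K * (1000000000 * (dn m * (rh m + 1)) + 400000 * (qq m * qq m * SC) + 2 * TB) := Nat.mul_le_mul_left _ h1
      _ = _ := by ring
  rw [e2] at a4
  clear h1 h2 h3 h4 h5 h6 h7 h8 h9 h10 hD hKP hP hK e2 e3 hX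
  generalize (k + 1) * X = u at *
  generalize (k + 1) * (2049 * (dn m * P) + K * T) = v at *
  generalize dn m * P = w at *
  generalize K * (dn m * (rh m + 1)) = w1 at *
  generalize K * (qq m * qq m * SC) = w2 at *
  generalize K * TB = w3 at *
  omega

/-- The reduction with the internal multiplier. -/
theorem reduction3 (A : MTM) (τ : ℕ → ℕ) (hA : Multiplies A τ) :
    ∃ (B : MTM) (σ : ℕ → ℕ) (C : ℕ), TransposesAll B σ ∧ ∀ m, 1 ≤ m →
      2 ^ Jf m * σ m ≤ C * (2 ^ Jf m * τ (nf m) + m * m * (3 ^ Jf m * (Jf m + 2) ^ 3)) :=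
  ⟨machine3 A, time3 A τ, _, machine3_transposes hA, fun m hm => time3_le A τ m hm⟩

end Vale.Agent.Lib.P338.F
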