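import Mathlib

/-!
The algebra behind the transposition over the quadratic extension of a prime field: the quadratic phase
`tri`, the Bluestein chain realising a dilation of indices.
-/

namespace Vale.Agent.Lib.P338.F

open Finset

/-- The quadratic phase `x (x - 1) / 2`. -/
def tri (x : ℤ) : ℤ := x * (x - 1) / 2

theorem two_mul_tri (x : ℤ) : 2 * tri x = x * (x - 1) := by
  unfold tri
  have : (2 : ℤ) ∣ x * (x - 1) := by
    rcases Int.even_or_odd x with h | h
    · exact h.two_dvd.mul_right _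
    · have : Even (x - 1) := h.sub_odd (by decide)
      exact this.two_dvd.mul_left _
  exact Int.mul_ediv_cancel' this

theorem tri_add (x y : ℤ) : tri (x + y) = tri x + tri y + x * y := by
  have h1 := two_mul_tri (x + y)
  have h2 := two_mul_tri x
  have h3 := two_mul_tri y
  nlinarith

section Chain
variable {F : Type*} [Field F]

/-- The geometric sum of a root of unity. -/
theorem root_sum (ω : Fˣ) {N : ℕ} (hN : ω ^ N = 1) (hp : ∀ k : ℕ, 0 < k → k < N → ω ^ k ≠ 1) (s : ℤ) :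
    ∑ k ∈ range N, ((ω ^ s : Fˣ) : F) ^ k = if (N : ℤ) ∣ s then (N : F) else 0 := by
  by_cases hs : (N : ℤ) ∣ s
  · rw [if_pos hs]
    obtain ⟨w, rfl⟩ := hs
    have e : ω ^ ((N : ℤ) * w) = 1 := by
      rw [zpow_mul, zpow_natCast, hN, one_zpow]
    rw [e]
    simp
  · rw [if_neg hs]
    by_cases hN0 : N = 0
    · subst hN0
      simp
    have hne : ((ω ^ s : Fˣ) : F) ≠ 1 := by
      intro he
      have h1 : ω ^ s = 1 := Units.ext (by simpa using he)
      have hNpos : 0 < N := by omega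
      have h2 : ω ^ (s % N) = 1 := by
        have : s = (N : ℤ) * (s / N) + s % N := (Int.mul_ediv_add_emod s N).symm
        rw [this, zpow_add, zpow_mul, zpow_natCast, hN, one_zpow, one_mul] at h1
        exact h1
      have h3 : 0 ≤ s % N := Int.emod_nonneg _ (by omega)
      have h4 : s % N < N := Int.emod_lt_of_pos _ (by omega)
      have h5 : s % N ≠ 0 := fun h0 => hs (Int.dvd_of_emod_eq_zero h0)
      have e : ((s % N).toNat : ℤ) = s % N := Int.toNat_of_nonneg h3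
      apply hp (s % N).toNat (by omega) (by omega)
      rw [← zpow_natCast, e]
      exact h2
    have hN' : ((ω ^ s : Fˣ) : F) ^ N = 1 := by
      have : (ω ^ s) ^ N = 1 := by
        rw [← zpow_natCast, ← zpow_mul, mul_comm, zpow_mul, zpow_natCast, hN, one_zpow]
      have h2 := congrArg (Units.val) this
      simpa using h2
    rw [geom_sum_eq hne, hN', sub_self, zero_div]

/-- The exponent of a term of the chain. -/
theorem chain_exponent (N Q : ℤ) (n k l : ℤ) (w : ℤ) (hQ : Q = 2 * w + 1) :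
    tri (-n) + (-tri (k - n) + tri (-N)) + (tri k - Q * tri (-k)) + Q * (tri (l - k) - tri (-N)) + (-Q * tri l) =
      (n - Q * l) * k + N * (-w * (N + 1)) := by
  have h1 : tri (k - n) = tri k + tri (-n) + k * (-n) := by
    have := tri_add k (-n)
    rwa [← sub_eq_add_neg] at this
  have h2 : tri (l - k) = tri l + tri (-k) + l * (-k) := by
    have := tri_add l (-k)
    rwa [← sub_eq_add_neg] at this
  have h3 : 2 * tri (-N) = (-N) * (-N - 1) := two_mul_tri (-N)
  rw [h1, h2, hQ]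
  have h4 : tri (-N) = -N * (-N - 1) / 2 := by
    unfold tri
    rfl
  have e : (1 - (2 * w + 1)) * tri (-N) = -w * (2 * tri (-N)) := by ring
  have key : (2 * w + 1 - 1) * tri (-N) = w * (N * (N + 1)) := by
    have : (2 * w + 1 - 1) * tri (-N) = w * (2 * tri (-N)) := by ring
    rw [this, h3]
    ring
  linear_combination -key

/-- The Bluestein chain realising the dilation by `Q`. -/
theorem chain (ω : Fˣ) {N : ℕ} (hNpos : 0 < N) (hN : ω ^ N = 1) (hp : ∀ k : ℕ, 0 < k → k < N → ω ^ k ≠ 1)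
    {Q : ℕ} {w : ℤ} (hQ : (Q : ℤ) = 2 * w + 1)
    (f0 a1 f1 a2 f2 : ℕ → F)
    (h1 : ∀ n, a1 n = f0 n * ((ω ^ tri (-(n : ℤ)) : Fˣ) : F))
    (h2 : ∀ k, f1 k = ∑ n ∈ range N, a1 n * ((ω ^ (-tri ((k : ℤ) - n) + tri (-(N : ℤ))) : Fˣ) : F))
    (h3 : ∀ k, a2 k = f1 k * ((ω ^ (tri (k : ℤ) - Q * tri (-(k : ℤ))) : Fˣ) : F))
    (h4 : ∀ l, f2 l = ∑ k ∈ range N, a2 k * ((ω ^ ((Q : ℤ) * (tri ((l : ℤ) - k) - tri (-(N : ℤ)))) : Fˣ) : F))
    (l : ℕ) :
    f2 l * ((ω ^ (-(Q : ℤ) * tri (l : ℤ)) : Fˣ) : F) = (N : F) * f0 ((Q * l) % N) := by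
  have term : ∀ n k : ℕ, ((ω ^ tri (-(n : ℤ)) : Fˣ) : F) * ((ω ^ (-tri ((k : ℤ) - n) + tri (-(N : ℤ))) : Fˣ) : F) *
      ((ω ^ (tri (k : ℤ) - Q * tri (-(k : ℤ))) : Fˣ) : F) *
      ((ω ^ ((Q : ℤ) * (tri ((l : ℤ) - k) - tri (-(N : ℤ)))) : Fˣ) : F) *
      ((ω ^ (-(Q : ℤ) * tri (l : ℤ)) : Fˣ) : F) = ((ω ^ ((n : ℤ) - Q * l) : Fˣ) : F) ^ k := by
    intro n k
    rw [← Units.val_mul, ← Units.val_mul, ← Units.val_mul, ← Units.val_mul, ← zpow_add, ← zpow_add, ← zpow_add,
      ← zpow_add, chain_exponent (N : ℤ) (Q : ℤ) n k l w hQ, zpow_add, zpow_mul ω (N : ℤ), zpow_natCast, hN, one_zpow,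
      mul_one, zpow_mul, zpow_natCast]
    simp
  have hL : f2 l * ((ω ^ (-(Q : ℤ) * tri (l : ℤ)) : Fˣ) : F) =
      ∑ n ∈ range N, f0 n * ∑ k ∈ range N, ((ω ^ ((n : ℤ) - Q * l) : Fˣ) : F) ^ k := by
    rw [h4, sum_mul]
    have e1 : ∀ k ∈ range N, a2 k * ((ω ^ ((Q : ℤ) * (tri ((l : ℤ) - k) - tri (-(N : ℤ)))) : Fˣ) : F) *
        ((ω ^ (-(Q : ℤ) * tri (l : ℤ)) : Fˣ) : F) =
        ∑ n ∈ range N, f0 n * ((ω ^ ((n : ℤ) - Q * l) : Fˣ) : F) ^ k := by
      intro k _
      rw [h3, h2, sum_mul, sum_mul, sum_mul]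
      apply sum_congr rfl
      intro n _
      rw [h1, ← term n k]
      ring
    rw [sum_congr rfl e1, sum_comm]
    apply sum_congr rfl
    intro n _
    rw [mul_sum]
  rw [hL]
  have e2 : ∀ n ∈ range N, f0 n * ∑ k ∈ range N, ((ω ^ ((n : ℤ) - Q * l) : Fˣ) : F) ^ k =
      if n = (Q * l) % N then (N : F) * f0 n else 0 := by
    intro n hn
    have hn' : n < N := mem_range.1 hn
    rw [root_sum ω hN hp]
    by_cases he : n = (Q * l) % N
    · rw [if_pos he, if_pos]
      · ring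
      · have := Nat.div_add_mod (Q * l) N
        rw [← he] at this
        generalize Q * l / N = d at this
        refine ⟨-(d : ℤ), ?_⟩
        zify at this
        linarith
    · rw [if_neg he, if_neg, mul_zero]
      intro hd
      apply he
      have h3 : (n : ℤ) ≡ ((Q * l : ℕ) : ℤ) [ZMOD (N : ℤ)] := by
        apply Int.ModEq.symm
        apply (Int.modEq_iff_dvd).2
        push_cast
        exact hd
      have h5 : n ≡ Q * l [MOD N] := (Int.natCast_modEq_iff).1 h3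
      have h6 : n % N = (Q * l) % N := h5
      rw [← h6, Nat.mod_eq_of_lt hn']
  rw [sum_congr rfl e2, sum_ite_eq' (range N)]
  rw [if_pos (mem_range.2 (Nat.mod_lt _ hNpos))]

end Chain

end Vale.Agent.Lib.P338.F
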