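import Vale.Agent.Lib.P338.F.SimG

/-!
Preparing the input of the multiplier on the tapes that simulate it.
-/

namespace Vale.Agent.Lib.P338.F

open Vale.Agent.Lib.P338 Prog

section
variable {A : MTM} {X G : Type} (E : Emb A X G)

/-- The list of all simulated tapes. -/
noncomputable def allA : List (FT ⊕ X) := (@Finset.univ A.T A.fT).toList.map (st E)

theorem mem_allA (t : A.T) : st E t ∈ allA E := by
  simp only [allA, List.mem_map, Finset.mem_toList]
  exact ⟨t, @Finset.mem_univ _ A.fT t, rfl⟩

theorem not_mem_allA (a : FT) : (Sum.inl a : FT ⊕ X) ∉ allA E := by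
  simp [allA, st]

theorem isA_false {u : FT ⊕ X} (h : u ∉ allA E) : isA E u = false := by
  cases u with
  | inl a => rfl
  | inr x =>
    simp only [isA]
    cases hb : E.back x with
    | none => rfl
    | some t =>
      rw [E.tp_back x t hb] at h
      exact absurd (mem_allA E t) h

/-- Write a bit read from a working tape to a simulated tape. -/
def wrBit (s : Sym G) : Sym G := .a (E.sy (A.bitSym s.isOne)) false

/-- Set the origin flags on all simulated tapes. -/
def setFlags : Prog (FT ⊕ X) (Sym G) :=
  .act (isA E) fun s => (fun tt => .a (E.sy (dec E (s tt))) true, fun _ => .S)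

variable [DecidableEq X]

/-- Write one number, most significant bit first, on the input tape of the simulated machine. -/
noncomputable def wrNum (R W : FT) : Prog (FT ⊕ X) (Sym G) :=
  .seq (mvBy (o R) (o W) .R) (.seq (mv (o W) .L)
    (.seq (copyD (o R) (o W) .L (st E A.inp) .R (wrBit E)) (mv (o W) .R)))

/-- Prepare the input. -/
noncomputable def mulIn (R1 R2 W1 W2 : FT) : Prog (FT ⊕ X) (Sym G) :=
  .seq (wrNum E R1 W1) (.seq (act1 (st E A.inp) (fun _ => .a (E.sy A.sep) false) .R) (.seq (wrNum E R1 W2)
    (.seq (mvBy (o R2) (st E A.inp) .L) (.seq (mv (st E A.inp) .L) (setFlags E)))))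

/-- The big-endian bit list of a stretch of tape. -/
def bigE (τ : ℤ → Sym G) (n : ℕ) : List Bool :=
  (List.range n).map fun i : ℕ => (τ ((n : ℤ) - 1 - (i : ℤ))).isOne

@[simp] theorem length_bigE (τ : ℤ → Sym G) (n : ℕ) : (bigE τ n).length = n := by
  simp [bigE]

theorem val_cons (b : Bool) (l : List Bool) : val (b :: l) = b.toNat * 2 ^ l.length + val l := by
  have key : ∀ (l : List Bool) (acc : ℕ),
      l.foldl (fun acc b => 2 * acc + b.toNat) acc = acc * 2 ^ l.length + l.foldl (fun acc b => 2 * acc + b.toNat) 0 := by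
    intro l
    induction l with
    | nil => simp
    | cons x l ih =>
      intro acc
      simp only [List.foldl_cons, List.length_cons]
      rw [ih (2 * acc + x.toNat), ih (2 * 0 + x.toNat)]
      rw [pow_succ]
      ring
  unfold val
  simp only [List.foldl_cons]
  rw [key l (2 * 0 + b.toNat)]
  ring

theorem val_bigE (τ : ℤ → Sym G) (n : ℕ) : val (bigE τ n) = vl τ 0 n := by
  induction n with
  | zero => simp [bigE, val, vl]
  | succ n ih =>
    have : bigE τ (n + 1) = (τ (n : ℤ)).isOne :: bigE τ n := by
      simp only [bigE, List.range_succ_eq_map, List.map_cons, List.map_map]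
      congr 1
      · simp
      · apply List.map_congr_left
        intro i _
        simp only [Function.comp]
        congr 2
        push_cast [Nat.succ_eq_add_one]
        ring
    rw [this, val_cons, ih, vl_succ, length_bigE]
    simp
    ring

theorem wrNum_spec (R W : FT) (hW : R ≠ W) (c : TC X G) {n : ℕ}
    (hR : Ruler c (o R) n) (hH : c.head (o W) = 0) :
    ∃ c', Run (wrNum E R W) c c' (8 * n + 10) ∧ c'.head (o W) = 0 ∧ c'.tape (o W) = c.tape (o W) ∧
      c'.head (st E A.inp) = c.head (st E A.inp) + n ∧
      (∀ j : ℕ, j < n → c'.tape (st E A.inp) (c.head (st E A.inp) + j) = wrBit E (c.tape (o W) ((n : ℤ) - 1 - j))) ∧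
      (∀ x, ¬ (c.head (st E A.inp) ≤ x ∧ x < c.head (st E A.inp) + n) → c'.tape (st E A.inp) x = c.tape (st E A.inp) x) ∧
      Same [st E A.inp] c c' := by
  have hWR : (o R : FT ⊕ X) ≠ o W := by simpa using hW
  have hWi : (o W : FT ⊕ X) ≠ st E A.inp := by simp
  obtain ⟨c1, r1, a1, a2, a3⟩ := mvBy_spec (o R) (o W) .R hWR (by simp) c hR
  obtain ⟨c2, r2, b1, b2, b3⟩ := mv_spec (o W) .L c1
  have hR2 : Ruler c2 (o R) n := (hR.of_same a3 (by simpa using hWR)).of_same b3 (by simpa using hWR)
  obtain ⟨c3, r3, d1, d2, d3, d4, d5, d6⟩ := copyD_spec (o R) (o W) .L (st E A.inp) .R (wrBit E)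
    hWR (by simp) hWi (by simp) (by simp) c2 hR2
  obtain ⟨c4, r4, f1, f2, f3⟩ := mv_spec (o W) .R c3
  have nW : st E A.inp ∉ [(o W : FT ⊕ X)] := by simp
  have hi2 : c2.head (st E A.inp) = c.head (st E A.inp) := by rw [b3.head nW, a3.head nW]
  have ti2 : c2.tape (st E A.inp) = c.tape (st E A.inp) := by rw [b3.tape nW, a3.tape nW]
  have hW2 : c2.head (o W) = (n : ℤ) - 1 := by
    rw [b1, a1, hH]
    simp [Dir.toInt]
    ring
  refine ⟨c4, (r1.seq (r2.seq (r3.seq r4))).mono (by omega), ?_, ?_, ?_, ?_, ?_, ?_⟩
  · rw [f1, d1, hW2]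
    simp only [Dir.toInt]
    ring
  · rw [f2, d2, b2, a2]
  · rw [f3.head nW, d3, hi2]
    simp [Dir.toInt]
  · intro j hj
    have := d4 j hj
    rw [hi2, hW2, b2, a2] at this
    simp only [Dir.toInt, mul_one] at this
    rw [f3.tape nW, this]
    congr 2
    ring
  · intro x hx
    rw [f3.tape nW, d5, ti2]
    rw [hi2]
    intro j hj he
    simp only [Dir.toInt, mul_one] at he
    apply hx
    omega
  · refine Same.erase (R := o W) ((a3.trans (b3.trans (d6.trans f3))).mono (by
      intro t ht
      simp only [List.mem_append, List.mem_cons, List.not_mem_nil, or_false] at ht ⊢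
      tauto)) ?_ ?_
    · rw [f2, d2, b2, a2]
    · rw [f1, d1, hW2, hH]
      simp only [Dir.toInt]
      ring

/-- The contents of the simulated input tape before the flags are set. -/
def wordC (τ1 τ2 : ℤ → Sym G) (b : ℤ) (n : ℕ) (x : ℤ) : Sym G :=
  if b ≤ x ∧ x < b + n then wrBit E (τ1 ((n : ℤ) - 1 - (x - b)))
  else if x = b + n then .a (E.sy A.sep) false
  else if b + n + 1 ≤ x ∧ x < b + 2 * n + 1 then wrBit E (τ2 ((n : ℤ) - 1 - (x - b - n - 1)))
  else .blank

theorem word_getD (x y : List Bool) {n : ℕ} (hx : x.length = n) (hy : y.length = n) (i : ℕ) :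
    (x.map A.bitSym ++ [A.sep] ++ y.map A.bitSym).getD i A.blank =
      if i < n then A.bitSym (x.getD i false) else if i = n then A.sep
      else if i < 2 * n + 1 then A.bitSym (y.getD (i - n - 1) false) else A.blank := by
  subst hx
  by_cases h1 : i < x.length
  · rw [if_pos h1]
    simp [List.getD, List.getElem?_append, h1]
  · rw [if_neg h1]
    by_cases h2 : i = x.length
    · subst h2
      simp [List.getD, List.getElem?_append]
    · rw [if_neg h2]
      have hk : i - x.length = (i - x.length - 1) + 1 := by omega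
      by_cases h3 : i < 2 * x.length + 1
      · rw [if_pos h3]
        have e1 : i - x.length - 1 < y.length := by omega
        simp [List.getD, List.getElem?_append, h1]
        rw [hk]
        simp [e1]
      · rw [if_neg h3]
        have e1 : y.length ≤ i - x.length - 1 := by omega
        simp [List.getD, List.getElem?_append, h1]
        rw [hk]
        simp [e1]

theorem bigE_getD (τ : ℤ → Sym G) (n i : ℕ) (hi : i < n) :
    (bigE τ n).getD i false = (τ ((n : ℤ) - 1 - i)).isOne := by
  simp [bigE, List.getD, hi]

theorem mulIn_spec (R1 R2 W1 W2 : FT) (hd : [R1, R2, W1, W2].Nodup) (c : TC X G) {n : ℕ} (hn : 1 ≤ n)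
    (hR : Ruler c (o R1) n) (hR4 : Ruler c (o R2) (2 * n))
    (h1 : c.head (o W1) = 0) (h2 : c.head (o W2) = 0)
    (hB : ∀ t x, c.tape (st E t) x = .blank) :
    ∃ c', Run (mulIn E R1 R2 W1 W2) c c' (32 * n + 32) ∧
      SimT E c' (A.init ((bigE (c.tape (o W1)) n).map A.bitSym ++ [A.sep] ++ (bigE (c.tape (o W2)) n).map A.bitSym))
        (fun t => c.head (st E t)) (fun t => c.head (st E t))
        (fun t => if t = A.inp then c.head (st E t) + 2 * n + 1 else c.head (st E t) + 1) ∧
      Same (allA E) c c' := by
  simp only [List.nodup_cons, List.mem_cons, List.not_mem_nil, or_false, not_or] at hd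
  obtain ⟨⟨h12, h13, h14⟩, ⟨h23, h24⟩, h34, _⟩ := hd
  have n1 : ∀ a : FT, (Sum.inl a : FT ⊕ X) ∉ [st E A.inp] := by simp
  obtain ⟨c1, r1, a1, a2, a3, a4, a5, a6⟩ := wrNum_spec E R1 W1 h13 c hR h1
  obtain ⟨c2, r2, b1, b2, b3⟩ := act1_spec (st E A.inp) (fun _ => .a (E.sy A.sep) false) .R c1
  obtain ⟨c3, r3, d1, d2, d3, d4, d5, d6⟩ := wrNum_spec E R1 W2 h14 c2
    ((hR.of_same a6 (n1 _)).of_same b3 (n1 _))
    (by rw [b3.head (n1 _), a6.head (n1 _), h2])
  obtain ⟨c4, r4, f1, f2, f3⟩ := mvBy_spec (o R2) (st E A.inp) .L (by simp) (by simp) c3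
    (((hR4.of_same a6 (n1 _)).of_same b3 (n1 _)).of_same d6 (n1 _))
  obtain ⟨c5, r5, g1, g2, g3⟩ := mv_spec (st E A.inp) .L c4
  set b := c.head (st E A.inp) with hb
  have hd2 : c2.head (st E A.inp) = b + n + 1 := by
    rw [b1, a3]
    simp [Dir.toInt]
  have hd3 : c3.head (st E A.inp) = b + n + 1 + n := by rw [d3, hd2]
  have hd4 : c4.head (st E A.inp) = b + 1 := by
    rw [f1, hd3]
    simp only [Dir.toInt]
    push_cast
    ring
  have hd5 : c5.head (st E A.inp) = b := by
    rw [g1, hd4]
    simp [Dir.toInt]
  have t1 : c3.tape (o W1) = c.tape (o W1) := by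
    rw [d6.tape (n1 _), b3.tape (n1 _), a6.tape (n1 _)]
  have tt5 : c5.tape (st E A.inp) = wordC E (c.tape (o W1)) (c.tape (o W2)) b n := by
    funext x
    rw [g2, f2]
    unfold wordC
    by_cases hx1 : b ≤ x ∧ x < b + n
    · rw [if_pos hx1, d5 x (by rw [hd2]; omega), b2, if_neg (by rw [a3]; omega)]
      have := a4 (x - b).toNat (by omega)
      have e1 : b + ((x - b).toNat : ℤ) = x := by omega
      have e2 : ((x - b).toNat : ℤ) = x - b := by omega
      rw [e1, e2] at this
      exact this
    · rw [if_neg hx1]
      by_cases hx2 : x = b + n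
      · rw [if_pos hx2, d5 x (by rw [hd2]; omega), b2, if_pos (by rw [a3]; exact hx2)]
      · rw [if_neg hx2]
        by_cases hx3 : b + n + 1 ≤ x ∧ x < b + 2 * n + 1
        · rw [if_pos hx3]
          have := d4 (x - b - n - 1).toNat (by omega)
          rw [hd2] at this
          have e1 : b + n + 1 + ((x - b - n - 1).toNat : ℤ) = x := by omega
          have e2 : ((x - b - n - 1).toNat : ℤ) = x - b - n - 1 := by omega
          rw [e1, e2] at this
          rw [this, b3.tape (n1 _), a6.tape (n1 _)]
        · rw [if_neg hx3, d5 x (by rw [hd2]; omega), b2, if_neg (by rw [a3]; omega), a5 x (by omega), hB]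
  -- other simulated tapes are unchanged
  have frT : ∀ t, t ≠ A.inp → c5.tape (st E t) = c.tape (st E t) ∧ c5.head (st E t) = c.head (st E t) := by
    intro t ht
    have hne : (st E t : FT ⊕ X) ∉ [st E A.inp] := by
      simp only [List.mem_singleton, Sum.inr.injEq]
      exact fun h => ht (tp_inj E h)
    exact ((a6.trans (b3.trans (d6.trans (f3.trans g3)))).mono (by simp)) _ hne
  have hact : Exec (setFlags E) c5 _ 1 := Exec.act
  set c6 := c5.apply (clampW (isA E) c5.read ((fun s => ((fun tt => Sym.a (E.sy (dec E (s tt))) true, fun _ => Dir.S) : (FT ⊕ X → Sym G) × (FT ⊕ X → Dir))) c5.read).1)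
    (clampD (isA E) ((fun s => ((fun tt => Sym.a (E.sy (dec E (s tt))) true, fun _ => Dir.S) : (FT ⊕ X → Sym G) × (FT ⊕ X → Dir))) c5.read).2) with hc6
  have hh6 : ∀ t, c6.head t = c5.head t := by
    intro t
    simp only [hc6, TS.apply, clampD]
    split_ifs <;> simp [Dir.toInt]
  have ht6 : ∀ t x, c6.tape (st E t) x =
      if x = c5.head (st E t) then .a (E.sy (dec E (c5.tape (st E t) x))) true else c5.tape (st E t) x := by
    intro t x
    simp only [hc6, TS.apply, clampW, isA_st, if_true, TS.read]
    by_cases hx : x = c5.head (st E t)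
    · rw [if_pos hx, if_pos hx, hx]
    · rw [if_neg hx, if_neg hx]
  have ho6 : ∀ u, u ∉ allA E → c6.tape u = c5.tape u := by
    intro u hu
    funext x
    simp only [hc6, TS.apply, clampW, isA_false E hu, TS.read]
    by_cases hx : x = c5.head u
    · simp [hx]
    · simp [hx]
  refine ⟨c6, ?_, ?_, ?_⟩
  · refine (r1.seq (r2.seq (r3.seq (r4.seq (r5.seq ⟨1, le_rfl, hact⟩))))).mono ?_
    omega
  · intro t
    have hinit : ∀ i, (A.init ((bigE (c.tape (o W1)) n).map A.bitSym ++ [A.sep] ++ (bigE (c.tape (o W2)) n).map A.bitSym)).tape t i =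
        if t = A.inp ∧ 0 ≤ i then ((bigE (c.tape (o W1)) n).map A.bitSym ++ [A.sep] ++ (bigE (c.tape (o W2)) n).map A.bitSym).getD i.toNat A.blank else A.blank := fun _ => rfl
    by_cases ht : t = A.inp
    · subst ht
      have hbb : c.head (st E A.inp) = b := rfl
      have hc5 : c5.head (st E A.inp) = b := hd5
      have tc5 : ∀ x, c5.tape (st E A.inp) x = wordC E (c.tape (o W1)) (c.tape (o W2)) b n x := fun x => by
        rw [show (st E A.inp : FT ⊕ X) = st E A.inp from rfl, tt5]
      have hdec : ∀ x, dec E (c6.tape (st E A.inp) x) = dec E (wordC E (c.tape (o W1)) (c.tape (o W2)) b n x) := by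
        intro x
        rw [ht6, tc5]
        by_cases hx : x = c5.head (st E A.inp)
        · rw [if_pos hx]; exact dec_a E _ _
        · rw [if_neg hx]
      beta_reduce
      simp only [hbb, if_true]
      refine ⟨?_, ?_, ?_, ?_, ?_, ?_, ?_⟩
      · intro i
        rw [hdec, hinit]
        by_cases hi0 : 0 ≤ i
        · rw [if_pos ⟨rfl, hi0⟩, word_getD _ _ (length_bigE _ _) (length_bigE _ _)]
          have hic : ((i.toNat : ℕ) : ℤ) = i := by omega
          unfold wordC
          by_cases hi1 : i < n
          · have c1 : b ≤ b + i ∧ b + i < b + n := by omega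
            have c2 : i.toNat < n := by omega
            rw [if_pos c1, if_pos c2, bigE_getD _ _ _ c2, hic]
            have e : (n : ℤ) - 1 - (b + i - b) = (n : ℤ) - 1 - i := by ring
            rw [e]
            exact dec_a E _ _
          · have c1 : ¬ (b ≤ b + i ∧ b + i < b + n) := by omega
            have c2 : ¬ i.toNat < n := by omega
            rw [if_neg c1, if_neg c2]
            by_cases hi2 : i = n
            · have c3 : b + i = b + n := by omega
              have c4 : i.toNat = n := by omega
              rw [if_pos c3, if_pos c4]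
              exact dec_a E _ _
            · have c3 : ¬ b + i = b + n := by omega
              have c4 : ¬ i.toNat = n := by omega
              rw [if_neg c3, if_neg c4]
              by_cases hi3 : i < 2 * n + 1
              · have c5' : b + n + 1 ≤ b + i ∧ b + i < b + 2 * n + 1 := by omega
                have c6' : i.toNat < 2 * n + 1 := by omega
                have c7 : i.toNat - n - 1 < n := by omega
                rw [if_pos c5', if_pos c6', bigE_getD _ _ _ c7]
                have e : (n : ℤ) - 1 - (b + i - b - n - 1) = (n : ℤ) - 1 - ((i.toNat - n - 1 : ℕ) : ℤ) := by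
                  omega
                rw [e]
                exact dec_a E _ _
              · have c5' : ¬ (b + n + 1 ≤ b + i ∧ b + i < b + 2 * n + 1) := by omega
                have c6' : ¬ i.toNat < 2 * n + 1 := by omega
                rw [if_neg c5', if_neg c6']
                rfl
        · unfold wordC
          have c1 : ¬ (b ≤ b + i ∧ b + i < b + n) := by omega
          have c3 : ¬ b + i = b + n := by omega
          have c5' : ¬ (b + n + 1 ≤ b + i ∧ b + i < b + 2 * n + 1) := by omega
          rw [if_neg c1, if_neg c3, if_neg c5', if_neg (fun h => hi0 h.2)]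
          rfl
      · rw [hh6, hd5]
        simp [MTM.init]
      · rw [hh6, hd5]
        omega
      · rw [hh6, hd5]
        omega
      · intro x hx1 hx2
        rw [ht6, tc5]
        by_cases hx : x = c5.head (st E A.inp)
        · rw [if_pos hx]; rfl
        · rw [if_neg hx]
          unfold wordC
          by_cases hx3 : b ≤ x ∧ x < b + n
          · rw [if_pos hx3]; rfl
          · rw [if_neg hx3]
            by_cases hx4 : x = b + n
            · rw [if_pos hx4]; rfl
            · have c5' : b + n + 1 ≤ x ∧ x < b + 2 * n + 1 := by omega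
              rw [if_neg hx4, if_pos c5']; rfl
      · intro x hx
        have c0 : ¬ x = c5.head (st E A.inp) := by rw [hc5]; omega
        rw [ht6, tc5, if_neg c0]
        unfold wordC
        have c1 : ¬ (b ≤ x ∧ x < b + n) := by omega
        have c3 : ¬ x = b + n := by omega
        have c5' : ¬ (b + n + 1 ≤ x ∧ x < b + 2 * n + 1) := by omega
        rw [if_neg c1, if_neg c3, if_neg c5']
      · intro x
        rw [ht6, tc5]
        by_cases hx : x = c5.head (st E A.inp)
        · rw [if_pos hx, flagOf_a]
          simp only [true_iff]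
          rw [hx, hc5]
        · rw [if_neg hx]
          rw [hc5] at hx
          simp only [hx, iff_false]
          unfold wordC
          by_cases hx3 : b ≤ x ∧ x < b + n
          · rw [if_pos hx3]; simp [wrBit]
          · rw [if_neg hx3]
            by_cases hx4 : x = b + n
            · rw [if_pos hx4]; simp
            · rw [if_neg hx4]
              by_cases hx5 : b + n + 1 ≤ x ∧ x < b + 2 * n + 1
              · rw [if_pos hx5]; simp [wrBit]
              · rw [if_neg hx5]; simp
    · obtain ⟨e1, e2⟩ := frT t ht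
      beta_reduce
      simp only [ht, if_false]
      refine ⟨?_, ?_, ?_, ?_, ?_, ?_, ?_⟩
      · intro i
        rw [hinit, if_neg (fun h : t = A.inp ∧ 0 ≤ i => ht h.1), ht6, e1, e2, hB]
        by_cases hi : c.head (st E t) + i = c.head (st E t)
        · rw [if_pos hi]; exact dec_a E _ _
        · rw [if_neg hi]; rfl
      · rw [hh6, e2]
        simp [MTM.init]
      · rw [hh6, e2]
        omega
      · rw [hh6, e2]
        omega
      · intro x hx1 hx2
        have c0 : x = c.head (st E t) := by omega
        rw [ht6, e2, if_pos c0]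
        rfl
      · intro x hx
        have c0 : ¬ x = c.head (st E t) := by omega
        rw [ht6, e2, if_neg c0, e1, hB]
      · intro x
        rw [ht6, e2, e1, hB]
        by_cases hx : x = c.head (st E t)
        · rw [if_pos hx, flagOf_a]
          simp [hx]
        · rw [if_neg hx]
          simp [hx]
  · intro t ht
    have e1 : Same [st E A.inp] c c5 := (a6.trans (b3.trans (d6.trans (f3.trans g3)))).mono (by simp)
    have e0 : t ∉ [st E A.inp] := by
      intro hm
      simp only [List.mem_singleton] at hm
      rw [hm] at ht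
      exact ht (mem_allA E _)
    rw [ho6 t ht, hh6]
    exact e1 _ e0

end

end Vale.Agent.Lib.P338.F
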