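import Vale.Agent.Lib.P338.F.Flags

/-!
Powers of an element and the test of its multiplicative order.
-/

namespace Vale.Agent.Lib.P338.F

open Vale.Agent.Lib.P338 Prog

section
variable {X G : Type} {q : ℕ} [hq : Fact q.Prime] {η : ZMod q}

/-- The unit element in registers. -/
theorem elt_eq_one_iff {K : ℕ} {c : TC X G} (hL : LtE K q c .ZA .ZB) (h1 : vr K c .One = 1) (h0 : vr K c .Zer = 0) :
    (vr K c .ZA = vr K c .One ∧ vr K c .ZB = vr K c .Zer) ↔ elt K q η c .ZA .ZB = 1 := by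
  have hq2 : 2 ≤ q := hq.out.two_le
  rw [h1, h0]
  constructor
  · rintro ⟨e1, e2⟩
    simp only [elt]
    rw [e1, e2]
    exact mkE_one_zero q η
  · intro e
    simp only [elt] at e
    rw [← mkE_one_zero q η] at e
    exact mkE_inj (η := η) hL.1 hL.2 (by omega) (by omega) e

variable [DecidableEq X]

/-- The body of the order test. -/
def ordB (sm : Prog (FT ⊕ X) (Sym G)) (Xa Xb : FT) : Prog (FT ⊕ X) (Sym G) :=
  .seq (mulZ sm .ZA .ZB Xa Xb) (.seq isOneZ (.ite (fun s => (s (o .Fl)).isOne) skip (setF .PA true)))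

/-- The last step of the order test. -/
def ordE (sm : Prog (FT ⊕ X) (Sym G)) (Xa Xb : FT) : Prog (FT ⊕ X) (Sym G) :=
  .seq (mulZ sm .ZA .ZB Xa Xb) (.seq isOneZ (.ite (fun s => (s (o .Fl)).isOne) (setF .PA true) skip))

/-- The flag `PA` stays false if and only if the element has order `n + 1`, where `n` is the length of `R`. -/
def ordT (sm : Prog (FT ⊕ X) (Sym G)) (Xa Xb R : FT) : Prog (FT ⊕ X) (Sym G) :=
  .seq (cpy .RS .One .ZA) (.seq (cpy .RS .Zer .ZB) (.seq (setF .PA false)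
    (.seq (forR (o R) (ordB sm Xa Xb)) (ordE sm Xa Xb))))

/-- The tapes changed by the order test. -/
abbrev oT' : List FT := .PA :: .Fl :: mT

/-- Registers which may be the argument of a test. -/
def okX (A : FT) : Bool := isReg A && !(decide (A ∈ oT'))

theorem not_of_sub {A : FT} {l l' : List FT} (h : A ∉ l') (hl : ∀ a ∈ l, a ∈ l') : A ∉ l := fun hm => h (hl A hm)

/-- The cost of a step of the order test. -/
def OBC (K SC : ℕ) : ℕ := MZ K SC + (80 * K + 97) + 2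

/-- The cost of the order test. -/
def OTC (K SC n : ℕ) : ℕ := (12 * K + 12) + ((12 * K + 12) + (1 + ((n * (OBC K SC + 4) + 4) + OBC K SC)))

/-- The invariant of the order test. -/
structure OrdI (K L W q : ℕ) (η : ZMod q) (x : Rq q η) (Xa Xb R : FT) (c0 : TC X G) (i : ℕ) (c : TC X G) : Prop where
  fe : FE K L W q η c
  lt : LtE K q c .ZA .ZB
  z : elt K q η c .ZA .ZB = x ^ i
  bad : flg c .PA = true ↔ ∃ k, 0 < k ∧ k ≤ i ∧ x ^ k = 1
  fr : Fr oT' [R] c0 c

theorem ordB_step {K L W SC : ℕ} {sm : Prog (FT ⊕ X) (Sym G)} (ap : AP sm K L SC q) {x : Rq q η} {Xa Xb R : FT} {c0 c : TC X G} {i : ℕ}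
    (hXa : okX Xa = true) (hXb : okX Xb = true) (hl : LtE K q c Xa Xb) (hx : elt K q η c Xa Xb = x) (h1 : vr K c .One = 1)
    (h0 : vr K c .Zer = 0) (hI : OrdI K L W q η x Xa Xb R c0 i c) :
    ∃ c', Run (ordB sm Xa Xb) c c' (OBC K SC) ∧ OrdI K L W q η x Xa Xb R c0 (i + 1) c' ∧ Fr oT' [] c c' := by
  simp only [okX, Bool.and_eq_true, Bool.not_eq_true', decide_eq_false_iff_not] at hXa hXb
  have hg : Xa ∉ [FT.FA, .FB, .GA, .GB] ∧ Xb ∉ [FT.FA, .FB, .GA, .GB] :=
    ⟨not_of_sub hXa.2 (by decide), not_of_sub hXb.2 (by decide)⟩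
  obtain ⟨c1, r1, h2, l2, e2, f2⟩ := mulZ_spec ap .ZA .ZB Xa Xb ⟨rfl, rfl, hXa.1, hXb.1, by decide, by decide, hg.1, hg.2⟩ hI.fe hI.lt hl
  obtain ⟨c2, r2, a3, v3, f3⟩ := isOneZ_spec h2.toAlu
  have ev : vr K c1 .One = 1 := by rw [vr_of_fr f2 (by decide)]; exact h1
  have ev0 : vr K c1 .Zer = 0 := by rw [vr_of_fr f2 (by decide)]; exact h0
  have key : flg c2 .Fl = false ↔ x ^ (i + 1) = 1 := by
    rw [v3, elt_eq_one_iff (η := η) l2 ev ev0, e2, hI.z, hx, pow_succ]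
  have hcond : ∃ c3, Run (.ite (fun s => (s (o .Fl)).isOne) skip (setF .PA true) : Prog (FT ⊕ X) (Sym G)) c2 c3 2 ∧
      (flg c3 .PA = true ↔ (flg c .PA = true ∨ x ^ (i + 1) = 1)) ∧ Fr [.PA] [] c2 c3 := by
    have hPA : flg c2 .PA = flg c .PA :=
      flg_of_fr (f2.nil_tr f3 (l2 := [.Fl, .Tz, .Cy, .FA, .FB, .GA, .GB, .Y0, .Y1, .Y2, .Y3, .ZA, .ZB, .X1, .X2, .X3]) (by simp)) (by decide)
    cases hb : flg c2 .Fl
    · have h3 := key.1 hb
      obtain ⟨c3, r3, b1, _, f⟩ := setF_spec .PA true c2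
      refine ⟨c3, (Run.iteF (g := fun s => (s (o .Fl)).isOne) (a := skip) hb r3).mono (by omega), ?_, f⟩
      rw [b1]
      simp [h3]
    · have h3 : ¬ x ^ (i + 1) = 1 := by
        intro h4
        rw [key.2 h4] at hb
        exact absurd hb (by simp)
      refine ⟨c2, (Run.iteT (g := fun s => (s (o .Fl)).isOne) (b := setF .PA true) hb (skip_spec c2)).mono (by omega), ?_, Fr.refl _ _ _⟩
      rw [hPA]
      simp [h3]
  obtain ⟨c3, r3, b1, f4⟩ := hcond
  have f5 : Fr oT' [] c c3 := f2.nil_tr (f3.nil_tr f4 (l2 := [.Fl, .Tz, .Cy, .PA]) (by simp)) (by simp)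
  refine ⟨c3, (r1.seq (r2.seq r3)).mono ?_, ?_, f5⟩
  · unfold OBC
    omega
  · refine ⟨hI.fe.of_fr f5 (by decide) ?_ (by decide), ?_, ?_, ?_, ?_⟩
    · have := cy_of_fr a3.cy f4 (by decide)
      exact this
    · exact l2.of_fr (f3.nil_tr f4 (l2 := [.Fl, .Tz, .Cy, .PA]) (by simp)) (by decide) (by decide)
    · rw [elt_of_fr (f3.nil_tr f4 (l2 := [.Fl, .Tz, .Cy, .PA]) (by simp)) (by decide) (by decide), e2, hI.z, hx, pow_succ]
    · rw [b1, hI.bad]
      constructor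
      · rintro (⟨k, k1, k2, k3⟩ | h)
        · exact ⟨k, k1, by omega, k3⟩
        · exact ⟨i + 1, by omega, le_rfl, h⟩
      · rintro ⟨k, k1, k2, k3⟩
        by_cases hk : k ≤ i
        · exact Or.inl ⟨k, k1, hk, k3⟩
        · have : k = i + 1 := by omega
          subst this
          exact Or.inr k3
    · exact hI.fr.tr f5 (by simp) (by simp)

theorem ordT_spec {K L W SC : ℕ} {sm : Prog (FT ⊕ X) (Sym G)} (ap : AP sm K L SC q) (Xa Xb R : FT) (hXa : okX Xa = true) (hXb : okX Xb = true)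
    (hR : na R = true) {n : ℕ} {c : TC X G} (h : FE K L W q η c) (hr : Ruler c (o R) n) (hL : LtE K q c Xa Xb) (h1 : vr K c .One = 1)
    (h0 : vr K c .Zer = 0) :
    ∃ c', Run (ordT sm Xa Xb R) c c' (OTC K SC n) ∧ FE K L W q η c' ∧
      (flg c' .PA = false ↔ OrderIs (elt K q η c Xa Xb) (n + 1)) ∧ Fr oT' [] c c' := by
  have hq2 : 2 ≤ q := hq.out.two_le
  set x : Rq q η := elt K q η c Xa Xb with hx
  simp only [okX, Bool.and_eq_true, Bool.not_eq_true', decide_eq_false_iff_not] at hXa hXb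
  have hXa' : okX Xa = true := by simp [okX, hXa.1, hXa.2]
  have hXb' : okX Xb = true := by simp [okX, hXb.1, hXb.2]
  obtain ⟨c1, r1, a1, v1, _, f1⟩ := mov_spec .One .ZA rfl rfl (by decide) h.toAlu
  obtain ⟨c2, r2, a2, v2, _, f2⟩ := mov_spec .Zer .ZB rfl rfl (by decide) a1
  obtain ⟨c3, r3, b3, _, f3⟩ := setF_spec .PA false c2
  have f13 : Fr [.ZA, .ZB, .PA] [] c c3 := f1.nil_tr (f2.nil_tr f3 (l2 := [.ZB, .PA]) (by simp)) (by simp)
  have fe3 : FE K L W q η c3 := h.of_fr f13 (by decide) (cy_of_fr h.cy f13 (by decide)) (by decide)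
  have hnm : ∀ A : FT, A ∉ oT' → A ∉ [FT.ZA, .ZB, .PA] := fun A hA => not_of_sub hA (by decide)
  have eX3 : elt K q η c3 Xa Xb = x := elt_of_fr f13 (hnm _ hXa.2) (hnm _ hXb.2)
  have lX3 : LtE K q c3 Xa Xb := hL.of_fr f13 (hnm _ hXa.2) (hnm _ hXb.2)
  have i3 : OrdI K L W q η x Xa Xb R c3 0 c3 := by
    refine ⟨fe3, ?_, ?_, ?_, Fr.refl _ _ _⟩
    · have e1 : vr K c3 .ZA = 1 := by
        rw [vr_of_fr (f2.nil_tr f3 (l2 := [.ZB, .PA]) (by simp)) (by decide), v1]
        exact h1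
      have e2 : vr K c3 .ZB = 0 := by
        rw [vr_of_fr f3 (by decide), v2, vr_of_fr f1 (by decide)]
        exact h0
      exact ⟨by rw [e1]; omega, by rw [e2]; omega⟩
    · have e1 : vr K c3 .ZA = 1 := by
        rw [vr_of_fr (f2.nil_tr f3 (l2 := [.ZB, .PA]) (by simp)) (by decide), v1]
        exact h1
      have e2 : vr K c3 .ZB = 0 := by
        rw [vr_of_fr f3 (by decide), v2, vr_of_fr f1 (by decide)]
        exact h0
      simp only [elt, pow_zero]
      rw [e1, e2]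
      exact mkE_one_zero q η
    · rw [b3]
      simp only [Bool.false_eq_true, false_iff, not_exists, not_and]
      intro k k1 k2
      omega
  have hr3 : Ruler c3 (o R) n := hr.of_fr f13 (by
    intro hm
    simp only [List.mem_cons, List.not_mem_nil, or_false] at hm
    rcases hm with rfl | rfl | rfl <;> exact absurd hR (by decide)) (by simp)
  have hne : R ∉ oT' := by
    intro hm
    simp only [List.mem_cons, List.not_mem_nil, or_false] at hm
    rcases hm with rfl | rfl | rfl | rfl | rfl | rfl | rfl | rfl | rfl | rfl | rfl | rfl | rfl | rfl | rfl | rfl | rfl <;> exact absurd hR (by decide)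
  have v13 : ∀ A : FT, A ∉ oT' → ∀ c' : TC X G, Fr oT' [R] c3 c' → vr K c' A = vr K c A := by
    intro A hA c' f
    rw [vr_of_fr f hA, vr_of_fr f13 (hnm A hA)]
  obtain ⟨c4, i4, hr4, r4⟩ := forU (OrdI K L W q η x Xa Xb R c3) (OBC K SC) hr3 i3
    (by
      intro i c c' hi fr
      refine ⟨hi.fe.of_gen fr (by simp) ?_ (by decide), hi.lt.of_fr fr (by simp) (by simp), ?_, ?_, hi.fr.tr fr (by simp) (by simp)⟩
      · simpa using hR
      · rw [elt_of_fr fr (by simp) (by simp)]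
        exact hi.z
      · have e : flg c' .PA = flg c .PA := by
          simp only [flg, TS.read]
          rw [fr.tape (by simp), fr.head (by
            intro hm
            simp only [List.mem_singleton] at hm
            rw [← hm] at hR
            exact absurd hR (by decide))]
        rw [e]
        exact hi.bad)
    (by
      intro i _ c hc1 hc2 hi
      have hx' : elt K q η c Xa Xb = x := by
        rw [elt_of_fr hi.fr (by simpa using hXa.2) (by simpa using hXb.2)]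
        exact eX3
      have hl' : LtE K q c Xa Xb := lX3.of_fr hi.fr (by simpa using hXa.2) (by simpa using hXb.2)
      have ev1 : vr K c .One = 1 := by rw [v13 _ (by decide) c hi.fr]; exact h1
      have ev0 : vr K c .Zer = 0 := by rw [v13 _ (by decide) c hi.fr]; exact h0
      obtain ⟨c', r, i', f⟩ := ordB_step ap hXa' hXb' hl' hx' ev1 ev0 hi
      exact ⟨c', r, i', f.tape hne, f.head (by simp)⟩)
  have hx4 : elt K q η c4 Xa Xb = x := by
    rw [elt_of_fr i4.fr (by simpa using hXa.2) (by simpa using hXb.2)]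
    exact eX3
  have hl4 : LtE K q c4 Xa Xb := lX3.of_fr i4.fr (by simpa using hXa.2) (by simpa using hXb.2)
  have ev1 : vr K c4 .One = 1 := by rw [v13 _ (by decide) c4 i4.fr]; exact h1
  have ev0 : vr K c4 .Zer = 0 := by rw [v13 _ (by decide) c4 i4.fr]; exact h0
  have fr4 : Fr oT' [] c3 c4 := i4.fr.fixR hr3 hr4
  -- the last step
  have hg : Xa ∉ [FT.FA, .FB, .GA, .GB] ∧ Xb ∉ [FT.FA, .FB, .GA, .GB] :=
    ⟨not_of_sub hXa.2 (by decide), not_of_sub hXb.2 (by decide)⟩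
  obtain ⟨c5, r5, h5, l5, e5, f5⟩ := mulZ_spec ap .ZA .ZB Xa Xb ⟨rfl, rfl, hXa.1, hXb.1, by decide, by decide, hg.1, hg.2⟩ i4.fe i4.lt hl4
  obtain ⟨c6, r6, a6, v6, f6⟩ := isOneZ_spec h5.toAlu
  have ev5 : vr K c5 .One = 1 := by rw [vr_of_fr f5 (by decide)]; exact ev1
  have ev50 : vr K c5 .Zer = 0 := by rw [vr_of_fr f5 (by decide)]; exact ev0
  have key : flg c6 .Fl = false ↔ x ^ (n + 1) = 1 := by
    rw [v6, elt_eq_one_iff (η := η) l5 ev5 ev50, e5, i4.z, hx4, pow_succ]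
  have hPA : flg c6 .PA = flg c4 .PA :=
    flg_of_fr (f5.nil_tr f6 (l2 := [.Fl, .Tz, .Cy, .FA, .FB, .GA, .GB, .Y0, .Y1, .Y2, .Y3, .ZA, .ZB, .X1, .X2, .X3]) (by simp)) (by decide)
  have hcond : ∃ c7, Run (.ite (fun s => (s (o .Fl)).isOne) (setF .PA true) skip : Prog (FT ⊕ X) (Sym G)) c6 c7 2 ∧
      (flg c7 .PA = false ↔ (flg c4 .PA = false ∧ x ^ (n + 1) = 1)) ∧ Fr [.PA] [] c6 c7 := by
    cases hb : flg c6 .Fl
    · have h3 := key.1 hb
      refine ⟨c6, (Run.iteF (g := fun s => (s (o .Fl)).isOne) (a := setF .PA true) hb (skip_spec c6)).mono (by omega), ?_, Fr.refl _ _ _⟩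
      rw [hPA]
      simp [h3]
    · have h3 : ¬ x ^ (n + 1) = 1 := by
        intro h4
        rw [key.2 h4] at hb
        exact absurd hb (by simp)
      obtain ⟨c7, r7, b1, _, f⟩ := setF_spec .PA true c6
      refine ⟨c7, (Run.iteT (g := fun s => (s (o .Fl)).isOne) (b := skip) hb r7).mono (by omega), ?_, f⟩
      rw [b1]
      simp [h3]
  obtain ⟨c7, r7, b7, f7⟩ := hcond
  have f8 : Fr oT' [] c4 c7 := f5.nil_tr (f6.nil_tr f7 (l2 := [.Fl, .Tz, .Cy, .PA]) (by simp)) (by simp)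
  have f9 : Fr oT' [] c c7 := f13.nil_tr (fr4.nil_tr f8 (l2 := oT') (by simp)) (by simp)
  refine ⟨c7, ?_, h.of_fr f9 (by decide) (cy_of_fr a6.cy f7 (by decide)) (by decide), ?_, f9⟩
  · refine (r1.seq (r2.seq (r3.seq ((r4.seq (r5.seq (r6.seq r7))))))).mono ?_
    unfold OTC OBC
    omega
  · rw [b7]
    have e3 : flg c4 .PA = false ↔ ∀ k, 0 < k → k ≤ n → x ^ k ≠ 1 := by
      rw [← Bool.not_eq_true, i4.bad]
      simp only [not_exists, not_and, ne_eq]
    rw [e3]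
    constructor
    · rintro ⟨a, b⟩
      refine ⟨b, ?_⟩
      intro k k1 k2
      exact a k k1 (by omega)
    · rintro ⟨a, b⟩
      refine ⟨?_, a⟩
      intro k k1 k2
      exact b k k1 (by omega)

/-- A power of an element. -/
def powL (sm : Prog (FT ⊕ X) (Sym G)) (Xa Xb R : FT) : Prog (FT ⊕ X) (Sym G) :=
  .seq (cpy .RS .One .ZA) (.seq (cpy .RS .Zer .ZB) (forR (o R) (mulZ sm .ZA .ZB Xa Xb)))

/-- The cost of a power. -/
def POC (K SC n : ℕ) : ℕ := (12 * K + 12) + ((12 * K + 12) + (n * (MZ K SC + 4) + 4))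

theorem powL_spec {K L W SC : ℕ} {sm : Prog (FT ⊕ X) (Sym G)} (ap : AP sm K L SC q) (Xa Xb R : FT) (hXa : okX Xa = true) (hXb : okX Xb = true)
    (hR : na R = true) {n : ℕ} {c : TC X G} (h : FE K L W q η c) (hr : Ruler c (o R) n) (hL : LtE K q c Xa Xb) (h1 : vr K c .One = 1)
    (h0 : vr K c .Zer = 0) :
    ∃ c', Run (powL sm Xa Xb R) c c' (POC K SC n) ∧ FE K L W q η c' ∧ LtE K q c' .ZA .ZB ∧
      elt K q η c' .ZA .ZB = (elt K q η c Xa Xb) ^ n ∧ Fr mT [] c c' := by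
  have hq2 : 2 ≤ q := hq.out.two_le
  set x : Rq q η := elt K q η c Xa Xb with hx
  simp only [okX, Bool.and_eq_true, Bool.not_eq_true', decide_eq_false_iff_not] at hXa hXb
  have hnm1 : Xa ∉ mT := fun hm => hXa.2 (List.mem_cons_of_mem _ (List.mem_cons_of_mem _ hm))
  have hnm2 : Xb ∉ mT := fun hm => hXb.2 (List.mem_cons_of_mem _ (List.mem_cons_of_mem _ hm))
  have hg : Xa ∉ [FT.FA, .FB, .GA, .GB] ∧ Xb ∉ [FT.FA, .FB, .GA, .GB] :=
    ⟨not_of_sub hXa.2 (by decide), not_of_sub hXb.2 (by decide)⟩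
  obtain ⟨c1, r1, a1, v1, _, f1⟩ := mov_spec .One .ZA rfl rfl (by decide) h.toAlu
  obtain ⟨c2, r2, a2, v2, _, f2⟩ := mov_spec .Zer .ZB rfl rfl (by decide) a1
  have f12 : Fr [.ZA, .ZB] [] c c2 := f1.nil_tr f2 (by simp)
  have fe2 : FE K L W q η c2 := h.of_fr f12 (by decide) (cy_of_fr h.cy f12 (by decide)) (by decide)
  have hXa2 : Xa ∉ [FT.ZA, .ZB] ∧ Xb ∉ [FT.ZA, .ZB] :=
    ⟨not_of_sub hXa.2 (by decide), not_of_sub hXb.2 (by decide)⟩
  have eX2 : elt K q η c2 Xa Xb = x := elt_of_fr f12 hXa2.1 hXa2.2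
  have lX2 : LtE K q c2 Xa Xb := hL.of_fr f12 hXa2.1 hXa2.2
  have hr2 : Ruler c2 (o R) n := hr.of_fr f12 (by
    intro hm
    simp only [List.mem_cons, List.not_mem_nil, or_false] at hm
    rcases hm with rfl | rfl <;> exact absurd hR (by decide)) (by simp)
  have hne : R ∉ mT := by
    intro hm
    simp only [List.mem_cons, List.not_mem_nil, or_false] at hm
    rcases hm with rfl | rfl | rfl | rfl | rfl | rfl | rfl | rfl | rfl | rfl | rfl | rfl | rfl | rfl | rfl <;> exact absurd hR (by decide)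
  obtain ⟨c3, ⟨i1, i2, i3, i4⟩, hr3, r3⟩ := forU (X := X) (G := G) (fun i c => FE K L W q η c ∧ LtE K q c .ZA .ZB ∧ elt K q η c .ZA .ZB = x ^ i ∧ Fr mT [R] c2 c) (MZ K SC) hr2
    (by
      have e1 : vr K c2 .ZA = 1 := by
        rw [vr_of_fr f2 (by decide), v1]
        exact h1
      have e2 : vr K c2 .ZB = 0 := by
        rw [v2, vr_of_fr f1 (by decide)]
        exact h0
      refine ⟨fe2, ⟨by rw [e1]; omega, by rw [e2]; omega⟩, ?_, Fr.refl _ _ _⟩
      simp only [elt, pow_zero]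
      rw [e1, e2]
      exact mkE_one_zero q η)
    (by
      rintro i c c' ⟨i1, i2, i3, i4⟩ fr
      refine ⟨i1.of_gen fr (by simp) ?_ (by decide), i2.of_fr fr (by simp) (by simp), ?_, i4.tr fr (by simp) (by simp)⟩
      · simpa using hR
      · rw [elt_of_fr fr (by simp) (by simp)]
        exact i3)
    (by
      rintro i _ c _ _ ⟨i1, i2, i3, i4⟩
      have hx' : elt K q η c Xa Xb = x := by
        rw [elt_of_fr i4 hnm1 hnm2]
        exact eX2
      have hl' : LtE K q c Xa Xb := lX2.of_fr i4 hnm1 hnm2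
      obtain ⟨c', r, a, l, e, f⟩ := mulZ_spec ap .ZA .ZB Xa Xb ⟨rfl, rfl, hXa.1, hXb.1, by decide, by decide, hg.1, hg.2⟩ i1 i2 hl'
      refine ⟨c', r, ⟨a, l, ?_, i4.tr f (by simp) (by simp)⟩, f.tape hne, f.head (by simp)⟩
      rw [e, i3, hx', pow_succ])
  refine ⟨c3, r1.seq (r2.seq r3), i1, i2, i3, ?_⟩
  exact f12.nil_tr (i4.fixR hr2 hr3) (by simp)

end

end Vale.Agent.Lib.P338.F
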