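import Vale.Agent.Lib.P338.F.Expand

/-!
The last phase of the chain, and the blocks written back to the data tape.
-/

namespace Vale.Agent.Lib.P338.F

open Vale.Agent.Lib.P338 Prog

section
variable {X G : Type}

/-- The block at `pos` holds the low bits of the two coordinates of `E`. -/
def OutOK (q U : ℕ) (η : ZMod q) (τ : ℤ → Sym G) (E : Rq q η) (pos : ℕ) : Prop :=
  ∃ a b, a < q ∧ b < q ∧ mkE q η a b = E ∧ vl τ (pos : ℤ) U = a % 2 ^ U ∧ vl τ ((pos + U : ℕ) : ℤ) U = b % 2 ^ U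

theorem vl_mod (τ : ℤ → Sym G) {U K : ℕ} (h : U ≤ K) : vl τ 0 U = vl τ 0 K % 2 ^ U := by
  obtain ⟨d, rfl⟩ := Nat.exists_eq_add_of_le h
  rw [vl_add, Nat.add_mul_mod_self_left, Nat.mod_eq_of_lt (vl_lt _ _ _)]

/-- The invariant of the output phase. -/
structure OuI (K L W q U N P : ℕ) (η : ZMod q) (v r s : Rq q η) (τ3 D0 : ℤ → Sym G) (idx cnt : ℕ) (c : TC X G) : Prop where
  gn : GenI K L W q η v r s idx c
  t3 : c.tape (o .P3) = τ3
  h3 : c.head (o .P3) = ((3 * (N + idx) * W : ℕ) : ℤ)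
  hD : c.head (o .D) = ((cnt * (2 * U) : ℕ) : ℤ)
  nb : ∀ x : ℤ, 0 ≤ x → x < ((cnt * (2 * U) : ℕ) : ℤ) → (c.tape (o .D) x).nonBlank = true
  rest : ∀ x : ℤ, (x < 0 ∨ ((cnt * (2 * U) : ℕ) : ℤ) ≤ x) → c.tape (o .D) x = D0 x
  oks : ∀ j i, i < P → j * P + i < cnt →
    OutOK q U η (c.tape (o .D)) (slE q η W τ3 (N + (j * q + i)) * gV v r s (j * q + i)) ((j * P + i) * (2 * U))

theorem OuI.of_fr {K L W q U N P : ℕ} {η : ZMod q} {v r s : Rq q η} {τ3 D0 : ℤ → Sym G} {idx cnt : ℕ} {c c' : TC X G}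
    {A : FT} (h : OuI K L W q U N P η v r s τ3 D0 idx cnt c) (f : Fr [] [A] c c') (hA : na A = true) (hA1 : A ≠ .P3) (hA2 : A ≠ .D) :
    OuI K L W q U N P η v r s τ3 D0 idx cnt c' := by
  have tD : c'.tape (o .D) = c.tape (o .D) := f.tape (by simp)
  refine ⟨h.gn.of_fr f (by simp) (by simpa using hA), ?_, ?_, ?_, ?_, ?_, ?_⟩
  · rw [f.tape (by simp)]; exact h.t3
  · rw [f.head (by simpa using hA1.symm)]; exact h.h3
  · rw [f.head (by simpa using hA2.symm)]; exact h.hD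
  · intro x h1 h2
    rw [tD]
    exact h.nb x h1 h2
  · intro x hx
    rw [tD]
    exact h.rest x hx
  · intro j i h1 h2
    rw [tD]
    exact h.oks j i h1 h2

variable [DecidableEq X]

/-- The body of the output phase for a block which is written. -/
def outB (sm : Prog (FT ⊕ X) (Sym G)) : Prog (FT ⊕ X) (Sym G) :=
  .seq (rd3 sm) (.seq (mulZ sm .ZA .ZB .VA .VB) (.seq (sto .RU .ZA .D) (.seq (sto .RU .ZB .D) (genStep sm))))

/-- The body of the output phase for an element which is skipped. -/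
def outS (sm : Prog (FT ⊕ X) (Sym G)) : Prog (FT ⊕ X) (Sym G) := .seq (rd3 sm) (genStep sm)

/-- The cost of `outB`. -/
def OB (K W U SC : ℕ) : ℕ := R3C K W SC + MZ K SC + 16 * U + 16 + 2 * MP K SC

/-- The cost of `outS`. -/
def OS (K W SC : ℕ) : ℕ := R3C K W SC + 2 * MP K SC

theorem outS_step {K L W q U N P SC : ℕ} {η : ZMod q} {v r s : Rq q η} {τ3 D0 : ℤ → Sym G} {idx cnt : ℕ} {c : TC X G}
    {sm : Prog (FT ⊕ X) (Sym G)} (ap : AP sm K L SC q) (hWK : W ≤ K) (hWq : 2 ^ W + q * q ≤ 2 ^ K)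
    (h : OuI K L W q U N P η v r s τ3 D0 idx cnt c) :
    ∃ c', Run (outS sm) c c' (OS K W SC) ∧ OuI K L W q U N P η v r s τ3 D0 (idx + 1) cnt c' ∧ Fr gT [.P3] c c' := by
  obtain ⟨c1, r1, a1, _, _, h1, f1⟩ := rd3_spec ap hWK hWq h.gn.fe (t := N + idx) h.h3
  have g1 := h.gn.of_scr a1 f1 (by decide)
  obtain ⟨c2, r2, g2, f2⟩ := g1.step ap
  have f3 : Fr gT [.P3] c c2 := f1.tr f2 (by simp) (by simp)
  have tD : c2.tape (o .D) = c.tape (o .D) := f3.tape (by decide)
  refine ⟨c2, r1.seq r2, ⟨g2, ?_, ?_, ?_, ?_, ?_, ?_⟩, f3⟩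
  · rw [f3.tape (by decide)]; exact h.t3
  · rw [f2.head (by decide), h1]
    rfl
  · rw [f3.head (by decide)]; exact h.hD
  · intro x a b
    rw [tD]
    exact h.nb x a b
  · intro x a
    rw [tD]
    exact h.rest x a
  · intro j i a b
    rw [tD]
    exact h.oks j i a b

theorem outB_step {K L W q U N P SC : ℕ} {η : ZMod q} {v r s : Rq q η} {τ3 D0 : ℤ → Sym G} {j i : ℕ} {c : TC X G}
    {sm : Prog (FT ⊕ X) (Sym G)} (ap : AP sm K L SC q) (hWK : W ≤ K) (hWq : 2 ^ W + q * q ≤ 2 ^ K) (hUK : U ≤ K)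
    (hi : i < P) (hRU : Ruler c (o .RU) U)
    (h : OuI K L W q U N P η v r s τ3 D0 (j * q + i) (j * P + i) c) :
    ∃ c', Run (outB sm) c c' (OB K W U SC) ∧ OuI K L W q U N P η v r s τ3 D0 (j * q + i + 1) (j * P + i + 1) c' ∧
      Fr (.D :: gT) [.D, .P3] c c' := by
  obtain ⟨c1, r1, a1, l1, e1, h1, f1⟩ := rd3_spec ap hWK hWq h.gn.fe (t := N + (j * q + i)) h.h3
  have g1 := h.gn.of_scr a1 f1 (by decide)
  obtain ⟨c2, r2, a2, l2, e2, f2⟩ := mulZ_spec ap .ZA .ZB .VA .VB (by decide) a1 l1 g1.lV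
  have g2 := g1.of_scr a2 f2 (by decide)
  have hRU2 : Ruler c2 (o .RU) U := (hRU.of_fr f1 (by decide) (by decide)).of_fr f2 (by decide) (by decide)
  obtain ⟨c3, r3, d1, d2, f3⟩ := sto_spec .RU .ZA .D (by decide) c2 hRU2
  have hRU3 := hRU2.of_fr f3 (by decide) (by decide)
  obtain ⟨c4, r4, d3, d4, f4⟩ := sto_spec .RU .ZB .D (by decide) c3 hRU3
  have f34 : Fr [.D] [.D] c2 c4 := f3.tr f4 (by simp) (by simp)
  have a4 : FE K L W q η c4 := a2.of_gen f34 (by decide) (by decide) (by decide)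
  have g4 := g2.of_scr a4 f34 (by decide)
  obtain ⟨c5, r5, g5, f5⟩ := g4.step ap
  set cnt := j * P + i with hcnt
  set h0 : ℕ := cnt * (2 * U) with hh0
  have hD2 : c2.head (o .D) = (h0 : ℤ) := by
    rw [f2.head (by decide), f1.head (by decide)]
    exact h.hD
  have hD3 : c3.head (o .D) = (h0 : ℤ) + U := by rw [d1, hD2]
  have hD4 : c4.head (o .D) = (h0 : ℤ) + U + U := by rw [d3, hD3]
  have hZA0 : c2.head (o .ZA) = 0 := a2.hz _ rfl
  have hZB0 : c3.head (o .ZB) = 0 := by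
    rw [f3.head (by decide)]
    exact a2.hz _ rfl
  have tZB : c3.tape (o .ZB) = c2.tape (o .ZB) := f3.tape (by decide)
  have tD12 : c2.tape (o .D) = c.tape (o .D) := by
    rw [f2.tape (by decide), f1.tape (by decide)]
  have tD5 : c5.tape (o .D) = c4.tape (o .D) := f5.tape (by decide)
  have cell : ∀ x, c4.tape (o .D) x =
      if (h0 : ℤ) + U ≤ x ∧ x < (h0 : ℤ) + U + U then bitW (c2.tape (o .ZB) (x - ((h0 : ℤ) + U)))
      else if (h0 : ℤ) ≤ x ∧ x < (h0 : ℤ) + U then bitW (c2.tape (o .ZA) (x - h0))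
      else c.tape (o .D) x := by
    intro x
    rw [d4, hD3, hZB0, tZB, zero_add, d2, hD2, hZA0, zero_add, tD12]
  have hcnt1 : ((j * P + i + 1) * (2 * U) : ℕ) = h0 + U + U := by
    rw [hh0, hcnt]
    ring
  have hE : mkE q η (vr K c2 .ZA) (vr K c2 .ZB) = slE q η W τ3 (N + (j * q + i)) * gV v r s (j * q + i) := by
    have i1 : elt K q η c1 .ZA .ZB = slE q η W τ3 (N + (j * q + i)) := by
      rw [e1, h.t3]
    have i2 : elt K q η c1 .VA .VB = gV v r s (j * q + i) := by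
      rw [elt_of_fr f1 (by decide) (by decide)]
      exact h.gn.eV
    exact e2.trans (by rw [i1, i2])
  have v0 : vl (c4.tape (o .D)) (h0 : ℤ) U = vr K c2 .ZA % 2 ^ U := by
    rw [← vl_mod _ hUK]
    apply vl_congr
    intro i' hi'
    rw [cell, if_neg (by omega), if_pos (by omega)]
    have e3 : (h0 : ℤ) + i' - h0 = 0 + (i' : ℤ) := by ring
    rw [e3]
    simp
  have v1 : vl (c4.tape (o .D)) ((h0 + U : ℕ) : ℤ) U = vr K c2 .ZB % 2 ^ U := by
    rw [← vl_mod _ hUK]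
    apply vl_congr
    intro i' hi'
    push_cast
    rw [cell, if_pos (by omega)]
    have e3 : (h0 : ℤ) + U + i' - ((h0 : ℤ) + U) = 0 + (i' : ℤ) := by ring
    rw [e3]
    simp
  have hnew : OutOK q U η (c4.tape (o .D)) (slE q η W τ3 (N + (j * q + i)) * gV v r s (j * q + i)) h0 :=
    ⟨_, _, l2.1, l2.2, hE, v0, v1⟩
  refine ⟨c5, ?_, ⟨g5, ?_, ?_, ?_, ?_, ?_, ?_⟩, ?_⟩
  · refine (r1.seq (r2.seq (r3.seq (r4.seq r5)))).mono ?_
    unfold OB
    omega
  · rw [f5.tape (by decide), f34.tape (by decide), f2.tape (by decide), f1.tape (by decide)]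
    exact h.t3
  · rw [f5.head (by decide), f34.head (by decide), f2.head (by decide), h1]
    congr 1
  · rw [f5.head (by decide), hD4, hcnt1]
    push_cast
    ring
  · intro x h2 h3
    rw [tD5, cell]
    rw [hcnt1] at h3
    push_cast at h3
    split_ifs with c1 c2
    · simp
    · simp
    · exact h.nb x h2 (by omega)
  · intro x hx
    rw [tD5, cell]
    rw [hcnt1] at hx
    push_cast at hx
    rw [if_neg (by omega), if_neg (by omega)]
    exact h.rest x (by omega)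
  · intro j' i' h2 h3
    by_cases hlt : j' * P + i' < cnt
    · have hold := h.oks j' i' h2 hlt
      obtain ⟨a, b, e1', e2', e3', e4', e5'⟩ := hold
      have hb : (j' * P + i' + 1) * (2 * U) ≤ cnt * (2 * U) := Nat.mul_le_mul_right _ hlt
      have e6 : (j' * P + i') * (2 * U) + U + U = (j' * P + i' + 1) * (2 * U) := by ring
      have hp0 : (j' * P + i') * (2 * U) + U + U ≤ h0 := by rw [e6]; exact hb
      generalize (j' * P + i') * (2 * U) = p0 at hp0 e4' e5' ⊢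
      have hp1 : (p0 : ℤ) + U + U ≤ (h0 : ℤ) := by exact_mod_cast hp0
      have keep : ∀ y : ℤ, (p0 : ℤ) ≤ y → y < (p0 : ℤ) + U + U → c4.tape (o .D) y = c.tape (o .D) y := by
        intro y h5 h6
        rw [cell, if_neg (by omega), if_neg (by omega)]
      refine ⟨a, b, e1', e2', e3', ?_, ?_⟩
      · rw [← e4', tD5]
        apply vl_congr
        intro y hy
        rw [keep _ (by omega) (by omega)]
      · rw [← e5', tD5]
        apply vl_congr
        intro y hy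
        push_cast
        rw [keep _ (by omega) (by omega)]
    · have heq : j' * P + i' = j * P + i := by omega
      have hj : j' = j ∧ i' = i := by
        have hP : 0 < P := by omega
        have e1' : (j' * P + i') / P = j' := by
          rw [add_comm, Nat.add_mul_div_right _ _ hP, Nat.div_eq_of_lt h2, zero_add]
        have e2' : (j * P + i) / P = j := by
          rw [add_comm, Nat.add_mul_div_right _ _ hP, Nat.div_eq_of_lt hi, zero_add]
        have e3' : j' = j := by rw [← e1', heq, e2']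
        subst e3'
        exact ⟨rfl, by omega⟩
      obtain ⟨rfl, rfl⟩ := hj
      rw [tD5]
      exact hnew
  · exact f1.tr (f2.tr (f34.tr f5 (l2 := .D :: gT) (m2 := [.D]) (by simp) (by simp)) (l2 := .D :: gT) (m2 := [.D]) (by simp) (by simp)) (by simp) (by simp)

/-- A row of the output phase. -/
def outRow (sm : Prog (FT ⊕ X) (Sym G)) : Prog (FT ⊕ X) (Sym G) :=
  .seq (forR (o .Rpt) (outB sm)) (forR (o .RQd) (outS sm))

/-- The cost of a row of the output phase. -/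
def ORC (K W U q P SC : ℕ) : ℕ := P * (OB K W U SC + 4) + 4 + ((q - P) * (OS K W SC + 4) + 4)

theorem outRow_spec {K L W q U N P SC : ℕ} {η : ZMod q} {v r s : Rq q η} {τ3 D0 : ℤ → Sym G} {j : ℕ} {c : TC X G}
    {sm : Prog (FT ⊕ X) (Sym G)} (ap : AP sm K L SC q) (hWK : W ≤ K) (hWq : 2 ^ W + q * q ≤ 2 ^ K) (hUK : U ≤ K)
    (hP : P ≤ q) (hRU : Ruler c (o .RU) U) (hRpt : Ruler c (o .Rpt) P) (hRQd : Ruler c (o .RQd) (q - P))
    (h : OuI K L W q U N P η v r s τ3 D0 (j * q) (j * P) c) :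
    ∃ c', Run (outRow sm) c c' (ORC K W U q P SC) ∧ OuI K L W q U N P η v r s τ3 D0 ((j + 1) * q) ((j + 1) * P) c' ∧
      Fr (.D :: gT) [.D, .P3] c c' := by
  obtain ⟨c1, ⟨i1, i3⟩, hR1, r1⟩ := forU (R := .Rpt) (body := outB sm) (n := P)
    (fun i c' => OuI K L W q U N P η v r s τ3 D0 (j * q + i) (j * P + i) c' ∧ Fr (.D :: gT) [.Rpt, .D, .P3] c c') (OB K W U SC) (c := c) hRpt
    ⟨by simpa using h, Fr.refl _ _ _⟩
    (by
      rintro i c2 c3 ⟨a1, a3⟩ hf
      exact ⟨a1.of_fr hf (by decide) (by decide) (by decide), a3.tr hf (by simp) (by simp)⟩)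
    (by
      rintro i hi c2 _ _ ⟨a1, a3⟩
      obtain ⟨c3, r3, b1, b3⟩ := outB_step ap hWK hWq hUK hi (hRU.of_fr a3 (by decide) (by decide)) a1
      exact ⟨c3, r3, ⟨b1, a3.tr b3 (by simp) (by simp)⟩, b3.tape (by decide), b3.head (by decide)⟩)
  have f1 : Fr (.D :: gT) [.D, .P3] c c1 := i3.fixR hRpt hR1
  have hR2 := hRQd.of_fr f1 (by decide) (by decide)
  obtain ⟨c2, ⟨j1, j3⟩, hR3, r2⟩ := forU (R := .RQd) (body := outS sm) (n := q - P)
    (fun i c' => OuI K L W q U N P η v r s τ3 D0 (j * q + P + i) (j * P + P) c' ∧ Fr gT [.RQd, .P3] c1 c') (OS K W SC) (c := c1) hR2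
    ⟨by simpa using i1, Fr.refl _ _ _⟩
    (by
      rintro i c2 c3 ⟨a1, a3⟩ hf
      exact ⟨a1.of_fr hf (by decide) (by decide) (by decide), a3.tr hf (by simp) (by simp)⟩)
    (by
      rintro i hi c2 _ _ ⟨a1, a3⟩
      obtain ⟨c3, r3, b1, b3⟩ := outS_step (sm := sm) ap hWK hWq a1
      exact ⟨c3, r3, ⟨b1, a3.tr b3 (by simp) (by simp)⟩, b3.tape (by decide), b3.head (by decide)⟩)
  have f2 : Fr gT [.P3] c1 c2 := j3.fixR hR2 hR3
  have e1 : j * q + P + (q - P) = (j + 1) * q := by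
    rw [add_mul]
    omega
  have e2 : j * P + P = (j + 1) * P := by
    rw [add_mul, one_mul]
  rw [e1, e2] at j1
  exact ⟨c2, r1.seq r2, j1, f1.tr f2 (by simp) (by simp)⟩

/-- The output phase: the last quadratic phase, and the blocks of the result to the data tape. -/
def output (sm : Prog (FT ⊕ X) (Sym G)) (g : GP) : Prog (FT ⊕ X) (Sym G) :=
  .seq (adv .R3N .P3 .R) (.seq (loadP g) (forR (o .RP) (outRow sm)))

/-- The cost of the output phase. -/
def OC (K W U q N P SC : ℕ) : ℕ := 4 * (3 * N * W) + 4 + (72 * K + 72) + (P * (ORC K W U q P SC + 4) + 4)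

/-- The list of tapes changed by the output phase. -/
abbrev oT : List FT := .D :: .SA :: .SB :: gT

theorem output_spec {K L W q U N P SC n dn : ℕ} {η : ZMod q} {v r s : Rq q η} {c : TC X G}
    {sm : Prog (FT ⊕ X) (Sym G)} (ap : AP sm K L SC q) (hWK : W ≤ K) (hWq : 2 ^ W + q * q ≤ 2 ^ K) (hUK : U ≤ K)
    (hP : P ≤ q) (h : DE K L W q N n P U dn η c) (hP3 : c.head (o .P3) = 0) (hD : c.head (o .D) = 0)
    (g : GP) (hg : g.ok = true) (hL : g.Lt K q c) (hv : GP.vv K η c g = (v, r, s)) :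
    ∃ c', Run (output sm g) c c' (OC K W U q N P SC) ∧ DE K L W q N n P U dn η c' ∧
      (∀ x : ℤ, 0 ≤ x → x < ((P * P * (2 * U) : ℕ) : ℤ) → (c'.tape (o .D) x).nonBlank = true) ∧
      (∀ x : ℤ, (x < 0 ∨ ((P * P * (2 * U) : ℕ) : ℤ) ≤ x) → c'.tape (o .D) x = c.tape (o .D) x) ∧
      (∀ j i, j < P → i < P →
        OutOK q U η (c'.tape (o .D)) (slE q η W (c.tape (o .P3)) (N + (j * q + i)) * gV v r s (j * q + i)) ((j * P + i) * (2 * U))) ∧
      c'.head (o .D) = ((P * P * (2 * U) : ℕ) : ℤ) ∧ Fr oT [.D, .P3] c c' := by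
  obtain ⟨c1, r1, a1, f1⟩ := adv_spec (X := X) (G := G) .R3N .P3 .R (by decide) (by simp) c h.r3N
  have d1 := h.of_gen f1 (by simp) (by decide) (by decide)
  obtain ⟨c2, r2, g2, f2⟩ := loadP_spec g hg d1.toFE (hL.keep hg f1 (by simp))
  have hv1 : GP.vv K η c1 g = (v, r, s) := by rw [GP.vv_keep hg f1 (by simp), hv]
  simp only [GP.vv, Prod.mk.injEq] at hv1
  rw [hv1.1, hv1.2.1, hv1.2.2] at g2
  have d2 : DE K L W q N n P U dn η c2 := d1.of_se (d1.toSE.of_fe g2.fe f2 (by decide) (by simp)) f2 (by decide) (by simp)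
  have tD : c2.tape (o .D) = c.tape (o .D) := by
    rw [f2.tape (by decide), f1.tape (by simp)]
  have tP3 : c2.tape (o .P3) = c.tape (o .P3) := by
    rw [f2.tape (by decide), f1.tape (by simp)]
  have i0 : OuI K L W q U N P η v r s (c.tape (o .P3)) (c.tape (o .D)) (0 * q) (0 * P) c2 := by
    refine ⟨by simpa using g2, tP3, ?_, ?_, ?_, ?_, ?_⟩
    · rw [f2.head (by simp), a1, hP3]
      simp [Dir.toInt]
    · rw [f2.head (by simp), f1.head (by decide), hD]
      simp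
    · intro x h1 h2
      simp at h2
      omega
    · intro x _
      rw [tD]
    · intro j i h1 h2
      simp at h2
  obtain ⟨c3, ⟨i3, j3⟩, hR3, r3⟩ := forU (R := .RP) (body := outRow sm) (n := P)
    (fun j c' => OuI K L W q U N P η v r s (c.tape (o .P3)) (c.tape (o .D)) (j * q) (j * P) c' ∧ Fr oT [.RP, .D, .P3] c2 c') (ORC K W U q P SC)
    (c := c2) d2.rP ⟨i0, Fr.refl _ _ _⟩
    (by
      rintro i c4 c5 ⟨a1, a3⟩ hf
      exact ⟨a1.of_fr hf (by decide) (by decide) (by decide), a3.tr hf (by simp) (by simp)⟩)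
    (by
      rintro j hj c4 _ _ ⟨a1, a3⟩
      obtain ⟨c5, r5, b1, b3⟩ := outRow_spec ap hWK hWq hUK hP (d2.rU.of_fr a3 (by decide) (by decide))
        (d2.rPt.of_fr a3 (by decide) (by decide)) (d2.rQd.of_fr a3 (by decide) (by decide)) a1
      exact ⟨c5, r5, ⟨b1, a3.tr b3 (by simp) (by simp)⟩, b3.tape (by decide), b3.head (by decide)⟩)
  have f3 : Fr oT [.D, .P3] c2 c3 := j3.fixR d2.rP hR3
  have d3 : DE K L W q N n P U dn η c3 := d2.of_se (d2.toSE.of_fe i3.gn.fe f3 (by decide) (by decide)) f3 (by decide) (by decide)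
  refine ⟨c3, (r1.seq (r2.seq r3)).mono ?_, d3, ?_, ?_, ?_, ?_, ?_⟩
  · unfold OC
    omega
  · intro x h1 h2
    exact i3.nb x h1 h2
  · intro x h1
    exact i3.rest x h1
  · intro j i hj hi
    apply i3.oks j i hi
    have : (j + 1) * P ≤ P * P := Nat.mul_le_mul_right _ hj
    rw [add_mul, one_mul] at this
    omega
  · exact i3.hD
  · exact (f1.trans (f2.trans f3)).mono (by simp) (by simp)

end

end Vale.Agent.Lib.P338.F
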