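import Vale.Agent.Lib.P338.F.Round

/-!
Padding the input matrix to the data tape, and writing the output tape.
-/

namespace Vale.Agent.Lib.P338.F

open Vale.Agent.Lib.P338 Prog

/-- The position of a cell in a row layout. -/
theorem row_iff {R C i m m' : ℕ} (hC : C < m') (hm : m ≤ m') :
    ((i * m' : ℕ) : ℤ) ≤ ((R * m' + C : ℕ) : ℤ) ∧ ((R * m' + C : ℕ) : ℤ) < ((i * m' : ℕ) : ℤ) + (m : ℤ) ↔ R = i ∧ C < m := by
  constructor
  · rintro ⟨h1, h2⟩
    have h1' : i * m' ≤ R * m' + C := by exact_mod_cast h1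
    have h2' : R * m' + C < i * m' + m := by exact_mod_cast h2
    have hi : R = i := by
      rcases lt_trichotomy R i with h | h | h
      · have : (R + 1) * m' ≤ i * m' := Nat.mul_le_mul_right _ h
        rw [add_mul, one_mul] at this
        omega
      · exact h
      · have : (i + 1) * m' ≤ R * m' := Nat.mul_le_mul_right _ h
        rw [add_mul, one_mul] at this
        omega
    subst hi
    exact ⟨rfl, by omega⟩
  · rintro ⟨rfl, h⟩
    constructor
    · push_cast
      omega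
    · push_cast
      omega

section
variable {X G : Type} [DecidableEq X]

/-- One row of the padding. -/
def padB : Prog (FT ⊕ X) (Sym G) := .seq (str .Tmq .In .D) (adv .Rdf .D .R)

/-- The padding. -/
def pad : Prog (FT ⊕ X) (Sym G) :=
  .seq (zro .Rn .D) (.seq (forR (o .Rm) padB) (forR (o .Rm) (adv .Rmp .D .L)))

/-- The cost of the padding. -/
def PDC (m m' : ℕ) : ℕ :=
  (8 * (m' * m') + 8) + ((m * (((4 * m + 4) + (4 * (m' - m) + 4)) + 4) + 4) + (m * ((4 * m' + 4) + 4) + 4))

/-- The invariant of the padding. -/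
structure PdI (m m' : ℕ) (τ : ℤ → Sym G) (c2 : TC X G) (i : ℕ) (c : TC X G) : Prop where
  tI : c.tape (o .In) = τ
  hI : c.head (o .In) = ((i * m : ℕ) : ℤ)
  hD : c.head (o .D) = ((i * m' : ℕ) : ℤ)
  sh : Shp (m' * m') (c.tape (o .D))
  cl : ∀ R C, R < m' → C < m' → (c.tape (o .D) ((R * m' + C : ℕ) : ℤ)).isOne = if R < i ∧ C < m then (τ ((R * m + C : ℕ) : ℤ)).isOne else false
  fr : Fr [.D] [.In, .D, .Rm] c2 c

theorem padB_step {m m' : ℕ} {τ : ℤ → Sym G} {c2 c : TC X G} {i : ℕ} (hi : i < m) (hm : m ≤ m') (hq : Ruler c (o .Tmq) m)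
    (hf : Ruler c (o .Rdf) (m' - m)) (hI : PdI m m' τ c2 i c) :
    ∃ c', Run (padB : Prog (FT ⊕ X) (Sym G)) c c' ((4 * m + 4) + (4 * (m' - m) + 4)) ∧ PdI m m' τ c2 (i + 1) c' ∧ Fr [.D] [.In, .D] c c' := by
  obtain ⟨c1, r1, a1, a2, a3, f1⟩ := str_spec .Tmq .In .D (by decide) c hq
  obtain ⟨c3, r3, b1, f3⟩ := adv_spec .Rdf .D .R (by decide) (by simp) c1 (hf.of_fr f1 (by decide) (by decide))
  have f4 : Fr [.D] [.In, .D] c c3 := f1.tr f3 (by simp) (by simp)
  have ht3 : c3.tape (o .D) = c1.tape (o .D) := f3.tape (by simp)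
  rw [hI.hD, hI.hI, hI.tI] at a3
  have hle : i + 1 ≤ m := hi
  have hm2 : (i + 1) * m ≤ m * m := Nat.mul_le_mul_right _ hle
  have hm3 : (i + 1) * m' ≤ m * m' := Nat.mul_le_mul_right _ hle
  have hm4 : m * m' ≤ m' * m' := Nat.mul_le_mul_right _ hm
  have e1 : (i + 1) * m' = i * m' + m' := by ring
  have e2 : (i + 1) * m = i * m + m := by ring
  refine ⟨c3, r1.seq r3, ⟨?_, ?_, ?_, ⟨?_, ?_⟩, ?_, hI.fr.tr f4 (by simp) (by simp)⟩, f4⟩
  · rw [f4.tape (by decide), hI.tI]
  · rw [f3.head (by decide), a1, hI.hI, e2]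
    push_cast
    ring
  · rw [b1, a2, hI.hD, e1]
    simp only [Dir.toInt]
    push_cast [Nat.cast_sub hm]
    ring
  · intro x h1 h2
    rw [ht3, a3]
    split_ifs with h
    · exact nonBlank_bitW _
    · exact hI.sh.1 x h1 h2
  · intro x hx
    rw [ht3, a3, if_neg]
    · exact hI.sh.2 x hx
    · rintro ⟨h3, h4⟩
      rcases hx with h5 | h5
      · push_cast at h3
        have : (0 : ℤ) ≤ (i : ℤ) * (m' : ℤ) := by positivity
        omega
      · push_cast at h4 h5
        have : ((i * m' + m : ℕ) : ℤ) ≤ ((m' * m' : ℕ) : ℤ) := by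
          have : i * m' + m ≤ m' * m' := by omega
          exact_mod_cast this
        push_cast at this
        omega
  · intro R C hR hC
    rw [ht3, a3]
    by_cases hc : R = i ∧ C < m
    · rw [if_pos ((row_iff hC hm).2 hc), isOne_bitW]
      obtain ⟨rfl, hC'⟩ := hc
      rw [if_pos ⟨by omega, hC'⟩]
      congr 2
      push_cast
      ring
    · rw [if_neg (fun h => hc ((row_iff hC hm).1 h)), hI.cl R C hR hC]
      by_cases hc2 : R < i ∧ C < m
      · rw [if_pos hc2, if_pos ⟨by omega, hc2.2⟩]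
      · rw [if_neg hc2, if_neg]
        rintro ⟨h5, h6⟩
        by_cases h7 : R = i
        · exact hc ⟨h7, h6⟩
        · exact hc2 ⟨by omega, h6⟩

theorem pad_spec {m m' : ℕ} {c : TC X G} (hm : m ≤ m') (r1 : Ruler c (o .Rm) m) (r2 : Ruler c (o .Tmq) m) (r3 : Ruler c (o .Rdf) (m' - m))
    (r4 : Ruler c (o .Rmp) m') (r5 : Ruler c (o .Rn) (m' * m')) (r6 : Ruler c (o .D) 0) (hI : c.head (o .In) = 0) :
    ∃ c', Run (pad : Prog (FT ⊕ X) (Sym G)) c c' (PDC m m') ∧ Shp (m' * m') (c'.tape (o .D)) ∧ c'.head (o .D) = 0 ∧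
      (∀ R C, R < m' → C < m' → (c'.tape (o .D) ((R * m' + C : ℕ) : ℤ)).isOne = if R < m ∧ C < m then (c.tape (o .In) ((R * m + C : ℕ) : ℤ)).isOne else false) ∧
      Fr [.D] [.In] c c' := by
  obtain ⟨c1, r1', a1, f1⟩ := zro_spec .Rn .D (by decide) c r5
  have hD0 : c.head (o .D) = 0 := r6.2
  rw [hD0] at a1
  have hR1 : Ruler c1 (o .Rm) m := r1.of_fr f1 (by decide) (by simp)
  have i1 : PdI m m' (c.tape (o .In)) c1 0 c1 := by
    refine ⟨f1.tape (by decide), ?_, ?_, ⟨?_, ?_⟩, ?_, Fr.refl _ _ _⟩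
    · rw [f1.head (by simp), hI]
      simp
    · rw [f1.head (by simp), hD0]
      simp
    · intro x h1 h2
      rw [a1, if_pos ⟨h1, by simpa using h2⟩]
      rfl
    · intro x hx
      rw [a1, if_neg (by
        rintro ⟨h3, h4⟩
        simp only [zero_add] at h4
        omega), r6.1]
      exact runT_out (by
        rcases hx with h | h
        · exact Or.inl h
        · right
          have : (0 : ℤ) ≤ ((m' * m' : ℕ) : ℤ) := by positivity
          push_cast at *
          omega)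
    · intro R C hR hC
      rw [if_neg (by omega)]
      rw [a1, if_pos]
      · rfl
      · have h1 : (R + 1) * m' ≤ m' * m' := Nat.mul_le_mul_right _ hR
        rw [add_mul, one_mul] at h1
        refine ⟨by positivity, ?_⟩
        simp only [zero_add]
        have h2 : R * m' + C < m' * m' := by omega
        exact_mod_cast h2
  have hq1 : Ruler c1 (o .Tmq) m := r2.of_fr f1 (by decide) (by simp)
  have hf1 : Ruler c1 (o .Rdf) (m' - m) := r3.of_fr f1 (by decide) (by simp)
  have hp1 : Ruler c1 (o .Rmp) m' := r4.of_fr f1 (by decide) (by simp)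
  obtain ⟨c2, i2, hr2, run2⟩ := forU (PdI m m' (c.tape (o .In)) c1) ((4 * m + 4) + (4 * (m' - m) + 4)) hR1 i1
    (by
      intro i c c' hi fr
      refine ⟨by rw [fr.tape (by simp)]; exact hi.tI, by rw [fr.head (by decide)]; exact hi.hI, by rw [fr.head (by decide)]; exact hi.hD,
        by rw [fr.tape (by simp)]; exact hi.sh, by rw [fr.tape (by simp)]; exact hi.cl, hi.fr.tr fr (by simp) (by simp)⟩)
    (by
      intro i hi c _ _ hI
      obtain ⟨c', r, i', f⟩ := padB_step hi hm (hq1.of_fr hI.fr (by decide) (by decide)) (hf1.of_fr hI.fr (by decide) (by decide)) hI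
      exact ⟨c', r, i', f.tape (by decide), f.head (by decide)⟩)
  have hp2 : Ruler c2 (o .Rmp) m' := hp1.of_fr i2.fr (by decide) (by decide)
  obtain ⟨c3, ⟨i3, i4⟩, hr3, run3⟩ := forU (X := X) (G := G) (fun j c => c.head (o .D) = ((m * m' : ℕ) : ℤ) - j * m' ∧ Fr [] [.D, .Rm] c2 c) (4 * m' + 4) hr2
    ⟨by rw [i2.hD]; simp, Fr.refl _ _ _⟩
    (by
      rintro i c c' ⟨h1, h2⟩ fr
      exact ⟨by rw [fr.head (by decide), h1], h2.tr fr (by simp) (by simp)⟩)
    (by
      rintro i _ c _ _ ⟨h1, h2⟩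
      obtain ⟨c', r, a, f⟩ := adv_spec .Rmp .D .L (by decide) (by simp) c (hp2.of_fr h2 (by simp) (by decide))
      refine ⟨c', r, ⟨?_, h2.tr f (by simp) (by simp)⟩, f.tape (by simp), f.head (by decide)⟩
      rw [a, h1]
      simp only [Dir.toInt]
      push_cast
      ring)
  have hD3 : c3.head (o .D) = 0 := by
    rw [i3]
    push_cast
    ring
  have ht3 : c3.tape (o .D) = c2.tape (o .D) := i4.tape (by simp)
  have f5 : Fr [.D] [.In, .D, .Rm] c c3 := f1.tr (i2.fr.tr i4 (l2 := [.D]) (m2 := [.In, .D, .Rm]) (by simp) (by simp)) (by simp) (by simp)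
  refine ⟨c3, r1'.seq (run2.seq run3), ?_, hD3, ?_, ?_⟩
  · rw [ht3]
    exact i2.sh
  · intro R C hR hC
    rw [ht3, i2.cl R C hR hC]
  · refine ⟨f5.tp, ?_, f5.cl⟩
    intro a ha
    by_cases h1 : a = .D
    · subst h1
      rw [hD3, hD0]
    · by_cases h2 : a = .Rm
      · subst h2
        rw [hr3.2, r1.2]
      · exact f5.hd a (by
          simp only [List.mem_cons, List.not_mem_nil, or_false, not_or]
          exact ⟨by simpa using ha, h1, h2⟩)

/-- Write the output. -/
def unp : Prog (FT ⊕ X) (Sym G) := forR (o .Rm) (.seq (str .Tmq .D .Out) (adv .Rdf .D .R))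

/-- The cost of the output. -/
def UPC (m m' : ℕ) : ℕ := m * (((4 * m + 4) + (4 * (m' - m) + 4)) + 4) + 4

/-- The invariant of the output. -/
structure UpI (m m' : ℕ) (τ : ℤ → Sym G) (c0 : TC X G) (i : ℕ) (c : TC X G) : Prop where
  tD : c.tape (o .D) = τ
  hD : c.head (o .D) = ((i * m' : ℕ) : ℤ)
  hO : c.head (o .Out) = ((i * m : ℕ) : ℤ)
  cl : ∀ k r, k < i → r < m → c.tape (o .Out) ((k * m + r : ℕ) : ℤ) = bitW (τ ((k * m' + r : ℕ) : ℤ))
  bl : ∀ x : ℤ, (x < 0 ∨ ((i * m : ℕ) : ℤ) ≤ x) → c.tape (o .Out) x = .blank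
  fr : Fr [.Out] [.D, .Out, .Rm] c0 c

theorem unp_spec {m m' : ℕ} {c : TC X G} (hm : m ≤ m') (r1 : Ruler c (o .Rm) m) (r2 : Ruler c (o .Tmq) m) (r3 : Ruler c (o .Rdf) (m' - m))
    (r6 : Ruler c (o .Out) 0) (hD : c.head (o .D) = 0) :
    ∃ c', Run (unp : Prog (FT ⊕ X) (Sym G)) c c' (UPC m m') ∧
      (∀ k r, k < m → r < m → c'.tape (o .Out) ((k * m + r : ℕ) : ℤ) = bitW (c.tape (o .D) ((k * m' + r : ℕ) : ℤ))) ∧
      (∀ x : ℤ, (x < 0 ∨ ((m * m : ℕ) : ℤ) ≤ x) → c'.tape (o .Out) x = .blank) ∧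
      Fr [.Out] [.D, .Out] c c' := by
  have i0 : UpI m m' (c.tape (o .D)) c 0 c := by
    refine ⟨rfl, by rw [hD]; simp, by rw [r6.2]; simp, ?_, ?_, Fr.refl _ _ _⟩
    · intro k r hk
      omega
    · intro x hx
      rw [r6.1]
      refine runT_out ?_
      simpa using hx
  obtain ⟨c1, i1, hr1, run1⟩ := forU (UpI m m' (c.tape (o .D)) c) ((4 * m + 4) + (4 * (m' - m) + 4)) r1 i0
    (by
      intro i c c' hi fr
      refine ⟨by rw [fr.tape (by simp)]; exact hi.tD, by rw [fr.head (by decide)]; exact hi.hD, by rw [fr.head (by decide)]; exact hi.hO,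
        by rw [fr.tape (by simp)]; exact hi.cl, by rw [fr.tape (by simp)]; exact hi.bl, hi.fr.tr fr (by simp) (by simp)⟩)
    (by
      intro i hi c0 _ _ hI
      have hq : Ruler c0 (o .Tmq) m := r2.of_fr hI.fr (by decide) (by decide)
      have hf : Ruler c0 (o .Rdf) (m' - m) := r3.of_fr hI.fr (by decide) (by decide)
      obtain ⟨c2, r2', a1, a2, a3, f2⟩ := str_spec .Tmq .D .Out (by decide) c0 hq
      obtain ⟨c3, r3', b1, f3⟩ := adv_spec .Rdf .D .R (by decide) (by simp) c2 (hf.of_fr f2 (by decide) (by decide))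
      have f4 : Fr [.Out] [.D, .Out] c0 c3 := f2.tr f3 (by simp) (by simp)
      have ht3 : c3.tape (o .Out) = c2.tape (o .Out) := f3.tape (by simp)
      rw [hI.hO, hI.hD, hI.tD] at a3
      have e1 : (i + 1) * m' = i * m' + m' := by ring
      have e2 : (i + 1) * m = i * m + m := by ring
      refine ⟨c3, r2'.seq r3', ⟨?_, ?_, ?_, ?_, ?_, hI.fr.tr f4 (by simp) (by simp)⟩, f4.tape (by decide), f4.head (by decide)⟩
      · rw [f4.tape (by decide), hI.tD]
      · rw [b1, a1, hI.hD, e1]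
        simp only [Dir.toInt]
        push_cast [Nat.cast_sub hm]
        ring
      · rw [f3.head (by decide), a2, hI.hO, e2]
        push_cast
        ring
      · intro k r hk hr
        rw [ht3, a3]
        by_cases hk2 : k = i
        · subst hk2
          rw [if_pos (by
            push_cast
            constructor <;> omega)]
          congr 2
          push_cast
          ring
        · have hlt : (k + 1) * m ≤ i * m := Nat.mul_le_mul_right _ (by omega)
          rw [add_mul, one_mul] at hlt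
          rw [if_neg (by
            rintro ⟨h3, h4⟩
            have h5 : i * m ≤ k * m + r := by exact_mod_cast h3
            omega), hI.cl k r (by omega) hr]
      · intro x hx
        rw [ht3, a3, if_neg]
        · apply hI.bl
          rcases hx with h | h
          · exact Or.inl h
          · right
            rw [e2] at h
            push_cast at h ⊢
            omega
        · rintro ⟨h3, h4⟩
          rcases hx with h | h
          · have : (0 : ℤ) ≤ ((i * m : ℕ) : ℤ) := by positivity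
            omega
          · rw [e2] at h
            push_cast at h h4
            omega)
  refine ⟨c1, run1, i1.cl, i1.bl, ?_⟩
  refine ⟨i1.fr.tp, ?_, i1.fr.cl⟩
  intro a ha
  by_cases h2 : a = .Rm
  · subst h2
    rw [hr1.2, r1.2]
  · exact i1.fr.hd a (by
      simp only [List.mem_cons, List.not_mem_nil, or_false, not_or] at ha ⊢
      exact ⟨ha.1, ha.2, h2⟩)

end

end Vale.Agent.Lib.P338.F
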