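import Vale.Agent.Lib.P338.F.Sieve

/-!
The parameters of the single scale reduction as functions of the side length, and their numerical properties.
-/

namespace Vale.Agent.Lib.P338.F

/-- The logarithm of the side length, rounded up. -/
def a0 (m : ℕ) : ℕ := Nat.clog 2 m
/-- The logarithm of the padded side length. -/
def ap (m : ℕ) : ℕ := a0 m + 4
/-- One more. -/
def Aa (m : ℕ) : ℕ := ap m + 1
/-- The logarithm of `Aa`, rounded up. -/
def cA (m : ℕ) : ℕ := Nat.clog 2 (Aa m)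
/-- The number of classical rounds. -/
def rh (m : ℕ) : ℕ := (cA m - 1) / 2
/-- The logarithm of the size of the prime. -/
def tt (m : ℕ) : ℕ := Aa m - rh m
/-- The logarithm of the number of blocks in a row. -/
def kp (m : ℕ) : ℕ := tt m - 1
/-- The prime. -/
noncomputable def qq (m : ℕ) : ℕ := qOf (2 ^ tt m)
/-- Half of `q - 1`. -/
noncomputable def ww (m : ℕ) : ℕ := (qq m - 1) / 2
/-- The length of the cyclic convolutions. -/
noncomputable def NN (m : ℕ) : ℕ := ww m * (qq m + 1)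
/-- The number of bits per coordinate in a block. -/
def UU (m : ℕ) : ℕ := 2 ^ (2 * rh m - 1)
/-- The width of the slots. -/
def Wd (m : ℕ) : ℕ := 4 * tt m + 4
/-- The width for the small product. -/
def Ld (m : ℕ) : ℕ := 2 * tt m + 3
/-- The size of the registers. -/
def Kd (m : ℕ) : ℕ := 2 ^ (cA m + 3)
/-- The size of the big product. -/
def nn (m : ℕ) : ℕ := 2 ^ (2 * ap m + 11)
/-- The size of the data. -/
def dn (m : ℕ) : ℕ := 2 ^ (2 * ap m)
/-- The bound of all rulers. -/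
def BB (m : ℕ) : ℕ := 2 ^ (2 * ap m + 13)
/-- The number of blocks in a row. -/
def PP (m : ℕ) : ℕ := 2 ^ kp m
/-- The number of rows of a block. -/
def ss (m : ℕ) : ℕ := 2 ^ rh m

theorem Aa_ge (m : ℕ) : 5 ≤ Aa m := by
  simp only [Aa, ap]
  omega

theorem cA_ge (m : ℕ) : 3 ≤ cA m := by
  simp only [cA]
  have h : 2 ^ 2 < Aa m := by
    have := Aa_ge m
    norm_num
    omega
  exact (Nat.lt_clog_iff_pow_lt (by norm_num)).2 h

theorem two_cA_lt (m : ℕ) : 2 ^ (cA m - 1) < Aa m := by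
  have h1 : cA m - 1 < cA m := by
    have := cA_ge m
    omega
  exact (Nat.lt_clog_iff_pow_lt (by norm_num)).1 h1

theorem Aa_le_two_cA (m : ℕ) : Aa m ≤ 2 ^ cA m := Nat.le_pow_clog (by norm_num) _

theorem rh_ge (m : ℕ) : 1 ≤ rh m := by
  have := cA_ge m
  simp only [rh]
  omega

theorem four_rh_lt (m : ℕ) : 4 ^ rh m < Aa m := by
  have h1 : 4 ^ rh m = 2 ^ (2 * rh m) := by
    rw [pow_mul]
    norm_num
  have h2 : 2 * rh m ≤ cA m - 1 := by
    simp only [rh]
    omega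
  rw [h1]
  exact lt_of_le_of_lt (Nat.pow_le_pow_right (by norm_num) h2) (two_cA_lt m)

theorem Aa_le_four (m : ℕ) : Aa m ≤ 4 * 4 ^ rh m := by
  have h1 : 4 * 4 ^ rh m = 2 ^ (2 * rh m + 2) := by
    rw [pow_add, pow_mul]
    norm_num
    ring
  have h2 : cA m ≤ 2 * rh m + 2 := by
    simp only [rh]
    omega
  rw [h1]
  exact le_trans (Aa_le_two_cA m) (Nat.pow_le_pow_right (by norm_num) h2)

theorem rh_lt (m : ℕ) : 4 * rh m < Aa m := by
  have h1 : 4 * rh m ≤ 4 ^ rh m := by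
    have h2 := rh_ge m
    obtain ⟨r, hr⟩ : ∃ r, rh m = r + 1 := ⟨rh m - 1, by omega⟩
    rw [hr, pow_succ]
    have h3 : r + 1 ≤ 4 ^ r := by
      clear hr h2
      induction r with
      | zero => simp
      | succ r ih =>
        rw [pow_succ]
        omega
    omega
  have := four_rh_lt m
  omega

theorem tt_ge (m : ℕ) : 4 ≤ tt m := by
  have h1 := rh_lt m
  have h2 := Aa_ge m
  simp only [tt]
  omega

theorem tt_le (m : ℕ) : tt m + 1 ≤ Aa m := by
  have h1 := rh_ge m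
  have h2 := Aa_ge m
  have h3 := rh_lt m
  simp only [tt]
  omega

theorem kp_add (m : ℕ) : kp m + rh m = ap m := by
  have h1 := rh_lt m
  have h2 := Aa_ge m
  simp only [kp, tt, Aa] at *
  omega

theorem UU_le (m : ℕ) : UU m ≤ tt m := by
  have h1 : 2 * UU m = 4 ^ rh m := by
    simp only [UU]
    have h2 := rh_ge m
    rw [← pow_succ']
    have e : 2 * rh m - 1 + 1 = 2 * rh m := by omega
    rw [e, pow_mul]
    norm_num
  have h2 := four_rh_lt m
  have h3 := rh_lt m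
  simp only [tt]
  omega

theorem two_UU (m : ℕ) : 2 * UU m = ss m * ss m := by
  simp only [UU, ss]
  have h2 := rh_ge m
  rw [← pow_succ', ← pow_add]
  congr 1
  omega

theorem T_ge (m : ℕ) : 2 ≤ 2 ^ tt m := by
  have := tt_ge m
  calc 2 = 2 ^ 1 := by norm_num
    _ ≤ 2 ^ tt m := Nat.pow_le_pow_right (by norm_num) (by omega)

theorem qq_prime (m : ℕ) : (qq m).Prime := qOf_prime _

theorem qq_gt (m : ℕ) : 2 ^ tt m < qq m := qOf_gt _

theorem qq_lt (m : ℕ) : qq m < 2 * 2 ^ tt m := qOf_lt (T_ge m)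

theorem qq_odd (m : ℕ) : qq m = 2 * ww m + 1 := by
  have h1 := qq_gt m
  have h2 := T_ge m
  have h3 := (qq_prime m).eq_two_or_odd
  simp only [ww]
  omega

theorem NN_eq (m : ℕ) : 2 * NN m + 1 = qq m * qq m := by
  simp only [NN]
  have h := qq_odd m
  generalize qq m = q at h ⊢
  generalize ww m = w at h ⊢
  subst h
  ring

theorem PP_le_ww (m : ℕ) : PP m ≤ ww m := by
  have h1 := qq_gt m
  have h2 := qq_odd m
  have h3 : 2 * PP m = 2 ^ tt m := by
    simp only [PP, kp]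
    have := tt_ge m
    rw [← pow_succ']
    congr 1
    omega
  omega

theorem PP_le_q (m : ℕ) : PP m ≤ qq m := by
  have := PP_le_ww m
  have := qq_odd m
  omega

theorem PP_mul_q (m : ℕ) : PP m * qq m ≤ NN m := by
  simp only [NN]
  exact Nat.mul_le_mul (PP_le_ww m) (by omega)

theorem dn_eq (m : ℕ) : dn m = PP m * PP m * (2 * UU m) := by
  rw [two_UU]
  simp only [dn, PP, ss]
  rw [← pow_add, ← pow_add, ← pow_add]
  congr 1
  have := kp_add m
  omega

theorem pm_eq (m : ℕ) : 2 ^ ap m = PP m * ss m := by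
  simp only [PP, ss]
  rw [← pow_add, kp_add]

theorem q_sq_le (m : ℕ) : qq m * qq m ≤ 2 ^ (2 * tt m + 2) := by
  have h1 := (qq_lt m).le
  have h2 : qq m * qq m ≤ (2 * 2 ^ tt m) * (2 * 2 ^ tt m) := Nat.mul_le_mul h1 h1
  have e : (2 * 2 ^ tt m) * (2 * 2 ^ tt m) = 2 ^ (2 * tt m + 2) := by
    rw [show 2 * tt m + 2 = tt m + 1 + (tt m + 1) by ring, pow_add, pow_succ]
    ring
  omega

theorem Wd_le_K (m : ℕ) : Wd m + 1 ≤ Kd m := by
  have h1 := tt_le m
  have h2 := Aa_ge m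
  have h3 : 8 * 2 ^ cA m = Kd m := by
    simp only [Kd]
    rw [pow_add]
    norm_num
    ring
  have h4 := Aa_le_two_cA m
  simp only [Wd]
  omega

theorem two_L_le (m : ℕ) : 2 * Ld m ≤ Kd m := by
  have h1 := tt_le m
  have h2 := Aa_ge m
  have h3 : 8 * 2 ^ cA m = Kd m := by
    simp only [Kd]
    rw [pow_add]
    norm_num
    ring
  have h4 := Aa_le_two_cA m
  simp only [Ld]
  omega

theorem two_q_sq (m : ℕ) : 2 * qq m * qq m ≤ 2 ^ Ld m := by
  have h := q_sq_le m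
  simp only [Ld]
  rw [show 2 * tt m + 3 = 2 * tt m + 2 + 1 by ring, pow_succ]
  nlinarith

theorem W_q_K (m : ℕ) : 2 ^ Wd m + qq m * qq m ≤ 2 ^ Kd m := by
  have h1 := q_sq_le m
  have h2 : 2 ^ (2 * tt m + 2) ≤ 2 ^ Wd m := Nat.pow_le_pow_right (by norm_num) (by simp only [Wd]; omega)
  have h3 : 2 ^ (Wd m + 1) ≤ 2 ^ Kd m := Nat.pow_le_pow_right (by norm_num) (Wd_le_K m)
  rw [pow_succ] at h3
  omega

theorem q_le_W (m : ℕ) : qq m ≤ 2 ^ Wd m := by
  have h1 := (qq_lt m).le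
  have h2 : 2 * 2 ^ tt m = 2 ^ (tt m + 1) := by
    rw [pow_succ]
    ring
  have h3 : 2 ^ (tt m + 1) ≤ 2 ^ Wd m := Nat.pow_le_pow_right (by norm_num) (by simp only [Wd]; omega)
  omega

theorem NN_lt (m : ℕ) : NN m * 2 < qq m * qq m := by
  have := NN_eq m
  omega

theorem hb_ok (m : ℕ) : 2 * (NN m * ((qq m - 1) * (qq m - 1))) < 2 ^ Wd m := by
  have h1 := NN_eq m
  have h2 := q_sq_le m
  have h3 : (qq m - 1) * (qq m - 1) ≤ qq m * qq m := Nat.mul_le_mul (by omega) (by omega)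
  have hq : 0 < qq m := (qq_prime m).pos
  have h4 : 2 * (NN m * ((qq m - 1) * (qq m - 1))) = (2 * NN m) * ((qq m - 1) * (qq m - 1)) := by ring
  have h5 : (2 * NN m) * ((qq m - 1) * (qq m - 1)) < (qq m * qq m) * (qq m * qq m) := by
    apply Nat.mul_lt_mul_of_lt_of_le (by omega) h3
    exact Nat.mul_pos hq hq
  have h6 : (qq m * qq m) * (qq m * qq m) ≤ 2 ^ (2 * tt m + 2) * 2 ^ (2 * tt m + 2) := Nat.mul_le_mul h2 h2
  have e : 2 ^ (2 * tt m + 2) * 2 ^ (2 * tt m + 2) = 2 ^ Wd m := by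
    rw [← pow_add]
    congr 1
    simp only [Wd]
    ring
  omega

/-- The key size bound. -/
theorem four_t_A (m : ℕ) : 4 ^ tt m * Aa m ≤ 4 ^ (Aa m + 1) := by
  have h1 : 4 ^ tt m * 4 ^ rh m = 4 ^ Aa m := by
    rw [← pow_add]
    congr 1
    have := rh_lt m
    simp only [tt]
    omega
  have h2 := Aa_le_four m
  calc 4 ^ tt m * Aa m ≤ 4 ^ tt m * (4 * 4 ^ rh m) := Nat.mul_le_mul_left _ h2
    _ = 4 * (4 ^ tt m * 4 ^ rh m) := by ring
    _ = 4 ^ (Aa m + 1) := by rw [h1, pow_succ]; ring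

theorem q_sq_le' (m : ℕ) : qq m * qq m ≤ 4 * 4 ^ tt m := by
  have h := q_sq_le m
  have e : 2 ^ (2 * tt m + 2) = 4 * 4 ^ tt m := by
    rw [pow_add, pow_mul]
    norm_num
    ring
  omega

/-- The number of points times the size of an element is bounded by the size of the data. -/
theorem q_sq_A (m : ℕ) : qq m * qq m * Aa m ≤ 64 * dn m := by
  have h1 := q_sq_le' m
  have h2 := four_t_A m
  have h3 : 4 ^ (Aa m + 1) = 16 * dn m := by
    simp only [dn, Aa]
    rw [pow_add, pow_mul, pow_add]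
    norm_num
    ring
  calc qq m * qq m * Aa m ≤ (4 * 4 ^ tt m) * Aa m := Nat.mul_le_mul_right _ h1
    _ = 4 * (4 ^ tt m * Aa m) := by ring
    _ ≤ 4 * (16 * dn m) := by rw [← h3]; exact Nat.mul_le_mul_left _ h2
    _ = 64 * dn m := by ring

theorem six_N_W (m : ℕ) : 6 * NN m * Wd m ≤ nn m := by
  have h1 := NN_lt m
  have h2 := q_sq_A m
  have h3 : Wd m ≤ 4 * Aa m := by
    have := tt_le m
    simp only [Wd]
    omega
  have h4 : 6 * NN m * Wd m ≤ 6 * NN m * (4 * Aa m) := Nat.mul_le_mul_left _ h3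
  have h5 : 6 * NN m * (4 * Aa m) = 12 * (NN m * 2 * Aa m) := by ring
  have h6 : NN m * 2 * Aa m ≤ qq m * qq m * Aa m := Nat.mul_le_mul_right _ h1.le
  have h7 : nn m = 2048 * dn m := by
    simp only [nn, dn]
    rw [pow_add]
    norm_num
    ring
  omega

end Vale.Agent.Lib.P338.F
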