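import Vale.Agent.Lib.P338.F.RulerF

/-!
An environment of rulers for the setup phase.
-/

namespace Vale.Agent.Lib.P338.F

open Vale.Agent.Lib.P338 Prog

section
variable {X G : Type}

/-- The tapes which do not hold rulers during the setup. -/
abbrev nR : List FT := [.In, .Sv]

/-- The environment of rulers: all tapes but the input and the sieve are rulers with lengths at most `B`. -/
structure REnv (B : ℕ) (τ σ : ℤ → Sym G) (c : TC X G) (e : FT → ℕ) : Prop where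
  ru : ∀ a, a ∉ nR → Ruler c (o a) (e a)
  le : ∀ a, e a ≤ B
  tI : c.tape (o .In) = τ
  hI : c.head (o .In) = 0
  tS : c.tape (o .Sv) = σ
  hS : c.head (o .Sv) = 0
  cl : Clean c

theorem REnv.upd {B : ℕ} {τ σ : ℤ → Sym G} {c c' : TC X G} {e : FT → ℕ} {R : FT} {n : ℕ} (h : REnv B τ σ c e) (f : Fr [R] [] c c') (hR : R ∉ nR)
    (hr : Ruler c' (o R) n) (hn : n ≤ B) : REnv B τ σ c' (Function.update e R n) := by
  have hI : FT.In ∉ [R] := by
    intro h2
    simp only [List.mem_singleton] at h2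
    subst h2
    simp at hR
  have hS : FT.Sv ∉ [R] := by
    intro h2
    simp only [List.mem_singleton] at h2
    subst h2
    simp at hR
  refine ⟨?_, ?_, ?_, ?_, ?_, ?_, f.cl h.cl⟩
  · intro a ha
    by_cases hb : a = R
    · subst hb
      rw [Function.update_self]
      exact hr
    · rw [Function.update_of_ne hb]
      exact (h.ru a ha).of_fr f (by simpa using hb) (by simp)
  · intro a
    by_cases hb : a = R
    · subst hb
      rw [Function.update_self]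
      exact hn
    · rw [Function.update_of_ne hb]
      exact h.le a
  · rw [f.tape hI]; exact h.tI
  · rw [f.head (by simp)]; exact h.hI
  · rw [f.tape hS]; exact h.tS
  · rw [f.head (by simp)]; exact h.hS

variable [DecidableEq X]

theorem raddE {B : ℕ} {τ σ : ℤ → Sym G} {c : TC X G} {e : FT → ℕ} (h : REnv B τ σ c e) (S R : FT) (hS : S ∉ nR) (hR : R ∉ nR) (hSR : S ≠ R)
    {n : ℕ} (hn : n = e R + e S) (hb : n ≤ B) :
    ∃ c', Run (radd (o S) (o R) : Prog (FT ⊕ X) (Sym G)) c c' (10 * B + 8) ∧ REnv B τ σ c' (Function.update e R n) := by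
  obtain ⟨c', r, a, f⟩ := raddF S R hSR c (h.ru S hS) (h.ru R hR)
  have h1 := h.le S
  have h2 := h.le R
  refine ⟨c', r.mono (by omega), ?_⟩
  rw [hn] at hb ⊢
  exact h.upd f hR a hb

theorem rsubE {B : ℕ} {τ σ : ℤ → Sym G} {c : TC X G} {e : FT → ℕ} (h : REnv B τ σ c e) (S R : FT) (hS : S ∉ nR) (hR : R ∉ nR) (hSR : S ≠ R)
    {n : ℕ} (hn : n = e R - e S) (hle : e S ≤ e R) :
    ∃ c', Run (rsub (o S) (o R) : Prog (FT ⊕ X) (Sym G)) c c' (8 * B + 16) ∧ REnv B τ σ c' (Function.update e R n) := by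
  obtain ⟨c', r, a, f⟩ := rsubF S R hSR c (h.ru S hS) (h.ru R hR) hle
  have h1 := h.le S
  have h2 := h.le R
  refine ⟨c', r.mono (by omega), ?_⟩
  rw [hn]
  exact h.upd f hR a (by omega)

theorem rincE {B : ℕ} {τ σ : ℤ → Sym G} {c : TC X G} {e : FT → ℕ} (h : REnv B τ σ c e) (R : FT) (hR : R ∉ nR)
    {n : ℕ} (hn : n = e R + 1) (hb : n ≤ B) :
    ∃ c', Run (rinc (o R) : Prog (FT ⊕ X) (Sym G)) c c' (4 * B + 9) ∧ REnv B τ σ c' (Function.update e R n) := by
  obtain ⟨c', r, a, f⟩ := rincF R c (h.ru R hR)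
  have h2 := h.le R
  refine ⟨c', r.mono (by omega), ?_⟩
  rw [hn] at hb ⊢
  exact h.upd f hR a hb

theorem rclrE {B : ℕ} {τ σ : ℤ → Sym G} {c : TC X G} {e : FT → ℕ} (h : REnv B τ σ c e) (R : FT) (hR : R ∉ nR) :
    ∃ c', Run (rclr (o R) : Prog (FT ⊕ X) (Sym G)) c c' (4 * B + 4) ∧ REnv B τ σ c' (Function.update e R 0) := by
  obtain ⟨c', r, a, f⟩ := rclrF R c (h.ru R hR)
  have h2 := h.le R
  exact ⟨c', r.mono (by omega), h.upd f hR a (by omega)⟩

theorem rpowE {B : ℕ} {τ σ : ℤ → Sym G} {c : TC X G} {e : FT → ℕ} (h : REnv B τ σ c e) (E R T : FT) (hE : E ∉ nR) (hR : R ∉ nR) (hT : T ∉ nR)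
    (h1 : E ≠ R) (h2 : E ≠ T) (h3 : R ≠ T) (hR0 : e R = 0) (hT0 : e T = 0) {n : ℕ} (hn : n = 2 ^ e E) (hb : n ≤ B) :
    ∃ c', Run (rpow (o E) (o R) (o T) : Prog (FT ⊕ X) (Sym G)) c c' (104 * B + 32) ∧ REnv B τ σ c' (Function.update e R n) := by
  obtain ⟨c', r, a, f⟩ := rpowF E R T h1 h2 h3 c (h.ru E hE) (by rw [← hR0]; exact h.ru R hR) (by rw [← hT0]; exact h.ru T hT)
  have hlt : e E < 2 ^ e E := Nat.lt_two_pow_self
  rw [hn] at hb ⊢
  refine ⟨c', r.mono (by omega), h.upd f hR a hb⟩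

end

end Vale.Agent.Lib.P338.F
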