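import Vale.Agent.Lib.P338.F.Loop

/-!
One round of the classical rearrangement of the data tape: exchanging a bit with a digit.
-/

namespace Vale.Agent.Lib.P338.F

open Vale.Agent.Lib.P338 Prog

section
variable {X G : Type}

/-- The shape of the data tape. -/
def Shp (dn : ℕ) (τ : ℤ → Sym G) : Prop :=
  (∀ x : ℤ, 0 ≤ x → x < (dn : ℤ) → (τ x).nonBlank = true) ∧ (∀ x : ℤ, (x < 0 ∨ (dn : ℤ) ≤ x) → τ x = .blank)

/-- What has been written so far in a round of the first kind. -/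
def IlvOK (K Z M : ℕ) (σ τ : ℤ → Sym G) (g k : ℕ) : Prop :=
  ∀ g' k' b z, (g' < g ∨ (g' = g ∧ k' < k)) → k' < K → b < 2 → z < Z →
    (σ ((g' * M + k' * (2 * Z) + b * Z + z : ℕ) : ℤ)).isOne = (τ ((g' * M + b * (K * Z) + k' * Z + z : ℕ) : ℤ)).isOne

theorem pos_lt {K Z M g k g' k' b z : ℕ} (hM : M = 2 * (K * Z)) (h : g' < g ∨ (g' = g ∧ k' < k)) (hk' : k' < K)
    (hb : b < 2) (hz : z < Z) : g' * M + k' * (2 * Z) + b * Z + z < g * M + k * (2 * Z) := by
  have h2 : b * Z + z < 2 * Z := by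
    have : b * Z ≤ 1 * Z := Nat.mul_le_mul_right _ (by omega)
    omega
  rcases h with h | ⟨rfl, h⟩
  · have h3 : (g' + 1) * M ≤ g * M := Nat.mul_le_mul_right _ h
    have h4 : (k' + 1) * (2 * Z) ≤ K * (2 * Z) := Nat.mul_le_mul_right _ hk'
    have h5 : K * (2 * Z) = M := by rw [hM]; ring
    have h6 : (g' + 1) * M = g' * M + M := by ring
    have h7 : (k' + 1) * (2 * Z) = k' * (2 * Z) + 2 * Z := by ring
    have h8 : 0 ≤ k * (2 * Z) := Nat.zero_le _
    omega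
  · have h3 : (k' + 1) * (2 * Z) ≤ k * (2 * Z) := Nat.mul_le_mul_right _ h
    have h7 : (k' + 1) * (2 * Z) = k' * (2 * Z) + 2 * Z := by ring
    omega

/-- Head moved back: the frame has no moved heads. -/
theorem Fr.fixA {l m : List FT} {a : FT} {c c' : TC X G} (h : Fr l (a :: m) c c') (he : c'.head (o a) = c.head (o a)) :
    Fr l m c c' := by
  refine ⟨h.tp, ?_, h.cl⟩
  intro b hb
  by_cases hab : b = a
  · subst hab
    exact he
  · exact h.hd b (by simp [hab, hb])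

variable [DecidableEq X]

/-- The body of the inner loop. -/
def ilvB : Prog (FT ⊕ X) (Sym G) := .seq (str .RZ .T1 .T2) (str .RZ .D .T2)

/-- One group. -/
def ilvG (R : FT) : Prog (FT ⊕ X) (Sym G) :=
  .seq (lod .RKZ .D .T1) (.seq (forR (o R) ilvB) (adv .RKZ .T1 .L))

/-- The round: `g M + b K Z + k Z + z` goes to `g M + k 2 Z + b Z + z`. -/
def ilv (R : FT) : Prog (FT ⊕ X) (Sym G) :=
  .seq (.loop (fun s => (s (o .D)).nonBlank) (ilvG R)) (.seq (adv .Rn .D .L) (.seq (adv .Rn .T2 .L) (cpy .Rn .T2 .D)))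

/-- The cost of the inner body. -/
def IB (Z : ℕ) : ℕ := 2 * (4 * Z + 4)

/-- The cost of a group. -/
def IG (K Z : ℕ) : ℕ := 8 * (K * Z) + 8 + (K * (IB Z + 4) + 4) + (4 * (K * Z) + 4)

/-- The cost of a round. -/
def IC (Gr K Z dn : ℕ) : ℕ := Gr * (IG K Z + 1) + 1 + ((4 * dn + 4) + ((4 * dn + 4) + (12 * dn + 12)))

theorem ilv_inner {K Z M g k : ℕ} {τ τ1 : ℤ → Sym G} {c : TC X G}
    (hM : M = 2 * (K * Z)) (hk : k < K)
    (hZ : Ruler c (o .RZ) Z) (hT1 : c.head (o .T1) = ((k * Z : ℕ) : ℤ)) (hD : c.head (o .D) = ((g * M + K * Z + k * Z : ℕ) : ℤ))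
    (hT2 : c.head (o .T2) = ((g * M + k * (2 * Z) : ℕ) : ℤ)) (tD : c.tape (o .D) = τ) (t1 : c.tape (o .T1) = τ1)
    (h1 : ∀ x : ℕ, x < K * Z → (τ1 (x : ℤ)).isOne = (τ ((g * M + x : ℕ) : ℤ)).isOne)
    (ok : IlvOK K Z M (c.tape (o .T2)) τ g k) :
    ∃ c', Run (ilvB : Prog (FT ⊕ X) (Sym G)) c c' (IB Z) ∧
      c'.head (o .T1) = (((k + 1) * Z : ℕ) : ℤ) ∧ c'.head (o .D) = ((g * M + K * Z + (k + 1) * Z : ℕ) : ℤ) ∧
      c'.head (o .T2) = ((g * M + (k + 1) * (2 * Z) : ℕ) : ℤ) ∧ IlvOK K Z M (c'.tape (o .T2)) τ g (k + 1) ∧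
      Fr [.T2] [.D, .T1, .T2] c c' := by
  obtain ⟨c1, r1, a1, a2, a3, f1⟩ := str_spec (X := X) (G := G) .RZ .T1 .T2 (by decide) c hZ
  obtain ⟨c2, r2, b1, b2, b3, f2⟩ := str_spec (X := X) (G := G) .RZ .D .T2 (by decide) c1 (hZ.of_fr f1 (by decide) (by decide))
  have tD1 : c1.tape (o .D) = τ := by rw [f1.tape (by decide), tD]
  have hD1 : c1.head (o .D) = c.head (o .D) := f1.head (by decide)
  refine ⟨c2, (r1.seq r2).mono (by unfold IB; omega), ?_, ?_, ?_, ?_, f1.tr f2 (by simp) (by simp)⟩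
  · rw [f2.head (by decide), a1, hT1]
    push_cast
    ring
  · rw [b1, hD1, hD]
    push_cast
    ring
  · rw [b2, a2, hT2]
    push_cast
    ring
  · intro g' k' b z hlex hk' hb hz
    have hpos := pos_lt (K := K) (Z := Z) (M := M) (g := g) (k := k) (g' := g') (k' := k') (b := b) (z := z) hM
    by_cases hold : g' < g ∨ (g' = g ∧ k' < k)
    · have hp := hpos hold hk' hb hz
      have hp' : ((g' * M + k' * (2 * Z) + b * Z + z : ℕ) : ℤ) < ((g * M + k * (2 * Z) : ℕ) : ℤ) := by exact_mod_cast hp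
      rw [b3, if_neg (by rw [a2, hT2]; omega), a3, if_neg (by rw [hT2]; omega)]
      exact ok g' k' b z hold hk' hb hz
    · have e1 : g' = g := by omega
      have e2 : k' = k := by omega
      subst e1 e2
      interval_cases b
      · have e3 : g' * M + k' * (2 * Z) + 0 * Z + z = (g' * M + k' * (2 * Z)) + z := by ring
        have e4 : g' * M + 0 * (K * Z) + k' * Z + z = g' * M + (k' * Z + z) := by ring
        rw [e3, e4]
        have hx : ((g' * M + k' * (2 * Z) + z : ℕ) : ℤ) = ((g' * M + k' * (2 * Z) : ℕ) : ℤ) + (z : ℤ) := by push_cast; ring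
        have hz1 : ((z : ℕ) : ℤ) < (Z : ℤ) := by exact_mod_cast hz
        have hz0 : (0 : ℤ) ≤ (z : ℤ) := by positivity
        rw [hx, b3, if_neg (by rw [a2, hT2]; push_cast at hz1 ⊢; omega), a3, if_pos (by rw [hT2]; omega), hT1, hT2, t1, isOne_bitW]
        have e5 : ((k' * Z : ℕ) : ℤ) + (((g' * M + k' * (2 * Z) : ℕ) : ℤ) + (z : ℤ) - ((g' * M + k' * (2 * Z) : ℕ) : ℤ)) = ((k' * Z + z : ℕ) : ℤ) := by
          push_cast
          ring
        rw [e5]
        apply h1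
        have : (k' + 1) * Z ≤ K * Z := Nat.mul_le_mul_right _ hk
        rw [add_mul, one_mul] at this
        omega
      · have e3 : g' * M + k' * (2 * Z) + 1 * Z + z = (g' * M + k' * (2 * Z) + Z) + z := by ring
        have e4 : g' * M + 1 * (K * Z) + k' * Z + z = g' * M + K * Z + k' * Z + z := by ring
        rw [e3, e4]
        have hx : ((g' * M + k' * (2 * Z) + Z + z : ℕ) : ℤ) = ((g' * M + k' * (2 * Z) + Z : ℕ) : ℤ) + (z : ℤ) := by push_cast; ring
        have ha : c1.head (o .T2) = ((g' * M + k' * (2 * Z) + Z : ℕ) : ℤ) := by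
          rw [a2, hT2]
          push_cast
          ring
        have hz1 : ((z : ℕ) : ℤ) < (Z : ℤ) := by exact_mod_cast hz
        have hz0 : (0 : ℤ) ≤ (z : ℤ) := by positivity
        rw [hx, b3, if_pos (by rw [ha]; omega), ha, isOne_bitW, hD1, hD, tD1]
        congr 2
        push_cast
        ring

theorem ilv_group {R : FT} (hR : R ∉ [FT.RZ, .T1, .T2, .D, .RKZ, .Rn]) {K Z M g : ℕ} {τ : ℤ → Sym G} {c : TC X G}
    (hM : M = 2 * (K * Z))
    (rK : Ruler c (o R) K) (rZ : Ruler c (o .RZ) Z) (rKZ : Ruler c (o .RKZ) (K * Z))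
    (hT1 : c.head (o .T1) = 0) (hD : c.head (o .D) = ((g * M : ℕ) : ℤ))
    (hT2 : c.head (o .T2) = ((g * M : ℕ) : ℤ)) (tD : c.tape (o .D) = τ)
    (ok : IlvOK K Z M (c.tape (o .T2)) τ g 0) :
    ∃ c', Run (ilvG R : Prog (FT ⊕ X) (Sym G)) c c' (IG K Z) ∧
      c'.head (o .T1) = 0 ∧ c'.head (o .D) = (((g + 1) * M : ℕ) : ℤ) ∧
      c'.head (o .T2) = (((g + 1) * M : ℕ) : ℤ) ∧ IlvOK K Z M (c'.tape (o .T2)) τ (g + 1) 0 ∧
      Fr [.T1, .T2] [.D, .T2] c c' := by
  have hR' := hR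
  simp only [List.mem_cons, List.not_mem_nil, or_false, not_or] at hR'
  obtain ⟨c1, r1, a1, a2, f1⟩ := lod_spec (X := X) (G := G) .RKZ .D .T1 (by decide) c rKZ
  have tD1 : c1.tape (o .D) = τ := by rw [f1.tape (by decide), tD]
  have h1 : ∀ x : ℕ, x < K * Z → ((c1.tape (o .T1)) (x : ℤ)).isOne = (τ ((g * M + x : ℕ) : ℤ)).isOne := by
    intro x hx
    rw [a2 x, hT1, if_pos (by
      have : (x : ℤ) < ((K * Z : ℕ) : ℤ) := by exact_mod_cast hx
      push_cast at this ⊢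
      omega), isOne_bitW, hD, tD]
    congr 2
  set τ1 := c1.tape (o .T1) with hτ1
  have rK1 : Ruler c1 (o R) K := rK.of_fr f1 (by simpa using hR'.2.1) (by simpa using hR'.2.2.2.1)
  obtain ⟨c2, ⟨i1, i2, i3, i4, i5, i6, i7⟩, hR2, r2⟩ := forU (R := R) (body := ilvB) (n := K)
    (fun k c' => c'.head (o .T1) = ((k * Z : ℕ) : ℤ) ∧ c'.head (o .D) = ((g * M + K * Z + k * Z : ℕ) : ℤ) ∧
      c'.head (o .T2) = ((g * M + k * (2 * Z) : ℕ) : ℤ) ∧ c'.tape (o .D) = τ ∧ c'.tape (o .T1) = τ1 ∧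
      IlvOK K Z M (c'.tape (o .T2)) τ g k ∧ Fr [.T2] [R, .D, .T1, .T2] c1 c') (IB Z) (c := c1) rK1
    ⟨by rw [f1.head (by simp), hT1]; simp, by rw [a1, hD]; simp, by rw [f1.head (by simp), hT2]; simp, tD1, rfl,
      by rw [f1.tape (by decide)]; exact ok, Fr.refl _ _ _⟩
    (by
      rintro i c2 c3 ⟨a1, a2, a3, a4, a5, a6, a7⟩ hf
      refine ⟨?_, ?_, ?_, ?_, ?_, ?_, ?_⟩
      · rw [hf.head (by simpa using (Ne.symm hR'.2.1))]; exact a1
      · rw [hf.head (by simpa using (Ne.symm hR'.2.2.2.1))]; exact a2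
      · rw [hf.head (by simpa using (Ne.symm hR'.2.2.1))]; exact a3
      · rw [hf.tape (by simp)]; exact a4
      · rw [hf.tape (by simp)]; exact a5
      · rw [hf.tape (by simp)]; exact a6
      · exact a7.tr hf (by simp) (by simp))
    (by
      rintro k hk c2 hR1 hR2 ⟨a1, a2, a3, a4, a5, a6, a7⟩
      have hz2 : Ruler c2 (o .RZ) Z := (rZ.of_fr f1 (by decide) (by decide)).of_fr a7 (by decide) (by
        simp only [List.mem_cons, List.not_mem_nil, or_false, not_or]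
        exact ⟨Ne.symm hR'.1, by decide, by decide, by decide⟩)
      obtain ⟨c3, r3, b1, b2, b3, b4, f3⟩ := ilv_inner hM hk hz2 a1 a2 a3 a4 a5 h1 a6
      refine ⟨c3, r3, ⟨b1, b2, b3, ?_, ?_, b4, a7.tr f3 (by simp) (by simp)⟩, ?_, ?_⟩
      · rw [f3.tape (by simp)]; exact a4
      · rw [f3.tape (by simp)]; exact a5
      · exact f3.tape (by simpa using hR'.2.2.1)
      · exact f3.head (by
          simp only [List.mem_cons, List.not_mem_nil, or_false, not_or]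
          exact ⟨hR'.2.2.2.1, hR'.2.1, hR'.2.2.1⟩))
  have f2 : Fr [.T2] [.D, .T1, .T2] c1 c2 := i7.fixR rK1 hR2
  obtain ⟨c3, r3, d1, f3⟩ := adv_spec (X := X) (G := G) .RKZ .T1 .L (by decide) (by simp) c2
    (rKZ.of_fr (f1.tr f2 (l2 := [.T1, .T2]) (m2 := [.D, .T1, .T2]) (by simp) (by simp)) (by decide) (by decide))
  have f4 : Fr [.T1, .T2] [.T1, .D, .T2] c c3 :=
    f1.tr (f2.tr f3 (l2 := [.T2]) (m2 := [.T1, .D, .T2]) (by simp) (by simp)) (by simp) (by simp)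
  refine ⟨c3, (r1.seq (r2.seq r3)).mono (by unfold IG; omega), ?_, ?_, ?_, ?_, Fr.fixA f4 ?_⟩
  · rw [d1, i1]
    simp [Dir.toInt]
  · rw [f3.head (by simp), i2, hM]
    push_cast
    ring
  · rw [f3.head (by simp), i3, hM]
    push_cast
    ring
  · rw [f3.tape (by simp)]
    intro g' k' b z hlex hk' hb hz
    have hlex' : g' < g ∨ (g' = g ∧ k' < K) := by
      simp at hlex
      omega
    exact i6 g' k' b z hlex' hk' hb hz
  · rw [d1, i1, hT1]
    simp [Dir.toInt]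

theorem ilv_spec {R : FT} (hR : R ∉ [FT.RZ, .T1, .T2, .D, .RKZ, .Rn]) {K Z Gr dn : ℕ} {c : TC X G}
    (hdn : dn = Gr * (2 * (K * Z))) (hpos : 0 < 2 * (K * Z))
    (rK : Ruler c (o R) K) (rZ : Ruler c (o .RZ) Z) (rKZ : Ruler c (o .RKZ) (K * Z)) (rn : Ruler c (o .Rn) dn)
    (hT1 : c.head (o .T1) = 0) (hD : c.head (o .D) = 0) (hT2 : c.head (o .T2) = 0) (sh : Shp dn (c.tape (o .D))) :
    ∃ c', Run (ilv R : Prog (FT ⊕ X) (Sym G)) c c' (IC Gr K Z dn) ∧
      c'.head (o .T1) = 0 ∧ c'.head (o .D) = 0 ∧ c'.head (o .T2) = 0 ∧ Shp dn (c'.tape (o .D)) ∧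
      (∀ g k b z, g < Gr → k < K → b < 2 → z < Z →
        (c'.tape (o .D) ((g * (2 * (K * Z)) + k * (2 * Z) + b * Z + z : ℕ) : ℤ)).isOne =
          (c.tape (o .D) ((g * (2 * (K * Z)) + b * (K * Z) + k * Z + z : ℕ) : ℤ)).isOne) ∧
      Fr [.D, .T1, .T2] [] c c' := by
  have hR' := hR
  simp only [List.mem_cons, List.not_mem_nil, or_false, not_or] at hR'
  set M := 2 * (K * Z) with hM
  set τ := c.tape (o .D) with hτ
  obtain ⟨c1, ⟨i1, i2, i3, i4, i5, i6⟩, r1⟩ := Run.loop (g := fun s => (s (o .D)).nonBlank) (b := ilvG R)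
    (fun g c' => c'.head (o .T1) = 0 ∧ c'.head (o .D) = ((g * M : ℕ) : ℤ) ∧ c'.head (o .T2) = ((g * M : ℕ) : ℤ) ∧
      c'.tape (o .D) = τ ∧ IlvOK K Z M (c'.tape (o .T2)) τ g 0 ∧ Fr [.T1, .T2] [.D, .T2] c c') Gr (fun _ => IG K Z) (c := c)
    ⟨hT1, by rw [hD]; simp, by rw [hT2]; simp, rfl, by
      intro g' k' b z h
      simp at h, Fr.refl _ _ _⟩
    (by
      rintro g hg c2 ⟨a1, a2, a3, a4, a5, a6⟩
      constructor
      · simp only [TS.read]
        rw [a4, a2]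
        apply sh.1
        · positivity
        · have : (g + 1) * M ≤ Gr * M := Nat.mul_le_mul_right _ hg
          rw [add_mul, one_mul] at this
          rw [hdn]
          have h3 : g * M < Gr * M := by omega
          exact_mod_cast h3
      · have n1 : R ∉ [FT.T1, FT.T2] := by simpa using ⟨hR'.2.1, hR'.2.2.1⟩
        have n2 : R ∉ [FT.D, FT.T2] := by simpa using ⟨hR'.2.2.2.1, hR'.2.2.1⟩
        obtain ⟨c3, r3, b1, b2, b3, b4, f3⟩ := ilv_group hR hM (rK.of_fr a6 n1 n2) (rZ.of_fr a6 (by decide) (by decide))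
          (rKZ.of_fr a6 (by decide) (by decide)) a1 a2 a3 a4 a5
        refine ⟨c3, r3, b1, b2, b3, ?_, b4, a6.tr f3 (by simp) (by simp)⟩
        rw [f3.tape (by decide), a4])
    (by
      rintro c2 ⟨_, a2, _, a4, _, _⟩
      simp only [TS.read]
      rw [a4, a2, sh.2 _ (by right; rw [hdn])]
      rfl)
  have rn1 : Ruler c1 (o .Rn) dn := rn.of_fr i6 (by decide) (by decide)
  obtain ⟨c2, r2, b1, f2⟩ := adv_spec (X := X) (G := G) .Rn .D .L (by decide) (by simp) c1 rn1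
  obtain ⟨c3, r3, d1, f3⟩ := adv_spec (X := X) (G := G) .Rn .T2 .L (by decide) (by simp) c2 (rn1.of_fr f2 (by simp) (by decide))
  obtain ⟨c4, r4, e1, f4⟩ := cpy_spec (X := X) (G := G) .Rn .T2 .D (by decide) c3
    ((rn1.of_fr f2 (by simp) (by decide)).of_fr f3 (by simp) (by decide))
  have hD3 : c3.head (o .D) = 0 := by
    rw [f3.head (by decide), b1, i2, hdn]
    simp [Dir.toInt]
  have hT3 : c3.head (o .T2) = 0 := by
    rw [d1, f2.head (by decide), i3, hdn]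
    simp [Dir.toInt]
  have tD3 : c3.tape (o .D) = τ := by
    rw [f3.tape (by simp), f2.tape (by simp), i4]
  have tD4 : ∀ x : ℤ, c4.tape (o .D) x = if 0 ≤ x ∧ x < (dn : ℤ) then bitW (c3.tape (o .T2) x) else τ x := by
    intro x
    rw [e1 x, hD3, hT3, tD3]
    simp
  have f5 : Fr [.T1, .T2, .D] [.D, .T2] c c4 :=
    i6.tr (f2.tr (f3.tr f4 (l2 := [.D]) (m2 := [.T2, .D]) (by simp) (by simp)) (l2 := [.D]) (m2 := [.D, .T2]) (by simp) (by simp)) (by simp) (by simp)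
  refine ⟨c4, (r1.seq (r2.seq (r3.seq r4))).mono ?_, ?_, ?_, ?_, ⟨?_, ?_⟩, ?_, ?_⟩
  · unfold IC
    rw [Finset.sum_const, Finset.card_range, smul_eq_mul]
  · rw [f5.head (by decide), hT1]
  · rw [f4.head (by simp), hD3]
  · rw [f4.head (by simp), hT3]
  · intro x h1 h2
    rw [tD4, if_pos ⟨h1, h2⟩]
    simp
  · intro x hx
    rw [tD4, if_neg (by omega)]
    exact sh.2 x hx
  · intro g k b z hg hk hb hz
    have hlt := pos_lt (K := K) (Z := Z) (M := M) (g := Gr) (k := 0) (g' := g) (k' := k) (b := b) (z := z) hM (Or.inl hg) hk hb hz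
    have hlt' : ((g * M + k * (2 * Z) + b * Z + z : ℕ) : ℤ) < (dn : ℤ) := by
      rw [hdn]
      simp only [zero_mul, add_zero] at hlt
      exact_mod_cast hlt
    rw [tD4, if_pos ⟨by positivity, hlt'⟩, isOne_bitW, f3.tape (by simp), f2.tape (by simp)]
    exact i5 g k b z (Or.inl hg) hk hb hz
  · refine ⟨?_, ?_, f5.cl⟩
    · intro a ha
      exact f5.tape (by simp at ha ⊢; tauto)
    · intro a _
      by_cases h1 : a = .D
      · subst h1
        rw [f4.head (by simp), hD3, hD]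
      · by_cases h2 : a = .T2
        · subst h2
          rw [f4.head (by simp), hT3, hT2]
        · exact f5.head (by simp [h1, h2])

/-! The inverse round -/

/-- The body of the inner loop of the inverse round. -/
def dlvB : Prog (FT ⊕ X) (Sym G) := .seq (str .RZ .D .T2) (str .RZ .D .T1)

/-- One group of the inverse round. -/
def dlvG (R : FT) : Prog (FT ⊕ X) (Sym G) :=
  .seq (forR (o R) dlvB) (.seq (adv .RKZ .T1 .L) (.seq (str .RKZ .T1 .T2) (adv .RKZ .T1 .L)))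

/-- The inverse round: `g M + k 2 Z + b Z + z` goes to `g M + b K Z + k Z + z`. -/
def dlv (R : FT) : Prog (FT ⊕ X) (Sym G) :=
  .seq (.loop (fun s => (s (o .D)).nonBlank) (dlvG R)) (.seq (adv .Rn .D .L) (.seq (adv .Rn .T2 .L) (cpy .Rn .T2 .D)))

/-- The cost of a group of the inverse round. -/
def DG (K Z : ℕ) : ℕ := (K * (IB Z + 4) + 4) + ((4 * (K * Z) + 4) + ((4 * (K * Z) + 4) + (4 * (K * Z) + 4)))

/-- The cost of the inverse round. -/
def DC (Gr K Z dn : ℕ) : ℕ := Gr * (DG K Z + 1) + 1 + ((4 * dn + 4) + ((4 * dn + 4) + (12 * dn + 12)))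

omit [DecidableEq X] in
/-- What has been written in earlier groups. -/
theorem old_lt {K Z M g g' k b z : ℕ} (hM : M = 2 * (K * Z)) (hg : g' < g) (hk : k < K) (hb : b < 2) (hz : z < Z) :
    g' * M + b * (K * Z) + k * Z + z < g * M := by
  have h1 : (g' + 1) * M ≤ g * M := Nat.mul_le_mul_right _ hg
  have h2 : (k + 1) * Z ≤ K * Z := Nat.mul_le_mul_right _ hk
  have h3 : b * (K * Z) ≤ 1 * (K * Z) := Nat.mul_le_mul_right _ (by omega)
  have h4 : (g' + 1) * M = g' * M + M := by ring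
  have h5 : (k + 1) * Z = k * Z + Z := by ring
  omega

theorem dlv_inner {Z M g k : ℕ} {τ : ℤ → Sym G} {c : TC X G} (hZ : Ruler c (o .RZ) Z)
    (hT1 : c.head (o .T1) = ((k * Z : ℕ) : ℤ)) (hD : c.head (o .D) = ((g * M + k * (2 * Z) : ℕ) : ℤ))
    (hT2 : c.head (o .T2) = ((g * M + k * Z : ℕ) : ℤ)) (tD : c.tape (o .D) = τ)
    (ok2 : ∀ k' z, k' < k → z < Z → (c.tape (o .T2) ((g * M + k' * Z + z : ℕ) : ℤ)).isOne = (τ ((g * M + k' * (2 * Z) + z : ℕ) : ℤ)).isOne)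
    (ok1 : ∀ k' z, k' < k → z < Z → (c.tape (o .T1) ((k' * Z + z : ℕ) : ℤ)).isOne = (τ ((g * M + k' * (2 * Z) + Z + z : ℕ) : ℤ)).isOne) :
    ∃ c', Run (dlvB : Prog (FT ⊕ X) (Sym G)) c c' (IB Z) ∧
      c'.head (o .T1) = (((k + 1) * Z : ℕ) : ℤ) ∧ c'.head (o .D) = ((g * M + (k + 1) * (2 * Z) : ℕ) : ℤ) ∧
      c'.head (o .T2) = ((g * M + (k + 1) * Z : ℕ) : ℤ) ∧
      (∀ k' z, k' < k + 1 → z < Z → (c'.tape (o .T2) ((g * M + k' * Z + z : ℕ) : ℤ)).isOne = (τ ((g * M + k' * (2 * Z) + z : ℕ) : ℤ)).isOne) ∧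
      (∀ k' z, k' < k + 1 → z < Z → (c'.tape (o .T1) ((k' * Z + z : ℕ) : ℤ)).isOne = (τ ((g * M + k' * (2 * Z) + Z + z : ℕ) : ℤ)).isOne) ∧
      (∀ x : ℤ, x < ((g * M : ℕ) : ℤ) → c'.tape (o .T2) x = c.tape (o .T2) x) ∧
      Fr [.T1, .T2] [.D, .T1, .T2] c c' := by
  obtain ⟨c1, r1, a1, a2, a3, f1⟩ := str_spec (X := X) (G := G) .RZ .D .T2 (by decide) c hZ
  obtain ⟨c2, r2, b1, b2, b3, f2⟩ := str_spec (X := X) (G := G) .RZ .D .T1 (by decide) c1 (hZ.of_fr f1 (by decide) (by decide))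
  have tD1 : c1.tape (o .D) = τ := by rw [f1.tape (by decide), tD]
  have hT1' : c1.head (o .T1) = c.head (o .T1) := f1.head (by decide)
  have hD1 : c1.head (o .D) = ((g * M + k * (2 * Z) + Z : ℕ) : ℤ) := by
    rw [a1, hD]
    push_cast
    ring
  have tT2 : c2.tape (o .T2) = c1.tape (o .T2) := f2.tape (by decide)
  have tT1 : c1.tape (o .T1) = c.tape (o .T1) := f1.tape (by decide)
  have fr : ∀ x : ℤ, x < ((g * M + k * Z : ℕ) : ℤ) → c2.tape (o .T2) x = c.tape (o .T2) x := by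
    intro x hx
    rw [tT2, a3, if_neg (by rw [hT2]; omega)]
  refine ⟨c2, (r1.seq r2).mono (by unfold IB; omega), ?_, ?_, ?_, ?_, ?_, ?_, f1.tr f2 (by simp) (by simp)⟩
  · rw [b2, hT1', hT1]
    push_cast
    ring
  · rw [b1, hD1]
    push_cast
    ring
  · rw [f2.head (by decide), a2, hT2]
    push_cast
    ring
  · intro k' z hk' hz
    by_cases hk2 : k' < k
    · have h3 : (k' + 1) * Z ≤ k * Z := Nat.mul_le_mul_right _ hk2
      have h4 : (k' + 1) * Z = k' * Z + Z := by ring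
      rw [fr _ (by
        have : g * M + k' * Z + z < g * M + k * Z := by omega
        exact_mod_cast this)]
      exact ok2 k' z hk2 hz
    · have e : k' = k := by omega
      subst e
      have hz1 : ((z : ℕ) : ℤ) < (Z : ℤ) := by exact_mod_cast hz
      have hz0 : (0 : ℤ) ≤ (z : ℤ) := by positivity
      have hx : ((g * M + k' * Z + z : ℕ) : ℤ) = ((g * M + k' * Z : ℕ) : ℤ) + (z : ℤ) := by push_cast; ring
      rw [tT2, hx, a3, hT2, if_pos (by omega), isOne_bitW, hD, tD]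
      congr 2
      push_cast
      ring
  · intro k' z hk' hz
    by_cases hk2 : k' < k
    · have h3 : (k' + 1) * Z ≤ k * Z := Nat.mul_le_mul_right _ hk2
      have h4 : (k' + 1) * Z = k' * Z + Z := by ring
      have hlt : ((k' * Z + z : ℕ) : ℤ) < ((k * Z : ℕ) : ℤ) := by
        have : k' * Z + z < k * Z := by omega
        exact_mod_cast this
      rw [b3, hT1', hT1, if_neg (by omega), tT1]
      exact ok1 k' z hk2 hz
    · have e : k' = k := by omega
      subst e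
      have hz1 : ((z : ℕ) : ℤ) < (Z : ℤ) := by exact_mod_cast hz
      have hz0 : (0 : ℤ) ≤ (z : ℤ) := by positivity
      have hx : ((k' * Z + z : ℕ) : ℤ) = ((k' * Z : ℕ) : ℤ) + (z : ℤ) := by push_cast; ring
      rw [hx, b3, hT1', hT1, if_pos (by omega), isOne_bitW, hD1, tD1]
      congr 2
      push_cast
      ring
  · intro x hx
    apply fr
    have : g * M ≤ g * M + k * Z := Nat.le_add_right _ _
    have h2 : ((g * M : ℕ) : ℤ) ≤ ((g * M + k * Z : ℕ) : ℤ) := by exact_mod_cast this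
    omega

/-- What has been written so far in a round of the second kind. -/
def DlvOK (K Z M : ℕ) (σ τ : ℤ → Sym G) (g : ℕ) : Prop :=
  ∀ g' k b z, g' < g → k < K → b < 2 → z < Z →
    (σ ((g' * M + b * (K * Z) + k * Z + z : ℕ) : ℤ)).isOne = (τ ((g' * M + k * (2 * Z) + b * Z + z : ℕ) : ℤ)).isOne

theorem dlv_group {R : FT} (hR : R ∉ [FT.RZ, .T1, .T2, .D, .RKZ, .Rn]) {K Z M g : ℕ} {τ : ℤ → Sym G} {c : TC X G}
    (hM : M = 2 * (K * Z))
    (rK : Ruler c (o R) K) (rZ : Ruler c (o .RZ) Z) (rKZ : Ruler c (o .RKZ) (K * Z))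
    (hT1 : c.head (o .T1) = 0) (hD : c.head (o .D) = ((g * M : ℕ) : ℤ))
    (hT2 : c.head (o .T2) = ((g * M : ℕ) : ℤ)) (tD : c.tape (o .D) = τ)
    (ok : DlvOK K Z M (c.tape (o .T2)) τ g) :
    ∃ c', Run (dlvG R : Prog (FT ⊕ X) (Sym G)) c c' (DG K Z) ∧
      c'.head (o .T1) = 0 ∧ c'.head (o .D) = (((g + 1) * M : ℕ) : ℤ) ∧
      c'.head (o .T2) = (((g + 1) * M : ℕ) : ℤ) ∧ DlvOK K Z M (c'.tape (o .T2)) τ (g + 1) ∧
      Fr [.T1, .T2] [.D, .T2] c c' := by
  have hR' := hR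
  simp only [List.mem_cons, List.not_mem_nil, or_false, not_or] at hR'
  obtain ⟨c2, ⟨i1, i2, i3, i4, i5, i6, i7, i8⟩, hR2, r2⟩ := forU (R := R) (body := dlvB) (n := K)
    (fun k c' => c'.head (o .T1) = ((k * Z : ℕ) : ℤ) ∧ c'.head (o .D) = ((g * M + k * (2 * Z) : ℕ) : ℤ) ∧
      c'.head (o .T2) = ((g * M + k * Z : ℕ) : ℤ) ∧ c'.tape (o .D) = τ ∧
      (∀ k' z, k' < k → z < Z → (c'.tape (o .T2) ((g * M + k' * Z + z : ℕ) : ℤ)).isOne = (τ ((g * M + k' * (2 * Z) + z : ℕ) : ℤ)).isOne) ∧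
      (∀ k' z, k' < k → z < Z → (c'.tape (o .T1) ((k' * Z + z : ℕ) : ℤ)).isOne = (τ ((g * M + k' * (2 * Z) + Z + z : ℕ) : ℤ)).isOne) ∧
      (∀ x : ℤ, x < ((g * M : ℕ) : ℤ) → c'.tape (o .T2) x = c.tape (o .T2) x) ∧
      Fr [.T1, .T2] [R, .D, .T1, .T2] c c') (IB Z) (c := c) rK
    ⟨by rw [hT1]; simp, by rw [hD]; simp, by rw [hT2]; simp, tD, by simp, by simp, fun _ _ => rfl, Fr.refl _ _ _⟩
    (by
      rintro i c2 c3 ⟨a1, a2, a3, a4, a5, a6, a7, a8⟩ hf
      refine ⟨?_, ?_, ?_, ?_, ?_, ?_, ?_, ?_⟩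
      · rw [hf.head (by simpa using (Ne.symm hR'.2.1))]; exact a1
      · rw [hf.head (by simpa using (Ne.symm hR'.2.2.2.1))]; exact a2
      · rw [hf.head (by simpa using (Ne.symm hR'.2.2.1))]; exact a3
      · rw [hf.tape (by simp)]; exact a4
      · rw [hf.tape (by simp)]; exact a5
      · rw [hf.tape (by simp)]; exact a6
      · rw [hf.tape (by simp)]; exact a7
      · exact a8.tr hf (by simp) (by simp))
    (by
      rintro k hk c2 hR1 hR2 ⟨a1, a2, a3, a4, a5, a6, a7, a8⟩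
      have hz2 : Ruler c2 (o .RZ) Z := rZ.of_fr a8 (by decide) (by
        simp only [List.mem_cons, List.not_mem_nil, or_false, not_or]
        exact ⟨Ne.symm hR'.1, by decide, by decide, by decide⟩)
      obtain ⟨c3, r3, b1, b2, b3, b4, b5, b6, f3⟩ := dlv_inner hz2 a1 a2 a3 a4 a5 a6
      refine ⟨c3, r3, ⟨b1, b2, b3, ?_, b4, b5, ?_, a8.tr f3 (by simp) (by simp)⟩, ?_, ?_⟩
      · rw [f3.tape (by simp)]; exact a4
      · intro x hx
        rw [b6 x hx]
        exact a7 x hx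
      · exact f3.tape (by simpa using ⟨hR'.2.1, hR'.2.2.1⟩)
      · exact f3.head (by
          simp only [List.mem_cons, List.not_mem_nil, or_false, not_or]
          exact ⟨hR'.2.2.2.1, hR'.2.1, hR'.2.2.1⟩))
  have f2 : Fr [.T1, .T2] [.D, .T1, .T2] c c2 := i8.fixR rK hR2
  have rKZ2 := rKZ.of_fr f2 (by decide) (by decide)
  obtain ⟨c3, r3, d1, f3⟩ := adv_spec (X := X) (G := G) .RKZ .T1 .L (by decide) (by simp) c2 rKZ2
  have rKZ3 := rKZ2.of_fr f3 (by simp) (by decide)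
  obtain ⟨c4, r4, e1, e2, e3, f4⟩ := str_spec (X := X) (G := G) .RKZ .T1 .T2 (by decide) c3 rKZ3
  have rKZ4 := rKZ3.of_fr f4 (by decide) (by decide)
  obtain ⟨c5, r5, g1, f5⟩ := adv_spec (X := X) (G := G) .RKZ .T1 .L (by decide) (by simp) c4 rKZ4
  have hT3 : c3.head (o .T1) = 0 := by
    rw [d1, i1]
    simp [Dir.toInt]
  have hT23 : c3.head (o .T2) = ((g * M + K * Z : ℕ) : ℤ) := by
    rw [f3.head (by decide), i3]
  have t13 : c3.tape (o .T1) = c2.tape (o .T1) := f3.tape (by simp)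
  have t23 : c3.tape (o .T2) = c2.tape (o .T2) := f3.tape (by simp)
  have f6 : Fr [.T1, .T2] [.T1, .D, .T2] c c5 :=
    f2.tr (f3.tr (f4.tr f5 (l2 := [.T2]) (m2 := [.T1, .T2]) (by simp) (by simp)) (l2 := [.T2]) (m2 := [.T1, .T2]) (by simp) (by simp)) (by simp) (by simp)
  refine ⟨c5, (r2.seq (r3.seq (r4.seq r5))).mono (by unfold DG; omega), ?_, ?_, ?_, ?_, Fr.fixA f6 ?_⟩
  · rw [g1, e1, hT3]
    simp [Dir.toInt]
  · rw [f5.head (by decide), f4.head (by decide), f3.head (by decide), i2, hM]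
    push_cast
    ring
  · rw [f5.head (by decide), e2, hT23, hM]
    push_cast
    ring
  · intro g' k b z hg hk hb hz
    rw [f5.tape (by simp), e3, hT23]
    by_cases hg' : g' < g
    · have hlt := old_lt hM hg' hk hb hz
      have hlt' : ((g' * M + b * (K * Z) + k * Z + z : ℕ) : ℤ) < ((g * M : ℕ) : ℤ) := by exact_mod_cast hlt
      have h4 : ((g * M : ℕ) : ℤ) ≤ ((g * M + K * Z : ℕ) : ℤ) := by
        have : g * M ≤ g * M + K * Z := Nat.le_add_right _ _
        exact_mod_cast this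
      rw [if_neg (by omega), t23, i7 _ hlt']
      exact ok g' k b z hg' hk hb hz
    · have e : g' = g := by omega
      subst e
      have hz1 : k * Z + z < K * Z := by
        have h3 : (k + 1) * Z ≤ K * Z := Nat.mul_le_mul_right _ hk
        have h4 : (k + 1) * Z = k * Z + Z := by ring
        omega
      interval_cases b
      · have e3' : g' * M + 0 * (K * Z) + k * Z + z = g' * M + k * Z + z := by ring
        have e4 : g' * M + k * (2 * Z) + 0 * Z + z = g' * M + k * (2 * Z) + z := by ring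
        rw [e3', e4]
        have hlt' : ((g' * M + k * Z + z : ℕ) : ℤ) < ((g' * M + K * Z : ℕ) : ℤ) := by
          have : g' * M + k * Z + z < g' * M + K * Z := by omega
          exact_mod_cast this
        rw [if_neg (by omega), t23]
        exact i5 k z hk hz
      · have e3' : g' * M + 1 * (K * Z) + k * Z + z = (g' * M + K * Z) + (k * Z + z) := by ring
        have e4 : g' * M + k * (2 * Z) + 1 * Z + z = g' * M + k * (2 * Z) + Z + z := by ring
        rw [e3', e4]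
        have hx : ((g' * M + K * Z + (k * Z + z) : ℕ) : ℤ) = ((g' * M + K * Z : ℕ) : ℤ) + ((k * Z + z : ℕ) : ℤ) := by push_cast; ring
        have hz3 : ((k * Z + z : ℕ) : ℤ) < ((K * Z : ℕ) : ℤ) := by exact_mod_cast hz1
        have hz0 : (0 : ℤ) ≤ ((k * Z + z : ℕ) : ℤ) := by positivity
        rw [hx, if_pos (by omega), isOne_bitW, hT3, t13]
        have e5 : (0 : ℤ) + (((g' * M + K * Z : ℕ) : ℤ) + ((k * Z + z : ℕ) : ℤ) - ((g' * M + K * Z : ℕ) : ℤ)) = ((k * Z + z : ℕ) : ℤ) := by ring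
        rw [e5]
        exact i6 k z hk hz
  · rw [g1, e1, hT3, hT1]
    simp [Dir.toInt]

theorem dlv_spec {R : FT} (hR : R ∉ [FT.RZ, .T1, .T2, .D, .RKZ, .Rn]) {K Z Gr dn : ℕ} {c : TC X G}
    (hdn : dn = Gr * (2 * (K * Z))) (hpos : 0 < 2 * (K * Z))
    (rK : Ruler c (o R) K) (rZ : Ruler c (o .RZ) Z) (rKZ : Ruler c (o .RKZ) (K * Z)) (rn : Ruler c (o .Rn) dn)
    (hT1 : c.head (o .T1) = 0) (hD : c.head (o .D) = 0) (hT2 : c.head (o .T2) = 0) (sh : Shp dn (c.tape (o .D))) :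
    ∃ c', Run (dlv R : Prog (FT ⊕ X) (Sym G)) c c' (DC Gr K Z dn) ∧
      c'.head (o .T1) = 0 ∧ c'.head (o .D) = 0 ∧ c'.head (o .T2) = 0 ∧ Shp dn (c'.tape (o .D)) ∧
      (∀ g k b z, g < Gr → k < K → b < 2 → z < Z →
        (c'.tape (o .D) ((g * (2 * (K * Z)) + b * (K * Z) + k * Z + z : ℕ) : ℤ)).isOne =
          (c.tape (o .D) ((g * (2 * (K * Z)) + k * (2 * Z) + b * Z + z : ℕ) : ℤ)).isOne) ∧
      Fr [.D, .T1, .T2] [] c c' := by
  have hR' := hR
  simp only [List.mem_cons, List.not_mem_nil, or_false, not_or] at hR'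
  set M := 2 * (K * Z) with hM
  set τ := c.tape (o .D) with hτ
  obtain ⟨c1, ⟨i1, i2, i3, i4, i5, i6⟩, r1⟩ := Run.loop (g := fun s => (s (o .D)).nonBlank) (b := dlvG R)
    (fun g c' => c'.head (o .T1) = 0 ∧ c'.head (o .D) = ((g * M : ℕ) : ℤ) ∧ c'.head (o .T2) = ((g * M : ℕ) : ℤ) ∧
      c'.tape (o .D) = τ ∧ DlvOK K Z M (c'.tape (o .T2)) τ g ∧ Fr [.T1, .T2] [.D, .T2] c c') Gr (fun _ => DG K Z) (c := c)
    ⟨hT1, by rw [hD]; simp, by rw [hT2]; simp, rfl, by
      intro g' k' b z h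
      simp at h, Fr.refl _ _ _⟩
    (by
      rintro g hg c2 ⟨a1, a2, a3, a4, a5, a6⟩
      constructor
      · simp only [TS.read]
        rw [a4, a2]
        apply sh.1
        · positivity
        · have : (g + 1) * M ≤ Gr * M := Nat.mul_le_mul_right _ hg
          rw [add_mul, one_mul] at this
          rw [hdn]
          have h3 : g * M < Gr * M := by omega
          exact_mod_cast h3
      · have n1 : R ∉ [FT.T1, FT.T2] := by simpa using ⟨hR'.2.1, hR'.2.2.1⟩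
        have n2 : R ∉ [FT.D, FT.T2] := by simpa using ⟨hR'.2.2.2.1, hR'.2.2.1⟩
        obtain ⟨c3, r3, b1, b2, b3, b4, f3⟩ := dlv_group hR hM (rK.of_fr a6 n1 n2) (rZ.of_fr a6 (by decide) (by decide))
          (rKZ.of_fr a6 (by decide) (by decide)) a1 a2 a3 a4 a5
        refine ⟨c3, r3, b1, b2, b3, ?_, b4, a6.tr f3 (by simp) (by simp)⟩
        rw [f3.tape (by decide), a4])
    (by
      rintro c2 ⟨_, a2, _, a4, _, _⟩
      simp only [TS.read]
      rw [a4, a2, sh.2 _ (by right; rw [hdn])]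
      rfl)
  have rn1 : Ruler c1 (o .Rn) dn := rn.of_fr i6 (by decide) (by decide)
  obtain ⟨c2, r2, b1, f2⟩ := adv_spec (X := X) (G := G) .Rn .D .L (by decide) (by simp) c1 rn1
  obtain ⟨c3, r3, d1, f3⟩ := adv_spec (X := X) (G := G) .Rn .T2 .L (by decide) (by simp) c2 (rn1.of_fr f2 (by simp) (by decide))
  obtain ⟨c4, r4, e1, f4⟩ := cpy_spec (X := X) (G := G) .Rn .T2 .D (by decide) c3
    ((rn1.of_fr f2 (by simp) (by decide)).of_fr f3 (by simp) (by decide))
  have hD3 : c3.head (o .D) = 0 := by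
    rw [f3.head (by decide), b1, i2, hdn]
    simp [Dir.toInt]
  have hT3 : c3.head (o .T2) = 0 := by
    rw [d1, f2.head (by decide), i3, hdn]
    simp [Dir.toInt]
  have tD3 : c3.tape (o .D) = τ := by
    rw [f3.tape (by simp), f2.tape (by simp), i4]
  have tD4 : ∀ x : ℤ, c4.tape (o .D) x = if 0 ≤ x ∧ x < (dn : ℤ) then bitW (c3.tape (o .T2) x) else τ x := by
    intro x
    rw [e1 x, hD3, hT3, tD3]
    simp
  have f5 : Fr [.T1, .T2, .D] [.D, .T2] c c4 :=
    i6.tr (f2.tr (f3.tr f4 (l2 := [.D]) (m2 := [.T2, .D]) (by simp) (by simp)) (l2 := [.D]) (m2 := [.D, .T2]) (by simp) (by simp)) (by simp) (by simp)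
  refine ⟨c4, (r1.seq (r2.seq (r3.seq r4))).mono ?_, ?_, ?_, ?_, ⟨?_, ?_⟩, ?_, ?_⟩
  · unfold DC
    rw [Finset.sum_const, Finset.card_range, smul_eq_mul]
  · rw [f5.head (by decide), hT1]
  · rw [f4.head (by simp), hD3]
  · rw [f4.head (by simp), hT3]
  · intro x h1 h2
    rw [tD4, if_pos ⟨h1, h2⟩]
    simp
  · intro x hx
    rw [tD4, if_neg (by omega)]
    exact sh.2 x hx
  · intro g k b z hg hk hb hz
    have hlt := old_lt (K := K) (Z := Z) (M := M) (g := Gr) (g' := g) (k := k) (b := b) (z := z) hM hg hk hb hz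
    have hlt' : ((g * M + b * (K * Z) + k * Z + z : ℕ) : ℤ) < (dn : ℤ) := by
      rw [hdn]
      exact_mod_cast hlt
    rw [tD4, if_pos ⟨by positivity, hlt'⟩, isOne_bitW, f3.tape (by simp), f2.tape (by simp)]
    exact i5 g k b z hg hk hb hz
  · refine ⟨?_, ?_, f5.cl⟩
    · intro a ha
      exact f5.tape (by simp at ha ⊢; tauto)
    · intro a _
      by_cases h1 : a = .D
      · subst h1
        rw [f4.head (by simp), hD3, hD]
      · by_cases h2 : a = .T2
        · subst h2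
          rw [f4.head (by simp), hT3, hT2]
        · exact f5.head (by simp [h1, h2])

end

end Vale.Agent.Lib.P338.F
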