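import Vale.Agent.Lib.P338.F.RulerF

/-!
Several rounds of the classical rearrangement.
-/

namespace Vale.Agent.Lib.P338.F

open Vale.Agent.Lib.P338 Prog

/-- The position of the entry with digits `i`, `r`, `j`, `c` after `e` rounds. -/
def posE (ρ S K e i r j c : ℕ) : ℕ :=
  ((i * 2 ^ (ρ - e) + r / 2 ^ e) * K + j) * (2 ^ e * S) + (r % 2 ^ e) * S + c

theorem posE_step {ρ S K e i r j c : ℕ} (he : e < ρ) :
    let Z := 2 ^ e * S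
    let g := i * 2 ^ (ρ - e - 1) + r / 2 ^ (e + 1)
    let b := r / 2 ^ e % 2
    let z := (r % 2 ^ e) * S + c
    posE ρ S K (e + 1) i r j c = g * (2 * (K * Z)) + j * (2 * Z) + b * Z + z ∧
    posE ρ S K e i r j c = g * (2 * (K * Z)) + b * (K * Z) + j * Z + z := by
  intro Z g b z
  have h1 : ρ - e = (ρ - e - 1) + 1 := by omega
  have h2 : r / 2 ^ e = 2 * (r / 2 ^ (e + 1)) + b := by
    have := Nat.div_add_mod (r / 2 ^ e) 2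
    rw [Nat.div_div_eq_div_mul, ← pow_succ] at this
    omega
  have h3 : r % 2 ^ (e + 1) = b * 2 ^ e + r % 2 ^ e := by
    rw [Nat.mod_pow_succ]
    ring
  have h4 : ρ - (e + 1) = ρ - e - 1 := by omega
  have h5 : 2 ^ (e + 1) * S = 2 * (2 ^ e * S) := by
    rw [pow_succ]
    ring
  have h6 : 2 ^ (ρ - e) = 2 * 2 ^ (ρ - e - 1) := by
    rw [h1, pow_succ]
    simp only [Nat.add_sub_cancel]
    ring
  constructor
  · simp only [posE]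
    rw [h4, h3, h5]
    simp only [g, Z, z]
    ring
  · simp only [posE]
    rw [h6, h2]
    simp only [g, Z, z]
    ring

theorem posE_ranges {ρ S I e i r c : ℕ} (he : e < ρ) (hi : i < I) (hr : r < 2 ^ ρ) (hc : c < S) :
    i * 2 ^ (ρ - e - 1) + r / 2 ^ (e + 1) < I * 2 ^ (ρ - e - 1) ∧ r / 2 ^ e % 2 < 2 ∧ (r % 2 ^ e) * S + c < 2 ^ e * S := by
  refine ⟨?_, Nat.mod_lt _ (by norm_num), ?_⟩
  · have h1 : r / 2 ^ (e + 1) < 2 ^ (ρ - e - 1) := by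
      apply Nat.div_lt_of_lt_mul
      rw [← pow_add]
      have : e + 1 + (ρ - e - 1) = ρ := by omega
      rw [this]
      exact hr
    have h2 : (i + 1) * 2 ^ (ρ - e - 1) ≤ I * 2 ^ (ρ - e - 1) := Nat.mul_le_mul_right _ hi
    rw [add_mul, one_mul] at h2
    omega
  · have h1 : r % 2 ^ e < 2 ^ e := Nat.mod_lt _ (by positivity)
    have h2 : (r % 2 ^ e + 1) * S ≤ 2 ^ e * S := Nat.mul_le_mul_right _ h1
    rw [add_mul, one_mul] at h2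
    omega

section
variable {X G : Type} [DecidableEq X]

/-- A round of the first kind, with its rulers computed from the exponents on `Ex` and `Ey`. -/
def rndI (R Ex Ey : FT) : Prog (FT ⊕ X) (Sym G) :=
  .seq (rpow (o Ex) (o .RZ) (o .Tmp)) (.seq (rpow (o Ey) (o .RKZ) (o .Tmp)) (.seq (ilv R)
    (.seq (rclr (o .RZ)) (rclr (o .RKZ)))))

/-- A round of the second kind, with its rulers computed from the exponents on `Ex` and `Ey`. -/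
def rndD (R Ex Ey : FT) : Prog (FT ⊕ X) (Sym G) :=
  .seq (rpow (o Ex) (o .RZ) (o .Tmp)) (.seq (rpow (o Ey) (o .RKZ) (o .Tmp)) (.seq (dlv R)
    (.seq (rclr (o .RZ)) (rclr (o .RKZ)))))

/-- The rounds of the first kind. -/
def rndsI (R Ex Ey : FT) : Prog (FT ⊕ X) (Sym G) :=
  forR (o .Rrh) (.seq (rndI R Ex Ey) (.seq (rinc (o Ex)) (rinc (o Ey))))

/-- The rounds of the second kind. -/
def rndsD (R Ex Ey : FT) : Prog (FT ⊕ X) (Sym G) :=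
  forR (o .Rrh) (.seq (rsub (o .RA1) (o Ex)) (.seq (rsub (o .RA1) (o Ey)) (rndD R Ex Ey)))

/-- The cost of one round with the rulers. -/
def RDC (dn : ℕ) : ℕ := 2 * (104 * dn + 32) + (45 * dn + 21) + 2 * (4 * dn + 4)

theorem IC_le {Gr K Z dn : ℕ} (hdn : dn = Gr * (2 * (K * Z))) (hK : 0 < K) (hZ : 0 < Z) : IC Gr K Z dn ≤ 45 * dn + 21 := by
  have h1 : K ≤ K * Z := Nat.le_mul_of_pos_right _ hZ
  have h2 : 1 ≤ K * Z := Nat.mul_pos hK hZ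
  have h3 : IG K Z + 1 ≤ 49 * (K * Z) := by
    unfold IG IB
    have e1 : K * (2 * (4 * Z + 4) + 4) = 8 * (K * Z) + 12 * K := by ring
    rw [e1]
    omega
  have h4 : Gr * (IG K Z + 1) ≤ Gr * (49 * (K * Z)) := Nat.mul_le_mul_left _ h3
  have h5 : Gr * (49 * (K * Z)) ≤ 25 * (Gr * (2 * (K * Z))) := by nlinarith [Nat.zero_le (Gr * (K * Z))]
  unfold IC
  rw [← hdn] at h5
  omega

theorem DC_le {Gr K Z dn : ℕ} (hdn : dn = Gr * (2 * (K * Z))) (hK : 0 < K) (hZ : 0 < Z) : DC Gr K Z dn ≤ 45 * dn + 21 := by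
  have h1 : K ≤ K * Z := Nat.le_mul_of_pos_right _ hZ
  have h2 : 1 ≤ K * Z := Nat.mul_pos hK hZ
  have h3 : DG K Z + 1 ≤ 49 * (K * Z) := by
    unfold DG IB
    have e1 : K * (2 * (4 * Z + 4) + 4) = 8 * (K * Z) + 12 * K := by ring
    rw [e1]
    omega
  have h4 : Gr * (DG K Z + 1) ≤ Gr * (49 * (K * Z)) := Nat.mul_le_mul_left _ h3
  have h5 : Gr * (49 * (K * Z)) ≤ 25 * (Gr * (2 * (K * Z))) := by nlinarith [Nat.zero_le (Gr * (K * Z))]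
  unfold DC
  rw [← hdn] at h5
  omega

/-- The tapes which are not disturbed by a round. -/
abbrev rT : List FT := [.D, .T1, .T2, .RZ, .RKZ, .Tmp]

theorem rndI_spec {R Ex Ey : FT} (hR : R ∉ [FT.RZ, .T1, .T2, .D, .RKZ, .Rn, .Tmp]) (hEx : Ex ∉ [FT.RZ, .RKZ, .Tmp, .D, .T1, .T2]) (hEy : Ey ∉ [FT.RZ, .RKZ, .Tmp, .D, .T1, .T2])
    {K Z Gr dn ex ey : ℕ} {c : TC X G} (hZ : Z = 2 ^ ex) (hKZ : K * Z = 2 ^ ey) (hK : 0 < K) (hG : 0 < Gr) (hdn : dn = Gr * (2 * (K * Z)))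
    (rK : Ruler c (o R) K) (rEx : Ruler c (o Ex) ex) (rEy : Ruler c (o Ey) ey) (rZ : Ruler c (o .RZ) 0) (rKZ : Ruler c (o .RKZ) 0)
    (rT' : Ruler c (o .Tmp) 0) (rn : Ruler c (o .Rn) dn)
    (hT1 : c.head (o .T1) = 0) (hD : c.head (o .D) = 0) (hT2 : c.head (o .T2) = 0) (sh : Shp dn (c.tape (o .D))) :
    ∃ c', Run (rndI R Ex Ey : Prog (FT ⊕ X) (Sym G)) c c' (RDC dn) ∧
      c'.head (o .T1) = 0 ∧ c'.head (o .D) = 0 ∧ c'.head (o .T2) = 0 ∧ Shp dn (c'.tape (o .D)) ∧ Ruler c' (o .RZ) 0 ∧ Ruler c' (o .RKZ) 0 ∧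
      (∀ g k b z, g < Gr → k < K → b < 2 → z < Z →
        (c'.tape (o .D) ((g * (2 * (K * Z)) + k * (2 * Z) + b * Z + z : ℕ) : ℤ)).isOne =
          (c.tape (o .D) ((g * (2 * (K * Z)) + b * (K * Z) + k * Z + z : ℕ) : ℤ)).isOne) ∧
      Fr [.D, .T1, .T2, .RZ, .RKZ] [] c c' := by
  have hR1 := hR
  simp only [List.mem_cons, List.not_mem_nil, or_false, not_or] at hR1 hEx hEy
  have hZ0 : 0 < Z := by rw [hZ]; positivity
  have hKZ0 : 0 < K * Z := Nat.mul_pos hK hZ0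
  obtain ⟨c1, r1, a1, f1⟩ := rpowF Ex .RZ .Tmp (Ne.symm (Ne.symm hEx.1)) hEx.2.2.1 (by decide) c rEx rZ rT'
  have rEy1 := rEy.of_fr f1 (by simpa using hEy.1) (by simp)
  have rT1 := rT'.of_fr f1 (by decide) (by simp)
  have rKZ1 := rKZ.of_fr f1 (by decide) (by simp)
  obtain ⟨c2, r2, a2, f2⟩ := rpowF Ey .RKZ .Tmp hEy.2.1 hEy.2.2.1 (by decide) c1 rEy1 rKZ1 rT1
  have rZ2 := a1.of_fr f2 (by decide) (by simp)
  have hR2 : R ∉ [FT.RZ, .T1, .T2, .D, .RKZ, .Rn] := by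
    simp only [List.mem_cons, List.not_mem_nil, or_false, not_or]
    exact ⟨hR1.1, hR1.2.1, hR1.2.2.1, hR1.2.2.2.1, hR1.2.2.2.2.1, hR1.2.2.2.2.2.1⟩
  have f12 : Fr [.RZ, .RKZ] [] c c2 := f1.tr f2 (by simp) (by simp)
  obtain ⟨c3, r3, b1, b2, b3, b4, b5, f3⟩ := ilv_spec (K := K) (Z := Z) (Gr := Gr) (dn := dn) hR2 hdn (by omega)
    (rK.of_fr f12 (by simpa using ⟨hR1.1, hR1.2.2.2.2.1⟩) (by simp)) (by rw [hZ]; exact rZ2) (by rw [hKZ]; exact a2)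
    (rn.of_fr f12 (by decide) (by simp))
    (by rw [f12.head (by simp)]; exact hT1) (by rw [f12.head (by simp)]; exact hD) (by rw [f12.head (by simp)]; exact hT2)
    (by rw [f12.tape (by decide)]; exact sh)
  have tD : c2.tape (o .D) = c.tape (o .D) := f12.tape (by decide)
  have rZ3 := rZ2.of_fr f3 (by decide) (by simp)
  have rKZ3 := a2.of_fr f3 (by decide) (by simp)
  obtain ⟨c4, r4, d1, f4⟩ := rclrF .RZ c3 rZ3
  obtain ⟨c5, r5, e1, f5⟩ := rclrF .RKZ c4 (rKZ3.of_fr f4 (by decide) (by simp))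
  have f45 : Fr [.RZ, .RKZ] [] c3 c5 := f4.tr f5 (by simp) (by simp)
  have tD5 : c5.tape (o .D) = c3.tape (o .D) := f45.tape (by decide)
  refine ⟨c5, (r1.seq (r2.seq (r3.seq (r4.seq r5)))).mono ?_, ?_, ?_, ?_, ?_, d1.of_fr f5 (by decide) (by simp), e1, ?_, ?_⟩
  · have h1 : K * Z ≤ dn := by
      rw [hdn]
      nlinarith
    have h2 : 2 ^ ex ≤ dn := by
      rw [← hZ]
      exact le_trans (Nat.le_mul_of_pos_left _ hK) h1
    have h3 : 2 ^ ey ≤ dn := by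
      rw [← hKZ]
      exact h1
    have h4 : ex < 2 ^ ex := Nat.lt_two_pow_self
    have h5 : ey < 2 ^ ey := Nat.lt_two_pow_self
    have h6 := IC_le hdn hK hZ0
    unfold RDC
    omega
  · rw [f45.head (by simp)]; exact b1
  · rw [f45.head (by simp)]; exact b2
  · rw [f45.head (by simp)]; exact b3
  · rw [tD5]; exact b4
  · intro g k b z hg hk hb hz
    rw [tD5, b5 g k b z hg hk hb hz, tD]
  · exact f12.tr (f3.tr f45 (l2 := [.D, .T1, .T2, .RZ, .RKZ]) (m2 := []) (by simp) (by simp)) (by simp) (by simp)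

theorem rndD_spec {R Ex Ey : FT} (hR : R ∉ [FT.RZ, .T1, .T2, .D, .RKZ, .Rn, .Tmp]) (hEx : Ex ∉ [FT.RZ, .RKZ, .Tmp, .D, .T1, .T2]) (hEy : Ey ∉ [FT.RZ, .RKZ, .Tmp, .D, .T1, .T2])
    {K Z Gr dn ex ey : ℕ} {c : TC X G} (hZ : Z = 2 ^ ex) (hKZ : K * Z = 2 ^ ey) (hK : 0 < K) (hG : 0 < Gr) (hdn : dn = Gr * (2 * (K * Z)))
    (rK : Ruler c (o R) K) (rEx : Ruler c (o Ex) ex) (rEy : Ruler c (o Ey) ey) (rZ : Ruler c (o .RZ) 0) (rKZ : Ruler c (o .RKZ) 0)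
    (rT' : Ruler c (o .Tmp) 0) (rn : Ruler c (o .Rn) dn)
    (hT1 : c.head (o .T1) = 0) (hD : c.head (o .D) = 0) (hT2 : c.head (o .T2) = 0) (sh : Shp dn (c.tape (o .D))) :
    ∃ c', Run (rndD R Ex Ey : Prog (FT ⊕ X) (Sym G)) c c' (RDC dn) ∧
      c'.head (o .T1) = 0 ∧ c'.head (o .D) = 0 ∧ c'.head (o .T2) = 0 ∧ Shp dn (c'.tape (o .D)) ∧ Ruler c' (o .RZ) 0 ∧ Ruler c' (o .RKZ) 0 ∧
      (∀ g k b z, g < Gr → k < K → b < 2 → z < Z →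
        (c'.tape (o .D) ((g * (2 * (K * Z)) + b * (K * Z) + k * Z + z : ℕ) : ℤ)).isOne =
          (c.tape (o .D) ((g * (2 * (K * Z)) + k * (2 * Z) + b * Z + z : ℕ) : ℤ)).isOne) ∧
      Fr [.D, .T1, .T2, .RZ, .RKZ] [] c c' := by
  have hR1 := hR
  simp only [List.mem_cons, List.not_mem_nil, or_false, not_or] at hR1 hEx hEy
  have hZ0 : 0 < Z := by rw [hZ]; positivity
  have hKZ0 : 0 < K * Z := Nat.mul_pos hK hZ0
  obtain ⟨c1, r1, a1, f1⟩ := rpowF Ex .RZ .Tmp (Ne.symm (Ne.symm hEx.1)) hEx.2.2.1 (by decide) c rEx rZ rT'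
  have rEy1 := rEy.of_fr f1 (by simpa using hEy.1) (by simp)
  have rT1 := rT'.of_fr f1 (by decide) (by simp)
  have rKZ1 := rKZ.of_fr f1 (by decide) (by simp)
  obtain ⟨c2, r2, a2, f2⟩ := rpowF Ey .RKZ .Tmp hEy.2.1 hEy.2.2.1 (by decide) c1 rEy1 rKZ1 rT1
  have rZ2 := a1.of_fr f2 (by decide) (by simp)
  have hR2 : R ∉ [FT.RZ, .T1, .T2, .D, .RKZ, .Rn] := by
    simp only [List.mem_cons, List.not_mem_nil, or_false, not_or]
    exact ⟨hR1.1, hR1.2.1, hR1.2.2.1, hR1.2.2.2.1, hR1.2.2.2.2.1, hR1.2.2.2.2.2.1⟩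
  have f12 : Fr [.RZ, .RKZ] [] c c2 := f1.tr f2 (by simp) (by simp)
  obtain ⟨c3, r3, b1, b2, b3, b4, b5, f3⟩ := dlv_spec (K := K) (Z := Z) (Gr := Gr) (dn := dn) hR2 hdn (by omega)
    (rK.of_fr f12 (by simpa using ⟨hR1.1, hR1.2.2.2.2.1⟩) (by simp)) (by rw [hZ]; exact rZ2) (by rw [hKZ]; exact a2)
    (rn.of_fr f12 (by decide) (by simp))
    (by rw [f12.head (by simp)]; exact hT1) (by rw [f12.head (by simp)]; exact hD) (by rw [f12.head (by simp)]; exact hT2)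
    (by rw [f12.tape (by decide)]; exact sh)
  have tD : c2.tape (o .D) = c.tape (o .D) := f12.tape (by decide)
  have rZ3 := rZ2.of_fr f3 (by decide) (by simp)
  have rKZ3 := a2.of_fr f3 (by decide) (by simp)
  obtain ⟨c4, r4, d1, f4⟩ := rclrF .RZ c3 rZ3
  obtain ⟨c5, r5, e1, f5⟩ := rclrF .RKZ c4 (rKZ3.of_fr f4 (by decide) (by simp))
  have f45 : Fr [.RZ, .RKZ] [] c3 c5 := f4.tr f5 (by simp) (by simp)
  have tD5 : c5.tape (o .D) = c3.tape (o .D) := f45.tape (by decide)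
  refine ⟨c5, (r1.seq (r2.seq (r3.seq (r4.seq r5)))).mono ?_, ?_, ?_, ?_, ?_, d1.of_fr f5 (by decide) (by simp), e1, ?_, ?_⟩
  · have h1 : K * Z ≤ dn := by
      rw [hdn]
      nlinarith
    have h2 : 2 ^ ex ≤ dn := by
      rw [← hZ]
      exact le_trans (Nat.le_mul_of_pos_left _ hK) h1
    have h3 : 2 ^ ey ≤ dn := by
      rw [← hKZ]
      exact h1
    have h4 : ex < 2 ^ ex := Nat.lt_two_pow_self
    have h5 : ey < 2 ^ ey := Nat.lt_two_pow_self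
    have h6 := DC_le hdn hK hZ0
    unfold RDC
    omega
  · rw [f45.head (by simp)]; exact b1
  · rw [f45.head (by simp)]; exact b2
  · rw [f45.head (by simp)]; exact b3
  · rw [tD5]; exact b4
  · intro g k b z hg hk hb hz
    rw [tD5, b5 g k b z hg hk hb hz, tD]
  · exact f12.tr (f3.tr f45 (l2 := [.D, .T1, .T2, .RZ, .RKZ]) (m2 := []) (by simp) (by simp)) (by simp) (by simp)

/-- The size identity of a round. -/
theorem dn_round {ρ e I κ σ : ℕ} (he : e < ρ) :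
    I * 2 ^ ρ * 2 ^ κ * 2 ^ σ = (I * 2 ^ (ρ - e - 1)) * (2 * (2 ^ κ * (2 ^ e * 2 ^ σ))) := by
  have h : 2 ^ ρ = 2 ^ (ρ - e - 1) * 2 * 2 ^ e := by
    rw [← pow_succ, ← pow_add]
    congr 1
    omega
  rw [h]
  ring

/-- The cost of one iteration of the rounds. -/
def RIC (dn : ℕ) : ℕ := RDC dn + 2 * (4 * dn + 9)

/-- The tapes of the rounds are distinct. -/
structure RDs (R Ex Ey : FT) : Prop where
  r1 : R ∉ [FT.RZ, .T1, .T2, .D, .RKZ, .Rn, .Tmp]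
  x1 : Ex ∉ [FT.RZ, .RKZ, .Tmp, .D, .T1, .T2]
  y1 : Ey ∉ [FT.RZ, .RKZ, .Tmp, .D, .T1, .T2]
  rh : R ≠ .Rrh
  xh : Ex ≠ .Rrh
  yh : Ey ≠ .Rrh
  xn : Ex ≠ .Rn
  yn : Ey ≠ .Rn
  xa : Ex ≠ .RA1
  ya : Ey ≠ .RA1
  rx : R ≠ Ex
  ry : R ≠ Ey
  xy : Ex ≠ Ey

/-- The list of tapes of the frame of the rounds. -/
abbrev rL (Ex Ey : FT) : List FT := [.D, .T1, .T2, .RZ, .RKZ, Ex, Ey]

omit [DecidableEq X] in
theorem RDs.of_nodup {R Ex Ey : FT} (hN : [R, Ex, Ey, .Rrh, .RZ, .RKZ, .Tmp, .D, .T1, .T2, .Rn, .RA1].Nodup) : RDs R Ex Ey := by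
  simp only [List.nodup_cons, List.mem_cons, List.not_mem_nil, or_false, not_or] at hN
  obtain ⟨⟨n1, n2, n3, n4, n5, n6, n7, n8, n9, n10, n11⟩, ⟨m1, m2, m3, m4, m5, m6, m7, m8, m9, m10⟩, ⟨l1, l2, l3, l4, l5, l6, l7, l8, l9⟩, _⟩ := hN
  refine ⟨?_, ?_, ?_, n3, m2, l1, m9, l8, m10, l9, n1, n2, m1⟩
  · simp only [List.mem_cons, List.not_mem_nil, or_false, not_or]
    exact ⟨n4, n8, n9, n7, n5, n10, n6⟩
  · simp only [List.mem_cons, List.not_mem_nil, or_false, not_or]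
    exact ⟨m3, m4, m5, m6, m7, m8⟩
  · simp only [List.mem_cons, List.not_mem_nil, or_false, not_or]
    exact ⟨l2, l3, l4, l5, l6, l7⟩

omit [DecidableEq X] in
theorem RDs.nR {R Ex Ey : FT} (h : RDs R Ex Ey) : R ∉ rL Ex Ey := by
  have := h.r1
  simp only [List.mem_cons, List.not_mem_nil, or_false, not_or] at this ⊢
  exact ⟨this.2.2.2.1, this.2.1, this.2.2.1, this.1, this.2.2.2.2.1, h.rx, h.ry⟩

omit [DecidableEq X] in
theorem RDs.nT {R Ex Ey : FT} (h : RDs R Ex Ey) : FT.Tmp ∉ rL Ex Ey := by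
  have h1 := h.x1
  have h2 := h.y1
  simp only [List.mem_cons, List.not_mem_nil, or_false, not_or] at h1 h2 ⊢
  exact ⟨by decide, by decide, by decide, by decide, by decide, Ne.symm h1.2.2.1, Ne.symm h2.2.2.1⟩

omit [DecidableEq X] in
theorem RDs.nN {R Ex Ey : FT} (h : RDs R Ex Ey) : FT.Rn ∉ rL Ex Ey := by
  simp only [List.mem_cons, List.not_mem_nil, or_false, not_or]
  exact ⟨by decide, by decide, by decide, by decide, by decide, Ne.symm h.xn, Ne.symm h.yn⟩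

omit [DecidableEq X] in
theorem RDs.nA {R Ex Ey : FT} (h : RDs R Ex Ey) : FT.RA1 ∉ rL Ex Ey := by
  simp only [List.mem_cons, List.not_mem_nil, or_false, not_or]
  exact ⟨by decide, by decide, by decide, by decide, by decide, Ne.symm h.xa, Ne.symm h.ya⟩

omit [DecidableEq X] in
theorem RDs.xm {R Ex Ey : FT} (h : RDs R Ex Ey) : Ex ∉ [FT.D, .T1, .T2, .RZ, .RKZ] := by
  have h1 := h.x1
  simp only [List.mem_cons, List.not_mem_nil, or_false, not_or] at h1 ⊢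
  exact ⟨h1.2.2.2.1, h1.2.2.2.2.1, h1.2.2.2.2.2, h1.1, h1.2.1⟩

omit [DecidableEq X] in
theorem RDs.ym {R Ex Ey : FT} (h : RDs R Ex Ey) : Ey ∉ [FT.D, .T1, .T2, .RZ, .RKZ] := by
  have h1 := h.y1
  simp only [List.mem_cons, List.not_mem_nil, or_false, not_or] at h1 ⊢
  exact ⟨h1.2.2.2.1, h1.2.2.2.2.1, h1.2.2.2.2.2, h1.1, h1.2.1⟩

omit [DecidableEq X] in
theorem RDs.cx {R Ex Ey : FT} (h : RDs R Ex Ey) {a : FT} (ha : a ∈ [FT.D, .T1, .T2, .RZ, .RKZ, .Tmp, .Rn, .RA1]) : a ∉ [Ex, Ey] := by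
  have h1 := h.x1
  have h2 := h.y1
  simp only [List.mem_cons, List.not_mem_nil, or_false, not_or] at h1 h2 ha ⊢
  rcases ha with rfl | rfl | rfl | rfl | rfl | rfl | rfl | rfl
  · exact ⟨Ne.symm h1.2.2.2.1, Ne.symm h2.2.2.2.1⟩
  · exact ⟨Ne.symm h1.2.2.2.2.1, Ne.symm h2.2.2.2.2.1⟩
  · exact ⟨Ne.symm h1.2.2.2.2.2, Ne.symm h2.2.2.2.2.2⟩
  · exact ⟨Ne.symm h1.1, Ne.symm h2.1⟩
  · exact ⟨Ne.symm h1.2.1, Ne.symm h2.2.1⟩
  · exact ⟨Ne.symm h1.2.2.1, Ne.symm h2.2.2.1⟩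
  · exact ⟨Ne.symm h.xn, Ne.symm h.yn⟩
  · exact ⟨Ne.symm h.xa, Ne.symm h.ya⟩

omit [DecidableEq X] in
theorem RDs.cr {R Ex Ey : FT} (h : RDs R Ex Ey) : R ∉ [Ex, Ey] := by
  simp only [List.mem_cons, List.not_mem_nil, or_false, not_or]
  exact ⟨h.rx, h.ry⟩

/-- The facts kept by the loops of the rounds. -/
structure RdI (R Ex Ey : FT) (κ dn : ℕ) (c : TC X G) : Prop where
  rK : Ruler c (o R) (2 ^ κ)
  rT : Ruler c (o .Tmp) 0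
  rn : Ruler c (o .Rn) dn
  rA : Ruler c (o .RA1) 1
  h1 : c.head (o .T1) = 0
  hD : c.head (o .D) = 0
  h2 : c.head (o .T2) = 0
  sh : Shp dn (c.tape (o .D))
  rZ : Ruler c (o .RZ) 0
  rKZ : Ruler c (o .RKZ) 0

omit [DecidableEq X] in
theorem RdI.of_fr {R Ex Ey : FT} {κ dn : ℕ} {c c' : TC X G} (h : RdI R Ex Ey κ dn c) (d : RDs R Ex Ey) (f : Fr [] [.Rrh] c c') :
    RdI R Ex Ey κ dn c' := by
  refine ⟨h.rK.of_fr f (by simp) (by simpa using d.rh), h.rT.of_fr f (by simp) (by simp), h.rn.of_fr f (by simp) (by simp),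
    h.rA.of_fr f (by simp) (by simp), ?_, ?_, ?_, ?_, h.rZ.of_fr f (by simp) (by simp), h.rKZ.of_fr f (by simp) (by simp)⟩
  · rw [f.head (by simp)]; exact h.h1
  · rw [f.head (by simp)]; exact h.hD
  · rw [f.head (by simp)]; exact h.h2
  · rw [f.tape (by simp)]; exact h.sh

theorem rndsI_step {R Ex Ey : FT} (d : RDs R Ex Ey) {ρ κ σ I dn e : ℕ} {c2 : TC X G} {τ : ℤ → Sym G} (he : e < ρ) (hI : 0 < I)
    (hdn : dn = I * 2 ^ ρ * 2 ^ κ * 2 ^ σ) (h : RdI R Ex Ey κ dn c2) (a7 : Ruler c2 (o Ex) (σ + e)) (a8 : Ruler c2 (o Ey) (σ + κ + e))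
    (a9 : ∀ i r j x, i < I → r < 2 ^ ρ → j < 2 ^ κ → x < 2 ^ σ →
        (c2.tape (o .D) ((posE ρ (2 ^ σ) (2 ^ κ) e i r j x : ℕ) : ℤ)).isOne = (τ ((posE ρ (2 ^ σ) (2 ^ κ) 0 i r j x : ℕ) : ℤ)).isOne) :
    ∃ c5, Run (.seq (rndI R Ex Ey) (.seq (rinc (o Ex)) (rinc (o Ey))) : Prog (FT ⊕ X) (Sym G)) c2 c5 (RIC dn) ∧
      Ruler c5 (o Ex) (σ + (e + 1)) ∧ Ruler c5 (o Ey) (σ + κ + (e + 1)) ∧
      (∀ i r j x, i < I → r < 2 ^ ρ → j < 2 ^ κ → x < 2 ^ σ →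
        (c5.tape (o .D) ((posE ρ (2 ^ σ) (2 ^ κ) (e + 1) i r j x : ℕ) : ℤ)).isOne = (τ ((posE ρ (2 ^ σ) (2 ^ κ) 0 i r j x : ℕ) : ℤ)).isOne) ∧
      RdI R Ex Ey κ dn c5 ∧ Fr (rL Ex Ey) [] c2 c5 := by
  have hdn2 : dn = (I * 2 ^ (ρ - e - 1)) * (2 * (2 ^ κ * (2 ^ (σ + e)))) := by
    rw [hdn, dn_round he, pow_add, mul_comm (2 ^ σ) (2 ^ e)]
  have hKZ : 2 ^ κ * 2 ^ (σ + e) = 2 ^ (σ + κ + e) := by
    rw [← pow_add]
    congr 1
    omega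
  have hGr : 0 < I * 2 ^ (ρ - e - 1) := Nat.mul_pos hI (by positivity)
  obtain ⟨c3, r3, b1, b2, b3, b4, b5, b6, b7, f3⟩ := rndI_spec (R := R) (Ex := Ex) (Ey := Ey) (K := 2 ^ κ) (Z := 2 ^ (σ + e)) (Gr := I * 2 ^ (ρ - e - 1))
    (dn := dn) (ex := σ + e) (ey := σ + κ + e) (c := c2) d.r1 d.x1 d.y1 rfl hKZ (by positivity) hGr hdn2
    h.rK a7 a8 h.rZ h.rKZ h.rT h.rn h.h1 h.hD h.h2 h.sh
  have rK3 := h.rK.of_fr f3 (by
    have := d.nR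
    simp only [List.mem_cons, List.not_mem_nil, or_false, not_or] at this ⊢
    exact ⟨this.1, this.2.1, this.2.2.1, this.2.2.2.1, this.2.2.2.2.1⟩) (by simp)
  obtain ⟨c4, r4, d1, f4⟩ := rincF Ex c3 (a7.of_fr f3 d.xm (by simp))
  obtain ⟨c5, r5, e1, f5⟩ := rincF Ey c4 ((a8.of_fr f3 d.ym (by simp)).of_fr f4 (by simpa using d.xy.symm) (by simp))
  have f45 : Fr [Ex, Ey] [] c3 c5 := f4.tr f5 (by simp) (by simp)
  have f6 : Fr (rL Ex Ey) [] c2 c5 := f3.tr f45 (by simp) (by simp)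
  have tD : c5.tape (o .D) = c3.tape (o .D) := f45.tape (d.cx (by simp))
  have hRK : 2 ^ (σ + κ + e) ≤ dn := by
    rw [hdn2, hKZ]
    nlinarith [Nat.zero_le (I * 2 ^ (ρ - e - 1) * 2 ^ (σ + κ + e))]
  have hlt : σ + κ + e < 2 ^ (σ + κ + e) := Nat.lt_two_pow_self
  refine ⟨c5, (r3.seq (r4.seq r5)).mono (by unfold RIC; omega), ?_, ?_, ?_, ?_, f6⟩
  · rw [← add_assoc]
    exact d1.of_fr f5 (by simpa using d.xy) (by simp)
  · rw [← add_assoc]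
    exact e1
  · intro i r j x h1 h2 h3 h4
    rw [tD]
    obtain ⟨e3, e4⟩ := posE_step (ρ := ρ) (S := 2 ^ σ) (K := 2 ^ κ) (e := e) (i := i) (r := r) (j := j) (c := x) he
    obtain ⟨g1, g2, g3⟩ := posE_ranges (S := 2 ^ σ) (I := I) he h1 h2 h4
    have hz : 2 ^ e * 2 ^ σ = 2 ^ (σ + e) := by
      rw [← pow_add, add_comm]
    rw [hz] at e3 e4 g3
    rw [e3, b7 _ _ _ _ g1 h3 g2 g3, ← e4]
    exact a9 i r j x h1 h2 h3 h4
  · refine ⟨h.rK.of_fr f6 d.nR (by simp), h.rT.of_fr f6 d.nT (by simp), h.rn.of_fr f6 d.nN (by simp), h.rA.of_fr f6 d.nA (by simp),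
      ?_, ?_, ?_, ?_, b5.of_fr f45 (d.cx (by simp)) (by simp), b6.of_fr f45 (d.cx (by simp)) (by simp)⟩
    · rw [f45.head (by simp)]; exact b1
    · rw [f45.head (by simp)]; exact b2
    · rw [f45.head (by simp)]; exact b3
    · rw [tD]; exact b4

theorem rndsI_spec {R Ex Ey : FT} (d : RDs R Ex Ey)
    {ρ κ σ I dn : ℕ} {c : TC X G} (hI : 0 < I) (hdn : dn = I * 2 ^ ρ * 2 ^ κ * 2 ^ σ) (rh : Ruler c (o .Rrh) ρ)
    (rEx : Ruler c (o Ex) σ) (rEy : Ruler c (o Ey) (σ + κ)) (h : RdI R Ex Ey κ dn c) :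
    ∃ c', Run (rndsI R Ex Ey : Prog (FT ⊕ X) (Sym G)) c c' (ρ * (RIC dn + 4) + 4) ∧
      RdI R Ex Ey κ dn c' ∧ Ruler c' (o Ex) (σ + ρ) ∧ Ruler c' (o Ey) (σ + κ + ρ) ∧
      (∀ i r j x, i < I → r < 2 ^ ρ → j < 2 ^ κ → x < 2 ^ σ →
        (c'.tape (o .D) ((posE ρ (2 ^ σ) (2 ^ κ) ρ i r j x : ℕ) : ℤ)).isOne =
          (c.tape (o .D) ((posE ρ (2 ^ σ) (2 ^ κ) 0 i r j x : ℕ) : ℤ)).isOne) ∧
      Fr (rL Ex Ey) [] c c' := by
  obtain ⟨c2, ⟨i1, i2, i3, i4, i5⟩, hR2, r2⟩ := forU (R := .Rrh) (body := .seq (rndI R Ex Ey) (.seq (rinc (o Ex)) (rinc (o Ey)))) (n := ρ)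
    (fun e c' => RdI R Ex Ey κ dn c' ∧ Ruler c' (o Ex) (σ + e) ∧ Ruler c' (o Ey) (σ + κ + e) ∧
      (∀ i r j x, i < I → r < 2 ^ ρ → j < 2 ^ κ → x < 2 ^ σ →
        (c'.tape (o .D) ((posE ρ (2 ^ σ) (2 ^ κ) e i r j x : ℕ) : ℤ)).isOne =
          (c.tape (o .D) ((posE ρ (2 ^ σ) (2 ^ κ) 0 i r j x : ℕ) : ℤ)).isOne) ∧
      Fr (rL Ex Ey) [.Rrh] c c') (RIC dn) (c := c) rh
    ⟨h, by simpa using rEx, by simpa using rEy, fun _ _ _ _ _ _ _ _ => rfl, Fr.refl _ _ _⟩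
    (by
      rintro e c2 c3 ⟨a1, a7, a8, a9, a10⟩ hf
      refine ⟨a1.of_fr d hf, a7.of_fr hf (by simp) (by simpa using d.xh), a8.of_fr hf (by simp) (by simpa using d.yh), ?_, a10.tr hf (by simp) (by simp)⟩
      intro i r j x h1 h2 h3 h4
      rw [hf.tape (by simp)]
      exact a9 i r j x h1 h2 h3 h4)
    (by
      rintro e he c2 hR1 hR2 ⟨a1, a7, a8, a9, a10⟩
      obtain ⟨c5, r5, b1, b2, b3, b4, f5⟩ := rndsI_step d he hI hdn a1 a7 a8 a9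
      have nH : FT.Rrh ∉ rL Ex Ey := by
        simp only [List.mem_cons, List.not_mem_nil, or_false, not_or]
        exact ⟨by decide, by decide, by decide, by decide, by decide, Ne.symm d.xh, Ne.symm d.yh⟩
      exact ⟨c5, r5, ⟨b4, b1, b2, b3, a10.tr f5 (by simp) (by simp)⟩, f5.tape nH, f5.head (by simp)⟩)
  exact ⟨c2, r2, i1, i2, i3, i4, i5.fixR rh hR2⟩

theorem rndsD_step {R Ex Ey : FT} (d : RDs R Ex Ey) {ρ κ σ I dn e : ℕ} {c2 : TC X G} {τ : ℤ → Sym G} (he : e < ρ) (hI : 0 < I)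
    (hdn : dn = I * 2 ^ ρ * 2 ^ κ * 2 ^ σ) (h : RdI R Ex Ey κ dn c2) (a7 : Ruler c2 (o Ex) (σ + (e + 1))) (a8 : Ruler c2 (o Ey) (σ + κ + (e + 1)))
    (a9 : ∀ i r j x, i < I → r < 2 ^ ρ → j < 2 ^ κ → x < 2 ^ σ →
        (c2.tape (o .D) ((posE ρ (2 ^ σ) (2 ^ κ) (e + 1) i r j x : ℕ) : ℤ)).isOne = (τ ((posE ρ (2 ^ σ) (2 ^ κ) ρ i r j x : ℕ) : ℤ)).isOne) :
    ∃ c5, Run (.seq (rsub (o .RA1) (o Ex)) (.seq (rsub (o .RA1) (o Ey)) (rndD R Ex Ey)) : Prog (FT ⊕ X) (Sym G)) c2 c5 (RIC dn + 68) ∧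
      Ruler c5 (o Ex) (σ + e) ∧ Ruler c5 (o Ey) (σ + κ + e) ∧
      (∀ i r j x, i < I → r < 2 ^ ρ → j < 2 ^ κ → x < 2 ^ σ →
        (c5.tape (o .D) ((posE ρ (2 ^ σ) (2 ^ κ) e i r j x : ℕ) : ℤ)).isOne = (τ ((posE ρ (2 ^ σ) (2 ^ κ) ρ i r j x : ℕ) : ℤ)).isOne) ∧
      RdI R Ex Ey κ dn c5 ∧ Fr (rL Ex Ey) [] c2 c5 := by
  have hdn2 : dn = (I * 2 ^ (ρ - e - 1)) * (2 * (2 ^ κ * (2 ^ (σ + e)))) := by
    rw [hdn, dn_round he, pow_add, mul_comm (2 ^ σ) (2 ^ e)]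
  have hKZ : 2 ^ κ * 2 ^ (σ + e) = 2 ^ (σ + κ + e) := by
    rw [← pow_add]
    congr 1
    omega
  have hGr : 0 < I * 2 ^ (ρ - e - 1) := Nat.mul_pos hI (by positivity)
  obtain ⟨c3, r3, b1, f3⟩ := rsubF .RA1 Ex (Ne.symm d.xa) c2 h.rA a7 (by omega)
  obtain ⟨c4, r4, b2, f4⟩ := rsubF .RA1 Ey (Ne.symm d.ya) c3 (h.rA.of_fr f3 (by simpa using Ne.symm d.xa) (by simp))
    (a8.of_fr f3 (by simpa using d.xy.symm) (by simp)) (by omega)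
  have f34 : Fr [Ex, Ey] [] c2 c4 := f3.tr f4 (by simp) (by simp)
  have e1 : σ + (e + 1) - 1 = σ + e := by omega
  have e2 : σ + κ + (e + 1) - 1 = σ + κ + e := by omega
  rw [e1] at b1
  rw [e2] at b2
  have b1' := b1.of_fr f4 (by simpa using d.xy) (by simp)
  have tD : c4.tape (o .D) = c2.tape (o .D) := f34.tape (d.cx (by simp))
  obtain ⟨c5, r5, g1, g2, g3, g4, g5, g6, g7, f5⟩ := rndD_spec (R := R) (Ex := Ex) (Ey := Ey) (K := 2 ^ κ) (Z := 2 ^ (σ + e)) (Gr := I * 2 ^ (ρ - e - 1))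
    (dn := dn) (ex := σ + e) (ey := σ + κ + e) (c := c4) d.r1 d.x1 d.y1 rfl hKZ (by positivity) hGr hdn2
    (h.rK.of_fr f34 d.cr (by simp)) b1' b2 (h.rZ.of_fr f34 (d.cx (by simp)) (by simp)) (h.rKZ.of_fr f34 (d.cx (by simp)) (by simp))
    (h.rT.of_fr f34 (d.cx (by simp)) (by simp)) (h.rn.of_fr f34 (d.cx (by simp)) (by simp))
    (by rw [f34.head (by simp)]; exact h.h1) (by rw [f34.head (by simp)]; exact h.hD) (by rw [f34.head (by simp)]; exact h.h2)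
    (by rw [tD]; exact h.sh)
  have f6 : Fr (rL Ex Ey) [] c2 c5 := f34.tr f5 (by simp) (by simp)
  have hRK : 2 ^ (σ + κ + e) ≤ dn := by
    rw [hdn2, hKZ]
    nlinarith [Nat.zero_le (I * 2 ^ (ρ - e - 1) * 2 ^ (σ + κ + e))]
  have hlt : σ + κ + e < 2 ^ (σ + κ + e) := Nat.lt_two_pow_self
  refine ⟨c5, (r3.seq (r4.seq r5)).mono (by unfold RIC; omega), b1'.of_fr f5 d.xm (by simp), b2.of_fr f5 d.ym (by simp), ?_, ?_, f6⟩
  · intro i r j x h1 h2 h3 h4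
    obtain ⟨e3, e4⟩ := posE_step (ρ := ρ) (S := 2 ^ σ) (K := 2 ^ κ) (e := e) (i := i) (r := r) (j := j) (c := x) he
    obtain ⟨g1', g2', g3'⟩ := posE_ranges (S := 2 ^ σ) (I := I) he h1 h2 h4
    have hz : 2 ^ e * 2 ^ σ = 2 ^ (σ + e) := by
      rw [← pow_add, add_comm]
    rw [hz] at e3 e4 g3'
    rw [e4, g7 _ _ _ _ g1' h3 g2' g3', ← e3, tD]
    exact a9 i r j x h1 h2 h3 h4
  · refine ⟨h.rK.of_fr f6 d.nR (by simp), h.rT.of_fr f6 d.nT (by simp), h.rn.of_fr f6 d.nN (by simp), h.rA.of_fr f6 d.nA (by simp),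
      g1, g2, g3, g4, g5, g6⟩

theorem rndsD_spec {R Ex Ey : FT} (d : RDs R Ex Ey)
    {ρ κ σ I dn : ℕ} {c : TC X G} (hI : 0 < I) (hdn : dn = I * 2 ^ ρ * 2 ^ κ * 2 ^ σ) (rh : Ruler c (o .Rrh) ρ)
    (rEx : Ruler c (o Ex) (σ + ρ)) (rEy : Ruler c (o Ey) (σ + κ + ρ)) (h : RdI R Ex Ey κ dn c) :
    ∃ c', Run (rndsD R Ex Ey : Prog (FT ⊕ X) (Sym G)) c c' (ρ * (RIC dn + 68 + 4) + 4) ∧
      RdI R Ex Ey κ dn c' ∧ Ruler c' (o Ex) σ ∧ Ruler c' (o Ey) (σ + κ) ∧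
      (∀ i r j x, i < I → r < 2 ^ ρ → j < 2 ^ κ → x < 2 ^ σ →
        (c'.tape (o .D) ((posE ρ (2 ^ σ) (2 ^ κ) 0 i r j x : ℕ) : ℤ)).isOne =
          (c.tape (o .D) ((posE ρ (2 ^ σ) (2 ^ κ) ρ i r j x : ℕ) : ℤ)).isOne) ∧
      Fr (rL Ex Ey) [] c c' := by
  obtain ⟨c2, ⟨i1, i2, i3, i4, i5⟩, hR2, r2⟩ := forU (R := .Rrh)
    (body := .seq (rsub (o .RA1) (o Ex)) (.seq (rsub (o .RA1) (o Ey)) (rndD R Ex Ey))) (n := ρ)
    (fun e c' => RdI R Ex Ey κ dn c' ∧ Ruler c' (o Ex) (σ + (ρ - e)) ∧ Ruler c' (o Ey) (σ + κ + (ρ - e)) ∧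
      (∀ i r j x, i < I → r < 2 ^ ρ → j < 2 ^ κ → x < 2 ^ σ →
        (c'.tape (o .D) ((posE ρ (2 ^ σ) (2 ^ κ) (ρ - e) i r j x : ℕ) : ℤ)).isOne =
          (c.tape (o .D) ((posE ρ (2 ^ σ) (2 ^ κ) ρ i r j x : ℕ) : ℤ)).isOne) ∧
      Fr (rL Ex Ey) [.Rrh] c c') (RIC dn + 68) (c := c) rh
    ⟨h, by simpa using rEx, by simpa using rEy, fun _ _ _ _ _ _ _ _ => by simp, Fr.refl _ _ _⟩
    (by
      rintro e c2 c3 ⟨a1, a7, a8, a9, a10⟩ hf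
      refine ⟨a1.of_fr d hf, a7.of_fr hf (by simp) (by simpa using d.xh), a8.of_fr hf (by simp) (by simpa using d.yh), ?_, a10.tr hf (by simp) (by simp)⟩
      intro i r j x h1 h2 h3 h4
      rw [hf.tape (by simp)]
      exact a9 i r j x h1 h2 h3 h4)
    (by
      rintro e he c2 hR1 hR2 ⟨a1, a7, a8, a9, a10⟩
      have he1 : ρ - e = (ρ - e - 1) + 1 := by omega
      have he2 : ρ - (e + 1) = ρ - e - 1 := by omega
      rw [he1] at a7 a8 a9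
      obtain ⟨c5, r5, b1, b2, b3, b4, f5⟩ := rndsD_step d (e := ρ - e - 1) (by omega) hI hdn a1 a7 a8 a9
      have nH : FT.Rrh ∉ rL Ex Ey := by
        simp only [List.mem_cons, List.not_mem_nil, or_false, not_or]
        exact ⟨by decide, by decide, by decide, by decide, by decide, Ne.symm d.xh, Ne.symm d.yh⟩
      refine ⟨c5, r5, ⟨b4, ?_, ?_, ?_, a10.tr f5 (by simp) (by simp)⟩, f5.tape nH, f5.head (by simp)⟩
      · rw [he2]; exact b1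
      · rw [he2]; exact b2
      · rw [he2]; exact b3)
  simp only [Nat.sub_self, add_zero] at i2 i3 i4
  exact ⟨c2, r2, i1, i2, i3, i4, i5.fixR rh hR2⟩

end

end Vale.Agent.Lib.P338.F
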