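import Vale.Agent.Lib.P338.F.Round

/-!
Ruler arithmetic with frames.
-/

namespace Vale.Agent.Lib.P338.F

open Vale.Agent.Lib.P338 Prog

section
variable {X G : Type} [DecidableEq X]

omit [DecidableEq X] in
theorem ruler_tape_eq {c c' : TC X G} {R : FT} {n : ℕ} (h : Ruler c (o R) n) (h' : Ruler c' (o R) n) :
    c'.tape (o R) = c.tape (o R) := h'.1.trans h.1.symm

omit [DecidableEq X] in
theorem ruler_head_eq {c c' : TC X G} {R : FT} {n : ℕ} (h : Ruler c (o R) n) (h' : Ruler c' (o R) n) :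
    c'.head (o R) = c.head (o R) := h'.2.trans h.2.symm

theorem rclrF (R : FT) (c : TC X G) {n : ℕ} (hR : Ruler c (o R) n) :
    ∃ c', Run (rclr (o R) : Prog (FT ⊕ X) (Sym G)) c c' (4 * n + 4) ∧ Ruler c' (o R) 0 ∧ Fr [R] [] c c' := by
  obtain ⟨c', r, a, s⟩ := rclr_spec (o R) c hR
  refine ⟨c', r, a, Fr.of_same s (by simp) ?_ ?_⟩
  · intro b h1 h2
    simp only [List.mem_singleton, Sum.inl.injEq] at h2
    subst h2
    simp at h1
  · intro b _ h2
    simp only [List.mem_singleton, Sum.inl.injEq] at h2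
    subst h2
    rw [a.2, hR.2]

theorem rincF (R : FT) (c : TC X G) {n : ℕ} (hR : Ruler c (o R) n) :
    ∃ c', Run (rinc (o R) : Prog (FT ⊕ X) (Sym G)) c c' (4 * n + 9) ∧ Ruler c' (o R) (n + 1) ∧ Fr [R] [] c c' := by
  obtain ⟨c', r, a, s⟩ := rinc_spec (o R) c hR
  refine ⟨c', r, a, Fr.of_same s (by simp) ?_ ?_⟩
  · intro b h1 h2
    simp only [List.mem_singleton, Sum.inl.injEq] at h2
    subst h2
    simp at h1
  · intro b _ h2
    simp only [List.mem_singleton, Sum.inl.injEq] at h2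
    subst h2
    rw [a.2, hR.2]

theorem raddF (S R : FT) (h : S ≠ R) (c : TC X G) {a n : ℕ} (hS : Ruler c (o S) a) (hR : Ruler c (o R) n) :
    ∃ c', Run (radd (o S) (o R) : Prog (FT ⊕ X) (Sym G)) c c' (6 * a + 4 * n + 8) ∧ Ruler c' (o R) (n + a) ∧ Fr [R] [] c c' := by
  obtain ⟨c', r, e, s⟩ := radd_spec (o S) (o R) (by simpa using h) c hS hR
  refine ⟨c', r, e, Fr.of_same s (by simp) ?_ ?_⟩
  · intro b h1 h2
    simp only [List.mem_singleton, Sum.inl.injEq] at h2
    subst h2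
    simp at h1
  · intro b _ h2
    simp only [List.mem_singleton, Sum.inl.injEq] at h2
    subst h2
    rw [e.2, hR.2]

theorem rsubF (S R : FT) (h : S ≠ R) (c : TC X G) {a n : ℕ} (hS : Ruler c (o S) a) (hR : Ruler c (o R) n) (han : a ≤ n) :
    ∃ c', Run (rsub (o S) (o R) : Prog (FT ⊕ X) (Sym G)) c c' (4 * a + 4 * n + 16) ∧ Ruler c' (o R) (n - a) ∧ Fr [R] [] c c' := by
  obtain ⟨c', r, e, s⟩ := rsub_spec (o S) (o R) (by simpa using h) c hS hR han
  refine ⟨c', r, e, Fr.of_same s (by simp) ?_ ?_⟩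
  · intro b h1 h2
    simp only [List.mem_singleton, Sum.inl.injEq] at h2
    subst h2
    simp at h1
  · intro b _ h2
    simp only [List.mem_singleton, Sum.inl.injEq] at h2
    subst h2
    rw [e.2, hR.2]

theorem rpowF (E R T : FT) (h1 : E ≠ R) (h2 : E ≠ T) (h3 : R ≠ T) (c : TC X G) {e : ℕ} (hE : Ruler c (o E) e)
    (hR : Ruler c (o R) 0) (hT : Ruler c (o T) 0) :
    ∃ c', Run (rpow (o E) (o R) (o T) : Prog (FT ⊕ X) (Sym G)) c c' (64 * 2 ^ e + 40 * e + 32) ∧ Ruler c' (o R) (2 ^ e) ∧ Fr [R] [] c c' := by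
  obtain ⟨c', r, a1, a2, a3, s⟩ := rpow_spec (o E) (o R) (o T) (by simpa using h1) (by simpa using h2) (by simpa using h3) c hE hR hT
  refine ⟨c', r, a2, Fr.of_same s (by simp) ?_ ?_⟩
  · intro b h4 h5
    simp only [List.mem_cons, List.not_mem_nil, or_false, Sum.inl.injEq] at h5
    rcases h5 with rfl | rfl | rfl
    · exact ruler_tape_eq hE a1
    · simp at h4
    · exact ruler_tape_eq hT a3
  · intro b _ h5
    simp only [List.mem_cons, List.not_mem_nil, or_false, Sum.inl.injEq] at h5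
    rcases h5 with rfl | rfl | rfl
    · exact ruler_head_eq hE a1
    · rw [a2.2, hR.2]
    · exact ruler_head_eq hT a3

end

end Vale.Agent.Lib.P338.F
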