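import Vale.Agent.Lib.P338.F.Const

/-!
The three searches and the constants.
-/

namespace Vale.Agent.Lib.P338.F

open Vale.Agent.Lib.P338 Prog

section
variable {X G : Type} {q : ℕ} [hq : Fact q.Prime] [DecidableEq X]

/-- The test for the second element. -/
def betaB (sm : Prog (FT ⊕ X) (Sym G)) : Prog (FT ⊕ X) (Sym G) :=
  .seq (powS sm .CA .One .RqM .VA .VB) (ordT sm .VA .VB .Rq2)

/-- The cost of the test for the second element. -/
def BEC (K SC q : ℕ) : ℕ := PSC K SC (q - 1) + OTC K SC q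

/-- The tapes changed by the test for the second element. -/
abbrev bL : List FT := .VA :: .VB :: oT'

theorem betaB_spec {η : ZMod q} {K L W N SC e : ℕ} {sm : Prog (FT ⊕ X) (Sym G)} (ap : AP sm K L SC q) (he : e < q) {c : TC X G}
    (h : SN K L W q N η c) (hca : vr K c .CA = e) :
    ∃ c', Run (betaB sm) c c' (BEC K SC q) ∧ SN K L W q N η c' ∧ (flg c' .PA = false ↔ OrderIs ((mkE q η e 1) ^ (q - 1)) (q + 1)) ∧ Fr bL [] c c' := by
  have hq2 : 2 ≤ q := hq.out.two_le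
  have hL : LtE K q c .CA .One := ⟨by rw [hca]; exact he, by rw [h.one]; omega⟩
  obtain ⟨c1, r1, s1, l1, e1, f1⟩ := powS_spec ap .CA .One .RqM .VA .VB (by decide) (by decide) (by decide) (by decide) (by decide) (by decide) h h.r3 hL
  obtain ⟨c2, r2, fe2, v2, f2⟩ := ordT_spec ap .VA .VB .Rq2 (by decide) (by decide) (by decide) s1.toFE s1.r2 l1 s1.one s1.zer
  have f3 : Fr bL [] c c2 := f1.nil_tr f2 (by simp)
  refine ⟨c2, r1.seq r2, s1.upd fe2 f2 (by decide), ?_, f3⟩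
  rw [v2, e1]
  simp only [elt]
  rw [hca, h.one]

/-- The whole search. -/
def sAll (sm : Prog (FT ⊕ X) (Sym G)) : Prog (FT ⊕ X) (Sym G) :=
  .seq (.seq (srch (sqT sm) .AA) (cpy .RS .AA .Eta)) (.seq (srch (ordT sm .CA .Zer .RqMM) .AA) (.seq (srch (betaB sm) .BB) (kon sm)))

/-- The cost of the whole search. -/
def SAC (K SC q N : ℕ) : ℕ :=
  (SRC K q (SQC K q SC) + (12 * K + 12)) + (SRC K q (OTC K SC (q - 2)) + (SRC K q (BEC K SC q) + KOC K SC q N))

/-- The tapes changed by the whole search. -/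
abbrev saL : List FT := .AA :: .Eta :: .BB :: .BA :: .CA :: .PA :: .Fl :: kL

omit [DecidableEq X] in
theorem nonres_exists (hodd : q ≠ 2) : ∃ e, e < q ∧ ∀ r : ZMod q, r ^ 2 ≠ (e : ZMod q) := by
  have hch : ringChar (ZMod q) ≠ 2 := by
    rw [ZMod.ringChar_zmod_n]
    exact hodd
  obtain ⟨a, ha⟩ := FiniteField.exists_nonsquare hch
  refine ⟨a.val, ZMod.val_lt a, ?_⟩
  intro r hr
  apply ha
  rw [ZMod.natCast_zmod_val] at hr
  exact ⟨r, by rw [← hr]; ring⟩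

theorem sAll1 {K L W N SC : ℕ} {sm : Prog (FT ⊕ X) (Sym G)} (ap : AP sm K L SC q) (hqK : q < 2 ^ K) (hodd : q ≠ 2) {c : TC X G}
    (h : SN K L W q N (0 : ZMod q) c) (hr : Ruler c (o .Rq) q) :
    ∃ (c' : TC X G) (η : ZMod q) (_ : Fact (∀ r : ZMod q, r ^ 2 ≠ η + 0 * r)), Run (.seq (srch (sqT sm) .AA) (cpy .RS .AA .Eta)) c c' (SRC K q (SQC K q SC) + (12 * K + 12)) ∧
      SN K L W q N η c' ∧ Ruler c' (o .Rq) q ∧ Fr (.AA :: .Eta :: .CA :: .Cy :: sqL) [] c c' := by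
  obtain ⟨c1, r1, s1, l1, o1, f1⟩ := srch_spec hqK ap.hq (fun e => ∀ r : ZMod q, r ^ 2 ≠ (e : ZMod q)) .AA sqL rfl (by decide) (by decide) (by decide)
    (fun e he c sn hca => sqT_spec ap hqK he sn hca) h hr
  obtain ⟨c2, r2, a2, v2, _, f2⟩ := mov_spec .AA .Eta rfl rfl (by decide) s1.toAlu
  have hP := o1 (nonres_exists hodd)
  have f3 : Fr (.AA :: .Eta :: .CA :: .Cy :: sqL) [] c c2 := f1.nil_tr f2 (by simp)
  refine ⟨c2, ((vr K c1 .AA : ℕ) : ZMod q), ⟨?_⟩, r1.seq r2, ?_, ?_, f3⟩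
  · intro r
    have := hP r
    simpa using this
  · refine { toFE := { toAlu := a2, etaLt := by rw [v2]; exact l1, etaEq := by rw [v2] }, one := ?_, zer := ?_, r2 := ?_, r3 := ?_, r4 := ?_, r5 := ?_ }
    · rw [vr_of_fr f2 (by decide)]; exact s1.one
    · rw [vr_of_fr f2 (by decide)]; exact s1.zer
    · exact s1.r2.of_fr f2 (by decide) (by simp)
    · exact s1.r3.of_fr f2 (by decide) (by simp)
    · exact s1.r4.of_fr f2 (by decide) (by simp)
    · exact s1.r5.of_fr f2 (by decide) (by simp)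
  · exact hr.of_fr f3 (by decide) (by simp)

theorem sAll_spec {K L W N SC w : ℕ} {sm : Prog (FT ⊕ X) (Sym G)} (ap : AP sm K L SC q) (hqK : q < 2 ^ K) (hqw : q = 2 * w + 1)
    (hN : 2 * N + 1 = q * q) (hw : 1 ≤ w) {c : TC X G} (h : SN K L W q N (0 : ZMod q) c) (hr : Ruler c (o .Rq) q) :
    ∃ (c' : TC X G) (η : ZMod q) (_ : Fact (∀ r : ZMod q, r ^ 2 ≠ η + 0 * r)) (ω : (Rq q η)ˣ), Run (sAll sm) c c' (SAC K SC q N) ∧
      FE K L W q η c' ∧ DK K q η ω c' ∧ OrderIs ω N ∧ Fr saL [] c c' := by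
  have hq2 : 2 ≤ q := by omega
  have hodd : q ≠ 2 := by omega
  obtain ⟨c1, η, hη, r1, s1, hr1, f1⟩ := sAll1 ap hqK hodd h hr
  obtain ⟨a, ha, hα⟩ := exists_a0 (q := q) (η := η)
  obtain ⟨b, hb, hβ⟩ := exists_a (q := q) (η := η)
  obtain ⟨c2, r2, s2, l2, o2, f2⟩ := srch_spec hqK ap.hq (fun e => OrderIs (mkE q η e 0) (q - 1)) .AA oT' rfl (by decide) (by decide) (by decide)
    (fun e he c sn hca => by
      obtain ⟨c', r, fe, v, f⟩ := ordT_spec ap .CA .Zer .RqMM (by decide) (by decide) (by decide) sn.toFE sn.r4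
        (⟨by rw [hca]; exact he, by rw [sn.zer]; exact ap.hq⟩ : LtE K q c .CA .Zer) sn.one sn.zer
      refine ⟨c', r, sn.upd fe f (by decide), ?_, f⟩
      rw [v]
      simp only [elt]
      rw [hca, sn.zer]
      have e1 : q - 2 + 1 = q - 1 := by omega
      rw [e1]) s1 hr1
  have hr2 : Ruler c2 (o .Rq) q := hr1.of_fr f2 (by decide) (by simp)
  obtain ⟨c3, r3, s3, l3, o3, f3⟩ := srch_spec hqK ap.hq (fun e => OrderIs ((mkE q η e 1) ^ (q - 1)) (q + 1)) .BB bL rfl (by decide) (by decide) (by decide)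
    (fun e he c sn hca => betaB_spec ap he sn hca) s2 hr2
  have hα2 := o2 ⟨a, ha, hα⟩
  have hβ3 := o3 ⟨b, hb, hβ⟩
  have hAA : vr K c3 .AA = vr K c2 .AA := vr_of_fr f3 (by decide)
  obtain ⟨c4, ω, r4, s4, k4, o4, f4⟩ := kon_spec (η := η) ap hqw hN hw s3 (by rw [hAA]; exact l2) l3 (by rw [hAA]; exact hα2) hβ3
  refine ⟨c4, η, hη, ω, r1.seq (r2.seq (r3.seq r4)), s4.toFE, k4, o4, ?_⟩
  exact f1.nil_tr (f2.nil_tr (f3.nil_tr f4 (l2 := saL) (by decide)) (l2 := saL) (by decide)) (by decide)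

end

end Vale.Agent.Lib.P338.F
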