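import Vale.Agent.Lib.P338.F.REnv

/-!
Setup operations: the side length from the input, logarithms, halving, products of rulers.
-/

namespace Vale.Agent.Lib.P338.F

open Vale.Agent.Lib.P338 Prog

section
variable {X G : Type}

theorem Fr.dropT {l m : List FT} {a : FT} {c c' : TC X G} (h : Fr (a :: l) m c c') (he : c'.tape (o a) = c.tape (o a)) :
    Fr l m c c' := by
  refine ⟨?_, h.hd, h.cl⟩
  intro b hb
  by_cases hab : b = a
  · subst hab
    exact he
  · exact h.tp b (by simp [hab, hb])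

variable [DecidableEq X]

/-- The body of the computation of the side length. -/
def rootB : Prog (FT ⊕ X) (Sym G) := .seq (adv .Rm .In .R) (.seq (adv .Rm .In .R) (.seq (mv (o .In) .R) (rinc (o .Rm))))

/-- The computation of the side length: the input has `m * m` cells. -/
def rootP : Prog (FT ⊕ X) (Sym G) := .seq (.loop (fun s => (s (o .In)).nonBlank) rootB) (rew (o .In))

theorem mvF (Y : FT) (d : Dir) (c : TC X G) :
    ∃ c', Run (mv (o Y) d : Prog (FT ⊕ X) (Sym G)) c c' 1 ∧ c'.head (o Y) = c.head (o Y) + d.toInt ∧ Fr [] [Y] c c' := by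
  obtain ⟨c1, r1, a1, a2, s1⟩ := mv_spec (o Y) d c
  refine ⟨c1, r1, a1, Fr.of_same s1 (by simp) ?_ ?_⟩
  · intro a _ hb
    simp only [List.mem_singleton, Sum.inl.injEq] at hb
    subst hb
    exact a2
  · intro a ha hb
    simp only [List.mem_singleton, Sum.inl.injEq] at hb
    subst hb
    simp at ha

theorem rootE {B m : ℕ} {τ σ : ℤ → Sym G} {c : TC X G} {e : FT → ℕ} (h : REnv B τ σ c e) (hS : Shp (m * m) τ) (h0 : e .Rm = 0)
    (hm : m * m ≤ B) (hm1 : m ≤ B) :
    ∃ c', Run (rootP : Prog (FT ⊕ X) (Sym G)) c c' (33 * B + 4) ∧ REnv B τ σ c' (Function.update e .Rm m) := by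
  have rm0 : Ruler c (o .Rm) 0 := by
    have := h.ru .Rm (by decide)
    rwa [h0] at this
  obtain ⟨c1, ⟨i1, i2, i3, i4⟩, r1⟩ := Run.loop (g := fun s => (s (o .In)).nonBlank) (b := rootB)
    (fun i c' => c'.head (o .In) = ((i * i : ℕ) : ℤ) ∧ c'.tape (o .In) = τ ∧ Ruler c' (o .Rm) i ∧ Fr [.Rm] [.In] c c') m (fun _ => 12 * m + 18) (c := c)
    ⟨by rw [h.hI]; simp, h.tI, rm0, Fr.refl _ _ _⟩
    (by
      rintro i hi c2 ⟨a1, a2, a3, a4⟩
      constructor
      · simp only [TS.read]
        rw [a2, a1]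
        apply hS.1
        · positivity
        · have : i * i < m * m := Nat.mul_lt_mul'' hi hi
          exact_mod_cast this
      · obtain ⟨c3, r3, b1, f3⟩ := adv_spec (X := X) (G := G) .Rm .In .R (by decide) (by simp) c2 a3
        have a5 := a3.of_fr f3 (by simp) (by decide)
        obtain ⟨c4, r4, b2, f4⟩ := adv_spec (X := X) (G := G) .Rm .In .R (by decide) (by simp) c3 a5
        obtain ⟨c5, r5, b3, f5⟩ := mvF .In .R c4
        have a6 := (a5.of_fr f4 (by simp) (by decide)).of_fr f5 (by simp) (by decide)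
        obtain ⟨c6, r6, b4, f6⟩ := rincF .Rm c5 a6
        have f7 : Fr [.Rm] [.In] c2 c6 :=
          f3.tr (f4.tr (f5.tr f6 (l2 := [.Rm]) (m2 := [.In]) (by simp) (by simp)) (l2 := [.Rm]) (m2 := [.In]) (by simp) (by simp)) (by simp) (by simp)
        refine ⟨c6, (r3.seq (r4.seq (r5.seq r6))).mono (by omega), ?_, ?_, b4, a4.tr f7 (by simp) (by simp)⟩
        · rw [f6.head (by simp), b3, b2, b1, a1]
          simp only [Dir.toInt]
          push_cast
          ring
        · rw [f7.tape (by decide), a2])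
    (by
      rintro c2 ⟨a1, a2, _, _⟩
      simp only [TS.read]
      rw [a2, a1, hS.2 _ (by right; exact le_rfl)]
      rfl)
  obtain ⟨c2, r2, b1, b2, s2⟩ := rew_spec (o .In) c1 (m * m) i1
    (by
      intro i hi
      rw [i2]
      apply hS.1
      · positivity
      · exact_mod_cast hi)
    (by
      rw [i2]
      exact hS.2 _ (by left; omega))
  have f2 : Fr [] [.In] c1 c2 := by
    refine Fr.of_same s2 (by simp) ?_ ?_
    · intro a _ hb
      simp only [List.mem_singleton, Sum.inl.injEq] at hb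
      subst hb
      exact b2
    · intro a ha hb
      simp only [List.mem_singleton, Sum.inl.injEq] at hb
      subst hb
      simp at ha
  have f3 : Fr [.Rm] [.In] c c2 := i4.tr f2 (by simp) (by simp)
  refine ⟨c2, (r1.seq r2).mono ?_, h.upd (Fr.fixA (a := .In) (m := []) (f3) (by rw [b1, h.hI])) (by decide) (i3.of_fr f2 (by simp) (by decide)) hm1⟩
  rw [Finset.sum_const, Finset.card_range, smul_eq_mul]
  have e1 : m * (12 * m + 18 + 1) = 12 * (m * m) + 19 * m := by ring
  rw [e1]
  omega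

/-- The body of the logarithm. -/
def clogB (S D T Tq : FT) : Prog (FT ⊕ X) (Sym G) :=
  .seq (adv T S .R) (.seq (radd (o T) (o Tq)) (.seq (radd (o Tq) (o T)) (.seq (rclr (o Tq)) (rinc (o D)))))

/-- The logarithm of the length of `S`, rounded up, on `D`. -/
def clogP (S D T Tq : FT) : Prog (FT ⊕ X) (Sym G) :=
  .seq (rinc (o T)) (.seq (mv (o S) .R) (.seq (.loop (fun s => (s (o S)).nonBlank) (clogB S D T Tq)) (.seq (adv T S .L) (rclr (o T)))))

theorem clog_facts {n i : ℕ} (hn : 1 ≤ n) : 2 ^ i < n ↔ i < Nat.clog 2 n := by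
  rw [Nat.lt_clog_iff_pow_lt (by norm_num)]

theorem clogE {B n : ℕ} {τ σ : ℤ → Sym G} {c : TC X G} {e : FT → ℕ} (h : REnv B τ σ c e) {S D T Tq : FT}
    (hN : [S, D, T, Tq, FT.In, .Sv].Nodup) (hn : e S = n) (h1 : 1 ≤ n) (hD : e D = 0) (hT : e T = 0) (hTq : e Tq = 0)
    (hb : 4 ^ Nat.clog 2 n ≤ B) :
    ∃ c', Run (clogP S D T Tq : Prog (FT ⊕ X) (Sym G)) c c' (70 * B + 19) ∧ REnv B τ σ c' (Function.update e D (Nat.clog 2 n)) := by
  simp only [List.nodup_cons, List.mem_cons, List.not_mem_nil, or_false, not_or] at hN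
  obtain ⟨⟨n1, n2, n3, n4, n5⟩, ⟨m1, m2, m3, m4⟩, ⟨l1, l2, l3⟩, ⟨k1, k2⟩, _⟩ := hN
  set cl := Nat.clog 2 n with hcl
  have rS : Ruler c (o S) n := by
    have := h.ru S (by simpa using ⟨n4, n5⟩)
    rwa [hn] at this
  have rD : Ruler c (o D) 0 := by
    have := h.ru D (by simpa using ⟨m3, m4⟩)
    rwa [hD] at this
  have rT : Ruler c (o T) 0 := by
    have := h.ru T (by simpa using ⟨l2, l3⟩)
    rwa [hT] at this
  have rTq : Ruler c (o Tq) 0 := by
    have := h.ru Tq (by simpa using ⟨k1, k2⟩)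
    rwa [hTq] at this
  have h2c : 2 ^ cl * 2 ^ cl = 4 ^ cl := by
    rw [← mul_pow]
    norm_num
  have hp : 1 ≤ 2 ^ cl := Nat.one_le_two_pow
  have hclt : cl < 2 ^ cl := Nat.lt_two_pow_self
  have hb2 : 2 ^ cl ≤ B := le_trans (Nat.le_mul_of_pos_left _ (by positivity)) (h2c.le.trans hb)
  obtain ⟨c1, r1, a1, f1⟩ := rincF T c rT
  obtain ⟨c2, r2, a2, f2⟩ := mvF S .R c1
  have f12 : Fr [T] [S] c c2 := f1.tr f2 (by simp) (by simp)
  have hH : c2.head (o S) = 1 := by
    rw [a2, f1.head (by simp), rS.2]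
    simp [Dir.toInt]
  have tS : c2.tape (o S) = runT n := by
    rw [f12.tape (by simpa using n2), rS.1]
  obtain ⟨c3, ⟨i1, i2, i3, i4, i5, i6⟩, r3⟩ := Run.loop (g := fun s => (s (o S)).nonBlank) (b := clogB S D T Tq)
    (fun i c' => c'.head (o S) = ((2 ^ i : ℕ) : ℤ) ∧ c'.tape (o S) = runT n ∧ Ruler c' (o T) (2 ^ i) ∧ Ruler c' (o Tq) 0 ∧ Ruler c' (o D) i ∧
      Fr [T, Tq, D] [S] c2 c') cl (fun _ => 28 * 2 ^ cl + 33) (c := c2)
    ⟨by rw [hH]; simp, tS, by simpa using a1.of_fr f2 (by simp) (by simpa using Ne.symm n2), rTq.of_fr f12 (by simpa using Ne.symm l1) (by simpa using Ne.symm n3),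
      rD.of_fr f12 (by simpa using m1) (by simpa using Ne.symm n1), Fr.refl _ _ _⟩
    (by
      rintro i hi c4 ⟨a1, a2, a3, a4, a5, a6⟩
      constructor
      · simp only [TS.read]
        rw [a2, a1, runT_in (by positivity) (by
          have := (clog_facts h1).2 hi
          exact_mod_cast this)]
        rfl
      · have nS : S ∉ [T] := by simpa using n2
        obtain ⟨c5, r5, b1, f5⟩ := adv_spec (X := X) (G := G) T S .R (Ne.symm n2) (by simp) c4 a3
        have a3' := a3.of_fr f5 (by simp) (by simpa using Ne.symm n2)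
        have a4' := a4.of_fr f5 (by simp) (by simpa using Ne.symm n3)
        have a5' := a5.of_fr f5 (by simp) (by simpa using Ne.symm n1)
        obtain ⟨c6, r6, b2, f6⟩ := raddF T Tq l1 c5 a3' a4'
        rw [zero_add] at b2
        have a3'' := a3'.of_fr f6 (by simpa using l1) (by simp)
        obtain ⟨c7, r7, b3, f7⟩ := raddF Tq T (Ne.symm l1) c6 b2 a3''
        obtain ⟨c8, r8, b4, f8⟩ := rclrF Tq c7 (b2.of_fr f7 (by simpa using Ne.symm l1) (by simp))
        obtain ⟨c9, r9, b5, f9⟩ := rincF D c8 (a5'.of_fr (f6.tr (f7.tr f8 (l2 := [T, Tq]) (m2 := []) (by simp) (by simp)) (l2 := [T, Tq]) (m2 := []) (by simp) (by simp))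
          (by simpa using ⟨m1, m2⟩) (by simp))
        have f10 : Fr [T, Tq, D] [S] c4 c9 :=
          f5.tr (f6.tr (f7.tr (f8.tr f9 (l2 := [T, Tq, D]) (m2 := []) (by simp) (by simp)) (l2 := [T, Tq, D]) (m2 := []) (by simp) (by simp)) (l2 := [T, Tq, D]) (m2 := []) (by simp) (by simp)) (by simp) (by simp)
        have hi2 : 2 ^ i ≤ 2 ^ cl := Nat.pow_le_pow_right (by norm_num) hi.le
        have hi3 : i < 2 ^ i := Nat.lt_two_pow_self
        refine ⟨c9, (r5.seq (r6.seq (r7.seq (r8.seq r9)))).mono (by omega), ?_, ?_, ?_, ?_, ?_, a6.tr f10 (by simp) (by simp)⟩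
        · have f69 : Fr [T, Tq, D] [] c5 c9 := f6.tr (f7.tr (f8.tr f9 (l2 := [T, Tq, D]) (m2 := []) (by simp) (by simp)) (l2 := [T, Tq, D]) (m2 := []) (by simp) (by simp)) (by simp) (by simp)
          rw [f69.head (by simp), b1, a1, pow_succ]
          simp only [Dir.toInt]
          push_cast
          ring
        · rw [f10.tape (by simpa using ⟨n2, n3, n1⟩)]
          exact a2
        · have e : 2 ^ (i + 1) = 2 ^ i + 2 ^ i := by
            rw [pow_succ]
            ring
          rw [e]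
          exact (b3.of_fr f8 (by simpa using l1) (by simp)).of_fr f9 (by simpa using Ne.symm m1) (by simp)
        · exact b4.of_fr f9 (by simpa using Ne.symm m2) (by simp)
        · exact b5)
    (by
      rintro c4 ⟨a1, a2, _, _, _, _⟩
      simp only [TS.read]
      rw [a2, a1, runT_out (by
        right
        have : n ≤ 2 ^ cl := Nat.le_pow_clog (by norm_num) n
        exact_mod_cast this)]
      rfl)
  obtain ⟨c4, r4, b1, f4⟩ := adv_spec (X := X) (G := G) T S .L (Ne.symm n2) (by simp) c3 i3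
  obtain ⟨c5, r5, b2, f5⟩ := rclrF T c4 (i3.of_fr f4 (by simp) (by simpa using Ne.symm n2))
  have f6 : Fr [T, Tq, D] [S] c c5 :=
    f12.tr (i6.tr (f4.tr f5 (l2 := [T]) (m2 := [S]) (by simp) (by simp)) (l2 := [T, Tq, D]) (m2 := [S]) (by simp) (by simp)) (by simp) (by simp)
  have f7 : Fr [D] [] c c5 := by
    refine Fr.fixA (Fr.dropT (Fr.dropT f6 ?_) ?_) ?_
    · rw [b2.1, rT.1]
    · rw [(i4.of_fr (f4.tr f5 (l2 := [T]) (m2 := [S]) (by simp) (by simp)) (by simpa using Ne.symm l1) (by simpa using Ne.symm n3)).1, rTq.1]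
    · rw [f5.head (by simpa using Ne.symm n2), b1, i1, rS.2]
      simp [Dir.toInt]
  refine ⟨c5, (r1.seq (r2.seq (r3.seq (r4.seq r5)))).mono ?_, h.upd f7 (by simpa using ⟨m3, m4⟩)
    ((i5.of_fr f4 (by simp) (by simpa using Ne.symm n1)).of_fr f5 (by simpa using m1) (by simp)) (by omega)⟩
  rw [Finset.sum_const, Finset.card_range, smul_eq_mul]
  have e1 : cl * (28 * 2 ^ cl + 33 + 1) = 28 * (cl * 2 ^ cl) + 34 * cl := by ring
  have e2 : cl * 2 ^ cl ≤ 2 ^ cl * 2 ^ cl := Nat.mul_le_mul_right _ hclt.le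
  rw [e1]
  omega

/-- One step of halving a ruler. -/
def hfB (S Y : FT) : Prog (FT ⊕ X) (Sym G) :=
  .seq (mv (o S) .R) (.ite (fun s => (s (o S)).isOne) (.seq (mv (o S) .R) (act1 (o Y) (fun _ => .one) .R)) skip)

/-- Halving a ruler: `Y` gets the length of `S` divided by two. -/
def hfP (S Y : FT) : Prog (FT ⊕ X) (Sym G) :=
  .seq (.loop (fun s => (s (o S)).isOne) (hfB S Y)) (.seq (rew (o S)) (rew (o Y)))

theorem act1F (Y : FT) (w : ((FT ⊕ X) → Sym G) → Sym G) (d : Dir) (c : TC X G) (hc : ∀ s, Sym.nonBlank (w s) = true ∨ True) :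
    ∃ c', Run (act1 (o Y) w d : Prog (FT ⊕ X) (Sym G)) c c' 1 ∧ c'.head (o Y) = c.head (o Y) + d.toInt ∧
      (∀ x, c'.tape (o Y) x = if x = c.head (o Y) then w c.read else c.tape (o Y) x) ∧ Fr [Y] [Y] c c' := by
  obtain ⟨c1, r1, a1, a2, s1⟩ := act1_spec (o Y) w d c
  refine ⟨c1, r1, a1, a2, Fr.of_same s1 (by simp) ?_ ?_⟩
  · intro a ha hb
    simp only [List.mem_singleton, Sum.inl.injEq] at ha hb
    exact absurd hb ha
  · intro a ha hb
    simp only [List.mem_singleton, Sum.inl.injEq] at ha hb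
    exact absurd hb ha

theorem hfE {B x : ℕ} {τ σ : ℤ → Sym G} {c : TC X G} {e : FT → ℕ} (h : REnv B τ σ c e) {S Y : FT}
    (hN : [S, Y, FT.In, .Sv].Nodup) (hx : e S = x) (hY : e Y = 0) :
    ∃ c', Run (hfP S Y : Prog (FT ⊕ X) (Sym G)) c c' (7 * B + 10) ∧ REnv B τ σ c' (Function.update e Y (x / 2)) := by
  simp only [List.nodup_cons, List.mem_cons, List.not_mem_nil, or_false, not_or] at hN
  obtain ⟨⟨n1, n2, n3⟩, ⟨m1, m2⟩, _⟩ := hN
  have rS : Ruler c (o S) x := by
    have := h.ru S (by simpa using ⟨n2, n3⟩)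
    rwa [hx] at this
  have rY : Ruler c (o Y) 0 := by
    have := h.ru Y (by simpa using ⟨m1, m2⟩)
    rwa [hY] at this
  have hxB : x ≤ B := hx ▸ h.le S
  obtain ⟨c1, ⟨i1, i2, i3, i4, i5⟩, r1⟩ := Run.loop (g := fun s => (s (o S)).isOne) (b := hfB S Y)
    (fun i c' => c'.head (o S) = ((min (2 * i) x : ℕ) : ℤ) ∧ c'.tape (o S) = runT x ∧ c'.tape (o Y) = runT (min (2 * i) x / 2) ∧
      c'.head (o Y) = ((min (2 * i) x / 2 : ℕ) : ℤ) ∧ Fr [Y] [S, Y] c c') ((x + 1) / 2) (fun _ => 4) (c := c)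
    ⟨by rw [rS.2]; simp, rS.1, by simpa using rY.1, by rw [rY.2]; simp, Fr.refl _ _ _⟩
    (by
      rintro i hi c2 ⟨a1, a2, a3, a4, a5⟩
      have hi2 : 2 * i < x := by omega
      have e0 : min (2 * i) x = 2 * i := by omega
      rw [e0] at a1 a3 a4
      have e1 : 2 * i / 2 = i := by omega
      rw [e1] at a3 a4
      constructor
      · simp only [TS.read]
        rw [a2, a1, runT_in (by positivity) (by exact_mod_cast hi2)]
        rfl
      · obtain ⟨c3, r3, b1, f3⟩ := mvF S .R c2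
        have hH : c3.head (o S) = ((2 * i + 1 : ℕ) : ℤ) := by
          rw [b1, a1]
          simp [Dir.toInt]
        have tS : c3.tape (o S) = runT x := by rw [f3.tape (by simp), a2]
        by_cases hc : 2 * i + 1 < x
        · have hg : (c3.read (o S)).isOne = true := by
            simp only [TS.read]
            rw [tS, hH, runT_in (by positivity) (by exact_mod_cast hc)]
            rfl
          obtain ⟨c4, r4, b2, f4⟩ := mvF S .R c3
          obtain ⟨c5, r5, d1, d2, f5⟩ := act1F Y (fun _ => .one) .R c4 (fun _ => Or.inr trivial)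
          have f6 : Fr [Y] [S, Y] c2 c5 := f3.tr (f4.tr f5 (l2 := [Y]) (m2 := [S, Y]) (by simp) (by simp)) (by simp) (by simp)
          have e2 : min (2 * (i + 1)) x = 2 * (i + 1) := by omega
          have e3 : 2 * (i + 1) / 2 = i + 1 := by omega
          refine ⟨c5, (r3.seq (Run.iteT hg (r4.seq r5))).mono (by omega), ?_, ?_, ?_, ?_, a5.tr f6 (by simp) (by simp)⟩
          · rw [e2, f5.head (by simpa using n1), b2, hH]
            simp only [Dir.toInt]
            push_cast
            ring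
          · rw [f6.tape (by simpa using n1), a2]
          · rw [e2, e3]
            funext z
            have hY4 : c4.head (o Y) = (i : ℤ) := by
              rw [f4.head (by simpa using Ne.symm n1), f3.head (by simpa using Ne.symm n1), a4]
            have tY4 : c4.tape (o Y) = runT i := by
              rw [f4.tape (by simp), f3.tape (by simp), a3]
            rw [d2, hY4, tY4]
            by_cases hz : z = i
            · rw [if_pos hz, runT_in (by omega) (by push_cast; omega)]
            · rw [if_neg hz]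
              by_cases hz2 : 0 ≤ z ∧ z < i
              · rw [runT_in hz2.1 hz2.2, runT_in hz2.1 (by push_cast; omega)]
              · rw [runT_out (by omega), runT_out (by push_cast; omega)]
          · rw [e2, e3, d1, f4.head (by simpa using Ne.symm n1), f3.head (by simpa using Ne.symm n1), a4]
            simp [Dir.toInt]
        · have hg : (c3.read (o S)).isOne = false := by
            simp only [TS.read]
            rw [tS, hH, runT_out (by right; push_cast; omega)]
            rfl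
          have e2 : min (2 * (i + 1)) x = 2 * i + 1 := by omega
          have e3 : (2 * i + 1) / 2 = i := by omega
          have f6 : Fr [Y] [S, Y] c2 c3 := f3.mono (by simp) (by simp)
          refine ⟨c3, (r3.seq (Run.iteF hg (skip_spec c3))).mono (by omega), ?_, ?_, ?_, ?_, a5.tr f6 (by simp) (by simp)⟩
          · rw [e2, hH]
          · exact tS
          · rw [e2, e3, f3.tape (by simp), a3]
          · rw [e2, e3, f3.head (by simpa using Ne.symm n1), a4])
    (by
      rintro c2 ⟨a1, a2, _, _, _⟩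
      simp only [TS.read]
      have e : min (2 * ((x + 1) / 2)) x = x := by omega
      rw [e] at a1
      rw [a2, a1, runT_out (by right; exact le_rfl)]
      rfl)
  have e : min (2 * ((x + 1) / 2)) x = x := by omega
  rw [e] at i1 i3 i4
  have hS1 : c1.tape (o S) = runT x := i2
  obtain ⟨c2, r2, b1, s2⟩ := rew_ruler (o S) c1 hS1 i1 le_rfl
  have f2 : Fr [] [S] c1 c2 := fr_of_ruler_same s2 (b1.1.trans hS1.symm)
  obtain ⟨c3, r3, d1, s3⟩ := rew_ruler (o Y) c2 (n := x / 2) (h := x / 2) (by rw [f2.tape (by simp), i3]) (by rw [f2.head (by simpa using Ne.symm n1), i4]) le_rfl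
  have tY := d1.1
  have f3 : Fr [Y] [Y] c2 c3 := by
    refine Fr.of_same s3 (by simp) ?_ ?_
    · intro a ha hb
      simp only [List.mem_singleton, Sum.inl.injEq] at ha hb
      exact absurd hb ha
    · intro a ha hb
      simp only [List.mem_singleton, Sum.inl.injEq] at ha hb
      exact absurd hb ha
  have f4 : Fr [Y] [S, Y] c c3 := i5.tr (f2.tr f3 (l2 := [Y]) (m2 := [S, Y]) (by simp) (by simp)) (by simp) (by simp)
  have f5 : Fr [Y] [] c c3 := by
    refine Fr.fixA (Fr.fixA f4 ?_) ?_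
    · rw [f3.head (by simpa using n1), b1.2, rS.2]
    · rw [d1.2, rY.2]
  refine ⟨c3, (r1.seq (r2.seq r3)).mono ?_, h.upd f5 (by simpa using ⟨m1, m2⟩) d1 (by omega)⟩
  rw [Finset.sum_const, Finset.card_range, smul_eq_mul]
  omega

/-- One step of the product of two rulers. -/
def rmulB (S Y : FT) : Prog (FT ⊕ X) (Sym G) :=
  .seq (sc1 Sym.isOne (o S) .R (o Y) .R fun _ _ => .one) (rew (o S))

/-- The product of two rulers: the empty ruler `Y` gets the product of the lengths of `S` and `E`. -/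
def rmulP (S E Y : FT) : Prog (FT ⊕ X) (Sym G) := .seq (forR (o E) (rmulB S Y)) (rew (o Y))

theorem rmulE {B a b : ℕ} {τ σ : ℤ → Sym G} {c : TC X G} {e : FT → ℕ} (h : REnv B τ σ c e) {S E Y : FT}
    (hN : [S, E, Y, FT.In, .Sv].Nodup) (ha : e S = a) (hb : e E = b) (hY : e Y = 0) (hab : b * a ≤ B) :
    ∃ c', Run (rmulP S E Y : Prog (FT ⊕ X) (Sym G)) c c' (14 * B + 7) ∧ REnv B τ σ c' (Function.update e Y (b * a)) := by
  simp only [List.nodup_cons, List.mem_cons, List.not_mem_nil, or_false, not_or] at hN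
  obtain ⟨⟨n1, n2, n3, n4⟩, ⟨m1, m2, m3⟩, ⟨l1, l2⟩, _⟩ := hN
  have rS : Ruler c (o S) a := by
    have := h.ru S (by simpa using ⟨n3, n4⟩)
    rwa [ha] at this
  have rE : Ruler c (o E) b := by
    have := h.ru E (by simpa using ⟨m2, m3⟩)
    rwa [hb] at this
  have rY : Ruler c (o Y) 0 := by
    have := h.ru Y (by simpa using ⟨l1, l2⟩)
    rwa [hY] at this
  have hbB : b ≤ B := hb ▸ h.le E
  obtain ⟨c1, ⟨i1, i2, i3⟩, hR1, r1⟩ := forU (R := E) (body := rmulB S Y) (n := b)
    (fun i c' => c'.tape (o Y) = runT (i * a) ∧ c'.head (o Y) = ((i * a : ℕ) : ℤ) ∧ Fr [Y] [E, Y] c c') (4 * a + 4) (c := c) rE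
    ⟨by simpa using rY.1, by rw [rY.2]; simp, Fr.refl _ _ _⟩
    (by
      rintro i c2 c3 ⟨a1, a2, a3⟩ hf
      refine ⟨?_, ?_, a3.tr hf (by simp) (by simp)⟩
      · rw [hf.tape (by simp)]; exact a1
      · rw [hf.head (by simpa using Ne.symm m1)]; exact a2)
    (by
      rintro i hi c2 hR hH ⟨a1, a2, a3⟩
      have rS2 : Ruler c2 (o S) a := rS.of_fr a3 (by simpa using n2) (by simpa using ⟨n1, n2⟩)
      obtain ⟨c3, r3, b1, b2, b3, b4, b5, s3⟩ := sc1_ruler (o S) (o Y) .R (fun _ _ => .one) (by simpa using n2) (by simp) c2 rS2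
      obtain ⟨c4, r4, d1, s4⟩ := rew_ruler (o S) c3 b2 b1 le_rfl
      have hY4 : c4.head (o Y) = c3.head (o Y) := s4.head (by simpa using Ne.symm n2)
      have tY4 : c4.tape (o Y) = c3.tape (o Y) := s4.tape (by simpa using Ne.symm n2)
      have hs : Same [o S, o Y] c2 c4 := (s3.trans s4).mono (by simp)
      have f4 : Fr [Y] [S, Y] c2 c4 := by
        refine Fr.of_same hs (by simp) ?_ ?_
        · intro b h1 h2
          simp only [List.mem_cons, List.not_mem_nil, or_false, Sum.inl.injEq] at h1 h2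
          rcases h2 with rfl | rfl
          · rw [d1.1, rS2.1]
          · exact absurd rfl h1
        · intro b h1 h2
          simp only [List.mem_cons, List.not_mem_nil, or_false, Sum.inl.injEq] at h1 h2
          exact absurd h2 h1
      have f5 : Fr [Y] [Y] c2 c4 := Fr.fixA f4 (by rw [d1.2, rS2.2])
      refine ⟨c4, (r3.seq r4).mono (by omega), ⟨?_, ?_, a3.tr f5 (by simp) (by simp)⟩, ?_, ?_⟩
      · rw [tY4, add_mul, one_mul]
        funext z
        by_cases hz : (((i * a : ℕ) : ℤ)) ≤ z ∧ z < ((i * a : ℕ) : ℤ) + a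
        · have e := b4 (z - ((i * a : ℕ) : ℤ)).toNat (by omega)
          rw [a2] at e
          simp only [Dir.toInt, mul_one] at e
          have e1 : ((i * a : ℕ) : ℤ) + ((z - ((i * a : ℕ) : ℤ)).toNat : ℤ) = z := by omega
          rw [e1] at e
          rw [e, runT_in (by omega) (by push_cast at hz ⊢; omega)]
        · rw [b5 z (by
            rw [a2]
            exact trail_R.2 hz), a1]
          by_cases hz2 : 0 ≤ z ∧ z < ((i * a : ℕ) : ℤ)
          · rw [runT_in hz2.1 hz2.2, runT_in hz2.1 (by push_cast at hz2 ⊢; omega)]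
          · rw [runT_out (by omega), runT_out (by push_cast at hz hz2 ⊢; omega)]
      · rw [hY4, b3, a2, add_mul, one_mul]
        simp only [Dir.toInt]
        push_cast
        ring
      · exact f5.tape (by simpa using m1)
      · exact f5.head (by simpa using m1))
  have f2 : Fr [Y] [Y] c c1 := i3.fixR rE hR1
  obtain ⟨c2, r2, d1, s2⟩ := rew_ruler (o Y) c1 i1 i2 le_rfl
  have f3 : Fr [Y] [Y] c1 c2 := by
    refine Fr.of_same s2 (by simp) ?_ ?_
    · intro b h1 h2
      simp only [List.mem_singleton, Sum.inl.injEq] at h1 h2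
      exact absurd h2 h1
    · intro b h1 h2
      simp only [List.mem_singleton, Sum.inl.injEq] at h1 h2
      exact absurd h2 h1
  have f4 : Fr [Y] [] c c2 := Fr.fixA (f2.tr f3 (l2 := [Y]) (m2 := [Y]) (by simp) (by simp)) (by rw [d1.2, rY.2])
  refine ⟨c2, (r1.seq r2).mono ?_, h.upd f4 (by simpa using ⟨l1, l2⟩) d1 hab⟩
  have e1 : b * (4 * a + 4 + 4) = 4 * (b * a) + 8 * b := by ring
  rw [e1]
  omega

end

end Vale.Agent.Lib.P338.F
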