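import Vale.Agent.Lib.P338.F.Params

/-!
The setup phase: computing all rulers from the input. First part.
-/

namespace Vale.Agent.Lib.P338.F

open Vale.Agent.Lib.P338 Prog

theorem BB_ge (m : ℕ) : 4 * (2 ^ ap m * 2 ^ ap m) ≤ BB m := by
  have e : BB m = 2 ^ (ap m + ap m + 2) * 2 ^ 11 := by
    simp only [BB]
    rw [← pow_add]
    congr 1
    ring
  have e2 : 4 * (2 ^ ap m * 2 ^ ap m) = 2 ^ (ap m + ap m + 2) := by
    rw [← pow_add, pow_add 2 (ap m + ap m) 2]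
    ring
  rw [e2, e]
  exact Nat.le_mul_of_pos_right _ (by positivity)

theorem ap_lt (m : ℕ) : ap m < 2 ^ ap m := Nat.lt_two_pow_self

theorem m_le (m : ℕ) : m ≤ 2 ^ a0 m := Nat.le_pow_clog (by norm_num) _

theorem m_le' (m : ℕ) : m ≤ 2 ^ ap m := by
  refine le_trans (m_le m) (Nat.pow_le_pow_right (by norm_num) ?_)
  simp only [ap]
  omega

theorem pow_ap_le (m : ℕ) : 2 ^ ap m ≤ BB m := by
  have h := BB_ge m
  have h2 : 2 ^ ap m * 1 ≤ 2 ^ ap m * 2 ^ ap m := Nat.mul_le_mul_left _ Nat.one_le_two_pow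
  omega

theorem ap_le (m : ℕ) : ap m ≤ BB m := le_trans (ap_lt m).le (pow_ap_le m)

section
variable {X G : Type} [DecidableEq X]

omit [DecidableEq X] in
theorem REnv.conv {B : ℕ} {τ σ : ℤ → Sym G} {c : TC X G} {e e' : FT → ℕ} (h : REnv B τ σ c e) (he : ∀ a, e a = e' a) : REnv B τ σ c e' := by
  have : e = e' := funext he
  rwa [← this]

theorem rcpyE {B : ℕ} {τ σ : ℤ → Sym G} {c : TC X G} {e : FT → ℕ} (h : REnv B τ σ c e) (S R : FT) (hS : S ∉ nR) (hR : R ∉ nR) (hSR : S ≠ R)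
    (h0 : e R = 0) {n : ℕ} (hn : n = e S) (hb : n ≤ B) :
    ∃ c', Run (radd (o S) (o R) : Prog (FT ⊕ X) (Sym G)) c c' (10 * B + 8) ∧ REnv B τ σ c' (Function.update e R n) :=
  raddE h S R hS hR hSR (by rw [h0, zero_add, hn]) hb

/-- The first part of the setup. -/
def stA : Prog (FT ⊕ X) (Sym G) :=
  .seq rootP (.seq (clogP .Rm .Ra .Tmp .Tmq) (.seq (radd (o .Ra) (o .Rap)) (.seq (rinc (o .Rap)) (.seq (rinc (o .Rap)) (.seq (rinc (o .Rap)) (.seq (rinc (o .Rap))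
    (.seq (radd (o .Rap) (o .RAA)) (.seq (rinc (o .RAA)) (.seq (clogP .RAA .Rkk .Tmp .Tmq) (.seq (rinc (o .RA1)) (.seq (radd (o .Rkk) (o .Tmr)) (.seq (rsub (o .RA1) (o .Tmr))
    (.seq (hfP .Tmr .Rrh) (rclr (o .Tmr)))))))))))))))

/-- The environment after the first part of the setup. -/
def eA (m : ℕ) : FT → ℕ
  | .Rm => m
  | .Ra => a0 m
  | .Rap => ap m
  | .RAA => Aa m
  | .Rkk => cA m
  | .RA1 => 1
  | .Rrh => rh m
  | _ => 0

theorem stA_spec {m : ℕ} {τ σ : ℤ → Sym G} {c : TC X G} (hm : 1 ≤ m) (h : REnv (BB m) τ σ c (fun _ => 0)) (hS : Shp (m * m) τ) :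
    ∃ c', Run (stA : Prog (FT ⊕ X) (Sym G)) c c' (1000 * BB m + 1000) ∧ REnv (BB m) τ σ c' (eA m) := by
  have hB := BB_ge m
  have hm1 := m_le' m
  have hp1 := pow_ap_le m
  have hap := ap_le m
  have hmm : m * m ≤ BB m := by
    have : m * m ≤ 2 ^ ap m * 2 ^ ap m := Nat.mul_le_mul hm1 hm1
    omega
  obtain ⟨c1, r1, h1⟩ := rootE h hS rfl hmm (by omega)
  have hap4 : ap m = a0 m + 4 := rfl
  have hAa : Aa m = ap m + 1 := rfl
  have hAB : ap m + 1 ≤ BB m := by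
    have := ap_lt m
    omega
  have h4a : 4 ^ Nat.clog 2 m ≤ BB m := by
    have e : 4 ^ a0 m = 2 ^ a0 m * 2 ^ a0 m := by
      rw [← mul_pow]; norm_num
    have h2 : 2 ^ a0 m ≤ 2 ^ ap m := Nat.pow_le_pow_right (by norm_num) (by omega)
    have h3 : 2 ^ a0 m * 2 ^ a0 m ≤ 2 ^ ap m * 2 ^ ap m := Nat.mul_le_mul h2 h2
    show 4 ^ a0 m ≤ BB m
    omega
  have hcA : cA m ≤ ap m := by
    apply Nat.clog_le_of_le_pow
    exact ap_lt m
  have h4c : 4 ^ cA m ≤ BB m := by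
    have e : 4 ^ cA m = 2 ^ cA m * 2 ^ cA m := by
      rw [← mul_pow]; norm_num
    have h2 : 2 ^ cA m ≤ 2 ^ ap m := Nat.pow_le_pow_right (by norm_num) hcA
    have h3 : 2 ^ cA m * 2 ^ cA m ≤ 2 ^ ap m * 2 ^ ap m := Nat.mul_le_mul h2 h2
    omega
  have hc1 : cA m ≤ BB m := by omega
  obtain ⟨c2, r2, h2⟩ := clogE h1 (S := .Rm) (D := .Ra) (T := .Tmp) (Tq := .Tmq) (n := m) (by decide) rfl hm rfl rfl rfl h4a
  obtain ⟨c3, r3, h3⟩ := rcpyE h2 .Ra .Rap (by decide) (by decide) (by decide) rfl (n := a0 m) rfl (by omega)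
  obtain ⟨c4, r4, h4⟩ := rincE h3 .Rap (by decide) (n := a0 m + 1) rfl (by omega)
  obtain ⟨c5, r5, h5⟩ := rincE h4 .Rap (by decide) (n := a0 m + 2) rfl (by omega)
  obtain ⟨c6, r6, h6⟩ := rincE h5 .Rap (by decide) (n := a0 m + 3) rfl (by omega)
  obtain ⟨c7, r7, h7⟩ := rincE h6 .Rap (by decide) (n := ap m) rfl (by omega)
  obtain ⟨c8, r8, h8⟩ := rcpyE h7 .Rap .RAA (by decide) (by decide) (by decide) rfl (n := ap m) rfl (by omega)
  obtain ⟨c9, r9, h9⟩ := rincE h8 .RAA (by decide) (n := Aa m) rfl (by omega)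
  obtain ⟨c10, r10, h10⟩ := clogE h9 (S := .RAA) (D := .Rkk) (T := .Tmp) (Tq := .Tmq) (n := Aa m) (by decide) rfl (by omega) rfl rfl rfl h4c
  obtain ⟨c11, r11, h11⟩ := rincE h10 .RA1 (by decide) (n := 1) rfl (by omega)
  obtain ⟨c12, r12, h12⟩ := rcpyE h11 .Rkk .Tmr (by decide) (by decide) (by decide) rfl (n := cA m) rfl hc1
  have hc3 := cA_ge m
  obtain ⟨c13, r13, h13⟩ := rsubE h12 .RA1 .Tmr (by decide) (by decide) (by decide) (n := cA m - 1) rfl (by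
    show 1 ≤ cA m
    omega)
  obtain ⟨c14, r14, h14⟩ := hfE h13 (S := .Tmr) (Y := .Rrh) (x := cA m - 1) (by decide) rfl rfl
  obtain ⟨c15, r15, h15⟩ := rclrE h14 .Tmr (by decide)
  refine ⟨c15, (r1.seq (r2.seq (r3.seq (r4.seq (r5.seq (r6.seq (r7.seq (r8.seq (r9.seq (r10.seq (r11.seq (r12.seq (r13.seq (r14.seq r15)))))))))))))).mono (by clear hB hm1 hp1 hap hmm hap4 hAa hAB h4a hcA h4c hc1 hc3; omega), h15.conv ?_⟩
  intro a
  cases a <;> rfl

/-- The second part of the setup. -/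
def stB : Prog (FT ⊕ X) (Sym G) :=
  .seq (radd (o .RAA) (o .Rt)) (.seq (rsub (o .Rrh) (o .Rt)) (.seq (radd (o .Rt) (o .RKp)) (.seq (rsub (o .RA1) (o .RKp))
  (.seq (rpow (o .Rt) (o .Rsv) (o .Tmp)) (.seq (radd (o .Rsv) (o .RX)) (.seq (radd (o .Rsv) (o .RX))
  (.seq (rpow (o .RKp) (o .RP) (o .Tmp)) (.seq (radd (o .RP) (o .Rpt)) (.seq (rpow (o .Rrh) (o .Rs) (o .Tmp))
  (.seq (rpow (o .Rap) (o .Rmp) (o .Tmp)) (.seq (radd (o .Rmp) (o .Rdf)) (rsub (o .Rm) (o .Rdf)))))))))))))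

/-- The environment after the second part of the setup. -/
def eB (m : ℕ) : FT → ℕ
  | .Rm => m
  | .Ra => a0 m
  | .Rap => ap m
  | .RAA => Aa m
  | .Rkk => cA m
  | .RA1 => 1
  | .Rrh => rh m
  | .Rt => tt m
  | .RKp => kp m
  | .Rsv => 2 ^ tt m
  | .RX => 2 * 2 ^ tt m
  | .RP => PP m
  | .Rpt => PP m
  | .Rs => ss m
  | .Rmp => 2 ^ ap m
  | .Rdf => 2 ^ ap m - m
  | _ => 0

theorem tt_le_ap (m : ℕ) : tt m ≤ ap m := by
  have := tt_le m
  have e : Aa m = ap m + 1 := rfl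
  omega

theorem stB_spec {m : ℕ} {τ σ : ℤ → Sym G} {c : TC X G} (h : REnv (BB m) τ σ c (eA m)) :
    ∃ c', Run (stB : Prog (FT ⊕ X) (Sym G)) c c' (1000 * BB m + 1000) ∧ REnv (BB m) τ σ c' (eB m) := by
  have hm1 := m_le' m
  have hp1 := pow_ap_le m
  have hap := ap_le m
  have hAa : Aa m = ap m + 1 := rfl
  have hAB : ap m + 1 ≤ BB m := by
    have := ap_lt m
    omega
  have hrh := rh_lt m
  have htp := tt_le_ap m
  have hT1 : 2 * 2 ^ tt m ≤ BB m := by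
    have h1 : 2 * 2 ^ tt m = 2 ^ (tt m + 1) := by
      rw [pow_succ]
      ring
    have h2 : 2 ^ (tt m + 1) ≤ 2 ^ (ap m + 1) := Nat.pow_le_pow_right (by norm_num) (by omega)
    have h3 : 2 ^ (ap m + 1) = 2 * 2 ^ ap m := by
      rw [pow_succ]
      ring
    have h4 := BB_ge m
    have h5 : 2 ^ ap m * 1 ≤ 2 ^ ap m * 2 ^ ap m := Nat.mul_le_mul_left _ Nat.one_le_two_pow
    omega
  have hk1 := kp_add m
  have hP1 : PP m ≤ 2 ^ ap m := Nat.pow_le_pow_right (by norm_num) (by omega)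
  have hs1 : ss m ≤ 2 ^ ap m := Nat.pow_le_pow_right (by norm_num) (by omega)
  have ht4 := tt_ge m
  have hk2 : kp m = tt m - 1 := rfl
  have ht1 : tt m = Aa m - rh m := rfl
  obtain ⟨c1, r1, h1⟩ := rcpyE h .RAA .Rt (by decide) (by decide) (by decide) rfl (n := Aa m) rfl (by omega)
  obtain ⟨c2, r2, h2⟩ := rsubE h1 .Rrh .Rt (by decide) (by decide) (by decide) (n := tt m) rfl (by
    show rh m ≤ Aa m
    omega)
  obtain ⟨c3, r3, h3⟩ := rcpyE h2 .Rt .RKp (by decide) (by decide) (by decide) rfl (n := tt m) rfl (by omega)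
  obtain ⟨c4, r4, h4⟩ := rsubE h3 .RA1 .RKp (by decide) (by decide) (by decide) (n := kp m) rfl (by
    show 1 ≤ tt m
    omega)
  obtain ⟨c5, r5, h5⟩ := rpowE h4 .Rt .Rsv .Tmp (by decide) (by decide) (by decide) (by decide) (by decide) (by decide) rfl rfl (n := 2 ^ tt m) rfl (by omega)
  obtain ⟨c6, r6, h6⟩ := rcpyE h5 .Rsv .RX (by decide) (by decide) (by decide) rfl (n := 2 ^ tt m) rfl (by omega)
  obtain ⟨c7, r7, h7⟩ := raddE h6 .Rsv .RX (by decide) (by decide) (by decide) (n := 2 * 2 ^ tt m) (by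
    show 2 * 2 ^ tt m = 2 ^ tt m + 2 ^ tt m
    ring) hT1
  obtain ⟨c8, r8, h8⟩ := rpowE h7 .RKp .RP .Tmp (by decide) (by decide) (by decide) (by decide) (by decide) (by decide) rfl rfl (n := PP m) rfl (by omega)
  obtain ⟨c9, r9, h9⟩ := rcpyE h8 .RP .Rpt (by decide) (by decide) (by decide) rfl (n := PP m) rfl (by omega)
  obtain ⟨c10, r10, h10⟩ := rpowE h9 .Rrh .Rs .Tmp (by decide) (by decide) (by decide) (by decide) (by decide) (by decide) rfl rfl (n := ss m) rfl (by omega)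
  obtain ⟨c11, r11, h11⟩ := rpowE h10 .Rap .Rmp .Tmp (by decide) (by decide) (by decide) (by decide) (by decide) (by decide) rfl rfl (n := 2 ^ ap m) rfl (by omega)
  obtain ⟨c12, r12, h12⟩ := rcpyE h11 .Rmp .Rdf (by decide) (by decide) (by decide) rfl (n := 2 ^ ap m) rfl (by omega)
  obtain ⟨c13, r13, h13⟩ := rsubE h12 .Rm .Rdf (by decide) (by decide) (by decide) (n := 2 ^ ap m - m) rfl (by
    show m ≤ 2 ^ ap m
    omega)
  refine ⟨c13, (r1.seq (r2.seq (r3.seq (r4.seq (r5.seq (r6.seq (r7.seq (r8.seq (r9.seq (r10.seq (r11.seq (r12.seq r13)))))))))))).mono ?_, h13.conv ?_⟩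
  · clear hm1 hp1 hap hAa hAB hrh htp hT1 hk1 hP1 hs1 ht4 hk2 ht1
    omega
  · intro a
    cases a <;> rfl

/-- The third part of the setup. -/
def stC : Prog (FT ⊕ X) (Sym G) :=
  .seq sieve (.seq qScan (.seq (radd (o .Rq) (o .Rq2)) (.seq (radd (o .Rq) (o .RqM)) (.seq (rsub (o .RA1) (o .RqM))
  (.seq (radd (o .RqM) (o .RqMM)) (.seq (rsub (o .RA1) (o .RqMM)) (.seq (radd (o .Rq) (o .RqP)) (.seq (rinc (o .RqP))
  (.seq (hfP .RqM .Rp) (.seq (rmulP .RqP .Rp .RN) (.seq (radd (o .RN) (o .R2N)) (.seq (radd (o .RN) (o .R2N))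
  (.seq (radd (o .RN) (o .RNM)) (.seq (rsub (o .RA1) (o .RNM)) (.seq (radd (o .Rq) (o .RQd)) (rsub (o .RP) (o .RQd)))))))))))))))))

/-- The environment after the third part of the setup. -/
noncomputable def eC (m : ℕ) : FT → ℕ
  | .Rm => m
  | .Ra => a0 m
  | .Rap => ap m
  | .RAA => Aa m
  | .Rkk => cA m
  | .RA1 => 1
  | .Rrh => rh m
  | .Rt => tt m
  | .RKp => kp m
  | .Rsv => 2 ^ tt m
  | .RX => 2 * 2 ^ tt m
  | .RP => PP m
  | .Rpt => PP m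
  | .Rs => ss m
  | .Rmp => 2 ^ ap m
  | .Rdf => 2 ^ ap m - m
  | .Rq => qq m
  | .Rq2 => qq m
  | .RqM => qq m - 1
  | .RqMM => qq m - 2
  | .RqP => qq m + 1
  | .Rp => ww m
  | .RN => NN m
  | .R2N => 2 * NN m
  | .RNM => NN m - 1
  | .RQd => qq m - PP m
  | _ => 0

theorem T_sq (m : ℕ) : 4 * (2 ^ tt m * 2 ^ tt m) ≤ BB m := by
  have h1 : 2 ^ tt m ≤ 2 ^ ap m := Nat.pow_le_pow_right (by norm_num) (tt_le_ap m)
  have h2 : 2 ^ tt m * 2 ^ tt m ≤ 2 ^ ap m * 2 ^ ap m := Nat.mul_le_mul h1 h1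
  have h3 := BB_ge m
  omega

theorem q_sq_B (m : ℕ) : qq m * qq m ≤ BB m := by
  have h1 := q_sq_le' m
  have h2 := T_sq m
  have e : 4 ^ tt m = 2 ^ tt m * 2 ^ tt m := by
    rw [← mul_pow]
    norm_num
  omega

theorem q_B (m : ℕ) : qq m + 1 ≤ BB m := by
  have h1 := q_sq_B m
  have h2 : 0 < qq m := (qq_prime m).pos
  have h3 := qq_gt m
  have h4 := T_ge m
  have h5 : qq m * 2 ≤ qq m * qq m := Nat.mul_le_mul_left _ (by omega)
  omega

theorem stC_spec {m : ℕ} {τ σ : ℤ → Sym G} {c : TC X G} (h : REnv (BB m) τ σ c (eB m)) (hσ : ∀ x, σ x = .blank) :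
    ∃ c' σ', Run (stC : Prog (FT ⊕ X) (Sym G)) c c' (1000 * BB m + 1000) ∧ REnv (BB m) τ σ' c' (eC m) := by
  have hq1 := q_B m
  have hq2 := q_sq_B m
  have hN1 := NN_eq m
  have hqo := qq_odd m
  have hq3 := qq_gt m
  have hT2 := T_ge m
  have hP := PP_le_q m
  have hN2 : NN m ≤ BB m := by omega
  have h2N : 2 * NN m ≤ BB m := by omega
  have hNpos : 1 ≤ NN m := by
    have hq0 : 2 * 2 ≤ qq m * qq m := Nat.mul_le_mul (by omega) (by omega)
    omega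
  obtain ⟨c1, r1, e1, h1⟩ := sieve_spec (T := 2 ^ tt m) h hT2 rfl rfl rfl hσ (T_sq m)
  have h1' := h1
  rw [e1] at h1'
  obtain ⟨c2, r2, h2⟩ := qScan_spec (T := 2 ^ tt m) h1' hT2 rfl rfl (by
    have := qOf_lt hT2
    have := T_sq m
    have h9 : 2 ^ tt m * 1 ≤ 2 ^ tt m * 2 ^ tt m := Nat.mul_le_mul_left _ (by omega)
    omega)
  have hqdef : qOf (2 ^ tt m) = qq m := rfl
  rw [hqdef] at h2
  obtain ⟨c3, r3, h3⟩ := rcpyE h2 .Rq .Rq2 (by decide) (by decide) (by decide) rfl (n := qq m) rfl (by omega)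
  obtain ⟨c4, r4, h4⟩ := rcpyE h3 .Rq .RqM (by decide) (by decide) (by decide) rfl (n := qq m) rfl (by omega)
  obtain ⟨c5, r5, h5⟩ := rsubE h4 .RA1 .RqM (by decide) (by decide) (by decide) (n := qq m - 1) rfl (by
    show 1 ≤ qq m
    omega)
  obtain ⟨c6, r6, h6⟩ := rcpyE h5 .RqM .RqMM (by decide) (by decide) (by decide) rfl (n := qq m - 1) rfl (by omega)
  obtain ⟨c7, r7, h7⟩ := rsubE h6 .RA1 .RqMM (by decide) (by decide) (by decide) (n := qq m - 2) (by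
    show qq m - 2 = qq m - 1 - 1
    omega) (by
    show 1 ≤ qq m - 1
    omega)
  obtain ⟨c8, r8, h8⟩ := rcpyE h7 .Rq .RqP (by decide) (by decide) (by decide) rfl (n := qq m) rfl (by omega)
  obtain ⟨c9, r9, h9⟩ := rincE h8 .RqP (by decide) (n := qq m + 1) rfl (by omega)
  obtain ⟨c10, r10, h10⟩ := hfE h9 (S := .RqM) (Y := .Rp) (x := qq m - 1) (by decide) rfl rfl
  obtain ⟨c11, r11, h11⟩ := rmulE h10 (S := .RqP) (E := .Rp) (Y := .RN) (a := qq m + 1) (b := (qq m - 1) / 2) (by decide) rfl rfl rfl hN2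
  obtain ⟨c12, r12, h12⟩ := rcpyE h11 .RN .R2N (by decide) (by decide) (by decide) rfl (n := NN m) rfl (by omega)
  obtain ⟨c13, r13, h13⟩ := raddE h12 .RN .R2N (by decide) (by decide) (by decide) (n := 2 * NN m) (by
    show 2 * NN m = NN m + NN m
    ring) h2N
  obtain ⟨c14, r14, h14⟩ := rcpyE h13 .RN .RNM (by decide) (by decide) (by decide) rfl (n := NN m) rfl (by omega)
  obtain ⟨c15, r15, h15⟩ := rsubE h14 .RA1 .RNM (by decide) (by decide) (by decide) (n := NN m - 1) rfl (by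
    show 1 ≤ NN m
    omega)
  obtain ⟨c16, r16, h16⟩ := rcpyE h15 .Rq .RQd (by decide) (by decide) (by decide) rfl (n := qq m) rfl (by omega)
  obtain ⟨c17, r17, h17⟩ := rsubE h16 .RP .RQd (by decide) (by decide) (by decide) (n := qq m - PP m) rfl (by
    show PP m ≤ qq m
    omega)
  refine ⟨c17, _, (r1.seq (r2.seq (r3.seq (r4.seq (r5.seq (r6.seq (r7.seq (r8.seq (r9.seq (r10.seq (r11.seq (r12.seq (r13.seq (r14.seq (r15.seq (r16.seq (r17))))))))))))))))).mono ?_, h17.conv ?_⟩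
  · clear hq1 hq2 hN1 hqo hq3 hT2 hP hN2 h2N hNpos hqdef
    omega
  · intro a
    cases a <;> rfl

/-- The fourth part of the setup. -/
def stD : Prog (FT ⊕ X) (Sym G) :=
  .seq (radd (o .Rrh) (o .Tmr)) (.seq (radd (o .Rrh) (o .Tmr)) (.seq (rsub (o .RA1) (o .Tmr)) (.seq (rpow (o .Tmr) (o .RU) (o .Tmp)) (.seq (rclr (o .Tmr))
  (.seq (radd (o .Rt) (o .RW)) (.seq (radd (o .Rt) (o .RW)) (.seq (radd (o .Rt) (o .RW)) (.seq (radd (o .Rt) (o .RW))
  (.seq (rinc (o .RW)) (.seq (rinc (o .RW)) (.seq (rinc (o .RW)) (.seq (rinc (o .RW))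
  (.seq (radd (o .Rt) (o .RL)) (.seq (radd (o .Rt) (o .RL)) (.seq (rinc (o .RL)) (.seq (rinc (o .RL)) (.seq (rinc (o .RL))
  (.seq (radd (o .RW) (o .RUp)) (rsub (o .RU) (o .RUp))))))))))))))))))))

/-- The environment after the fourth part of the setup. -/
noncomputable def eD (m : ℕ) : FT → ℕ
  | .Rm => m
  | .Ra => a0 m
  | .Rap => ap m
  | .RAA => Aa m
  | .Rkk => cA m
  | .RA1 => 1
  | .Rrh => rh m
  | .Rt => tt m
  | .RKp => kp m
  | .Rsv => 2 ^ tt m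
  | .RX => 2 * 2 ^ tt m
  | .RP => PP m
  | .Rpt => PP m
  | .Rs => ss m
  | .Rmp => 2 ^ ap m
  | .Rdf => 2 ^ ap m - m
  | .Rq => qq m
  | .Rq2 => qq m
  | .RqM => qq m - 1
  | .RqMM => qq m - 2
  | .RqP => qq m + 1
  | .Rp => ww m
  | .RN => NN m
  | .R2N => 2 * NN m
  | .RNM => NN m - 1
  | .RQd => qq m - PP m
  | .RU => UU m
  | .RW => Wd m
  | .RL => Ld m
  | .RUp => Wd m - UU m
  | _ => 0

theorem stD_spec {m : ℕ} {τ σ : ℤ → Sym G} {c : TC X G} (h : REnv (BB m) τ σ c (eC m)) :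
    ∃ c', Run (stD : Prog (FT ⊕ X) (Sym G)) c c' (1000 * BB m + 1000) ∧ REnv (BB m) τ σ c' (eD m) := by
  have hap := ap_le m
  have hAB : ap m + 1 ≤ BB m := by
    have h0 := pow_ap_le m
    have := ap_lt m
    omega
  have hAa : Aa m = ap m + 1 := rfl
  have hrh := rh_lt m
  have hrg := rh_ge m
  have htp := tt_le_ap m
  have hUt := UU_le m
  have hW : Wd m = 4 * tt m + 4 := rfl
  have hL : Ld m = 2 * tt m + 3 := rfl
  have hUd : UU m = 2 ^ (2 * rh m - 1) := rfl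
  have hWB : Wd m ≤ BB m := by
    have h1 := ap_lt m
    have h2 := BB_ge m
    have h3 : 2 ^ ap m * 2 ≤ 2 ^ ap m * 2 ^ ap m := Nat.mul_le_mul_left _ (by
      have : ap m = a0 m + 4 := rfl
      calc 2 = 2 ^ 1 := by norm_num
        _ ≤ 2 ^ ap m := Nat.pow_le_pow_right (by norm_num) (by omega))
    omega
  have hLB : Ld m ≤ Wd m := by omega
  have hU1 : UU m ≤ BB m := by omega
  have h2r : 2 * rh m ≤ BB m := by omega
  have hT0 := T_sq m
  obtain ⟨c1, r1, h1⟩ := rcpyE h .Rrh .Tmr (by decide) (by decide) (by decide) rfl (n := rh m) rfl (by omega)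
  obtain ⟨c2, r2, h2⟩ := raddE h1 .Rrh .Tmr (by decide) (by decide) (by decide) (n := 2 * rh m) (by
    show 2 * rh m = rh m + rh m
    ring) h2r
  obtain ⟨c3, r3, h3⟩ := rsubE h2 .RA1 .Tmr (by decide) (by decide) (by decide) (n := 2 * rh m - 1) rfl (by
    show 1 ≤ 2 * rh m
    omega)
  obtain ⟨c4, r4, h4⟩ := rpowE h3 .Tmr .RU .Tmp (by decide) (by decide) (by decide) (by decide) (by decide) (by decide) rfl rfl (n := UU m) rfl hU1
  obtain ⟨c5, r5, h5⟩ := rclrE h4 .Tmr (by decide)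
  obtain ⟨c6, r6, h6⟩ := rcpyE h5 .Rt .RW (by decide) (by decide) (by decide) rfl (n := tt m) rfl (by omega)
  obtain ⟨c7, r7, h7⟩ := raddE h6 .Rt .RW (by decide) (by decide) (by decide) (n := 2 * tt m) (by
    show 2 * tt m = tt m + tt m
    ring) (by omega)
  obtain ⟨c8, r8, h8⟩ := raddE h7 .Rt .RW (by decide) (by decide) (by decide) (n := 3 * tt m) (by
    show 3 * tt m = 2 * tt m + tt m
    ring) (by omega)
  obtain ⟨c9, r9, h9⟩ := raddE h8 .Rt .RW (by decide) (by decide) (by decide) (n := 4 * tt m) (by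
    show 4 * tt m = 3 * tt m + tt m
    ring) (by omega)
  obtain ⟨c10, r10, h10⟩ := rincE h9 .RW (by decide) (n := 4 * tt m + 1) rfl (by omega)
  obtain ⟨c11, r11, h11⟩ := rincE h10 .RW (by decide) (n := 4 * tt m + 2) rfl (by omega)
  obtain ⟨c12, r12, h12⟩ := rincE h11 .RW (by decide) (n := 4 * tt m + 3) rfl (by omega)
  obtain ⟨c13, r13, h13⟩ := rincE h12 .RW (by decide) (n := Wd m) rfl (by omega)
  obtain ⟨c14, r14, h14⟩ := rcpyE h13 .Rt .RL (by decide) (by decide) (by decide) rfl (n := tt m) rfl (by omega)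
  obtain ⟨c15, r15, h15⟩ := raddE h14 .Rt .RL (by decide) (by decide) (by decide) (n := 2 * tt m) (by
    show 2 * tt m = tt m + tt m
    ring) (by omega)
  obtain ⟨c16, r16, h16⟩ := rincE h15 .RL (by decide) (n := 2 * tt m + 1) rfl (by omega)
  obtain ⟨c17, r17, h17⟩ := rincE h16 .RL (by decide) (n := 2 * tt m + 2) rfl (by omega)
  obtain ⟨c18, r18, h18⟩ := rincE h17 .RL (by decide) (n := Ld m) rfl (by omega)
  obtain ⟨c19, r19, h19⟩ := rcpyE h18 .RW .RUp (by decide) (by decide) (by decide) rfl (n := Wd m) rfl (by omega)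
  obtain ⟨c20, r20, h20⟩ := rsubE h19 .RU .RUp (by decide) (by decide) (by decide) (n := Wd m - UU m) rfl (by
    show UU m ≤ Wd m
    omega)
  refine ⟨c20, (r1.seq (r2.seq (r3.seq (r4.seq (r5.seq (r6.seq (r7.seq (r8.seq (r9.seq (r10.seq (r11.seq (r12.seq (r13.seq (r14.seq (r15.seq (r16.seq (r17.seq (r18.seq (r19.seq (r20)))))))))))))))))))).mono ?_, h20.conv ?_⟩
  · clear hap hAB hAa hrh hrg htp hUt hW hL hUd hWB hLB hU1 h2r hT0
    omega
  · intro a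
    cases a <;> rfl

/-- The fifth part of the setup. -/
def stE : Prog (FT ⊕ X) (Sym G) :=
  .seq (radd (o .RW) (o .Tmr)) (.seq (radd (o .RW) (o .Tmr)) (.seq (radd (o .RW) (o .Tmr)) (.seq (rmulP .Tmr .RN .R3N)
  (.seq (radd (o .R3N) (o .R6N)) (.seq (radd (o .R3N) (o .R6N)) (.seq (rclr (o .Tmr))
  (.seq (radd (o .Rap) (o .Tmr)) (.seq (radd (o .Rap) (o .Tmr)) (.seq (rpow (o .Tmr) (o .Rn) (o .Tmp))
  (.seq (rinc (o .Tmr)) (.seq (rinc (o .Tmr)) (.seq (rinc (o .Tmr)) (.seq (rinc (o .Tmr)) (.seq (rinc (o .Tmr)) (.seq (rinc (o .Tmr)) (.seq (rinc (o .Tmr)) (.seq (rinc (o .Tmr))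
  (.seq (rinc (o .Tmr)) (.seq (rinc (o .Tmr)) (.seq (rinc (o .Tmr)) (.seq (rpow (o .Tmr) (o .RB1) (o .Tmp))
  (.seq (radd (o .RB1) (o .RB2)) (.seq (radd (o .RB1) (o .RB2)) (rclr (o .Tmr)))))))))))))))))))))))))

/-- The environment after the fifth part of the setup. -/
noncomputable def eE (m : ℕ) : FT → ℕ
  | .Rm => m
  | .Ra => a0 m
  | .Rap => ap m
  | .RAA => Aa m
  | .Rkk => cA m
  | .RA1 => 1
  | .Rrh => rh m
  | .Rt => tt m
  | .RKp => kp m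
  | .Rsv => 2 ^ tt m
  | .RX => 2 * 2 ^ tt m
  | .RP => PP m
  | .Rpt => PP m
  | .Rs => ss m
  | .Rmp => 2 ^ ap m
  | .Rdf => 2 ^ ap m - m
  | .Rq => qq m
  | .Rq2 => qq m
  | .RqM => qq m - 1
  | .RqMM => qq m - 2
  | .RqP => qq m + 1
  | .Rp => ww m
  | .RN => NN m
  | .R2N => 2 * NN m
  | .RNM => NN m - 1
  | .RQd => qq m - PP m
  | .RU => UU m
  | .RW => Wd m
  | .RL => Ld m
  | .RUp => Wd m - UU m
  | .R3N => 3 * NN m * Wd m
  | .R6N => 6 * NN m * Wd m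
  | .Rn => dn m
  | .RB1 => nn m
  | .RB2 => 2 * nn m
  | _ => 0

theorem stE_spec {m : ℕ} {τ σ : ℤ → Sym G} {c : TC X G} (h : REnv (BB m) τ σ c (eD m)) :
    ∃ c', Run (stE : Prog (FT ⊕ X) (Sym G)) c c' (1000 * BB m + 1000) ∧ REnv (BB m) τ σ c' (eE m) := by
  have hap := ap_le m
  have hW : Wd m = 4 * tt m + 4 := rfl
  have h6 := six_N_W m
  have hn1 : nn m = 2048 * dn m := by
    simp only [nn, dn]
    rw [pow_add]
    norm_num
    ring
  have hB1 : BB m = 8192 * dn m := by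
    simp only [BB, dn]
    rw [pow_add]
    norm_num
    ring
  have hd1 : 2 * ap m < dn m := by
    have h1 : 2 * ap m < 2 ^ (2 * ap m) := Nat.lt_two_pow_self
    exact h1
  have htp := tt_le_ap m
  have hN0 : 1 ≤ NN m := by
    have := NN_eq m
    have h2 := (qq_prime m).two_le
    have h3 : 2 * 2 ≤ qq m * qq m := Nat.mul_le_mul h2 h2
    omega
  have hW3 : 3 * Wd m ≤ BB m := by
    have h1 : 3 * Wd m * 1 ≤ 3 * Wd m * NN m := Nat.mul_le_mul_left _ hN0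
    have e : 3 * Wd m * NN m * 2 = 6 * NN m * Wd m := by ring
    omega
  have e3 : NN m * (3 * Wd m) = 3 * NN m * Wd m := by ring
  have e3b : 3 * NN m * Wd m ≤ 6 * NN m * Wd m := by
    have : 6 * NN m * Wd m = 2 * (3 * NN m * Wd m) := by ring
    omega
  obtain ⟨c1, r1, h1⟩ := rcpyE h .RW .Tmr (by decide) (by decide) (by decide) rfl (n := Wd m) rfl (by omega)
  obtain ⟨c2, r2, h2⟩ := raddE h1 .RW .Tmr (by decide) (by decide) (by decide) (n := 2 * Wd m) (by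
    show 2 * Wd m = Wd m + Wd m
    ring) (by omega)
  obtain ⟨c3, r3, h3⟩ := raddE h2 .RW .Tmr (by decide) (by decide) (by decide) (n := 3 * Wd m) (by
    show 3 * Wd m = 2 * Wd m + Wd m
    ring) hW3
  obtain ⟨c4, r4, h4⟩ := rmulE h3 (S := .Tmr) (E := .RN) (Y := .R3N) (a := 3 * Wd m) (b := NN m) (by decide) rfl rfl rfl (by rw [e3]; omega)
  rw [e3] at h4
  obtain ⟨c5, r5, h5⟩ := rcpyE h4 .R3N .R6N (by decide) (by decide) (by decide) rfl (n := 3 * NN m * Wd m) rfl (by omega)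
  obtain ⟨c6, r6, h6'⟩ := raddE h5 .R3N .R6N (by decide) (by decide) (by decide) (n := 6 * NN m * Wd m) (by
    show 6 * NN m * Wd m = 3 * NN m * Wd m + 3 * NN m * Wd m
    ring) (by omega)
  obtain ⟨c7, r7, h7⟩ := rclrE h6' .Tmr (by decide)
  obtain ⟨c8, r8, h8⟩ := rcpyE h7 .Rap .Tmr (by decide) (by decide) (by decide) rfl (n := ap m) rfl (by omega)
  obtain ⟨c9, r9, h9⟩ := raddE h8 .Rap .Tmr (by decide) (by decide) (by decide) (n := 2 * ap m) (by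
    show 2 * ap m = ap m + ap m
    ring) (by omega)
  obtain ⟨c10, r10, h10⟩ := rpowE h9 .Tmr .Rn .Tmp (by decide) (by decide) (by decide) (by decide) (by decide) (by decide) rfl rfl (n := dn m) rfl (by omega)
  obtain ⟨c11, r11, h11⟩ := rincE h10 .Tmr (by decide) (n := 2 * ap m + 1) rfl (by omega)
  obtain ⟨c12, r12, h12⟩ := rincE h11 .Tmr (by decide) (n := 2 * ap m + 2) rfl (by omega)
  obtain ⟨c13, r13, h13⟩ := rincE h12 .Tmr (by decide) (n := 2 * ap m + 3) rfl (by omega)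
  obtain ⟨c14, r14, h14⟩ := rincE h13 .Tmr (by decide) (n := 2 * ap m + 4) rfl (by omega)
  obtain ⟨c15, r15, h15⟩ := rincE h14 .Tmr (by decide) (n := 2 * ap m + 5) rfl (by omega)
  obtain ⟨c16, r16, h16⟩ := rincE h15 .Tmr (by decide) (n := 2 * ap m + 6) rfl (by omega)
  obtain ⟨c17, r17, h17⟩ := rincE h16 .Tmr (by decide) (n := 2 * ap m + 7) rfl (by omega)
  obtain ⟨c18, r18, h18⟩ := rincE h17 .Tmr (by decide) (n := 2 * ap m + 8) rfl (by omega)
  obtain ⟨c19, r19, h19⟩ := rincE h18 .Tmr (by decide) (n := 2 * ap m + 9) rfl (by omega)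
  obtain ⟨c20, r20, h20⟩ := rincE h19 .Tmr (by decide) (n := 2 * ap m + 10) rfl (by omega)
  obtain ⟨c21, r21, h21⟩ := rincE h20 .Tmr (by decide) (n := 2 * ap m + 11) rfl (by omega)
  obtain ⟨c22, r22, h22⟩ := rpowE h21 .Tmr .RB1 .Tmp (by decide) (by decide) (by decide) (by decide) (by decide) (by decide) rfl rfl (n := nn m) rfl (by omega)
  obtain ⟨c23, r23, h23⟩ := rcpyE h22 .RB1 .RB2 (by decide) (by decide) (by decide) rfl (n := nn m) rfl (by omega)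
  obtain ⟨c24, r24, h24⟩ := raddE h23 .RB1 .RB2 (by decide) (by decide) (by decide) (n := 2 * nn m) (by
    show 2 * nn m = nn m + nn m
    ring) (by omega)
  obtain ⟨c25, r25, h25⟩ := rclrE h24 .Tmr (by decide)
  refine ⟨c25, (r1.seq (r2.seq (r3.seq (r4.seq (r5.seq (r6.seq (r7.seq (r8.seq (r9.seq (r10.seq (r11.seq (r12.seq (r13.seq (r14.seq (r15.seq (r16.seq (r17.seq (r18.seq (r19.seq (r20.seq (r21.seq (r22.seq (r23.seq (r24.seq (r25))))))))))))))))))))))))).mono ?_, h25.conv ?_⟩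
  · clear hap hW h6 hn1 hB1 hd1 htp hN0 hW3 e3 e3b
    omega
  · intro a
    cases a <;> rfl

/-- The last part of the setup. -/
def stF : Prog (FT ⊕ X) (Sym G) :=
  .seq (radd (o .Rkk) (o .Tmr)) (.seq (rinc (o .Tmr)) (.seq (rinc (o .Tmr)) (.seq (rinc (o .Tmr)) (.seq (rpow (o .Tmr) (o .RS) (o .Tmp))
  (.seq (radd (o .RS) (o .R2S)) (.seq (radd (o .RS) (o .R2S)) (.seq (rclr (o .Tmr))
  (.seq (radd (o .Rrh) (o .Ea1)) (.seq (radd (o .Rrh) (o .Eb1)) (.seq (radd (o .RKp) (o .Eb1)) (radd (o .Rrh) (o .Eb2))))))))))))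

/-- The environment after the setup. -/
noncomputable def eF (m : ℕ) : FT → ℕ
  | .Rm => m
  | .Ra => a0 m
  | .Rap => ap m
  | .RAA => Aa m
  | .Rkk => cA m
  | .RA1 => 1
  | .Rrh => rh m
  | .Rt => tt m
  | .RKp => kp m
  | .Rsv => 2 ^ tt m
  | .RX => 2 * 2 ^ tt m
  | .RP => PP m
  | .Rpt => PP m
  | .Rs => ss m
  | .Rmp => 2 ^ ap m
  | .Rdf => 2 ^ ap m - m
  | .Rq => qq m
  | .Rq2 => qq m
  | .RqM => qq m - 1
  | .RqMM => qq m - 2
  | .RqP => qq m + 1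
  | .Rp => ww m
  | .RN => NN m
  | .R2N => 2 * NN m
  | .RNM => NN m - 1
  | .RQd => qq m - PP m
  | .RU => UU m
  | .RW => Wd m
  | .RL => Ld m
  | .RUp => Wd m - UU m
  | .R3N => 3 * NN m * Wd m
  | .R6N => 6 * NN m * Wd m
  | .Rn => dn m
  | .RB1 => nn m
  | .RB2 => 2 * nn m
  | .RS => Kd m
  | .R2S => 2 * Kd m
  | .Ea1 => rh m
  | .Eb1 => rh m + kp m
  | .Eb2 => rh m
  | _ => 0

theorem stF_spec {m : ℕ} {τ σ : ℤ → Sym G} {c : TC X G} (h : REnv (BB m) τ σ c (eE m)) :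
    ∃ c', Run (stF : Prog (FT ⊕ X) (Sym G)) c c' (1000 * BB m + 1000) ∧ REnv (BB m) τ σ c' (eF m) := by
  have hap := ap_le m
  have hAa : Aa m = ap m + 1 := rfl
  have hcA : cA m ≤ ap m := by
    apply Nat.clog_le_of_le_pow
    exact ap_lt m
  have hB := BB_ge m
  have hK : Kd m * 2 ≤ BB m := by
    have h1 : Kd m = 2 ^ (cA m + 3) := rfl
    have h2 : 2 ^ (cA m + 3) ≤ 2 ^ (ap m + 3) := Nat.pow_le_pow_right (by norm_num) (by omega)
    have h3 : BB m = 2 ^ (2 * ap m + 13) := rfl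
    have h4 : 2 ^ (ap m + 3) * 2 = 2 ^ (ap m + 4) := by
      rw [← pow_succ]
    have h5 : 2 ^ (ap m + 4) ≤ 2 ^ (2 * ap m + 13) := Nat.pow_le_pow_right (by norm_num) (by omega)
    omega
  have hK3 : cA m + 3 ≤ Kd m := by
    have h1 : cA m + 3 < 2 ^ (cA m + 3) := Nat.lt_two_pow_self
    exact h1.le
  have hk1 := kp_add m
  obtain ⟨c1, r1, h1⟩ := rcpyE h .Rkk .Tmr (by decide) (by decide) (by decide) rfl (n := cA m) rfl (by omega)
  obtain ⟨c2, r2, h2⟩ := rincE h1 .Tmr (by decide) (n := cA m + 1) rfl (by omega)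
  obtain ⟨c3, r3, h3⟩ := rincE h2 .Tmr (by decide) (n := cA m + 2) rfl (by omega)
  obtain ⟨c4, r4, h4⟩ := rincE h3 .Tmr (by decide) (n := cA m + 3) rfl (by omega)
  obtain ⟨c5, r5, h5⟩ := rpowE h4 .Tmr .RS .Tmp (by decide) (by decide) (by decide) (by decide) (by decide) (by decide) rfl rfl (n := Kd m) rfl (by omega)
  obtain ⟨c6, r6, h6⟩ := rcpyE h5 .RS .R2S (by decide) (by decide) (by decide) rfl (n := Kd m) rfl (by omega)
  obtain ⟨c7, r7, h7⟩ := raddE h6 .RS .R2S (by decide) (by decide) (by decide) (n := 2 * Kd m) (by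
    show 2 * Kd m = Kd m + Kd m
    ring) (by omega)
  obtain ⟨c8, r8, h8⟩ := rclrE h7 .Tmr (by decide)
  obtain ⟨c9, r9, h9⟩ := rcpyE h8 .Rrh .Ea1 (by decide) (by decide) (by decide) rfl (n := rh m) rfl (by omega)
  obtain ⟨c10, r10, h10⟩ := rcpyE h9 .Rrh .Eb1 (by decide) (by decide) (by decide) rfl (n := rh m) rfl (by omega)
  obtain ⟨c11, r11, h11⟩ := raddE h10 .RKp .Eb1 (by decide) (by decide) (by decide) (n := rh m + kp m) rfl (by omega)
  obtain ⟨c12, r12, h12⟩ := rcpyE h11 .Rrh .Eb2 (by decide) (by decide) (by decide) rfl (n := rh m) rfl (by omega)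
  refine ⟨c12, (r1.seq (r2.seq (r3.seq (r4.seq (r5.seq (r6.seq (r7.seq (r8.seq (r9.seq (r10.seq (r11.seq (r12)))))))))))).mono ?_, h12.conv ?_⟩
  · clear hap hAa hcA hB hK hK3 hk1
    omega
  · intro a
    cases a <;> rfl

/-- The setup. -/
def setup : Prog (FT ⊕ X) (Sym G) := .seq stA (.seq stB (.seq stC (.seq stD (.seq stE stF))))

/-- The cost of the setup. -/
def STC' (m : ℕ) : ℕ := 6 * (1000 * BB m + 1000)

theorem setup_spec {m : ℕ} {τ σ : ℤ → Sym G} {c : TC X G} (hm : 1 ≤ m) (h : REnv (BB m) τ σ c (fun _ => 0)) (hS : Shp (m * m) τ)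
    (hσ : ∀ x, σ x = .blank) :
    ∃ c' σ', Run (setup : Prog (FT ⊕ X) (Sym G)) c c' (STC' m) ∧ REnv (BB m) τ σ' c' (eF m) := by
  obtain ⟨c1, r1, h1⟩ := stA_spec hm h hS
  obtain ⟨c2, r2, h2⟩ := stB_spec h1
  obtain ⟨c3, σ3, r3, h3⟩ := stC_spec h2 hσ
  obtain ⟨c4, r4, h4⟩ := stD_spec h3
  obtain ⟨c5, r5, h5⟩ := stE_spec h4
  obtain ⟨c6, r6, h6⟩ := stF_spec h5
  refine ⟨c6, σ3, (r1.seq (r2.seq (r3.seq (r4.seq (r5.seq r6))))).mono (le_of_eq ?_), h6⟩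
  unfold STC'
  ring

end

end Vale.Agent.Lib.P338.F
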