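import Vale.Agent.Lib.P338.F.Setup1

/-!
The sieve: finding the least prime above a power of two.
-/

namespace Vale.Agent.Lib.P338.F

open Vale.Agent.Lib.P338 Prog

/-- A marked cell: a proper multiple of a `d` with `2 ≤ d < D`. -/
def Mk (D : ℕ) (x : ℤ) : Prop := ∃ d k : ℕ, 2 ≤ d ∧ d < D ∧ 2 ≤ k ∧ x = ((k * d : ℕ) : ℤ)

theorem prime_of_not_Mk {T x : ℕ} (h1 : T < x) (h2 : x < 2 * T) (hT : 2 ≤ T) : ¬ Mk (T + 2) (x : ℤ) ↔ x.Prime := by
  constructor
  · intro hM
    by_contra hp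
    apply hM
    have hx : 2 ≤ x := by omega
    have hd := Nat.minFac_prime (n := x) (by omega)
    obtain ⟨k, hk⟩ := Nat.minFac_dvd x
    have hk2 : 2 ≤ k := by
      by_contra hc
      have : k = 0 ∨ k = 1 := by omega
      rcases this with rfl | rfl
      · simp at hk
        omega
      · rw [mul_one] at hk
        apply hp
        rw [hk]
        exact hd
    refine ⟨x.minFac, k, hd.two_le, ?_, hk2, ?_⟩
    · have : x.minFac * 2 ≤ x.minFac * k := Nat.mul_le_mul_left _ hk2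
      rw [← hk] at this
      omega
    · rw [mul_comm k, ← hk]
  · rintro hp ⟨d, k, h3, _, h5, h6⟩
    have e : x = k * d := by exact_mod_cast h6
    rw [e] at hp
    exact Nat.not_prime_mul (by omega) (by omega) hp

/-- The least prime above `T`. -/
noncomputable def qOf (T : ℕ) : ℕ := Nat.find (Nat.exists_infinite_primes (T + 1))

theorem qOf_prime (T : ℕ) : (qOf T).Prime := (Nat.find_spec (Nat.exists_infinite_primes (T + 1))).2

theorem qOf_gt (T : ℕ) : T < qOf T := by
  have := (Nat.find_spec (Nat.exists_infinite_primes (T + 1))).1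
  exact this

theorem qOf_min {T x : ℕ} (h1 : T < x) (h2 : x < qOf T) : ¬ x.Prime := by
  intro hp
  exact Nat.find_min (Nat.exists_infinite_primes (T + 1)) h2 ⟨h1, hp⟩

theorem qOf_lt {T : ℕ} (hT : 2 ≤ T) : qOf T < 2 * T := by
  obtain ⟨p, hp, h1, h2⟩ := Nat.exists_prime_lt_and_le_two_mul T (by omega)
  have h3 : qOf T ≤ p := Nat.find_min' _ ⟨h1, hp⟩
  have h4 : p ≠ 2 * T := by
    rintro rfl
    exact Nat.not_prime_mul (by omega) (by omega) hp
  omega

section
variable {X G : Type}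

open Classical in
/-- The sieve tape. -/
noncomputable def svT (Y D : ℕ) (x : ℤ) : Sym G :=
  if 0 ≤ x ∧ x < (Y : ℤ) then (if Mk D x then .zero else .one) else .blank

open Classical in
/-- The sieve tape during the marking of the multiples of `d`. -/
noncomputable def svP (Y d j : ℕ) (x : ℤ) : Sym G :=
  if ∃ j' : ℕ, j' < j ∧ x = (((j' + 2) * d : ℕ) : ℤ) then .zero else svT Y d x

theorem svP_end {Y d : ℕ} (hd : 2 ≤ d) (hdY : d < Y) :
    (svP Y d ((Y - 1) / d - 1) : ℤ → Sym G) = svT Y (d + 1) := by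
  funext x
  set J := (Y - 1) / d - 1 with hJ
  have hd0 : 0 < d := by omega
  have key : ∀ j', j' < J ↔ (j' + 2) * d < Y := by
    intro j'
    have e : j' + 2 ≤ (Y - 1) / d ↔ (j' + 2) * d ≤ Y - 1 := Nat.le_div_iff_mul_le hd0
    have h1 : 1 ≤ (Y - 1) / d := by
      rw [Nat.le_div_iff_mul_le hd0]
      omega
    constructor
    · intro h
      have := e.1 (by omega)
      omega
    · intro h
      have := e.2 (by omega)
      omega
  unfold svP svT
  by_cases hx : ∃ j' : ℕ, j' < J ∧ x = (((j' + 2) * d : ℕ) : ℤ)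
  · rw [if_pos hx]
    obtain ⟨j', h1, h2⟩ := hx
    have h3 := (key j').1 h1
    have h4 : 0 ≤ x ∧ x < (Y : ℤ) := by
      rw [h2]
      constructor
      · positivity
      · exact_mod_cast h3
    rw [if_pos h4, if_pos]
    exact ⟨d, j' + 2, hd, by omega, by omega, h2⟩
  · rw [if_neg hx]
    by_cases h4 : 0 ≤ x ∧ x < (Y : ℤ)
    · rw [if_pos h4, if_pos h4]
      by_cases hm : Mk d x
      · rw [if_pos hm, if_pos]
        obtain ⟨d', k, h1, h2, h3, h5⟩ := hm
        exact ⟨d', k, h1, by omega, h3, h5⟩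
      · rw [if_neg hm, if_neg]
        rintro ⟨d', k, h1, h2, h3, h5⟩
        by_cases hd' : d' = d
        · subst hd'
          apply hx
          refine ⟨k - 2, ?_, ?_⟩
          · rw [key]
            have e : k - 2 + 2 = k := by omega
            rw [e]
            have : ((k * d' : ℕ) : ℤ) < (Y : ℤ) := by rw [← h5]; exact h4.2
            exact_mod_cast this
          · have e : k - 2 + 2 = k := by omega
            rw [e]
            exact h5
        · exact hm ⟨d', k, h1, by omega, h3, h5⟩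
    · rw [if_neg h4, if_neg h4]

theorem svT_two {Y : ℕ} : (svT Y 2 : ℤ → Sym G) = fun x => if 0 ≤ x ∧ x < (Y : ℤ) then .one else .blank := by
  funext x
  unfold svT
  by_cases h : 0 ≤ x ∧ x < (Y : ℤ)
  · rw [if_pos h, if_pos h, if_neg]
    rintro ⟨d, k, h1, h2, _⟩
    omega
  · rw [if_neg h, if_neg h]

variable [DecidableEq X]

/-- One step of the marking. -/
def mkB : Prog (FT ⊕ X) (Sym G) := .seq (act1 (o .Sv) (fun _ => .zero) .S) (adv .Tmq .Sv .R)

/-- Mark the proper multiples of the length of `Tmq`. -/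
def mark : Prog (FT ⊕ X) (Sym G) :=
  .seq (adv .Tmq .Sv .R) (.seq (adv .Tmq .Sv .R) (.seq (.loop (fun s => (s (o .Sv)).nonBlank) mkB) (.seq (adv .Tmq .Sv .L) (rew (o .Sv)))))

theorem mark_spec {Y d : ℕ} {c : TC X G} (hd : 2 ≤ d) (hdY : d < Y) (rd : Ruler c (o .Tmq) d) (hS : c.head (o .Sv) = 0)
    (tS : c.tape (o .Sv) = svT Y d) :
    ∃ c', Run (mark : Prog (FT ⊕ X) (Sym G)) c c' (24 * Y + 16) ∧ c'.head (o .Sv) = 0 ∧ c'.tape (o .Sv) = svT Y (d + 1) ∧ Fr [.Sv] [] c c' := by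
  have hd0 : 0 < d := by omega
  obtain ⟨c1, r1, a1, f1⟩ := adv_spec (X := X) (G := G) .Tmq .Sv .R (by decide) (by simp) c rd
  have rd1 := rd.of_fr f1 (by simp) (by decide)
  obtain ⟨c2, r2, a2, f2⟩ := adv_spec (X := X) (G := G) .Tmq .Sv .R (by decide) (by simp) c1 rd1
  have rd2 := rd1.of_fr f2 (by simp) (by decide)
  set J := (Y - 1) / d - 1 with hJ
  have hJd : J * d ≤ Y := by
    have h1 : (Y - 1) / d * d ≤ Y - 1 := Nat.div_mul_le_self _ _
    have h2 : J * d ≤ (Y - 1) / d * d := Nat.mul_le_mul_right _ (Nat.sub_le _ _)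
    omega
  have hJY : J ≤ Y := by
    have : J * 1 ≤ J * d := Nat.mul_le_mul_left _ (by omega)
    omega
  have key : ∀ j', j' < J ↔ (j' + 2) * d < Y := by
    intro j'
    have e : j' + 2 ≤ (Y - 1) / d ↔ (j' + 2) * d ≤ Y - 1 := Nat.le_div_iff_mul_le hd0
    have h1 : 1 ≤ (Y - 1) / d := by
      rw [Nat.le_div_iff_mul_le hd0]
      omega
    constructor
    · intro h
      have := e.1 (by omega)
      omega
    · intro h
      have := e.2 (by omega)
      omega
  have hnb : ∀ j x, (0 ≤ x ∧ x < (Y : ℤ)) → j ≤ J → ((svP Y d j x : Sym G)).nonBlank = true := by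
    intro j x hx _
    unfold svP svT
    by_cases h1 : ∃ j' : ℕ, j' < j ∧ x = (((j' + 2) * d : ℕ) : ℤ)
    · rw [if_pos h1]; rfl
    · rw [if_neg h1, if_pos hx]
      split_ifs <;> rfl
  obtain ⟨c3, ⟨i1, i2, i3⟩, r3⟩ := Run.loop (g := fun s => (s (o .Sv)).nonBlank) (b := mkB)
    (fun j c' => c'.head (o .Sv) = (((j + 2) * d : ℕ) : ℤ) ∧ c'.tape (o .Sv) = svP Y d j ∧ Fr [.Sv] [.Sv] c2 c') J (fun _ => 4 * d + 5) (c := c2)
    ⟨by
      rw [a2, a1, hS]
      simp only [Dir.toInt]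
      push_cast
      ring, by
      rw [f2.tape (by simp), f1.tape (by simp), tS]
      funext x
      simp [svP], Fr.refl _ _ _⟩
    (by
      rintro j hj c4 ⟨b1, b2, b3⟩
      constructor
      · simp only [TS.read]
        rw [b2, b1]
        apply hnb j _ _ hj.le
        constructor
        · positivity
        · exact_mod_cast (key j).1 hj
      · obtain ⟨c5, r5, d1, d2, f5⟩ := act1F .Sv (fun _ => .zero) .S c4 (fun _ => Or.inr trivial)
        have rd5 : Ruler c5 (o .Tmq) d := (rd2.of_fr b3 (by simp) (by simp)).of_fr f5 (by simp) (by simp)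
        obtain ⟨c6, r6, d3, f6⟩ := adv_spec (X := X) (G := G) .Tmq .Sv .R (by decide) (by simp) c5 rd5
        refine ⟨c6, (r5.seq r6).mono (by omega), ?_, ?_, b3.tr (f5.tr f6 (l2 := [.Sv]) (m2 := [.Sv]) (by simp) (by simp)) (by simp) (by simp)⟩
        · rw [d3, d1, b1]
          simp only [Dir.toInt]
          push_cast
          ring
        · rw [f6.tape (by simp)]
          funext x
          rw [d2 x, b1, b2]
          unfold svP
          by_cases hx : x = (((j + 2) * d : ℕ) : ℤ)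
          · rw [if_pos hx, if_pos ⟨j, by omega, hx⟩]
          · rw [if_neg hx]
            by_cases h1 : ∃ j' : ℕ, j' < j ∧ x = (((j' + 2) * d : ℕ) : ℤ)
            · rw [if_pos h1, if_pos]
              obtain ⟨j', h2, h3⟩ := h1
              exact ⟨j', by omega, h3⟩
            · rw [if_neg h1, if_neg]
              rintro ⟨j', h2, h3⟩
              have : j' = j ∨ j' < j := by omega
              rcases this with rfl | h4
              · exact hx h3
              · exact h1 ⟨j', h4, h3⟩)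
    (by
      rintro c4 ⟨b1, b2, _⟩
      simp only [TS.read]
      rw [b2, b1, svP_end hd hdY]
      unfold svT
      rw [if_neg]
      · rfl
      · intro h
        have hlt : (J + 2) * d < Y := by exact_mod_cast h.2
        have := (key J).2 hlt
        omega)
  rw [svP_end hd hdY] at i2
  have rd3 := rd2.of_fr i3 (by simp) (by simp)
  obtain ⟨c4, r4, b1, f4⟩ := adv_spec (X := X) (G := G) .Tmq .Sv .L (by decide) (by simp) c3 rd3
  have hh : (J + 1) * d < Y := by
    by_cases h0 : J = 0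
    · rw [h0]
      omega
    · have := (key (J - 1)).1 (by omega)
      have e : J - 1 + 2 = J + 1 := by omega
      rwa [e] at this
  have hH4 : c4.head (o .Sv) = (((J + 1) * d : ℕ) : ℤ) := by
    rw [b1, i1]
    simp only [Dir.toInt]
    push_cast
    ring
  have tS4 : c4.tape (o .Sv) = svT Y (d + 1) := by rw [f4.tape (by simp), i2]
  obtain ⟨c5, r5, d1, d2, s5⟩ := rew_spec (o .Sv) c4 ((J + 1) * d) hH4
    (by
      intro i hi
      rw [tS4]
      unfold svT
      rw [if_pos]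
      · split_ifs <;> rfl
      · constructor
        · positivity
        · have : i < Y := by omega
          exact_mod_cast this)
    (by
      rw [tS4]
      unfold svT
      rw [if_neg (by simp)])
  have f5 : Fr [] [.Sv] c4 c5 := fr_of_ruler_same s5 d2
  have f6 : Fr [.Sv] [.Sv] c c5 :=
    f1.tr (f2.tr (i3.tr (f4.tr f5 (l2 := [.Sv]) (m2 := [.Sv]) (by simp) (by simp)) (l2 := [.Sv]) (m2 := [.Sv]) (by simp) (by simp)) (l2 := [.Sv]) (m2 := [.Sv]) (by simp) (by simp)) (by simp) (by simp)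
  refine ⟨c5, (r1.seq (r2.seq (r3.seq (r4.seq r5)))).mono ?_, by rw [d1], ?_, Fr.fixA f6 (by rw [d1, hS])⟩
  · rw [Finset.sum_const, Finset.card_range, smul_eq_mul]
    have e1 : J * (4 * d + 5 + 1) = 4 * (J * d) + 6 * J := by ring
    have e2 : (J + 1) * d = J * d + d := by ring
    rw [e1, e2]
    rw [e2] at hh
    omega
  · rw [d2, tS4]

omit [DecidableEq X] in
theorem REnv.updS {B : ℕ} {τ σ : ℤ → Sym G} {c c' : TC X G} {e : FT → ℕ} {R : FT} {n : ℕ} (h : REnv B τ σ c e) (f : Fr [.Sv, R] [] c c') (hR : R ∉ nR)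
    (hr : Ruler c' (o R) n) (hn : n ≤ B) : REnv B τ (c'.tape (o .Sv)) c' (Function.update e R n) := by
  have hR1 : R ≠ .In := fun h2 => hR (by simp [h2])
  have hR2 : R ≠ .Sv := fun h2 => hR (by simp [h2])
  refine ⟨?_, ?_, ?_, ?_, rfl, ?_, f.cl h.cl⟩
  · intro a ha
    by_cases hb : a = R
    · subst hb
      rw [Function.update_self]
      exact hr
    · rw [Function.update_of_ne hb]
      have ha2 : a ≠ .Sv := fun h2 => ha (by simp [h2])
      exact (h.ru a ha).of_fr f (by simpa using ⟨ha2, hb⟩) (by simp)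
  · intro a
    by_cases hb : a = R
    · subst hb
      rw [Function.update_self]
      exact hn
    · rw [Function.update_of_ne hb]
      exact h.le a
  · rw [f.tape (by simpa using Ne.symm hR1)]; exact h.tI
  · rw [f.head (by simp)]; exact h.hI
  · rw [f.head (by simp)]; exact h.hS

/-- One step of the sieve. -/
def svB : Prog (FT ⊕ X) (Sym G) := .seq mark (rinc (o .Tmq))

/-- The sieve. -/
def sieve : Prog (FT ⊕ X) (Sym G) :=
  .seq (fillBy (o .RX) (o .Sv) .one) (.seq (adv .RX .Sv .L) (.seq (rinc (o .Tmq)) (.seq (rinc (o .Tmq)) (.seq (forR (o .Rsv) svB) (rclr (o .Tmq))))))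

/-- Reading the prime from the sieve. -/
def qScan : Prog (FT ⊕ X) (Sym G) :=
  .seq (radd (o .Rsv) (o .Rq)) (.seq (rinc (o .Rq)) (.seq (adv .Rq .Sv .R) (.seq (sc0 Sym.isOne (o .Rq) .R (fun x => x))
    (.seq (sc1 Sym.isZero (o .Sv) .R (o .Rq) .R (fun _ _ => .one)) (.seq (rew (o .Rq)) (rew (o .Sv)))))))

theorem sieve_spec {B T : ℕ} {τ σ : ℤ → Sym G} {c : TC X G} {e : FT → ℕ} (h : REnv B τ σ c e) (hT : 2 ≤ T) (eY : e .RX = 2 * T)
    (eT : e .Rsv = T) (e0 : e .Tmq = 0) (hσ : ∀ x, σ x = .blank) (hB : 4 * (T * T) ≤ B) :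
    ∃ c', Run (sieve : Prog (FT ⊕ X) (Sym G)) c c' (27 * B + 60) ∧ c'.tape (o .Sv) = svT (2 * T) (T + 2) ∧ REnv B τ (c'.tape (o .Sv)) c' e := by
  have hTT : T * 1 ≤ T * T := Nat.mul_le_mul_left _ (by omega)
  have rY : Ruler c (o .RX) (2 * T) := by
    have := h.ru .RX (by decide)
    rwa [eY] at this
  have rT : Ruler c (o .Rsv) T := by
    have := h.ru .Rsv (by decide)
    rwa [eT] at this
  have r0 : Ruler c (o .Tmq) 0 := by
    have := h.ru .Tmq (by decide)
    rwa [e0] at this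
  obtain ⟨c1, r1, a1, a2, s1⟩ := fillBy_spec (o .RX) (o .Sv) (.one : Sym G) (by simp) c rY
  have f1 : Fr [.Sv] [.Sv] c c1 := by
    refine Fr.of_same s1 (by simp) ?_ ?_
    · intro b h1 h2
      simp only [List.mem_singleton, Sum.inl.injEq] at h1 h2
      exact absurd h2 h1
    · intro b h1 h2
      simp only [List.mem_singleton, Sum.inl.injEq] at h1 h2
      exact absurd h2 h1
  obtain ⟨c2, r2, a3, f2⟩ := adv_spec (X := X) (G := G) .RX .Sv .L (by decide) (by simp) c1 (rY.of_fr f1 (by decide) (by decide))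
  have f12 : Fr [.Sv] [.Sv] c c2 := f1.tr f2 (by simp) (by simp)
  obtain ⟨c3, r3, a4, f3⟩ := rincF .Tmq c2 (r0.of_fr f12 (by decide) (by decide))
  obtain ⟨c4, r4, a5, f4⟩ := rincF .Tmq c3 a4
  have f34 : Fr [.Tmq] [] c2 c4 := f3.tr f4 (by simp) (by simp)
  have f14 : Fr [.Sv, .Tmq] [.Sv] c c4 := f12.tr f34 (by simp) (by simp)
  have hS4 : c4.head (o .Sv) = 0 := by
    rw [f34.head (by simp), a3, a1, h.hS]
    simp [Dir.toInt]
  have tS4 : c4.tape (o .Sv) = svT (2 * T) 2 := by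
    rw [f34.tape (by simp), f2.tape (by simp), svT_two]
    funext x
    rw [a2, h.hS, h.tS, hσ]
    simp only [zero_add]
  obtain ⟨c5, ⟨i1, i2, i3, i4⟩, hR5, r5⟩ := forU (R := .Rsv) (body := svB) (n := T)
    (fun i c' => c'.head (o .Sv) = 0 ∧ c'.tape (o .Sv) = svT (2 * T) (i + 2) ∧ Ruler c' (o .Tmq) (i + 2) ∧ Fr [.Sv, .Tmq] [.Rsv] c4 c') (28 * (2 * T) + 25) (c := c4)
    (rT.of_fr f14 (by decide) (by decide)) ⟨hS4, by simpa using tS4, by simpa using a5, Fr.refl _ _ _⟩
    (by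
      rintro i c6 c7 ⟨b1, b2, b3, b4⟩ hf
      refine ⟨?_, ?_, b3.of_fr hf (by simp) (by decide), b4.tr hf (by simp) (by simp)⟩
      · rw [hf.head (by decide)]; exact b1
      · rw [hf.tape (by simp)]; exact b2)
    (by
      rintro i hi c6 hR hH ⟨b1, b2, b3, b4⟩
      obtain ⟨c7, r7, d1, d2, f7⟩ := mark_spec (Y := 2 * T) (d := i + 2) (by omega) (by omega) b3 b1 b2
      obtain ⟨c8, r8, d3, f8⟩ := rincF .Tmq c7 (b3.of_fr f7 (by decide) (by simp))
      have f9 : Fr [.Sv, .Tmq] [] c6 c8 := f7.tr f8 (by simp) (by simp)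
      refine ⟨c8, (r7.seq r8).mono (by omega), ⟨?_, ?_, d3, b4.tr f9 (by simp) (by simp)⟩, f9.tape (by decide), f9.head (by simp)⟩
      · rw [f8.head (by simp), d1]
      · rw [f8.tape (by simp), d2])
  have rT4 : Ruler c4 (o .Rsv) T := rT.of_fr f14 (by decide) (by decide)
  have f5 : Fr [.Sv, .Tmq] [] c4 c5 := i4.fixR rT4 hR5
  obtain ⟨c6, r6, b1, f6⟩ := rclrF .Tmq c5 i3
  have f7 : Fr [.Tmq, .Sv] [.Sv] c c6 :=
    f14.tr (f5.tr f6 (l2 := [.Sv, .Tmq]) (m2 := []) (by simp) (by simp)) (by simp) (by simp)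
  have f8 : Fr [.Sv] [] c c6 := by
    refine Fr.fixA (Fr.dropT f7 ?_) ?_
    · rw [b1.1, r0.1]
    · rw [f6.head (by decide), i1, h.hS]
  refine ⟨c6, (r1.seq (r2.seq (r3.seq (r4.seq (r5.seq r6))))).mono ?_, ?_, ?_⟩
  · have e1 : T * (28 * (2 * T) + 25 + 4) = 56 * (T * T) + 29 * T := by ring
    rw [e1]
    omega
  · rw [f6.tape (by decide), i2]
  · refine ⟨?_, h.le, ?_, ?_, rfl, ?_, f8.cl h.cl⟩
    · intro a ha
      have ha2 : a ≠ .Sv := fun h2 => ha (by simp [h2])
      exact (h.ru a ha).of_fr f8 (by simpa using ha2) (by simp)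
    · rw [f8.tape (by decide)]; exact h.tI
    · rw [f8.head (by simp)]; exact h.hI
    · rw [f8.head (by simp)]; exact h.hS

theorem qScan_spec {B T : ℕ} {τ : ℤ → Sym G} {c : TC X G} {e : FT → ℕ} (h : REnv B τ (svT (2 * T) (T + 2)) c e) (hT : 2 ≤ T)
    (eT : e .Rsv = T) (e0 : e .Rq = 0) (hB : 2 * T ≤ B) :
    ∃ c', Run (qScan : Prog (FT ⊕ X) (Sym G)) c c' (13 * B + 60) ∧ REnv B τ (c'.tape (o .Sv)) c' (Function.update e .Rq (qOf T)) := by
  have rT : Ruler c (o .Rsv) T := by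
    have := h.ru .Rsv (by decide)
    rwa [eT] at this
  have r0 : Ruler c (o .Rq) 0 := by
    have := h.ru .Rq (by decide)
    rwa [e0] at this
  have hq1 := qOf_gt T
  have hq2 := qOf_lt hT
  obtain ⟨c1, r1, a1, f1⟩ := raddF .Rsv .Rq (by decide) c rT r0
  rw [zero_add] at a1
  obtain ⟨c2, r2, a2, f2⟩ := rincF .Rq c1 a1
  have f12 : Fr [.Rq] [] c c2 := f1.tr f2 (by simp) (by simp)
  obtain ⟨c3, r3, a3, f3⟩ := adv_spec (X := X) (G := G) .Rq .Sv .R (by decide) (by simp) c2 a2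
  obtain ⟨c4, r4, a4, a5, s4⟩ := scan_to_end (o .Rq) c3 (a2.of_fr f3 (by simp) (by decide))
  have f4 : Fr [] [.Rq] c3 c4 := fr_of_ruler_same s4 (by rw [a5, f3.tape (by simp), a2.1])
  have hS4 : c4.head (o .Sv) = ((T + 1 : ℕ) : ℤ) := by
    rw [f4.head (by decide), a3, f12.head (by simp), h.hS]
    simp [Dir.toInt]
  have tS4 : c4.tape (o .Sv) = svT (2 * T) (T + 2) := by
    rw [f4.tape (by simp), f3.tape (by simp), f12.tape (by decide)]
    exact h.tS
  have hnq : qOf T - (T + 1) + (T + 1) = qOf T := by omega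
  obtain ⟨c5, r5, b1, b2, b3, b4, b5, s5⟩ := sc1_spec Sym.isZero (o .Sv) .R (o .Rq) .R (fun _ _ => .one) (by simp) (by simp) (by simp) c4 (qOf T - (T + 1))
    (by
      intro i hi
      have e1 : c4.head (o .Sv) + (i : ℤ) * Dir.R.toInt = ((T + 1 + i : ℕ) : ℤ) := by
        rw [hS4]
        simp only [Dir.toInt]
        push_cast
        ring
      rw [e1, tS4]
      unfold svT
      have h1 : T + 1 + i < 2 * T := by omega
      rw [if_pos ⟨by positivity, by exact_mod_cast h1⟩, if_pos]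
      · rfl
      · by_contra hc
        exact qOf_min (T := T) (x := T + 1 + i) (by omega) (by omega) ((prime_of_not_Mk (by omega) h1 hT).1 hc))
    (by
      have e1 : c4.head (o .Sv) + ((qOf T - (T + 1) : ℕ) : ℤ) * Dir.R.toInt = ((qOf T : ℕ) : ℤ) := by
        rw [hS4]
        simp only [Dir.toInt]
        omega
      rw [e1, tS4]
      unfold svT
      rw [if_pos ⟨by positivity, by exact_mod_cast hq2⟩, if_neg]
      · rfl
      · intro hc
        exact (prime_of_not_Mk hq1 hq2 hT).2 (qOf_prime T) hc)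
  have tR : c5.tape (o .Rq) = runT (qOf T) := by
    have hR4 : c4.head (o .Rq) = ((T + 1 : ℕ) : ℤ) := a4
    have tR4 : c4.tape (o .Rq) = runT (T + 1) := a5
    funext x
    by_cases hx : ((T + 1 : ℕ) : ℤ) ≤ x ∧ x < (qOf T : ℤ)
    · have e1 := b4 (x - ((T + 1 : ℕ) : ℤ)).toNat (by omega)
      rw [hR4] at e1
      simp only [Dir.toInt, mul_one] at e1
      have e2 : ((T + 1 : ℕ) : ℤ) + ((x - ((T + 1 : ℕ) : ℤ)).toNat : ℤ) = x := by omega
      rw [e2] at e1
      rw [e1, runT_in (by omega) hx.2]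
    · rw [b5 x (by
        rw [hR4]
        intro j hj he
        simp only [Dir.toInt, mul_one] at he
        omega), tR4]
      by_cases hx2 : 0 ≤ x ∧ x < ((T + 1 : ℕ) : ℤ)
      · rw [runT_in hx2.1 hx2.2, runT_in hx2.1 (by omega)]
      · rw [runT_out (by omega), runT_out (by omega)]
  have hR5 : c5.head (o .Rq) = ((qOf T : ℕ) : ℤ) := by
    rw [b3, a4]
    simp only [Dir.toInt]
    omega
  obtain ⟨c6, r6, d1, s6⟩ := rew_ruler (o .Rq) c5 tR hR5 le_rfl
  have tS6 : c6.tape (o .Sv) = c5.tape (o .Sv) := s6.tape (by simp)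
  have hS6 : c6.head (o .Sv) = c5.head (o .Sv) := s6.head (by simp)
  have hS5 : c5.head (o .Sv) = ((qOf T : ℕ) : ℤ) := by
    rw [b1, hS4]
    simp only [Dir.toInt]
    omega
  obtain ⟨c7, r7, d2, d3, s7⟩ := rew_spec (o .Sv) c6 (qOf T) (by rw [hS6, hS5])
    (by
      intro i hi
      rw [tS6, b2, tS4]
      unfold svT
      rw [if_pos ⟨by positivity, by
        have : i < 2 * T := by omega
        exact_mod_cast this⟩]
      split_ifs <;> rfl)
    (by
      rw [tS6, b2, tS4]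
      unfold svT
      rw [if_neg (by simp)])
  have f5 : Fr [.Sv, .Rq] [.Sv, .Rq] c4 c7 := by
    refine Fr.of_same ((s5.trans (s6.trans s7)).mono (l' := [o .Sv, o .Rq]) (by simp)) (by simp) ?_ ?_
    · intro a h1 h2
      simp only [List.mem_cons, List.not_mem_nil, or_false, Sum.inl.injEq] at h1 h2
      exact absurd h2 h1
    · intro a h1 h2
      simp only [List.mem_cons, List.not_mem_nil, or_false, Sum.inl.injEq] at h1 h2
      exact absurd h2 h1
  have f6 : Fr [.Sv, .Rq] [.Sv, .Rq] c c7 :=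
    f12.tr (f3.tr (f4.tr f5 (l2 := [.Sv, .Rq]) (m2 := [.Sv, .Rq]) (by simp) (by simp)) (l2 := [.Sv, .Rq]) (m2 := [.Sv, .Rq]) (by simp) (by simp)) (by simp) (by simp)
  have f7 : Fr [.Sv, .Rq] [] c c7 := by
    refine Fr.fixA (Fr.fixA f6 ?_) ?_
    · rw [d2, h.hS]
    · rw [s7.head (by simp), d1.2, r0.2]
  have hR7 : Ruler c7 (o .Rq) (qOf T) := ⟨by rw [s7.tape (by simp)]; exact d1.1, by rw [s7.head (by simp)]; exact d1.2⟩
  refine ⟨c7, (r1.seq (r2.seq (r3.seq (r4.seq (r5.seq (r6.seq r7)))))).mono (by omega), h.updS f7 (by decide) hR7 (by omega)⟩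

end

end Vale.Agent.Lib.P338.F
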