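import Vale.Agent.Lib.P338.F.Tape

/-!
Simulation of a given machine on some of the tapes `FT ⊕ X`.
-/

namespace Vale.Agent.Lib.P338.F

open Vale.Agent.Lib.P338 Prog

noncomputable instance instDecTF (A : MTM) : DecidableEq A.T := Classical.decEq _
noncomputable instance instDecGF (A : MTM) : DecidableEq A.Γ := Classical.decEq _

/-- An embedding of a machine in the tapes `FT ⊕ X` and the symbols `Sym G`. -/
structure Emb (A : MTM) (X G : Type) where
  tp : A.T → X
  back : X → Option A.T
  back_tp : ∀ t, back (tp t) = some t
  tp_back : ∀ x t, back x = some t → x = tp t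
  sy : A.Γ → G
  ds : G → A.Γ
  ds_sy : ∀ g, ds (sy g) = g

section flag
variable {G : Type}

/-- The origin flag of a cell. -/
def flagOf : Sym G → Bool
  | .a _ b => b
  | _ => false

@[simp] theorem flagOf_a (g : G) (b : Bool) : flagOf (.a g b : Sym G) = b := rfl
@[simp] theorem flagOf_blank : flagOf (.blank : Sym G) = false := rfl

end flag

section sim
variable {A : MTM} {X G : Type} (E : Emb A X G)

/-- The tape simulating `t`. -/
abbrev st (t : A.T) : FT ⊕ X := Sum.inr (E.tp t)

/-- The decoding of a cell of a simulated tape. -/
def dec : Sym G → A.Γ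
  | .a g _ => E.ds g
  | _ => A.blank

@[simp] theorem dec_a (g : A.Γ) (b : Bool) : dec E (.a (E.sy g) b) = g := E.ds_sy g
@[simp] theorem dec_blank : dec E .blank = A.blank := rfl

theorem tp_inj {t u : A.T} (h : E.tp t = E.tp u) : t = u := by
  have h1 := E.back_tp t
  rw [h, E.back_tp u] at h1
  simpa using h1.symm

/-- What a step of the simulation writes. -/
def simW (w : A.T → A.Γ) (s : FT ⊕ X → Sym G) : FT ⊕ X → Sym G := fun tt => match tt with
  | Sum.inl a => s (Sum.inl a)
  | Sum.inr x => match E.back x with
    | some t => .a (E.sy (w t)) (flagOf (s (Sum.inr x)))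
    | none => s (Sum.inr x)

/-- How a step of the simulation moves. -/
def simD (d : A.T → Dir) : FT ⊕ X → Dir := fun tt => match tt with
  | Sum.inl _ => .S
  | Sum.inr x => match E.back x with
    | some t => d t
    | none => .S

@[simp] theorem simW_st (w : A.T → A.Γ) (s : FT ⊕ X → Sym G) (t : A.T) :
    simW E w s (st E t) = .a (E.sy (w t)) (flagOf (s (st E t))) := by
  simp [simW, E.back_tp]

@[simp] theorem simD_st (d : A.T → Dir) (t : A.T) : simD E d (st E t) = d t := by
  simp [simD, E.back_tp]

/-- One step of the simulation. -/
def simδ : A.Q → (FT ⊕ X → Sym G) → Option (A.Q × (FT ⊕ X → Sym G) × (FT ⊕ X → Dir)) := fun q s =>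
  match A.δ q (fun t => dec E (s (st E t))) with
  | none => none
  | some (q', w, d) => some (q', simW E w s, simD E d)

/-- The tapes of the simulated machine. -/
def isA : FT ⊕ X → Bool
  | Sum.inl _ => false
  | Sum.inr x => (E.back x).isSome

@[simp] theorem isA_st (t : A.T) : isA E (st E t) = true := by
  simp [isA, E.back_tp]

/-- Run the simulated machine. -/
def runA : Prog (FT ⊕ X) (Sym G) := .call (isA E) A.Q A.fQ A.q0 (simδ E)

/-- The relation between a configuration of `A` and the tapes of the simulating machine. -/
def SimT (c : TC X G) (a : A.Cfg) (base lo hi : A.T → ℤ) : Prop :=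
  ∀ t,
    (∀ i, dec E (c.tape (st E t) (base t + i)) = a.tape t i) ∧
    c.head (st E t) = base t + a.head t ∧
    lo t - 1 ≤ c.head (st E t) ∧ c.head (st E t) ≤ hi t ∧
    (∀ x, lo t ≤ x → x < hi t → (c.tape (st E t) x).nonBlank = true) ∧
    (∀ x, (x < lo t ∨ hi t ≤ x) → c.tape (st E t) x = .blank) ∧
    (∀ x, flagOf (c.tape (st E t) x) = true ↔ x = base t)

theorem sim_read {c : TC X G} {a : A.Cfg} {base lo hi : A.T → ℤ} (h : SimT E c a base lo hi) :
    (fun t => dec E (c.read (st E t))) = a.read := by
  funext t
  obtain ⟨h1, h2, _⟩ := h t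
  simp only [TS.read, MTM.Cfg.read]
  rw [h2, h1]

/-- One step. -/
theorem sim_step {c : TC X G} {a a' : A.Cfg} {base lo hi : A.T → ℤ} (h : SimT E c a base lo hi)
    (hs : MTM.step a = some a') :
    ∃ q' w d, simδ E a.q c.read = some (q', w, d) ∧ q' = a'.q ∧
      SimT E (c.apply (clampW (isA E) c.read w) (clampD (isA E) d)) a' base
        (fun t => min (lo t) (c.head (st E t))) (fun t => max (hi t) (c.head (st E t) + 1)) := by
  unfold MTM.step at hs
  cases hδ : A.δ a.q a.read with
  | none => rw [hδ] at hs; simp at hs
  | some r =>
    obtain ⟨q', w, d⟩ := r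
    rw [hδ] at hs
    simp only [Option.some.injEq] at hs
    subst hs
    refine ⟨q', simW E w c.read, simD E d, ?_, rfl, ?_⟩
    · unfold simδ
      have := sim_read E h
      rw [this, hδ]
    · intro t
      obtain ⟨h1, h2, h3, h4, h5, h6, h7⟩ := h t
      have hhead : (c.apply (clampW (isA E) c.read (simW E w c.read)) (clampD (isA E) (simD E d))).head (st E t) = c.head (st E t) + (d t).toInt := by
        simp [TS.apply, clampD]
      have htape : ∀ x, (c.apply (clampW (isA E) c.read (simW E w c.read)) (clampD (isA E) (simD E d))).tape (st E t) x =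
          if x = c.head (st E t) then .a (E.sy (w t)) (flagOf (c.tape (st E t) x))
          else c.tape (st E t) x := by
        intro x
        simp only [TS.apply, clampW, isA_st, if_true, simW_st, TS.read]
        by_cases hx : x = c.head (st E t)
        · rw [if_pos hx, if_pos hx, hx]
        · rw [if_neg hx, if_neg hx]
      have hdir : (d t).toInt = -1 ∨ (d t).toInt = 0 ∨ (d t).toInt = 1 := by
        cases d t <;> simp [Dir.toInt]
      refine ⟨?_, ?_, ?_, ?_, ?_, ?_, ?_⟩
      · intro i
        rw [htape]
        simp only
        by_cases hi : i = a.head t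
        · rw [if_pos (by rw [h2, hi]), if_pos hi]
          exact dec_a E _ _
        · rw [if_neg (by rw [h2]; omega), if_neg hi]
          exact h1 i
      · rw [hhead, h2]
        simp only
        ring
      · rw [hhead]
        simp only
        omega
      · rw [hhead]
        simp only
        omega
      · intro x hx1 hx2
        rw [htape]
        simp only at hx1 hx2
        by_cases hx : x = c.head (st E t)
        · rw [if_pos hx]; rfl
        · rw [if_neg hx]
          exact h5 x (by omega) (by omega)
      · intro x hx
        rw [htape]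
        simp only at hx
        rw [if_neg (by omega)]
        exact h6 x (by omega)
      · intro x
        rw [htape]
        by_cases hx : x = c.head (st E t)
        · rw [if_pos hx, flagOf_a]
          exact h7 x
        · rw [if_neg hx]
          exact h7 x

theorem sim_halt {c : TC X G} {a : A.Cfg} {base lo hi : A.T → ℤ} (h : SimT E c a base lo hi)
    (hs : MTM.step a = none) : simδ E a.q c.read = none := by
  unfold MTM.step at hs
  cases hδ : A.δ a.q a.read with
  | none =>
    unfold simδ
    have := sim_read E h
    rw [this, hδ]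
  | some r =>
    obtain ⟨q', w, d⟩ := r
    rw [hδ] at hs
    simp at hs

/-- A complete run of the simulated machine. -/
theorem sim_run (n : ℕ) {c : TC X G} {a a' : A.Cfg} {base lo hi : A.T → ℤ} (h : SimT E c a base lo hi)
    (hr : MTM.run a n = some a') (hs : MTM.step a' = none) :
    ∃ c' lo' hi', SubRun (isA E) (simδ E) a.q c c' (n + 1) ∧ SimT E c' a' base lo' hi' ∧
      ∀ t, hi' t - lo' t ≤ hi t - lo t + n := by
  induction n generalizing a c lo hi with
  | zero =>
    simp only [MTM.run, Option.some.injEq] at hr
    subst hr
    exact ⟨c, lo, hi, .done (sim_halt E h hs), h, by simp⟩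
  | succ n ih =>
    simp only [MTM.run] at hr
    cases hstep : MTM.step a with
    | none => rw [hstep] at hr; simp at hr
    | some a1 =>
      rw [hstep] at hr
      simp only [Option.bind_some] at hr
      obtain ⟨q', w, d, e1, e2, h1⟩ := sim_step E h hstep
      obtain ⟨c', lo', hi', r, h2, h3⟩ := ih h1 hr
      refine ⟨c', lo', hi', .step e1 (by rw [e2]; exact r), h2, ?_⟩
      intro t
      have := h3 t
      obtain ⟨_, _, h5, h6, _, h8, h9⟩ := h t
      have h10 : ¬ (base t < lo t ∨ hi t ≤ base t) := by
        intro hh
        have e1 := h8 _ hh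
        have e2 := (h9 (base t)).2 rfl
        rw [e1] at e2
        simp at e2
      omega

end sim

end Vale.Agent.Lib.P338.F
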