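import Vale.Agent.Lib.P338.F.Srch

/-!
The test for squares modulo the prime.
-/

namespace Vale.Agent.Lib.P338.F

open Vale.Agent.Lib.P338 Prog

section
variable {X G : Type} {q : ℕ} [hq : Fact q.Prime] {η : ZMod q}

theorem zmod_cast_eq {a b : ℕ} (ha : a < q) (hb : b < q) : (a : ZMod q) = (b : ZMod q) ↔ a = b := by
  rw [ZMod.natCast_eq_natCast_iff', Nat.mod_eq_of_lt ha, Nat.mod_eq_of_lt hb]

omit hq in
theorem flg_of_fr' {c c' : TC X G} {F : FT} {l m : List FT} (f : Fr l m c c') (h : F ∉ l) (h2 : F ∉ m) : flg c' F = flg c F := by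
  simp only [flg, TS.read]
  rw [f.tape h, f.head h2]

variable [DecidableEq X]

/-- The body of the test for squares. -/
def sqB (sm : Prog (FT ⊕ X) (Sym G)) : Prog (FT ⊕ X) (Sym G) :=
  .seq (mulZ sm .BA .Zer .BA .Zer) (.seq (setF .Fl false) (.seq (neS .ZA .CA .Fl)
    (.seq (.ite (fun s => (s (o .Fl)).isOne) skip (setF .PA true)) (addR .RS .BA .One))))

/-- The test for squares: the flag stays clear when `CA` is not a square. -/
def sqT (sm : Prog (FT ⊕ X) (Sym G)) : Prog (FT ⊕ X) (Sym G) :=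
  .seq (setF .PA false) (.seq (cpy .RS .Zer .BA) (forR (o .Rq2) (sqB sm)))

/-- The cost of a step of the test for squares. -/
def SQB (K SC : ℕ) : ℕ := MZ K SC + (1 + ((40 * K + 48) + (2 + (8 * K + 9))))

/-- The cost of the test for squares. -/
def SQC (K q SC : ℕ) : ℕ := 1 + ((12 * K + 12) + (q * (SQB K SC + 4) + 4))

/-- The tapes changed by the test for squares. -/
abbrev sqL : List FT := .BA :: .PA :: .Fl :: mT

/-- The invariant. -/
structure SqI (K L W q : ℕ) (η : ZMod q) (e : ℕ) (c0 : TC X G) (i : ℕ) (c : TC X G) : Prop where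
  fe : FE K L W q η c
  ba : vr K c .BA = i
  bad : flg c .PA = true ↔ ∃ r, r < i ∧ (r : ZMod q) ^ 2 = (e : ZMod q)
  fr : Fr sqL [.Rq2] c0 c

theorem sqB_step {K L W SC e : ℕ} {sm : Prog (FT ⊕ X) (Sym G)} (ap : AP sm K L SC q) (hqK : q < 2 ^ K) {c0 c : TC X G} {i : ℕ} (hi : i < q)
    (he : e < q) (hca : vr K c .CA = e) (hone : vr K c .One = 1) (hzer : vr K c .Zer = 0) (hI : SqI K L W q η e c0 i c) :
    ∃ c', Run (sqB sm) c c' (SQB K SC) ∧ SqI K L W q η e c0 (i + 1) c' ∧ Fr sqL [] c c' := by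
  have hq0 : 0 < q := ap.hq
  obtain ⟨c1, r1, h1, l1, e1, f1⟩ := mulZ_spec ap .BA .Zer .BA .Zer (by decide) hI.fe
    (⟨by rw [hI.ba]; exact hi, by rw [hzer]; exact hq0⟩ : LtE K q c .BA .Zer) (⟨by rw [hI.ba]; exact hi, by rw [hzer]; exact hq0⟩ : LtE K q c .BA .Zer)
  have hre : ((vr K c1 .ZA : ℕ) : ZMod q) = (i : ZMod q) ^ 2 := by
    have := congrArg QuadraticAlgebra.re e1
    simp only [elt, mkE_re, QuadraticAlgebra.re_mul, mkE_im] at this
    rw [this, hI.ba, hzer]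
    simp [pow_two]
  obtain ⟨c2, r2, b2, _, f2⟩ := setF_spec .Fl false c1
  have a2 : Alu K L W q c2 := h1.toAlu.of_fr' f2 (by decide)
  obtain ⟨c3, r3, a3, v3, f3⟩ := neS_spec .ZA .CA .Fl rfl rfl rfl (by decide) (by decide) (by decide) a2
  have eZA : vr K c2 .ZA = vr K c1 .ZA := vr_of_fr f2 (by decide)
  have eCA : vr K c2 .CA = e := by
    rw [vr_of_fr f2 (by decide), vr_of_fr f1 (by decide)]
    exact hca
  have key : flg c3 .Fl = false ↔ (i : ZMod q) ^ 2 = (e : ZMod q) := by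
    rw [v3, b2, eZA, eCA, ← hre, zmod_cast_eq l1.1 he]
    simp
  have hPA : flg c3 .PA = flg c .PA :=
    flg_of_fr (f1.nil_tr (f2.nil_tr f3 (l2 := [.Fl, .Tz, .Cy]) (by simp)) (l2 := .Fl :: mT) (by simp)) (by decide)
  have hcond : ∃ c4, Run (.ite (fun s => (s (o .Fl)).isOne) skip (setF .PA true) : Prog (FT ⊕ X) (Sym G)) c3 c4 2 ∧
      (flg c4 .PA = true ↔ (flg c .PA = true ∨ (i : ZMod q) ^ 2 = (e : ZMod q))) ∧ Fr [.PA] [] c3 c4 := by
    cases hb : flg c3 .Fl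
    · have h3 := key.1 hb
      obtain ⟨c4, r4, b1, _, f⟩ := setF_spec .PA true c3
      refine ⟨c4, (Run.iteF (g := fun s => (s (o .Fl)).isOne) (a := skip) hb r4).mono (by omega), ?_, f⟩
      rw [b1]
      simp [h3]
    · have h3 : ¬ (i : ZMod q) ^ 2 = (e : ZMod q) := by
        intro h4
        rw [key.2 h4] at hb
        exact absurd hb (by simp)
      refine ⟨c3, (Run.iteT (g := fun s => (s (o .Fl)).isOne) (b := setF .PA true) hb (skip_spec c3)).mono (by omega), ?_, Fr.refl _ _ _⟩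
      rw [hPA]
      simp [h3]
  obtain ⟨c4, r4, b4, f4⟩ := hcond
  have a4 : Alu K L W q c4 := a3.of_fr' f4 (by decide)
  have f14 : Fr (.PA :: .Fl :: mT) [] c c4 := f1.nil_tr (f2.nil_tr (f3.nil_tr f4 (l2 := [.Fl, .Tz, .Cy, .PA]) (by simp)) (l2 := [.Fl, .Tz, .Cy, .PA]) (by simp)) (by simp)
  have eBA : vr K c4 .BA = i := by
    rw [vr_of_fr f14 (by decide)]
    exact hI.ba
  have eOne : vr K c4 .One = 1 := by
    rw [vr_of_fr f14 (by decide)]
    exact hone
  obtain ⟨c5, r5, a5, v5, f5⟩ := add_spec .BA .One rfl rfl (by decide) (by decide) a4 (by rw [eBA, eOne]; omega)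
  have f15 : Fr sqL [] c c5 := f14.nil_tr f5 (by simp)
  refine ⟨c5, (r1.seq (r2.seq (r3.seq (r4.seq r5)))).mono ?_, ⟨?_, ?_, ?_, hI.fr.tr f15 (by simp) (by simp)⟩, f15⟩
  · unfold SQB
    omega
  · exact hI.fe.of_fr f15 (by decide) a5.cy (by decide)
  · rw [v5, eBA, eOne]
  · have hP5 : flg c5 .PA = flg c4 .PA := flg_of_fr f5 (by decide)
    rw [hP5, b4, hI.bad]
    constructor
    · rintro (⟨r, h2, h3⟩ | h)
      · exact ⟨r, by omega, h3⟩
      · exact ⟨i, by omega, h⟩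
    · rintro ⟨r, h2, h3⟩
      by_cases hr : r < i
      · exact Or.inl ⟨r, hr, h3⟩
      · have : r = i := by omega
        subst this
        exact Or.inr h3

theorem sqT_spec {K L W N SC e : ℕ} {sm : Prog (FT ⊕ X) (Sym G)} (ap : AP sm K L SC q) (hqK : q < 2 ^ K) (he : e < q) {c : TC X G}
    (h : SN K L W q N η c) (hca : vr K c .CA = e) :
    ∃ c', Run (sqT sm) c c' (SQC K q SC) ∧ SN K L W q N η c' ∧ (flg c' .PA = false ↔ ∀ r : ZMod q, r ^ 2 ≠ (e : ZMod q)) ∧ Fr sqL [] c c' := by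
  have hq0 : 0 < q := ap.hq
  have hne : NeZero q := ⟨hq0.ne'⟩
  obtain ⟨c1, r1, b1, _, f1⟩ := setF_spec .PA false c
  have a1 : Alu K L W q c1 := h.toAlu.of_fr' f1 (by decide)
  obtain ⟨c2, r2, a2, v2, _, f2⟩ := mov_spec .Zer .BA rfl rfl (by decide) a1
  have f12 : Fr [.PA, .BA] [] c c2 := f1.nil_tr f2 (by simp)
  have fe2 : FE K L W q η c2 := h.toFE.of_alu a2 f12 (by decide)
  have i2 : SqI K L W q η e c2 0 c2 := by
    refine ⟨fe2, ?_, ?_, Fr.refl _ _ _⟩
    · rw [v2, vr_of_fr f1 (by decide)]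
      exact h.zer
    · rw [flg_of_fr f2 (by decide), b1]
      simp
  have hr2 : Ruler c2 (o .Rq2) q := h.r2.of_fr f12 (by decide) (by simp)
  have ev : ∀ (A : FT) (c' : TC X G), A ∉ sqL → Fr sqL [.Rq2] c2 c' → vr K c' A = vr K c A := by
    intro A c' hA f
    rw [vr_of_fr f hA, vr_of_fr f12 (not_of_sub hA (by decide))]
  obtain ⟨c3, i3, hr3, r3⟩ := forU (SqI K L W q η e c2) (SQB K SC) hr2 i2
    (by
      intro i c c' hi fr
      refine ⟨hi.fe.of_gen fr (by simp) (by decide) (by simp), ?_, ?_, hi.fr.tr fr (by simp) (by simp)⟩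
      · rw [vr_of_fr fr (by simp)]; exact hi.ba
      · rw [flg_of_fr' fr (by simp) (by decide)]; exact hi.bad)
    (by
      intro i hi c _ _ hI
      obtain ⟨c', r, i', f⟩ := sqB_step ap hqK hi he (by rw [ev _ _ (by decide) hI.fr]; exact hca)
        (by rw [ev _ _ (by decide) hI.fr]; exact h.one) (by rw [ev _ _ (by decide) hI.fr]; exact h.zer) hI
      exact ⟨c', r, i', f.tape (by decide), f.head (by simp)⟩)
  have f13 : Fr sqL [] c c3 := f12.nil_tr (i3.fr.fixR hr2 hr3) (by simp)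
  refine ⟨c3, r1.seq (r2.seq r3), h.of_fe i3.fe f13 (by decide) (by simp), ?_, f13⟩
  rw [← Bool.not_eq_true, i3.bad]
  constructor
  · intro hn r hr
    apply hn
    refine ⟨r.val, ZMod.val_lt r, ?_⟩
    rw [ZMod.natCast_zmod_val]
    exact hr
  · rintro hn ⟨r, _, h3⟩
    exact hn _ h3

end

end Vale.Agent.Lib.P338.F
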