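import Vale.Agent.Lib.P338.F.Order

/-!
The search for a non-residue and for elements of given multiplicative orders.
-/

namespace Vale.Agent.Lib.P338.F

open Vale.Agent.Lib.P338 Prog

section
variable {X G : Type}

/-- The environment of the search. -/
structure SN (K L W q N : ℕ) (η : ZMod q) (c : TC X G) : Prop extends FE K L W q η c where
  one : vr K c .One = 1
  zer : vr K c .Zer = 0
  r2 : Ruler c (o .Rq2) q
  r3 : Ruler c (o .RqM) (q - 1)
  r4 : Ruler c (o .RqMM) (q - 2)
  r5 : Ruler c (o .RNM) (N - 1)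

theorem SN.of_fe {K L W q N : ℕ} {η : ZMod q} {c c' : TC X G} {l m : List FT} (h : SN K L W q N η c) (a : FE K L W q η c') (f : Fr l m c c')
    (hl : ∀ a ∈ l, a ∉ [FT.One, .Zer, .Rq2, .RqM, .RqMM, .RNM]) (hm : ∀ a ∈ m, a ∉ [FT.Rq2, .RqM, .RqMM, .RNM]) : SN K L W q N η c' := by
  have h1 : ∀ a ∈ [FT.One, .Zer, .Rq2, .RqM, .RqMM, .RNM], a ∉ l := fun a ha hb => hl a hb ha
  have h2 : ∀ a ∈ [FT.Rq2, .RqM, .RqMM, .RNM], a ∉ m := fun a ha hb => hm a hb ha
  exact { toFE := a
          one := by rw [vr_of_fr f (h1 _ (by simp))]; exact h.one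
          zer := by rw [vr_of_fr f (h1 _ (by simp))]; exact h.zer
          r2 := h.r2.of_fr f (h1 _ (by simp)) (h2 _ (by simp))
          r3 := h.r3.of_fr f (h1 _ (by simp)) (h2 _ (by simp))
          r4 := h.r4.of_fr f (h1 _ (by simp)) (h2 _ (by simp))
          r5 := h.r5.of_fr f (h1 _ (by simp)) (h2 _ (by simp)) }

variable [DecidableEq X]

/-- Search for a number below the modulus passing a test. The test clears the flag `PA`. -/
def srch (body : Prog (FT ⊕ X) (Sym G)) (T : FT) : Prog (FT ⊕ X) (Sym G) :=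
  .seq (cpy .RS .Zer .CA) (.seq (cpy .RS .Zer T) (forR (o .Rq)
    (.seq body (.seq (.ite (fun s => (s (o .PA)).isOne) skip (cpy .RS .CA T)) (addR .RS .CA .One)))))

/-- The cost of a search. -/
def SRC (K q C : ℕ) : ℕ := (12 * K + 12) + ((12 * K + 12) + (q * (C + ((12 * K + 13) + (8 * K + 9)) + 4) + 4))

/-- The invariant of the search. -/
structure SrI (K L W q N : ℕ) (η : ZMod q) (P : ℕ → Prop) (T : FT) (bl : List FT) (c0 : TC X G) (i : ℕ) (c : TC X G) : Prop where
  sn : SN K L W q N η c
  ca : vr K c .CA = i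
  lt : vr K c T < q
  ok : (∃ e, e < i ∧ P e) → P (vr K c T)
  fr : Fr (.CA :: T :: .Cy :: bl) [.Rq] c0 c

theorem srch_spec {K L W q N C : ℕ} {η : ZMod q} (hqK : q < 2 ^ K) (hq : 0 < q) {body : Prog (FT ⊕ X) (Sym G)} (P : ℕ → Prop) (T : FT) (bl : List FT)
    (hT : wr T = true) (hT1 : T ∉ bl) (hT2 : T ∉ [FT.CA, .One, .Zer, .Eta, .PA])
    (hbl : ∀ a ∈ bl, a ∉ [FT.CA, .One, .Zer, .Eta, .Rq, .Rq2, .RqM, .RqMM, .RNM])
    (hb : ∀ e, e < q → ∀ c : TC X G, SN K L W q N η c → vr K c .CA = e →
      ∃ c', Run body c c' C ∧ SN K L W q N η c' ∧ (flg c' .PA = false ↔ P e) ∧ Fr bl [] c c')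
    {c : TC X G} (h : SN K L W q N η c) (hr : Ruler c (o .Rq) q) :
    ∃ c', Run (srch body T) c c' (SRC K q C) ∧ SN K L W q N η c' ∧ vr K c' T < q ∧ ((∃ e, e < q ∧ P e) → P (vr K c' T)) ∧
      Fr (.CA :: T :: .Cy :: bl) [] c c' := by
  simp only [List.mem_cons, List.not_mem_nil, or_false, not_or] at hT2
  obtain ⟨t1, t2, t3, t4, t5⟩ := hT2
  obtain ⟨c1, r1, a1, v1, _, f1⟩ := mov_spec .Zer .CA rfl rfl (by decide) h.toAlu
  obtain ⟨c2, r2, a2, v2, _, f2⟩ := mov_spec .Zer T hT rfl (Ne.symm t3) a1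
  have f12 : Fr [.CA, T] [] c c2 := f1.nil_tr f2 (by simp)
  have fe2 : FE K L W q η c2 := h.toFE.of_alu a2 f12 (by
    simp only [List.mem_cons, List.not_mem_nil, or_false, not_or]
    exact ⟨by decide, Ne.symm t4⟩)
  have sn2 : SN K L W q N η c2 := h.of_fe fe2 f12 (by
    intro a ha
    simp only [List.mem_cons, List.not_mem_nil, or_false] at ha
    rcases ha with rfl | rfl
    · decide
    · simp only [List.mem_cons, List.not_mem_nil, or_false, not_or]
      refine ⟨t2, t3, ?_, ?_, ?_, ?_⟩ <;> (rintro rfl; exact absurd hT (by decide))) (by simp)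
  have hz1 : vr K c1 .Zer = 0 := by rw [vr_of_fr f1 (by decide)]; exact h.zer
  have hr2 : Ruler c2 (o .Rq) q := hr.of_fr f12 (by
    simp only [List.mem_cons, List.not_mem_nil, or_false, not_or]
    refine ⟨by decide, ?_⟩
    rintro rfl
    exact absurd hT (by decide)) (by simp)
  have i2 : SrI K L W q N η P T bl c2 0 c2 := by
    refine ⟨sn2, ?_, ?_, ?_, Fr.refl _ _ _⟩
    · rw [vr_of_fr f2 (by simpa using Ne.symm t1), v1]
      exact h.zer
    · rw [v2, hz1]
      exact hq
    · rintro ⟨e, he, _⟩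
      omega
  have hQ : FT.Rq ∉ FT.CA :: T :: FT.Cy :: bl := by
    simp only [List.mem_cons, not_or]
    refine ⟨by decide, ?_, by decide, ?_⟩
    · rintro rfl
      exact absurd hT (by decide)
    · intro hm
      exact hbl _ hm (by simp)
  obtain ⟨c3, i3, hr3, r3⟩ := forU (SrI K L W q N η P T bl c2) (C + ((12 * K + 13) + (8 * K + 9))) hr2 i2
    (by
      intro i c c' hi fr
      have hfe : FE K L W q η c' := hi.sn.toFE.of_gen fr (by simp) (by decide) (by simp)
      refine ⟨hi.sn.of_fe hfe fr (by simp) (by decide), ?_, ?_, ?_, hi.fr.tr fr (by simp) (by simp)⟩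
      · rw [vr_of_fr fr (by simp)]; exact hi.ca
      · rw [vr_of_fr fr (by simp)]; exact hi.lt
      · rw [vr_of_fr fr (by simp)]; exact hi.ok)
    (by
      intro i hi c _ _ hI
      obtain ⟨c4, r4, sn4, fl4, f4⟩ := hb i hi c hI.sn hI.ca
      have hca4 : vr K c4 .CA = i := by
        rw [vr_of_fr f4 (fun hm => hbl _ hm (by simp))]
        exact hI.ca
      have hcond : ∃ c5, Run (.ite (fun s => (s (o .PA)).isOne) skip (cpy .RS .CA T) : Prog (FT ⊕ X) (Sym G)) c4 c5 (12 * K + 13) ∧
          Alu K L W q c5 ∧ vr K c5 T < q ∧ ((∃ e, e < i + 1 ∧ P e) → P (vr K c5 T)) ∧ Fr [T] [] c4 c5 := by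
        cases hflg : flg c4 .PA
        · obtain ⟨c5, r5, a5, v5, _, f5⟩ := mov_spec .CA T hT rfl (Ne.symm t1) sn4.toAlu
          have hPi : P i := fl4.1 hflg
          refine ⟨c5, (Run.iteF (g := fun s => (s (o .PA)).isOne) (a := skip) hflg r5).mono (by omega), a5, ?_, ?_, f5⟩
          · rw [v5, hca4]
            exact hi
          · intro _
            rw [v5, hca4]
            exact hPi
        · have hnP : ¬ P i := by
            intro hP
            have := fl4.2 hP
            rw [hflg] at this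
            exact absurd this (by simp)
          refine ⟨c4, (Run.iteT (g := fun s => (s (o .PA)).isOne) (b := cpy .RS .CA T) hflg (skip_spec c4)).mono (by omega), sn4.toAlu, ?_, ?_, Fr.refl _ _ _⟩
          · rw [vr_of_fr f4 hT1]
            exact hI.lt
          · rw [vr_of_fr f4 hT1]
            rintro ⟨e, he, hPe⟩
            have hne : e ≠ i := by
              rintro rfl
              exact hnP hPe
            exact hI.ok ⟨e, by omega, hPe⟩
      obtain ⟨c5, r5, a5, l5, o5, f5⟩ := hcond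
      have hone4 : vr K c5 .One = 1 := by
        rw [vr_of_fr f5 (by simpa using Ne.symm t2), sn4.one]
      have hca5 : vr K c5 .CA = i := by
        rw [vr_of_fr f5 (by simpa using Ne.symm t1), hca4]
      have hi1 : i + 1 < 2 ^ K := by omega
      obtain ⟨c6, r6, a6, v6, f6⟩ := add_spec .CA .One rfl rfl (by decide) (by decide) a5 (by rw [hca5, hone4]; exact hi1)
      have f7 : Fr (.CA :: T :: .Cy :: bl) [] c c6 :=
        f4.nil_tr (f5.nil_tr f6 (l2 := [T, .CA, .Cy]) (by simp)) (by
          intro a ha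
          simp only [List.mem_append, List.mem_cons, List.not_mem_nil, or_false] at ha ⊢
          tauto)
      have hfe : FE K L W q η c6 := hI.sn.toFE.of_alu a6 f7 (by
        simp only [List.mem_cons, not_or]
        refine ⟨by decide, Ne.symm t4, by decide, ?_⟩
        intro hm
        exact hbl _ hm (by simp))
      have hsn : SN K L W q N η c6 := hI.sn.of_fe hfe f7 (by
        intro a ha
        simp only [List.mem_cons] at ha
        rcases ha with rfl | rfl | rfl | ha
        · decide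
        · simp only [List.mem_cons, List.not_mem_nil, or_false, not_or]
          refine ⟨t2, t3, ?_, ?_, ?_, ?_⟩ <;> (rintro rfl; exact absurd hT (by decide))
        · decide
        · have := hbl a ha
          simp only [List.mem_cons, List.not_mem_nil, or_false, not_or] at this ⊢
          tauto) (by simp)
      refine ⟨c6, r4.seq (r5.seq r6), ⟨hsn, ?_, ?_, ?_, hI.fr.tr f7 (by
        intro a ha
        simp only [List.mem_append, List.mem_cons, List.not_mem_nil, or_false] at ha ⊢
        tauto) (by simp)⟩, f7.tape hQ, f7.head (by simp)⟩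
      · rw [v6, hca5, hone4]
      · rw [vr_of_fr f6 (by simpa using ⟨t1, by rintro rfl; exact absurd hT (by decide)⟩)]
        exact l5
      · rw [vr_of_fr f6 (by simpa using ⟨t1, by rintro rfl; exact absurd hT (by decide)⟩)]
        exact o5)
  refine ⟨c3, r1.seq (r2.seq r3), i3.sn, i3.lt, i3.ok, ?_⟩
  exact f12.nil_tr (i3.fr.fixR hr2 hr3) (by simp)

end

end Vale.Agent.Lib.P338.F
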