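import Vale.Agent.Lib.P338.F.Loop
import Vale.Agent.Lib.P338.F.Conv3

/-!
One stage of the Bluestein chain: multiply by a quadratic phase, then convolve with a quadratic phase.
-/

namespace Vale.Agent.Lib.P338.F

open Vale.Agent.Lib.P338 Prog

/-- Tapes that are neither registers nor rulers of the arithmetic unit. -/
def na : FT → Bool
  | .RS | .R2S | .RL | .RW => false
  | a => !isReg a

theorem of_na {a : FT} (h : na a = true) : isReg a = false ∧ a ≠ .RS ∧ a ≠ .R2S ∧ a ≠ .RL ∧ a ≠ .RW := by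
  cases a <;> first | exact absurd h (by decide) | exact ⟨rfl, by decide, by decide, by decide, by decide⟩

section
variable {X G : Type}

theorem Alu.of_gen {K L W q : ℕ} {c c' : TC X G} {l m : List FT} (h : Alu K L W q c) (f : Fr l m c c')
    (hl : ∀ a ∈ l, wr a = true ∨ na a = true) (hm : ∀ a ∈ m, na a = true) : Alu K L W q c' := by
  have hn1 : ∀ b, wr b = false → na b = false → b ∉ l := fun b hb hb2 hc => by
    have := hl b hc
    rw [hb, hb2] at this
    simp at this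
  have hn2 : ∀ b, na b = false → b ∉ m := fun b hb hc => by
    have := hm b hc
    rw [hb] at this
    exact absurd this (by simp)
  refine ⟨h.rS.of_fr f (hn1 _ rfl rfl) (hn2 _ rfl), h.r2S.of_fr f (hn1 _ rfl rfl) (hn2 _ rfl),
    h.rL.of_fr f (hn1 _ rfl rfl) (hn2 _ rfl), h.rW.of_fr f (hn1 _ rfl rfl) (hn2 _ rfl), ?_, ?_, ?_, ?_, f.cl h.cl⟩
  · intro a ha
    have hb : na a = false := by
      cases a <;> first | rfl | exact absurd ha (by decide)
    rw [f.head (hn2 a hb), h.hz a ha]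
  · have e1 := f.tape (hn1 .Cy rfl rfl)
    have e2 := f.head (hn2 .Cy rfl)
    simp only [TS.read]
    rw [e1, e2]
    exact h.cy
  · simp only [vr]
    rw [f.tape (hn1 .Qr rfl rfl)]
    exact h.qr
  · simp only [vr]
    rw [f.tape (hn1 .Mu rfl rfl)]
    exact h.mu

theorem FE.of_gen {K L W q : ℕ} {η : ZMod q} {c c' : TC X G} {l m : List FT} (h : FE K L W q η c) (f : Fr l m c c')
    (hl : ∀ a ∈ l, wr a = true ∨ na a = true) (hm : ∀ a ∈ m, na a = true) (hE : FT.Eta ∉ l) : FE K L W q η c' :=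
  h.of_alu (h.toAlu.of_gen f hl hm) f hE

variable [DecidableEq X]

/-- Read three slots from the product tape and reduce them. -/
def rd3 (sm : Prog (FT ⊕ X) (Sym G)) : Prog (FT ⊕ X) (Sym G) :=
  .seq (getA .RW .P3 .Y0) (.seq (getA .RW .P3 .Y1) (.seq (getA .RW .P3 .Y2) (redu3 sm)))

/-- The cost of `rd3`. -/
def R3C (K W SC : ℕ) : ℕ := RD K SC + 24 * K + 24 * W + 48

theorem rd3_spec {K L W q SC : ℕ} {η : ZMod q} {sm : Prog (FT ⊕ X) (Sym G)} (ap : AP sm K L SC q) (hWK : W ≤ K)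
    (hWq : 2 ^ W + q * q ≤ 2 ^ K) {c : TC X G} (h : FE K L W q η c) {t : ℕ}
    (hh : c.head (o .P3) = ((3 * t * W : ℕ) : ℤ)) :
    ∃ c', Run (rd3 sm) c c' (R3C K W SC) ∧ FE K L W q η c' ∧ LtE K q c' .ZA .ZB ∧
      elt K q η c' .ZA .ZB = slE q η W (c.tape (o .P3)) t ∧ c'.head (o .P3) = ((3 * (t + 1) * W : ℕ) : ℤ) ∧
      Fr aluT [.P3] c c' := by
  obtain ⟨c1, r1, a1, b1, f1⟩ := getA_spec .RW .P3 .Y0 (by decide) (by decide) h.rS h.rW (h.hz _ rfl) hWK
  obtain ⟨c2, r2, a2, b2, f2⟩ := getA_spec .RW .P3 .Y1 (by decide) (by decide) (h.rS.of_fr f1 (by decide) (by decide))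
    (h.rW.of_fr f1 (by decide) (by decide)) (by rw [f1.head (by decide)]; exact h.hz _ rfl) hWK
  have f12 := f1.trans f2
  obtain ⟨c3, r3, a3, b3, f3⟩ := getA_spec .RW .P3 .Y2 (by decide) (by decide) (h.rS.of_fr f12 (by decide) (by decide))
    (h.rW.of_fr f12 (by decide) (by decide)) (by rw [f12.head (by decide)]; exact h.hz _ rfl) hWK
  have f13 := f12.trans f3
  have hFE : FE K L W q η c3 := h.of_gen f13 (by decide) (by decide) (by decide)
  have hPt1 : c1.tape (o .P3) = c.tape (o .P3) := f1.tape (by decide)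
  have hPt2 : c2.tape (o .P3) = c.tape (o .P3) := f12.tape (by decide)
  have hP1 : c1.head (o .P3) = ((3 * t * W : ℕ) : ℤ) + W := by rw [a1, hh]
  have hP2 : c2.head (o .P3) = ((3 * t + 1) * W : ℕ) + W := by
    rw [a2, hP1]
    push_cast
    ring
  have hP3 : c3.head (o .P3) = ((3 * (t + 1) * W : ℕ) : ℤ) := by
    rw [a3, hP2]
    push_cast
    ring
  have ev0 : vr K c3 .Y0 = sv W (c.tape (o .P3)) (3 * t) := by
    rw [vr_of_fr f3 (by decide), vr_of_fr f2 (by decide), b1, hh]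
  have ev1 : vr K c3 .Y1 = sv W (c.tape (o .P3)) (3 * t + 1) := by
    rw [vr_of_fr f3 (by decide), b2, hP1, hPt1]
    simp only [sv]
    congr 1
    push_cast
    ring
  have ev2 : vr K c3 .Y2 = sv W (c.tape (o .P3)) (3 * t + 2) := by
    rw [b3, hP2, hPt2]
    simp only [sv]
    congr 1
    push_cast
    ring
  have hlt0 : vr K c3 .Y0 < 2 ^ W := by
    rw [ev0]
    exact vl_lt _ _ _
  obtain ⟨c4, r4, a4, v4, v5, f4⟩ := redu3_spec ap.hsm ap.hq hFE.toAlu hFE.etaLt (by omega)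
  have hFE4 : FE K L W q η c4 := hFE.of_alu a4 f4 (by decide)
  refine ⟨c4, ?_, hFE4, ⟨?_, ?_⟩, ?_, ?_, ?_⟩
  · refine (r1.seq (r2.seq (r3.seq r4))).mono ?_
    unfold R3C
    omega
  · rw [v4]
    exact Nat.mod_lt _ ap.hq
  · rw [v5]
    exact Nat.mod_lt _ ap.hq
  · simp only [elt]
    rw [v4, v5, ev0, ev1, ev2]
    ext
    · simp only [mkE_re, slE, ZMod.natCast_mod]
      push_cast
      rw [hFE.etaEq]
      simp
    · simp only [mkE_im, slE, ZMod.natCast_mod]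
  · rw [f4.head (by decide), hP3]
  · exact f13.tr f4 (by simp) (by simp)

/-- Write an element into three slots of a tape, which advances. -/
def wr3 (A B T : FT) : Prog (FT ⊕ X) (Sym G) :=
  .seq (sto .RW A T) (.seq (sto .RW B T) (fillBy (o .RW) (o T) .zero))

theorem wr3_spec {K L Wd q : ℕ} (A B T : FT) (hA : isReg A = true) (hB : isReg B = true) (hT : na T = true) (hWK : Wd ≤ K)
    {c : TC X G} (h : Alu K L Wd q c) (hAq : vr K c A < 2 ^ Wd) (hBq : vr K c B < 2 ^ Wd) :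
    ∃ c', Run (wr3 A B T : Prog (FT ⊕ X) (Sym G)) c c' (20 * Wd + 20) ∧ c'.head (o T) = c.head (o T) + ((3 * Wd : ℕ) : ℤ) ∧
      vl (c'.tape (o T)) (c.head (o T)) Wd = vr K c A ∧ vl (c'.tape (o T)) (c.head (o T) + Wd) Wd = vr K c B ∧
      vl (c'.tape (o T)) (c.head (o T) + Wd + Wd) Wd = 0 ∧
      (∀ x, ¬ (c.head (o T) ≤ x ∧ x < c.head (o T) + ((3 * Wd : ℕ) : ℤ)) → c'.tape (o T) x = c.tape (o T) x) ∧
      Fr [T] [T] c c' := by
  obtain ⟨t1, t2, t3, t4, t5⟩ := of_na hT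
  have hRW : (FT.RW) ≠ T := t5.symm
  have hAT : A ≠ T := by
    rintro rfl; rw [hA] at t1; exact absurd t1 (by simp)
  have hBT : B ≠ T := by
    rintro rfl; rw [hB] at t1; exact absurd t1 (by simp)
  have n1 : [FT.RW, A, T].Nodup := by
    simp only [List.nodup_cons, List.mem_cons, List.not_mem_nil, or_false, not_or]
    exact ⟨⟨ne_of_wr_RW hA, hRW⟩, hAT, not_false, by simp⟩
  have n2 : [FT.RW, B, T].Nodup := by
    simp only [List.nodup_cons, List.mem_cons, List.not_mem_nil, or_false, not_or]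
    exact ⟨⟨ne_of_wr_RW hB, hRW⟩, hBT, not_false, by simp⟩
  obtain ⟨c1, r1, a1, a2, f1⟩ := sto_spec .RW A T n1 c h.rW
  have hR1 := h.rW.of_fr f1 (by simpa using hRW) (by simpa using hRW)
  obtain ⟨c2, r2, b1, b2, f2⟩ := sto_spec .RW B T n2 c1 hR1
  have hR2 := hR1.of_fr f2 (by simpa using hRW) (by simpa using hRW)
  obtain ⟨c3, r3, d1, d2, s3⟩ := fillBy_spec (o .RW) (o T) .zero (by simpa using hRW) c2 hR2
  have f3 : Fr [T] [T] c2 c3 := by
    refine Fr.of_same s3 (by simp) ?_ ?_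
    · intro a ha hb
      simp only [List.mem_singleton, Sum.inl.injEq] at ha hb
      exact absurd hb ha
    · intro a ha hb
      simp only [List.mem_singleton, Sum.inl.injEq] at ha hb
      exact absurd hb ha
  have hA0 : c.head (o A) = 0 := h.hz A hA
  have hB0 : c1.head (o B) = 0 := by
    have : B ∉ [T] := by simpa using hBT
    rw [f1.head this]
    exact h.hz B hB
  have hBt : c1.tape (o B) = c.tape (o B) := f1.tape (by simpa using hBT)
  set x0 := c.head (o T) with hx0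
  have hh1 : c1.head (o T) = x0 + Wd := a1
  have hh2 : c2.head (o T) = x0 + Wd + Wd := by rw [b1, hh1]
  refine ⟨c3, (r1.seq (r2.seq r3)).mono (by omega), ?_, ?_, ?_, ?_, ?_, (f1.trans (f2.trans f3)).mono (by simp) (by simp)⟩
  · rw [d1, hh2]
    push_cast
    ring
  · have e : vl (c1.tape (o T)) x0 Wd = vl (c.tape (o A)) 0 Wd := by
      apply vl_congr
      intro i hi
      rw [a2, if_pos (by omega), hA0]
      simp
    rw [vl_low hWK hAq] at e
    refine Eq.trans ?_ e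
    apply vl_congr
    intro i hi
    rw [d2, if_neg (by rw [hh2]; omega), b2, hh1, if_neg (by omega)]
  · have e : vl (c2.tape (o T)) (x0 + Wd) Wd = vl (c.tape (o B)) 0 Wd := by
      apply vl_congr
      intro i hi
      rw [b2, hh1, if_pos (by omega), hB0, hBt]
      simp
    rw [vl_low hWK hBq] at e
    refine Eq.trans ?_ e
    apply vl_congr
    intro i hi
    rw [d2, if_neg (by rw [hh2]; omega)]
  · apply vl_eq_zero
    intro i hi
    rw [d2, hh2, if_pos (by omega)]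
    rfl
  · intro x hx
    push_cast at hx
    rw [d2, hh2, if_neg (by omega), b2, hh1, if_neg (by omega), a2, if_neg (by omega)]

/-- Load a generator. -/
def loadG (A1 A2 B1 B2 C1 C2 : FT) : Prog (FT ⊕ X) (Sym G) :=
  .seq (cpy .RS A1 .VA) (.seq (cpy .RS A2 .VB) (.seq (cpy .RS B1 .RA) (.seq (cpy .RS B2 .RB)
    (.seq (cpy .RS C1 .SA) (cpy .RS C2 .SB)))))

/-- The generator registers. -/
abbrev vT : List FT := [.VA, .VB, .RA, .RB, .SA, .SB]

/-- The condition on the registers holding the parameters of a generator. -/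
def cReg (A : FT) : Prop := isReg A = true ∧ A ∉ vT

instance (A : FT) : Decidable (cReg A) := by unfold cReg; infer_instance

theorem loadG_spec {K L W q : ℕ} {η : ZMod q} (A1 A2 B1 B2 C1 C2 : FT)
    (hA : cReg A1 ∧ cReg A2 ∧ cReg B1 ∧ cReg B2 ∧ cReg C1 ∧ cReg C2) {c : TC X G} (h : FE K L W q η c) :
    ∃ c', Run (loadG A1 A2 B1 B2 C1 C2 : Prog (FT ⊕ X) (Sym G)) c c' (72 * K + 72) ∧ FE K L W q η c' ∧
      vr K c' .VA = vr K c A1 ∧ vr K c' .VB = vr K c A2 ∧ vr K c' .RA = vr K c B1 ∧ vr K c' .RB = vr K c B2 ∧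
      vr K c' .SA = vr K c C1 ∧ vr K c' .SB = vr K c C2 ∧ Fr vT [] c c' := by
  obtain ⟨⟨i1, j1⟩, ⟨i2, j2⟩, ⟨i3, j3⟩, ⟨i4, j4⟩, ⟨i5, j5⟩, ⟨i6, j6⟩⟩ := hA
  simp only [List.mem_cons, List.not_mem_nil, or_false, not_or] at j1 j2 j3 j4 j5 j6
  obtain ⟨c1, r1, a1, v1, _, f1⟩ := mov_spec A1 .VA rfl i1 j1.1 h.toAlu
  obtain ⟨c2, r2, a2, v2, _, f2⟩ := mov_spec A2 .VB rfl i2 j2.2.1 a1
  obtain ⟨c3, r3, a3, v3, _, f3⟩ := mov_spec B1 .RA rfl i3 j3.2.2.1 a2
  obtain ⟨c4, r4, a4, v4, _, f4⟩ := mov_spec B2 .RB rfl i4 j4.2.2.2.1 a3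
  obtain ⟨c5, r5, a5, v5, _, f5⟩ := mov_spec C1 .SA rfl i5 j5.2.2.2.2.1 a4
  obtain ⟨c6, r6, a6, v6, _, f6⟩ := mov_spec C2 .SB rfl i6 j6.2.2.2.2.2 a5
  have f7 : Fr vT [] c c6 := (f1.trans (f2.trans (f3.trans (f4.trans (f5.trans f6))))).mono (by simp) (by simp)
  have kp : ∀ t : TC X G, ∀ l m, ∀ f : Fr (X := X) (G := G) l m c t, ∀ a, a ∉ l → vr K t a = vr K c a := fun t l m f a ha => vr_of_fr f ha
  refine ⟨c6, (r1.seq (r2.seq (r3.seq (r4.seq (r5.seq r6))))).mono (by omega), h.of_alu a6 f7 (by decide), ?_, ?_, ?_, ?_, ?_, ?_, f7⟩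
  · rw [vr_of_fr f6 (by decide), vr_of_fr f5 (by decide), vr_of_fr f4 (by decide), vr_of_fr f3 (by decide), vr_of_fr f2 (by decide), v1]
  · rw [vr_of_fr f6 (by decide), vr_of_fr f5 (by decide), vr_of_fr f4 (by decide), vr_of_fr f3 (by decide), v2,
      vr_of_fr f1 (by simpa using j2.1)]
  · rw [vr_of_fr f6 (by decide), vr_of_fr f5 (by decide), vr_of_fr f4 (by decide), v3,
      vr_of_fr f2 (by simpa using j3.2.1), vr_of_fr f1 (by simpa using j3.1)]
  · rw [vr_of_fr f6 (by decide), vr_of_fr f5 (by decide), v4, vr_of_fr f3 (by simpa using j4.2.2.1),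
      vr_of_fr f2 (by simpa using j4.2.1), vr_of_fr f1 (by simpa using j4.1)]
  · rw [vr_of_fr f6 (by decide), v5, vr_of_fr f4 (by simpa using j5.2.2.2.1), vr_of_fr f3 (by simpa using j5.2.2.1),
      vr_of_fr f2 (by simpa using j5.2.1), vr_of_fr f1 (by simpa using j5.1)]
  · rw [v6, vr_of_fr f5 (by simpa using j6.2.2.2.2.1), vr_of_fr f4 (by simpa using j6.2.2.2.1), vr_of_fr f3 (by simpa using j6.2.2.1),
      vr_of_fr f2 (by simpa using j6.2.1), vr_of_fr f1 (by simpa using j6.1)]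

/-- The body of the phase loop. -/
def chirpB (sm : Prog (FT ⊕ X) (Sym G)) : Prog (FT ⊕ X) (Sym G) :=
  .seq (rd3 sm) (.seq (mulZ sm .ZA .ZB .VA .VB) (.seq (wr3 .ZA .ZB .P1) (genStep sm)))

/-- The cost of the body of the phase loop. -/
def ChC (K W SC : ℕ) : ℕ := R3C K W SC + MZ K SC + 20 * W + 20 + 2 * MP K SC

/-- The list of the registers changed by the phase loop. -/
abbrev gA : List FT := .VA :: .VB :: .RA :: .RB :: mT

/-- The invariant of a generator. -/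
structure GenI (K L W q : ℕ) (η : ZMod q) (v r s : Rq q η) (k : ℕ) (c : TC X G) : Prop where
  fe : FE K L W q η c
  lV : LtE K q c .VA .VB
  lR : LtE K q c .RA .RB
  lS : LtE K q c .SA .SB
  eS : elt K q η c .SA .SB = s
  eV : elt K q η c .VA .VB = gV v r s k
  eR : elt K q η c .RA .RB = gR r s k

omit [DecidableEq X] in
theorem GenI.of_fr {K L W q : ℕ} {η : ZMod q} {v r s : Rq q η} {k : ℕ} {c c' : TC X G} {l m : List FT}
    (h : GenI K L W q η v r s k c) (f : Fr l m c c') (hl : ∀ a ∈ l, na a = true) (hm : ∀ a ∈ m, na a = true) :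
    GenI K L W q η v r s k c' := by
  have hn1 : ∀ b, na b = false → b ∉ l := fun b hb hc => by
    have := hl b hc
    rw [hb] at this
    exact absurd this (by simp)
  refine ⟨h.fe.of_gen f (fun a ha => Or.inr (hl a ha)) hm (hn1 _ rfl), h.lV.of_fr f (hn1 _ rfl) (hn1 _ rfl),
    h.lR.of_fr f (hn1 _ rfl) (hn1 _ rfl), h.lS.of_fr f (hn1 _ rfl) (hn1 _ rfl), ?_, ?_, ?_⟩
  · rw [elt_of_fr f (hn1 _ rfl) (hn1 _ rfl)]; exact h.eS
  · rw [elt_of_fr f (hn1 _ rfl) (hn1 _ rfl)]; exact h.eV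
  · rw [elt_of_fr f (hn1 _ rfl) (hn1 _ rfl)]; exact h.eR

/-- Advance the generator invariant. -/
theorem GenI.step {K L W q SC : ℕ} {η : ZMod q} {v r s : Rq q η} {k : ℕ} {c : TC X G} {sm : Prog (FT ⊕ X) (Sym G)}
    (ap : AP sm K L SC q) (h : GenI K L W q η v r s k c) :
    ∃ c', Run (genStep sm) c c' (2 * MP K SC) ∧ GenI K L W q η v r s (k + 1) c' ∧ Fr gT [] c c' := by
  obtain ⟨c1, r1, a1, l1, l2, e1, e2, f1⟩ := genStep_spec ap h.fe h.lV h.lR h.lS
  refine ⟨c1, r1, ⟨a1, l1, l2, h.lS.of_fr f1 (by decide) (by decide), ?_, ?_, ?_⟩, f1⟩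
  · rw [elt_of_fr f1 (by decide) (by decide)]; exact h.eS
  · rw [e1, h.eV, h.eR, gV_succ]
  · rw [e2, h.eR, h.eS, gR_succ]

omit [DecidableEq X] in
/-- Preservation of the invariant of a generator when registers in the scratch list change. -/
theorem GenI.of_scr {K L W q : ℕ} {η : ZMod q} {v r s : Rq q η} {k : ℕ} {c c' : TC X G} {l m : List FT}
    (h : GenI K L W q η v r s k c) (a : FE K L W q η c') (f : Fr l m c c')
    (hl : FT.VA ∉ l ∧ FT.VB ∉ l ∧ FT.RA ∉ l ∧ FT.RB ∉ l ∧ FT.SA ∉ l ∧ FT.SB ∉ l) : GenI K L W q η v r s k c' := by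
  obtain ⟨h1, h2, h3, h4, h5, h6⟩ := hl
  refine ⟨a, h.lV.of_fr f h1 h2, h.lR.of_fr f h3 h4, h.lS.of_fr f h5 h6, ?_, ?_, ?_⟩
  · rw [elt_of_fr f h5 h6]; exact h.eS
  · rw [elt_of_fr f h1 h2]; exact h.eV
  · rw [elt_of_fr f h3 h4]; exact h.eR

/-- The slots of an element. -/
structure SlotOK (q W : ℕ) (η : ZMod q) (τ : ℤ → Sym G) (l : ℕ) (E : Rq q η) : Prop where
  l0 : sv W τ (3 * l) < q
  l1 : sv W τ (3 * l + 1) < q
  z2 : sv W τ (3 * l + 2) = 0
  e : slK q η W τ l = E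

theorem vl_frame_slot {τ τ' : ℤ → Sym G} {W h : ℕ} {j : ℕ} (hc : ∀ x, ¬ ((h : ℤ) ≤ x ∧ x < (h : ℤ) + ((3 * W : ℕ) : ℤ)) → τ' x = τ x)
    (hd : (j + 1) * W ≤ h) : sv W τ' j = sv W τ j := by
  apply vl_frame (h := (h : ℤ)) (n := 3 * W) hc
  left
  have : j * W + W ≤ h := by
    rw [add_mul, one_mul] at hd
    exact hd
  exact_mod_cast this

theorem SlotOK.keep {q W : ℕ} {η : ZMod q} {τ τ' : ℤ → Sym G} {l : ℕ} {E : Rq q η} {h : ℕ} (s : SlotOK q W η τ l E)
    (hc : ∀ x, ¬ ((h : ℤ) ≤ x ∧ x < (h : ℤ) + ((3 * W : ℕ) : ℤ)) → τ' x = τ x) (hd : 3 * (l + 1) * W ≤ h) :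
    SlotOK q W η τ' l E := by
  have e0 : sv W τ' (3 * l) = sv W τ (3 * l) := vl_frame_slot hc (le_trans (Nat.mul_le_mul_right _ (by omega)) hd)
  have e1 : sv W τ' (3 * l + 1) = sv W τ (3 * l + 1) := vl_frame_slot hc (le_trans (Nat.mul_le_mul_right _ (by omega)) hd)
  have e2 : sv W τ' (3 * l + 2) = sv W τ (3 * l + 2) := vl_frame_slot hc (le_trans (Nat.mul_le_mul_right _ (by omega)) hd)
  refine ⟨by rw [e0]; exact s.l0, by rw [e1]; exact s.l1, by rw [e2]; exact s.z2, ?_⟩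
  simp only [slK]
  rw [e0, e1]
  exact s.e

/-- The slots just written. -/
theorem slot_written {q W : ℕ} {η : ZMod q} {τ : ℤ → Sym G} {l a b : ℕ} (h1 : vl τ ((3 * l * W : ℕ) : ℤ) W = a)
    (h2 : vl τ (((3 * l * W : ℕ) : ℤ) + W) W = b) (h3 : vl τ (((3 * l * W : ℕ) : ℤ) + W + W) W = 0)
    (ha : a < q) (hb : b < q) : SlotOK q W η τ l (mkE q η a b) := by
  have e1 : (((3 * l + 1) * W : ℕ) : ℤ) = ((3 * l * W : ℕ) : ℤ) + W := by push_cast; ring
  have e2 : (((3 * l + 2) * W : ℕ) : ℤ) = ((3 * l * W : ℕ) : ℤ) + W + W := by push_cast; ring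
  have s0 : sv W τ (3 * l) = a := h1
  have s1 : sv W τ (3 * l + 1) = b := by
    simp only [sv]
    rw [e1]
    exact h2
  have s2 : sv W τ (3 * l + 2) = 0 := by
    simp only [sv]
    rw [e2]
    exact h3
  refine ⟨by rw [s0]; exact ha, by rw [s1]; exact hb, s2, ?_⟩
  simp only [slK]
  rw [s0, s1]

/-- The invariant of the phase loop. -/
structure ChI (K L W q N : ℕ) (η : ZMod q) (v r s : Rq q η) (f : ℕ → Rq q η) (c0 : TC X G) (k : ℕ) (c : TC X G) : Prop where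
  gn : GenI K L W q η v r s k c
  t3 : c.tape (o .P3) = c0.tape (o .P3)
  h3 : c.head (o .P3) = ((3 * (N + k) * W : ℕ) : ℤ)
  h1 : c.head (o .P1) = ((3 * k * W : ℕ) : ℤ)
  sl : ∀ l, l < k → SlotOK q W η (c.tape (o .P1)) l (f l * gV v r s l)
  rest : ∀ x : ℤ, ((3 * k * W : ℕ) : ℤ) ≤ x → c.tape (o .P1) x = c0.tape (o .P1) x
  fr : Fr (.P1 :: gA) [.RN, .P1, .P3] c0 c

theorem chirp_step {K L W q SC N : ℕ} {η : ZMod q} {v r s : Rq q η} {f : ℕ → Rq q η} {c0 : TC X G}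
    {sm : Prog (FT ⊕ X) (Sym G)} (ap : AP sm K L SC q) (hWK : W ≤ K) (hWq : 2 ^ W + q * q ≤ 2 ^ K) (hqW : q ≤ 2 ^ W)
    (hf : ∀ k, k < N → slE q η W (c0.tape (o .P3)) (N + k) = f k)
    {k : ℕ} (hk : k < N) {c : TC X G} (hI : ChI K L W q N η v r s f c0 k c) :
    ∃ c', Run (chirpB sm) c c' (ChC K W SC) ∧ ChI K L W q N η v r s f c0 (k + 1) c' ∧
      c'.tape (o .RN) = c.tape (o .RN) ∧ c'.head (o .RN) = c.head (o .RN) := by
  obtain ⟨c1, r1, a1, l1, e1, h1, f1⟩ := rd3_spec ap hWK hWq hI.gn.fe (t := N + k) hI.h3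
  have g1 := hI.gn.of_scr a1 f1 (by decide)
  obtain ⟨c2, r2, a2, l2, e2, f2⟩ := mulZ_spec ap .ZA .ZB .VA .VB (by decide) a1 l1 g1.lV
  have g2 := g1.of_scr a2 f2 (by decide)
  obtain ⟨c3, r3, h3, v0, v1, v2, v3, f3⟩ := wr3_spec .ZA .ZB .P1 rfl rfl rfl hWK a2.toAlu
    (lt_of_lt_of_le l2.1 hqW) (lt_of_lt_of_le l2.2 hqW)
  have a3 : FE K L W q η c3 := a2.of_gen f3 (by decide) (by decide) (by decide)
  have g3 := g2.of_scr a3 f3 (by decide)
  obtain ⟨c4, r4, g4, f4⟩ := g3.step ap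
  have hP1 : c2.head (o .P1) = ((3 * k * W : ℕ) : ℤ) := by
    rw [f2.head (by decide), f1.head (by decide)]
    exact hI.h1
  have hE : mkE q η (vr K c2 .ZA) (vr K c2 .ZB) = f k * gV v r s k := by
    have i1 : elt K q η c1 .ZA .ZB = f k := by
      rw [e1, hI.t3]
      exact hf k hk
    have i2 : elt K q η c1 .VA .VB = gV v r s k := by
      rw [elt_of_fr f1 (by decide) (by decide)]
      exact hI.gn.eV
    exact e2.trans (by rw [i1, i2])
  have hT12 : c2.tape (o .P1) = c.tape (o .P1) := by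
    rw [f2.tape (by decide), f1.tape (by decide)]
  have h3' : c2.head (o .P1) + ((3 * W : ℕ) : ℤ) = ((3 * (k + 1) * W : ℕ) : ℤ) := by
    rw [hP1]
    push_cast
    ring
  have ht4 : c4.tape (o .P1) = c3.tape (o .P1) := f4.tape (by decide)
  have hchange : ∀ x, ¬ (((3 * k * W : ℕ) : ℤ) ≤ x ∧ x < ((3 * k * W : ℕ) : ℤ) + ((3 * W : ℕ) : ℤ)) → c3.tape (o .P1) x = c.tape (o .P1) x := by
    intro x hx
    rw [← hP1] at hx
    rw [v3 x hx, hT12]
  refine ⟨c4, ?_, ⟨g4, ?_, ?_, ?_, ?_, ?_, ?_⟩, ?_, ?_⟩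
  · refine (r1.seq (r2.seq (r3.seq r4))).mono ?_
    unfold ChC
    omega
  · rw [f4.tape (by decide), f3.tape (by decide), f2.tape (by decide), f1.tape (by decide)]
    exact hI.t3
  · rw [f4.head (by decide), f3.head (by decide), f2.head (by decide), h1]
    rfl
  · rw [f4.head (by decide), h3, h3']
  · intro l hl
    rw [ht4]
    by_cases hlk : l < k
    · exact (hI.sl l hlk).keep hchange (by
        have : 3 * (l + 1) * W ≤ 3 * k * W := Nat.mul_le_mul_right _ (by omega)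
        exact this)
    · have hlk' : l = k := by omega
      subst hlk'
      rw [hP1] at v0 v1 v2
      rw [← hE]
      exact slot_written v0 v1 v2 l2.1 l2.2
  · intro x hx
    rw [ht4, hchange x (by
      intro hh
      push_cast at hx hh
      have e : ((3 : ℤ) * ((k : ℤ) + 1) * (W : ℤ)) = 3 * (k : ℤ) * W + 3 * W := by ring
      omega)]
    apply hI.rest x
    have : ((3 * k * W : ℕ) : ℤ) ≤ ((3 * (k + 1) * W : ℕ) : ℤ) := by
      have : 3 * k * W ≤ 3 * (k + 1) * W := Nat.mul_le_mul_right _ (by omega)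
      exact_mod_cast this
    omega
  · have f5 : Fr (.P1 :: gA) [.P1, .P3] c c4 := f1.tr (f2.tr (f3.tr f4
      (l2 := .P1 :: gA) (m2 := [.P1]) (by simp) (by simp))
      (l2 := .P1 :: gA) (m2 := [.P1]) (by simp) (by simp))
      (by simp) (by simp)
    exact hI.fr.tr f5 (by simp) (by simp)
  · rw [f4.tape (by decide), f3.tape (by decide), f2.tape (by decide), f1.tape (by decide)]
  · rw [f4.head (by decide), f3.head (by decide), f2.head (by decide), f1.head (by decide)]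

/-- The body of the kernel loop. -/
def kernB (sm : Prog (FT ⊕ X) (Sym G)) : Prog (FT ⊕ X) (Sym G) :=
  .seq (wr3 .VA .VB .P2) (genStep sm)

/-- The invariant of the kernel loop. -/
structure KeI (K L W q : ℕ) (η : ZMod q) (v r s : Rq q η) (c0 : TC X G) (k : ℕ) (c : TC X G) : Prop where
  gn : GenI K L W q η v r s k c
  h2 : c.head (o .P2) = ((3 * k * W : ℕ) : ℤ)
  sl : ∀ l, l < k → SlotOK q W η (c.tape (o .P2)) l (gV v r s l)
  rest : ∀ x : ℤ, ((3 * k * W : ℕ) : ℤ) ≤ x → c.tape (o .P2) x = c0.tape (o .P2) x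
  fr : Fr (.P2 :: gA) [.R2N, .P2] c0 c

theorem kern_step {K L W q SC : ℕ} {η : ZMod q} {v r s : Rq q η} {c0 : TC X G}
    {sm : Prog (FT ⊕ X) (Sym G)} (ap : AP sm K L SC q) (hWK : W ≤ K) (hqW : q ≤ 2 ^ W)
    {k : ℕ} {c : TC X G} (hI : KeI K L W q η v r s c0 k c) :
    ∃ c', Run (kernB sm) c c' (20 * W + 20 + 2 * MP K SC) ∧ KeI K L W q η v r s c0 (k + 1) c' ∧
      c'.tape (o .R2N) = c.tape (o .R2N) ∧ c'.head (o .R2N) = c.head (o .R2N) := by
  have g0 := hI.gn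
  obtain ⟨c3, r3, h3, v0, v1, v2, v3, f3⟩ := wr3_spec .VA .VB .P2 rfl rfl rfl hWK g0.fe.toAlu
    (lt_of_lt_of_le g0.lV.1 hqW) (lt_of_lt_of_le g0.lV.2 hqW)
  have a3 : FE K L W q η c3 := g0.fe.of_gen f3 (by decide) (by decide) (by decide)
  have g3 := g0.of_scr a3 f3 (by decide)
  obtain ⟨c4, r4, g4, f4⟩ := g3.step ap
  have hP : c.head (o .P2) = ((3 * k * W : ℕ) : ℤ) := hI.h2
  have h3' : c.head (o .P2) + ((3 * W : ℕ) : ℤ) = ((3 * (k + 1) * W : ℕ) : ℤ) := by
    rw [hP]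
    push_cast
    ring
  have ht4 : c4.tape (o .P2) = c3.tape (o .P2) := f4.tape (by decide)
  have hchange : ∀ x, ¬ (((3 * k * W : ℕ) : ℤ) ≤ x ∧ x < ((3 * k * W : ℕ) : ℤ) + ((3 * W : ℕ) : ℤ)) → c3.tape (o .P2) x = c.tape (o .P2) x := by
    intro x hx
    rw [← hP] at hx
    rw [v3 x hx]
  refine ⟨c4, (r3.seq r4).mono (by omega), ⟨g4, ?_, ?_, ?_, ?_⟩, ?_, ?_⟩
  · rw [f4.head (by decide), h3, h3']
  · intro l hl
    rw [ht4]
    by_cases hlk : l < k
    · exact (hI.sl l hlk).keep hchange (by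
        have : 3 * (l + 1) * W ≤ 3 * k * W := Nat.mul_le_mul_right _ (by omega)
        exact this)
    · have hlk' : l = k := by omega
      subst hlk'
      rw [hP] at v0 v1 v2
      rw [← hI.gn.eV]
      exact slot_written v0 v1 v2 g0.lV.1 g0.lV.2
  · intro x hx
    rw [ht4, hchange x (by
      intro hh
      push_cast at hx hh
      have e : ((3 : ℤ) * ((k : ℤ) + 1) * (W : ℤ)) = 3 * (k : ℤ) * W + 3 * W := by ring
      omega)]
    apply hI.rest x
    have : ((3 * k * W : ℕ) : ℤ) ≤ ((3 * (k + 1) * W : ℕ) : ℤ) := by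
      have : 3 * k * W ≤ 3 * (k + 1) * W := Nat.mul_le_mul_right _ (by omega)
      exact_mod_cast this
    omega
  · have f5 : Fr (.P2 :: gA) [.P2] c c4 := f3.tr f4 (by simp) (by simp)
    exact hI.fr.tr f5 (by simp) (by simp)
  · rw [f4.tape (by decide), f3.tape (by decide)]
  · rw [f4.head (by decide), f3.head (by decide)]

/-- The specification of the big multiplication. -/
def BmulOK (bm : Prog (FT ⊕ X) (Sym G)) (n T : ℕ) : Prop :=
  ∀ c : TC X G, Ruler c (o .RB1) n → Ruler c (o .RB2) (2 * n) → c.head (o .P1) = 0 → c.head (o .P2) = 0 →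
    c.head (o .P3) = 0 → Clean c →
    ∃ c', Run bm c c' T ∧ vl (c'.tape (o .P3)) 0 (2 * n) = vl (c.tape (o .P1)) 0 n * vl (c.tape (o .P2)) 0 n ∧
      Fr [.P3] [] c c'

/-- The environment of a stage. -/
structure SE (K L W q N n : ℕ) (η : ZMod q) (c : TC X G) : Prop extends FE K L W q η c where
  rN : Ruler c (o .RN) N
  r2N : Ruler c (o .R2N) (2 * N)
  r3N : Ruler c (o .R3N) (3 * N * W)
  r6N : Ruler c (o .R6N) (6 * N * W)
  rB1 : Ruler c (o .RB1) n
  rB2 : Ruler c (o .RB2) (2 * n)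

/-- Tapes free for use without disturbing the environment of a stage. -/
def ne : FT → Bool
  | .RN | .R2N | .R3N | .R6N | .RB1 | .RB2 => false
  | a => na a

omit [DecidableEq X] in
theorem SE.of_gen {K L W q N n : ℕ} {η : ZMod q} {c c' : TC X G} {l m : List FT} (h : SE K L W q N n η c) (f : Fr l m c c')
    (hl : ∀ a ∈ l, wr a = true ∨ ne a = true) (hm : ∀ a ∈ m, ne a = true) (hE : FT.Eta ∉ l) : SE K L W q N n η c' := by
  have h1 : ∀ b, ne b = true → na b = true := by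
    intro b hb
    cases b <;> first | exact hb | exact absurd hb (by decide)
  have hn1 : ∀ b, wr b = false → ne b = false → b ∉ l := fun b hb hb2 hc => by
    have := hl b hc
    rw [hb, hb2] at this
    simp at this
  have hn2 : ∀ b, ne b = false → b ∉ m := fun b hb hc => by
    have := hm b hc
    rw [hb] at this
    exact absurd this (by simp)
  exact { toFE := h.toFE.of_gen f (fun a ha => (hl a ha).imp_right (h1 a)) (fun a ha => h1 a (hm a ha)) hE
          rN := h.rN.of_fr f (hn1 _ rfl rfl) (hn2 _ rfl)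
          r2N := h.r2N.of_fr f (hn1 _ rfl rfl) (hn2 _ rfl)
          r3N := h.r3N.of_fr f (hn1 _ rfl rfl) (hn2 _ rfl)
          r6N := h.r6N.of_fr f (hn1 _ rfl rfl) (hn2 _ rfl)
          rB1 := h.rB1.of_fr f (hn1 _ rfl rfl) (hn2 _ rfl)
          rB2 := h.rB2.of_fr f (hn1 _ rfl rfl) (hn2 _ rfl) }

omit [DecidableEq X] in
/-- Change of the arithmetic part of the environment. -/
theorem SE.of_fe {K L W q N n : ℕ} {η : ZMod q} {c c' : TC X G} {l m : List FT} (h : SE K L W q N n η c) (a : FE K L W q η c')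
    (f : Fr l m c c') (hl : ∀ a ∈ l, isReg a = true ∨ ne a = true) (hm : ∀ a ∈ m, ne a = true) : SE K L W q N n η c' := by
  have hn1 : ∀ b, isReg b = false → ne b = false → b ∉ l := fun b hb hb2 hc => by
    have := hl b hc
    rw [hb, hb2] at this
    simp at this
  have hn2 : ∀ b, ne b = false → b ∉ m := fun b hb hc => by
    have := hm b hc
    rw [hb] at this
    exact absurd this (by simp)
  exact { toFE := a
          rN := h.rN.of_fr f (hn1 _ rfl rfl) (hn2 _ rfl)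
          r2N := h.r2N.of_fr f (hn1 _ rfl rfl) (hn2 _ rfl)
          r3N := h.r3N.of_fr f (hn1 _ rfl rfl) (hn2 _ rfl)
          r6N := h.r6N.of_fr f (hn1 _ rfl rfl) (hn2 _ rfl)
          rB1 := h.rB1.of_fr f (hn1 _ rfl rfl) (hn2 _ rfl)
          rB2 := h.rB2.of_fr f (hn1 _ rfl rfl) (hn2 _ rfl) }

/-- The registers of the parameters of a generator. -/
structure GP where
  a1 : FT
  a2 : FT
  b1 : FT
  b2 : FT
  c1 : FT
  c2 : FT

/-- The condition on the registers of the parameters of a generator. -/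
def cRegK (A : FT) : Bool := isReg A && !(decide (A ∈ vT)) && !(decide (A ∈ mT))

/-- The registers of a generator are suitable. -/
def GP.ok (g : GP) : Bool := cRegK g.a1 && cRegK g.a2 && cRegK g.b1 && cRegK g.b2 && cRegK g.c1 && cRegK g.c2

/-- The parameters of a generator are reduced. -/
structure GP.Lt (K q : ℕ) (c : TC X G) (g : GP) : Prop where
  a : LtE K q c g.a1 g.a2
  b : LtE K q c g.b1 g.b2
  c : LtE K q c g.c1 g.c2

theorem cReg_of_K {A : FT} (h : cRegK A = true) : cReg A := by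
  simp only [cRegK, Bool.and_eq_true, Bool.not_eq_true', decide_eq_false_iff_not] at h
  exact ⟨h.1.1, h.1.2⟩

/-- Load a generator. -/
def loadP (g : GP) : Prog (FT ⊕ X) (Sym G) := loadG g.a1 g.a2 g.b1 g.b2 g.c1 g.c2

theorem loadP_spec {K L W q : ℕ} {η : ZMod q} (g : GP) (hg : g.ok = true) {c : TC X G} (h : FE K L W q η c) (hL : g.Lt K q c) :
    ∃ c', Run (loadP g : Prog (FT ⊕ X) (Sym G)) c c' (72 * K + 72) ∧
      GenI K L W q η (elt K q η c g.a1 g.a2) (elt K q η c g.b1 g.b2) (elt K q η c g.c1 g.c2) 0 c' ∧ Fr vT [] c c' := by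
  simp only [GP.ok, Bool.and_eq_true] at hg
  obtain ⟨⟨⟨⟨⟨i1, i2⟩, i3⟩, i4⟩, i5⟩, i6⟩ := hg
  obtain ⟨c1, r1, a1, v1, v2, v3, v4, v5, v6, f1⟩ := loadG_spec g.a1 g.a2 g.b1 g.b2 g.c1 g.c2
    ⟨cReg_of_K i1, cReg_of_K i2, cReg_of_K i3, cReg_of_K i4, cReg_of_K i5, cReg_of_K i6⟩ h
  refine ⟨c1, r1, ⟨a1, ⟨?_, ?_⟩, ⟨?_, ?_⟩, ⟨?_, ?_⟩, ?_, ?_, ?_⟩, f1⟩
  · rw [v1]; exact hL.a.1
  · rw [v2]; exact hL.a.2
  · rw [v3]; exact hL.b.1
  · rw [v4]; exact hL.b.2
  · rw [v5]; exact hL.c.1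
  · rw [v6]; exact hL.c.2
  · simp only [elt]; rw [v5, v6]
  · simp only [elt]; rw [v1, v2, gV_zero]
  · simp only [elt]; rw [v3, v4, gR_zero]

/-- The phase part of a stage. -/
def chirpP (sm : Prog (FT ⊕ X) (Sym G)) (g : GP) : Prog (FT ⊕ X) (Sym G) :=
  .seq (adv .R3N .P3 .R) (.seq (loadP g) (.seq (forR (o .RN) (chirpB sm)) (.seq (adv .R6N .P3 .L) (adv .R3N .P1 .L))))

/-- The kernel part of a stage. -/
def kernP (sm : Prog (FT ⊕ X) (Sym G)) (g : GP) : Prog (FT ⊕ X) (Sym G) :=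
  .seq (loadP g) (.seq (forR (o .R2N) (kernB sm)) (adv .R6N .P2 .L))

/-- One stage: phase `g`, then convolution with the phase `g'`. -/
def stage (sm bm : Prog (FT ⊕ X) (Sym G)) (g g' : GP) : Prog (FT ⊕ X) (Sym G) :=
  .seq (chirpP sm g) (.seq (kernP sm g') bm)

/-- The numerical conditions of a stage. -/
structure SP (K W q N n : ℕ) : Prop where
  hWK : W ≤ K
  hWq : 2 ^ W + q * q ≤ 2 ^ K
  hqW : q ≤ 2 ^ W
  h6 : 6 * N * W ≤ n
  hb : 2 * (N * ((q - 1) * (q - 1))) < 2 ^ W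

/-- The list of tapes changed by a stage. -/
abbrev sT : List FT := .P1 :: .P2 :: .P3 :: .VA :: .VB :: .RA :: .RB :: .SA :: .SB :: mT

theorem cRegK_not_sT {A : FT} (hA : cRegK A = true) : A ∉ sT := by
  simp only [cRegK, Bool.and_eq_true, Bool.not_eq_true', decide_eq_false_iff_not] at hA
  obtain ⟨⟨i1, i2⟩, i3⟩ := hA
  intro hm
  simp only [sT, List.mem_cons, List.not_mem_nil, or_false] at hm
  rcases hm with rfl | rfl | rfl | hm
  · exact absurd i1 (by decide)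
  · exact absurd i1 (by decide)
  · exact absurd i1 (by decide)
  · apply i3
    simp only [mT, vT, List.mem_cons, List.not_mem_nil, or_false] at i2 i3 ⊢
    tauto

theorem GP.ok_not (g : GP) (hg : g.ok = true) : g.a1 ∉ sT ∧ g.a2 ∉ sT ∧ g.b1 ∉ sT ∧ g.b2 ∉ sT ∧ g.c1 ∉ sT ∧ g.c2 ∉ sT := by
  simp only [GP.ok, Bool.and_eq_true] at hg
  obtain ⟨⟨⟨⟨⟨i1, i2⟩, i3⟩, i4⟩, i5⟩, i6⟩ := hg
  exact ⟨cRegK_not_sT i1, cRegK_not_sT i2, cRegK_not_sT i3, cRegK_not_sT i4, cRegK_not_sT i5, cRegK_not_sT i6⟩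

omit [DecidableEq X] in
theorem GP.Lt.keep {K q : ℕ} {g : GP} {c c' : TC X G} {l m : List FT} (hg : g.ok = true) (hL : g.Lt K q c) (f : Fr l m c c')
    (hl : ∀ a ∈ l, a ∈ sT) : g.Lt K q c' := by
  obtain ⟨i1, i2, i3, i4, i5, i6⟩ := GP.ok_not g hg
  have n : ∀ a, a ∉ sT → a ∉ l := fun a ha hb => ha (hl a hb)
  exact ⟨hL.a.of_fr f (n _ i1) (n _ i2), hL.b.of_fr f (n _ i3) (n _ i4), hL.c.of_fr f (n _ i5) (n _ i6)⟩

/-- The values of the parameters of a generator. -/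
def GP.vv {q : ℕ} (K : ℕ) (η : ZMod q) (c : TC X G) (g : GP) : Rq q η × Rq q η × Rq q η :=
  (elt K q η c g.a1 g.a2, elt K q η c g.b1 g.b2, elt K q η c g.c1 g.c2)

omit [DecidableEq X] in
theorem GP.vv_keep {K q : ℕ} {η : ZMod q} {g : GP} {c c' : TC X G} {l m : List FT} (hg : g.ok = true) (f : Fr l m c c')
    (hl : ∀ a ∈ l, a ∈ sT) : GP.vv K η c' g = GP.vv K η c g := by
  obtain ⟨i1, i2, i3, i4, i5, i6⟩ := GP.ok_not g hg
  have n : ∀ a, a ∉ sT → a ∉ l := fun a ha hb => ha (hl a hb)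
  simp only [GP.vv]
  rw [elt_of_fr f (n _ i1) (n _ i2), elt_of_fr f (n _ i3) (n _ i4), elt_of_fr f (n _ i5) (n _ i6)]

/-- The cost of the phase part. -/
def CPC (K W SC N : ℕ) : ℕ := 72 * K + 72 + N * (ChC K W SC + 4) + 4 + 48 * (N * W) + 12

theorem chirpP_spec {K L W q SC N n : ℕ} {η : ZMod q} {sm : Prog (FT ⊕ X) (Sym G)} (ap : AP sm K L SC q) (sp : SP K W q N n)
    (g : GP) (hg : g.ok = true) {c : TC X G} (h : SE K L W q N n η c)
    (h1 : c.head (o .P1) = 0) (h3 : c.head (o .P3) = 0)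
    (hL : g.Lt K q c) (f : ℕ → Rq q η) {v r sg : Rq q η} (hv : GP.vv K η c g = (v, r, sg))
    (hf : ∀ k, k < N → slE q η W (c.tape (o .P3)) (N + k) = f k) :
    ∃ c', Run (chirpP sm g) c c' (CPC K W SC N) ∧ SE K L W q N n η c' ∧ c'.head (o .P1) = 0 ∧ c'.head (o .P3) = 0 ∧
      (∀ l, l < N → SlotOK q W η (c'.tape (o .P1)) l (f l * gV v r sg l)) ∧
      (∀ x : ℤ, ((3 * N * W : ℕ) : ℤ) ≤ x → c'.tape (o .P1) x = c.tape (o .P1) x) ∧
      Fr (.P1 :: gA ++ vT) [.P1, .P3] c c' := by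
  obtain ⟨c1, r1, a1, f1⟩ := adv_spec (X := X) (G := G) .R3N .P3 .R (by decide) (by simp) c h.r3N
  have se1 : SE K L W q N n η c1 := h.of_gen f1 (by decide) (by decide) (by decide)
  obtain ⟨c2, r2, g2, f2⟩ := loadP_spec g hg se1.toFE (hL.keep hg f1 (by simp))
  have hv1 : GP.vv K η c1 g = (v, r, sg) := by rw [GP.vv_keep hg f1 (by simp), hv]
  simp only [GP.vv, Prod.mk.injEq] at hv1
  rw [hv1.1, hv1.2.1, hv1.2.2] at g2
  have se2 : SE K L W q N n η c2 := se1.of_fe g2.fe f2 (by decide) (by simp)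
  have hP3t : c2.tape (o .P3) = c.tape (o .P3) := by
    rw [f2.tape (by decide), f1.tape (by simp)]
  have hP1t : c2.tape (o .P1) = c.tape (o .P1) := by
    rw [f2.tape (by decide), f1.tape (by simp)]
  obtain ⟨c3, i3, hRN3, r3⟩ := forU (R := .RN) (body := chirpB sm) (n := N) (ChI K L W q N η v r sg f c2) (ChC K W SC)
    (c := c2) se2.rN
    (by
      refine ⟨g2, rfl, ?_, ?_, ?_, fun _ _ => rfl, Fr.refl _ _ _⟩
      · rw [f2.head (by simp), a1, h3]
        simp [Dir.toInt]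
      · rw [f2.head (by simp), f1.head (by decide), h1]
        simp
      · intro l hl; omega)
    (by
      intro i c c' hI hf'
      have tP1 : c'.tape (o .P1) = c.tape (o .P1) := hf'.tape (by simp)
      refine ⟨hI.gn.of_fr hf' (by simp) (by decide), ?_, ?_, ?_, ?_, ?_, ?_⟩
      · rw [hf'.tape (by simp)]; exact hI.t3
      · rw [hf'.head (by decide)]; exact hI.h3
      · rw [hf'.head (by decide)]; exact hI.h1
      · intro l hl
        rw [tP1]
        exact hI.sl l hl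
      · intro x hx
        rw [tP1]
        exact hI.rest x hx
      · exact hI.fr.tr hf' (by simp) (by simp))
    (by
      intro i hi c _ _ hI
      exact chirp_step ap sp.hWK sp.hWq sp.hqW (by
        intro k hk
        rw [hP3t]
        exact hf k hk) hi hI)
  have f3 : Fr (.P1 :: gA) [.P1, .P3] c2 c3 := i3.fr.fixR se2.rN hRN3
  have se3 : SE K L W q N n η c3 := se2.of_fe i3.gn.fe f3 (by decide) (by decide)
  obtain ⟨c4, r4, a4, f4⟩ := adv_spec (X := X) (G := G) .R6N .P3 .L (by decide) (by simp) c3 se3.r6N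
  have se4 : SE K L W q N n η c4 := se3.of_gen f4 (by decide) (by decide) (by decide)
  obtain ⟨c5, r5, a5, f5⟩ := adv_spec (X := X) (G := G) .R3N .P1 .L (by decide) (by simp) c4 se4.r3N
  have se5 : SE K L W q N n η c5 := se4.of_gen f5 (by decide) (by decide) (by decide)
  have hP3h3 : c3.head (o .P3) = ((6 * N * W : ℕ) : ℤ) := by
    rw [i3.h3]
    congr 1
    ring
  have hP1h3 : c3.head (o .P1) = ((3 * N * W : ℕ) : ℤ) := i3.h1
  have tP1a : c5.tape (o .P1) = c3.tape (o .P1) := by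
    rw [f5.tape (by simp), f4.tape (by simp)]
  refine ⟨c5, ?_, se5, ?_, ?_, ?_, ?_, ?_⟩
  · refine (r1.seq (r2.seq (r3.seq (r4.seq r5)))).mono ?_
    unfold CPC
    have e1 : 3 * N * W = 3 * (N * W) := by ring
    have e2 : 6 * N * W = 6 * (N * W) := by ring
    rw [e1, e2]
    omega
  · rw [a5, f4.head (by decide), hP1h3]
    simp [Dir.toInt]
  · rw [f5.head (by decide), a4, hP3h3]
    simp [Dir.toInt]
  · intro l hl
    rw [tP1a]
    exact i3.sl l hl
  · intro x hx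
    rw [tP1a, i3.rest x hx, hP1t]
  · exact (f1.trans (f2.trans (f3.trans (f4.trans f5)))).mono (by simp) (by simp)

/-- The cost of the kernel part. -/
def KPC (K W SC N : ℕ) : ℕ := 72 * K + 72 + 2 * N * (20 * W + 20 + 2 * MP K SC + 4) + 4 + 24 * (N * W) + 4

theorem kernP_spec {K L W q SC N n : ℕ} {η : ZMod q} {sm : Prog (FT ⊕ X) (Sym G)} (ap : AP sm K L SC q) (sp : SP K W q N n)
    (g : GP) (hg : g.ok = true) {c : TC X G} (h : SE K L W q N n η c)
    (h2 : c.head (o .P2) = 0) (hL : g.Lt K q c) {v r sg : Rq q η} (hv : GP.vv K η c g = (v, r, sg)) :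
    ∃ c', Run (kernP sm g) c c' (KPC K W SC N) ∧ SE K L W q N n η c' ∧ c'.head (o .P2) = 0 ∧
      (∀ l, l < 2 * N → SlotOK q W η (c'.tape (o .P2)) l (gV v r sg l)) ∧
      (∀ x : ℤ, ((6 * N * W : ℕ) : ℤ) ≤ x → c'.tape (o .P2) x = c.tape (o .P2) x) ∧
      Fr (.P2 :: gA ++ vT) [.P2] c c' := by
  obtain ⟨c2, r2, g2, f2⟩ := loadP_spec g hg h.toFE hL
  simp only [GP.vv, Prod.mk.injEq] at hv
  rw [hv.1, hv.2.1, hv.2.2] at g2
  have se2 : SE K L W q N n η c2 := h.of_fe g2.fe f2 (by decide) (by simp)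
  obtain ⟨c3, i3, hR3, r3⟩ := forU (R := .R2N) (body := kernB sm) (n := 2 * N) (KeI K L W q η v r sg c2) (20 * W + 20 + 2 * MP K SC)
    (c := c2) se2.r2N
    (by
      refine ⟨g2, ?_, ?_, fun _ _ => rfl, Fr.refl _ _ _⟩
      · rw [f2.head (by simp), h2]
        simp
      · intro l hl; omega)
    (by
      intro i c c' hI hf'
      have tP2 : c'.tape (o .P2) = c.tape (o .P2) := hf'.tape (by simp)
      refine ⟨hI.gn.of_fr hf' (by simp) (by decide), ?_, ?_, ?_, ?_⟩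
      · rw [hf'.head (by decide)]; exact hI.h2
      · intro l hl
        rw [tP2]
        exact hI.sl l hl
      · intro x hx
        rw [tP2]
        exact hI.rest x hx
      · exact hI.fr.tr hf' (by simp) (by simp))
    (by
      intro i _ c _ _ hI
      exact kern_step ap sp.hWK sp.hqW hI)
  have f3 : Fr (.P2 :: gA) [.P2] c2 c3 := i3.fr.fixR se2.r2N hR3
  have se3 : SE K L W q N n η c3 := se2.of_fe i3.gn.fe f3 (by decide) (by decide)
  obtain ⟨c4, r4, a4, f4⟩ := adv_spec (X := X) (G := G) .R6N .P2 .L (by decide) (by simp) c3 se3.r6N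
  have se4 : SE K L W q N n η c4 := se3.of_gen f4 (by decide) (by decide) (by decide)
  have hP2h3 : c3.head (o .P2) = ((6 * N * W : ℕ) : ℤ) := by
    rw [i3.h2]
    congr 1
    ring
  have tP2a : c4.tape (o .P2) = c3.tape (o .P2) := f4.tape (by simp)
  have tP2b : c2.tape (o .P2) = c.tape (o .P2) := f2.tape (by decide)
  refine ⟨c4, ?_, se4, ?_, ?_, ?_, ?_⟩
  · refine (r2.seq (r3.seq r4)).mono ?_
    unfold KPC
    have e2 : 6 * N * W = 6 * (N * W) := by ring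
    rw [e2]
    omega
  · rw [a4, hP2h3]
    simp [Dir.toInt]
  · intro l hl
    rw [tP2a]
    exact i3.sl l hl
  · intro x hx
    rw [tP2a, i3.rest x (by
      have e : 3 * (2 * N) * W = 6 * N * W := by ring
      rw [e]
      exact hx), tP2b]
  · exact (f2.trans (f3.trans f4)).mono (by simp) (by simp)

/-- The cost of a stage. -/
def STC (K W SC N TB : ℕ) : ℕ := CPC K W SC N + (KPC K W SC N + TB)

theorem stage_spec {K L W q SC N n TB : ℕ} {η : ZMod q} {sm bm : Prog (FT ⊕ X) (Sym G)} (ap : AP sm K L SC q) (sp : SP K W q N n)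
    (hbm : BmulOK bm n TB) (g g' : GP) (hg : g.ok = true) (hg' : g'.ok = true) {c : TC X G} (h : SE K L W q N n η c)
    (h1 : c.head (o .P1) = 0) (h2 : c.head (o .P2) = 0) (h3 : c.head (o .P3) = 0)
    (s1 : ∀ x : ℤ, ((3 * N * W : ℕ) : ℤ) ≤ x → (c.tape (o .P1) x).isOne = false)
    (s2 : ∀ x : ℤ, ((6 * N * W : ℕ) : ℤ) ≤ x → (c.tape (o .P2) x).isOne = false)
    (hL : g.Lt K q c) (hL' : g'.Lt K q c) (f : ℕ → Rq q η) {v r sg v' r' sg' : Rq q η}
    (hv : GP.vv K η c g = (v, r, sg)) (hv' : GP.vv K η c g' = (v', r', sg'))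
    (hf : ∀ k, k < N → slE q η W (c.tape (o .P3)) (N + k) = f k) :
    ∃ c', Run (stage sm bm g g') c c' (STC K W SC N TB) ∧ SE K L W q N n η c' ∧ c'.head (o .P1) = 0 ∧ c'.head (o .P2) = 0 ∧
      c'.head (o .P3) = 0 ∧
      (∀ x : ℤ, ((3 * N * W : ℕ) : ℤ) ≤ x → (c'.tape (o .P1) x).isOne = false) ∧
      (∀ x : ℤ, ((6 * N * W : ℕ) : ℤ) ≤ x → (c'.tape (o .P2) x).isOne = false) ∧
      (∀ k, k < N → slE q η W (c'.tape (o .P3)) (N + k) =
        ∑ l ∈ Finset.range N, (f l * gV v r sg l) * gV v' r' sg' (N + k - l)) ∧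
      Fr sT [] c c' := by
  obtain ⟨c1, r1, se1, p1, p3, sl1, re1, f1⟩ := chirpP_spec ap sp g hg h h1 h3 hL f hv hf
  have hv2 : GP.vv K η c1 g' = (v', r', sg') := by rw [GP.vv_keep hg' f1 (by simp), hv']
  obtain ⟨c2, r2, se2, p2, sl2, re2, f2⟩ := kernP_spec ap sp g' hg' se1 (by rw [f1.head (by decide), h2])
    (hL'.keep hg' f1 (by simp)) hv2
  have p1' : c2.head (o .P1) = 0 := by rw [f2.head (by decide), p1]
  have p3' : c2.head (o .P3) = 0 := by rw [f2.head (by decide), p3]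
  obtain ⟨c3, r3, hmul, f3⟩ := hbm c2 se2.rB1 se2.rB2 p1' p2 p3' se2.cl
  have se3 : SE K L W q N n η c3 := se2.of_gen f3 (by decide) (by simp) (by decide)
  have tP1 : c2.tape (o .P1) = c1.tape (o .P1) := f2.tape (by decide)
  have tP2 : c1.tape (o .P2) = c.tape (o .P2) := f1.tape (by decide)
  have hs1 : ∀ x : ℤ, ((3 * N * W : ℕ) : ℤ) ≤ x → (c2.tape (o .P1) x).isOne = false := by
    intro x hx
    rw [tP1, re1 x hx]
    exact s1 x hx
  have hs2 : ∀ x : ℤ, ((3 * (2 * N) * W : ℕ) : ℤ) ≤ x → (c2.tape (o .P2) x).isOne = false := by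
    intro x hx
    have e : 3 * (2 * N) * W = 6 * N * W := by ring
    rw [e] at hx
    rw [re2 x hx, tP2]
    exact s2 x hx
  have sl1' : ∀ l, l < N → SlotOK q W η (c2.tape (o .P1)) l (f l * gV v r sg l) := by
    intro l hl
    rw [tP1]
    exact sl1 l hl
  refine ⟨c3, (r1.seq (r2.seq r3)), se3, ?_, ?_, ?_, ?_, ?_, ?_, ?_⟩
  · rw [f3.head (by simp)]; exact p1'
  · rw [f3.head (by simp)]; exact p2
  · rw [f3.head (by simp)]; exact p3'
  · intro x hx
    rw [f3.tape (by simp)]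
    exact hs1 x hx
  · intro x hx
    rw [f3.tape (by simp)]
    apply hs2 x
    have e : 3 * (2 * N) * W = 6 * N * W := by ring
    rw [e]
    exact hx
  · intro k hk
    have key := window_product (q := q) (η := η) (A := q - 1) sp.h6 hmul hs1 hs2 (fun l hl => (sl1' l hl).z2) (fun l hl => (sl2 l hl).z2)
      (fun l hl => Nat.le_sub_one_of_lt (sl1' l hl).l0) (fun l hl => Nat.le_sub_one_of_lt (sl1' l hl).l1)
      (fun l hl => Nat.le_sub_one_of_lt (sl2 l hl).l0) (fun l hl => Nat.le_sub_one_of_lt (sl2 l hl).l1) sp.hb hk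
    rw [key]
    apply Finset.sum_congr rfl
    intro l hl
    have hl' := Finset.mem_range.1 hl
    rw [(sl1' l hl').e, (sl2 (N + k - l) (by omega)).e]
  · have f10 : Fr sT [.P1, .P2, .P3] c c3 := (f1.trans (f2.trans f3)).mono (by simp) (by simp)
    refine ⟨f10.tp, ?_, f10.cl⟩
    intro a _
    by_cases ha1 : a = .P1
    · subst ha1
      rw [f3.head (by simp), p1', h1]
    · by_cases ha2 : a = .P2
      · subst ha2
        rw [f3.head (by simp), p2, h2]
      · by_cases ha3 : a = .P3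
        · subst ha3
          rw [f3.head (by simp), p3', h3]
        · exact f10.hd a (by simp [ha1, ha2, ha3])

end

end Vale.Agent.Lib.P338.F
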