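import Vale.Agent.Lib.P338.Bits

/-!
Tapes of the single scale reduction, frames, and register operations with head restoration.
-/

namespace Vale.Agent.Lib.P338.F

open Vale.Agent.Lib.P338 Prog

/-- The own tapes of the machine. -/
inductive FT
  -- input, output, data, scratch
  | In | Out | D | T1 | T2
  -- the big multiplication: operands, product, rulers
  | P1 | P2 | P3 | RB1 | RB2 | R3N | R6N
  -- the small multiplication: operands, product, rulers
  | X1 | X2 | X3 | RS | R2S | RL | RW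
  -- arithmetic registers
  | Cy | Fl | Tz | Y0 | Y1 | Y2 | Y3 | FA | FB | GA | GB | ZA | ZB | Qr | Mu | Eta | One | Zer | MTw
  -- generator registers and constants
  | VA | VB | RA | RB | SA | SB
  | WA | WB | IA | IB | QA | QB | MA | MB | DA | DB | AA | BA | BB | CA | PA | PB | SF
  -- rulers
  | Rm | Rdf | Rmp | Rn | RP | Rs | Rrh | Rq | RqM | RqP | Rp | RN | R2N | RNM | RU | RUp | RQd
  | RK | RZ | RKZ | RZt | RKZt | Rt | Rpt | Rsv | Sv | RA1 | RKp | Tmp | Tmq | Tmr
  | Ea1 | Eb1 | Ea2 | Eb2 | Rq2 | RqMM | RAA | Ra | Rap | Rkk | RX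
  deriving DecidableEq

section
variable {X G : Type}

/-- An own tape. -/
abbrev o (a : FT) : FT ⊕ X := Sum.inl a

/-- Configurations. -/
abbrev TC (X G : Type) := TS (FT ⊕ X) (Sym G)

/-- The simulated tapes are blank. -/
def Clean (c : TC X G) : Prop := ∀ t x, c.tape (Sum.inr t) x = .blank

/-- The frame of a computation: outside `l` the contents of the own tapes are kept, outside `m` the head
positions of the own tapes are kept, and blank simulated tapes stay blank. -/
structure Fr (l m : List FT) (c c' : TC X G) : Prop where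
  tp : ∀ a, a ∉ l → c'.tape (o a) = c.tape (o a)
  hd : ∀ a, a ∉ m → c'.head (o a) = c.head (o a)
  cl : Clean c → Clean c'

theorem Fr.refl (l m : List FT) (c : TC X G) : Fr l m c c := ⟨fun _ _ => rfl, fun _ _ => rfl, id⟩

theorem Fr.trans {l m l' m' : List FT} {c c1 c2 : TC X G} (h : Fr l m c c1) (h' : Fr l' m' c1 c2) :
    Fr (l ++ l') (m ++ m') c c2 := by
  refine ⟨?_, ?_, fun hc => h'.cl (h.cl hc)⟩
  · intro a ha
    simp only [List.mem_append, not_or] at ha
    rw [h'.tp a ha.2, h.tp a ha.1]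
  · intro a ha
    simp only [List.mem_append, not_or] at ha
    rw [h'.hd a ha.2, h.hd a ha.1]

theorem Fr.mono {l m l' m' : List FT} {c c' : TC X G} (h : Fr l m c c') (hl : ∀ a ∈ l, a ∈ l')
    (hm : ∀ a ∈ m, a ∈ m') : Fr l' m' c c' :=
  ⟨fun a ha => h.tp a fun h2 => ha (hl a h2), fun a ha => h.hd a fun h2 => ha (hm a h2), h.cl⟩

/-- Composition with target lists. -/
theorem Fr.tr {l m l' m' l2 m2 : List FT} {c c1 c2 : TC X G} (h : Fr l m c c1) (h' : Fr l' m' c1 c2)
    (hl : ∀ a ∈ l ++ l', a ∈ l2) (hm : ∀ a ∈ m ++ m', a ∈ m2) : Fr l2 m2 c c2 :=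
  (h.trans h').mono hl hm

theorem Fr.tape {l m : List FT} {c c' : TC X G} (h : Fr l m c c') {a : FT} (ha : a ∉ l) :
    c'.tape (o a) = c.tape (o a) := h.tp a ha

theorem Fr.head {l m : List FT} {c c' : TC X G} (h : Fr l m c c') {a : FT} (ha : a ∉ m) :
    c'.head (o a) = c.head (o a) := h.hd a ha

/-- From a frame given by a list of tapes. -/
theorem Fr.of_same {L : List (FT ⊕ X)} {l m : List FT} {c c' : TC X G} (h : Same L c c')
    (hL : ∀ t : X, (Sum.inr t : FT ⊕ X) ∉ L)
    (ht : ∀ a, a ∉ l → (o a : FT ⊕ X) ∈ L → c'.tape (o a) = c.tape (o a))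
    (hh : ∀ a, a ∉ m → (o a : FT ⊕ X) ∈ L → c'.head (o a) = c.head (o a)) : Fr l m c c' := by
  refine ⟨?_, ?_, ?_⟩
  · intro a ha
    by_cases hm : (o a : FT ⊕ X) ∈ L
    · exact ht a ha hm
    · exact h.tape hm
  · intro a ha
    by_cases hm : (o a : FT ⊕ X) ∈ L
    · exact hh a ha hm
    · exact h.head hm
  · intro hc t x
    rw [h.tape (hL t)]
    exact hc t x

theorem _root_.Vale.Agent.Lib.P338.Ruler.of_fr {c c' : TC X G} {R : FT} {n : ℕ} (h : Ruler c (o R) n) {l m : List FT} (hs : Fr l m c c')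
    (h1 : R ∉ l) (h2 : R ∉ m) : Ruler c' (o R) n :=
  ⟨(hs.tape h1).trans h.1, (hs.head h2).trans h.2⟩

variable [DecidableEq X]

/-- Copy a bit. -/
def bitW (s : Sym G) : Sym G := Sym.ofBit s.isOne

@[simp] theorem isOne_bitW (s : Sym G) : (bitW s).isOne = s.isOne := by simp [bitW]
@[simp] theorem nonBlank_bitW (s : Sym G) : (bitW s).nonBlank = true := by simp [bitW]

/-- Zero `n` cells from the head; the head returns. -/
def zro (R Y : FT) : Prog (FT ⊕ X) (Sym G) :=
  .seq (fillBy (o R) (o Y) .zero) (mvBy (o R) (o Y) .L)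

/-- Copy `n` cells; both heads return. -/
def cpy (R S Y : FT) : Prog (FT ⊕ X) (Sym G) :=
  .seq (copyD (o R) (o S) .R (o Y) .R bitW) (.seq (mvBy (o R) (o S) .L) (mvBy (o R) (o Y) .L))

/-- Copy `n` cells; the source advances, the target head returns. -/
def lod (R S Y : FT) : Prog (FT ⊕ X) (Sym G) :=
  .seq (copyD (o R) (o S) .R (o Y) .R bitW) (mvBy (o R) (o Y) .L)

/-- Copy `n` cells; the target advances, the source head returns. -/
def sto (R S Y : FT) : Prog (FT ⊕ X) (Sym G) :=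
  .seq (copyD (o R) (o S) .R (o Y) .R bitW) (mvBy (o R) (o S) .L)

/-- Copy `n` cells; both heads advance. -/
def str (R S Y : FT) : Prog (FT ⊕ X) (Sym G) := copyD (o R) (o S) .R (o Y) .R bitW

/-- Move a head. -/
abbrev adv (R Y : FT) (d : Dir) : Prog (FT ⊕ X) (Sym G) := mvBy (o R) (o Y) d

/-- Add; heads return, the carry cell is reset. -/
def addR (R Y S : FT) : Prog (FT ⊕ X) (Sym G) :=
  .seq (faPass addOp (o R) (o Y) (o S) .R (o .Cy))
    (.seq (mvBy (o R) (o S) .L) (act1 (o .Cy) (fun _ => .zero) .S))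

/-- Subtract; heads return, the carry cell holds the borrow. -/
def subR (R Y S : FT) : Prog (FT ⊕ X) (Sym G) :=
  .seq (faPass subOp (o R) (o Y) (o S) .R (o .Cy)) (mvBy (o R) (o S) .L)

omit [DecidableEq X] in
theorem lt_of_pow_le_aux {a b : ℕ} (h : a < b) : a + 1 ≤ b := h

theorem adv_spec (R Y : FT) (d : Dir) (h1 : R ≠ Y) (hd : d ≠ .S) (c : TC X G) {n : ℕ} (hR : Ruler c (o R) n) :
    ∃ c', Run (adv R Y d : Prog (FT ⊕ X) (Sym G)) c c' (4 * n + 4) ∧
      c'.head (o Y) = c.head (o Y) + n * d.toInt ∧ Fr [] [Y] c c' := by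
  obtain ⟨c1, r1, a1, a2, s1⟩ := mvBy_spec (o R) (o Y) d (by simpa using h1) hd c hR
  refine ⟨c1, r1, a1, Fr.of_same s1 (by simp) ?_ ?_⟩
  · intro a _ ha
    simp only [List.mem_singleton, Sum.inl.injEq] at ha
    subst ha
    exact a2
  · intro a ha hb
    simp only [List.mem_singleton, Sum.inl.injEq] at hb
    subst hb
    simp at ha

theorem zro_spec (R Y : FT) (h1 : R ≠ Y) (c : TC X G) {n : ℕ} (hR : Ruler c (o R) n) :
    ∃ c', Run (zro R Y : Prog (FT ⊕ X) (Sym G)) c c' (8 * n + 8) ∧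
      (∀ x, c'.tape (o Y) x = if c.head (o Y) ≤ x ∧ x < c.head (o Y) + n then .zero else c.tape (o Y) x) ∧
      Fr [Y] [] c c' := by
  have hRY : (o R : FT ⊕ X) ≠ o Y := by simpa using h1
  obtain ⟨c1, r1, a1, a2, s1⟩ := fillBy_spec (o R) (o Y) .zero hRY c hR
  obtain ⟨c2, r2, b1, b2, s2⟩ := mvBy_spec (o R) (o Y) .L hRY (by simp) c1 (hR.of_same s1 (by simpa using h1))
  refine ⟨c2, (r1.seq r2).mono (by omega), ?_, ?_⟩
  · intro x
    rw [b2, a2]
  · have hh : c2.head (o Y) = c.head (o Y) := by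
      rw [b1, a1]
      simp [Dir.toInt]
    refine Fr.of_same (L := [o Y]) ((s1.trans s2).mono (by simp)) (by simp) ?_ ?_
    · intro a ha hb
      simp only [List.mem_cons, List.not_mem_nil, or_false, Sum.inl.injEq] at ha hb
      exact absurd hb ha
    · intro a _ hb
      simp only [List.mem_cons, List.not_mem_nil, or_false, Sum.inl.injEq] at hb
      subst hb
      exact hh

/-- The window of a copy. -/
theorem cell_of_copy {τ τ' σ : ℤ → Sym G} {h hs : ℤ} {n : ℕ}
    (hit : ∀ j : ℕ, j < n → τ' (h + j * Dir.R.toInt) = bitW (σ (hs + j * Dir.R.toInt)))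
    (miss : ∀ x, (∀ j : ℕ, j < n → x ≠ h + j * Dir.R.toInt) → τ' x = τ x) :
    ∀ x, τ' x = if h ≤ x ∧ x < h + n then bitW (σ (hs + (x - h))) else τ x := by
  intro x
  by_cases hx : h ≤ x ∧ x < h + n
  · rw [if_pos hx]
    have := hit (x - h).toNat (by omega)
    simp only [Dir.toInt, mul_one] at this
    have e1 : h + ((x - h).toNat : ℤ) = x := by omega
    have e2 : ((x - h).toNat : ℤ) = x - h := by omega
    rw [e1, e2] at this
    exact this
  · rw [if_neg hx]
    exact miss x (trail_R.2 hx)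

theorem str_spec (R S Y : FT) (h : [R, S, Y].Nodup) (c : TC X G) {n : ℕ} (hR : Ruler c (o R) n) :
    ∃ c', Run (str R S Y : Prog (FT ⊕ X) (Sym G)) c c' (4 * n + 4) ∧
      c'.head (o S) = c.head (o S) + n ∧ c'.head (o Y) = c.head (o Y) + n ∧
      (∀ x, c'.tape (o Y) x = if c.head (o Y) ≤ x ∧ x < c.head (o Y) + n
        then bitW (c.tape (o S) (c.head (o S) + (x - c.head (o Y)))) else c.tape (o Y) x) ∧
      Fr [Y] [S, Y] c c' := by
  simp only [List.nodup_cons, List.mem_cons, List.not_mem_nil, or_false, not_or] at h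
  have h1 : (o R : FT ⊕ X) ≠ o S := by simpa using h.1.1
  have h2 : (o R : FT ⊕ X) ≠ o Y := by simpa using h.1.2
  have h3 : (o S : FT ⊕ X) ≠ o Y := by simpa using h.2.1
  obtain ⟨c1, r1, a1, a2, a3, a4, a5, s1⟩ := copyD_spec (o R) (o S) .R (o Y) .R bitW h1 h2 h3 (by simp) (by simp) c hR
  refine ⟨c1, r1, by rw [a1]; simp [Dir.toInt], by rw [a3]; simp [Dir.toInt], ?_, ?_⟩
  · exact cell_of_copy (σ := c.tape (o S)) a4 a5
  · refine Fr.of_same s1 (by simp) ?_ ?_
    · intro a ha hb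
      simp only [List.mem_cons, List.not_mem_nil, or_false, Sum.inl.injEq] at ha hb
      rcases hb with rfl | rfl
      · exact a2
      · exact absurd rfl ha
    · intro a ha hb
      simp only [List.mem_cons, List.not_mem_nil, or_false, Sum.inl.injEq] at ha hb
      exact absurd hb ha

theorem cpy_spec (R S Y : FT) (h : [R, S, Y].Nodup) (c : TC X G) {n : ℕ} (hR : Ruler c (o R) n) :
    ∃ c', Run (cpy R S Y : Prog (FT ⊕ X) (Sym G)) c c' (12 * n + 12) ∧
      (∀ x, c'.tape (o Y) x = if c.head (o Y) ≤ x ∧ x < c.head (o Y) + n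
        then bitW (c.tape (o S) (c.head (o S) + (x - c.head (o Y)))) else c.tape (o Y) x) ∧
      Fr [Y] [] c c' := by
  have h' := h
  simp only [List.nodup_cons, List.mem_cons, List.not_mem_nil, or_false, not_or] at h'
  obtain ⟨c1, r1, a1, a2, a3, s1⟩ := str_spec R S Y h c hR
  have hR1 := hR.of_fr s1 (by simpa using h'.1.2) (by simp; exact h'.1)
  obtain ⟨c2, r2, b1, s2⟩ := adv_spec R S .L h'.1.1 (by simp) c1 hR1
  obtain ⟨c3, r3, d1, s3⟩ := adv_spec R Y .L h'.1.2 (by simp) c2 (hR1.of_fr s2 (by simp) (by simpa using h'.1.1))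
  have s4 : Fr [Y] [S, Y] c c3 := (s1.trans (s2.trans s3)).mono (by simp) (by simp)
  refine ⟨c3, (r1.seq (r2.seq r3)).mono (by omega), ?_, ?_⟩
  · intro x
    have e : c3.tape (o Y) = c1.tape (o Y) := by
      rw [s3.tape (by simp), s2.tape (by simp)]
    rw [e]
    exact a3 x
  · refine ⟨s4.tp, ?_, s4.cl⟩
    intro a _
    by_cases ha : a = S
    · subst ha
      rw [s3.head (by simpa using h'.2.1), b1, a1]
      simp [Dir.toInt]
    · by_cases hb : a = Y
      · subst hb
        rw [d1, s2.head (by simpa using (Ne.symm h'.2.1)), a2]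
        simp [Dir.toInt]
      · exact s4.hd a (by simp [ha, hb])

theorem lod_spec (R S Y : FT) (h : [R, S, Y].Nodup) (c : TC X G) {n : ℕ} (hR : Ruler c (o R) n) :
    ∃ c', Run (lod R S Y : Prog (FT ⊕ X) (Sym G)) c c' (8 * n + 8) ∧
      c'.head (o S) = c.head (o S) + n ∧
      (∀ x, c'.tape (o Y) x = if c.head (o Y) ≤ x ∧ x < c.head (o Y) + n
        then bitW (c.tape (o S) (c.head (o S) + (x - c.head (o Y)))) else c.tape (o Y) x) ∧
      Fr [Y] [S] c c' := by
  have h' := h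
  simp only [List.nodup_cons, List.mem_cons, List.not_mem_nil, or_false, not_or] at h'
  obtain ⟨c1, r1, a1, a2, a3, s1⟩ := str_spec R S Y h c hR
  have hR1 := hR.of_fr s1 (by simpa using h'.1.2) (by simp; exact h'.1)
  obtain ⟨c3, r3, d1, s3⟩ := adv_spec R Y .L h'.1.2 (by simp) c1 hR1
  have s4 : Fr [Y] [S, Y] c c3 := s1.tr s3 (by simp) (by simp)
  refine ⟨c3, (r1.seq r3).mono (by omega), ?_, ?_, ?_⟩
  · rw [s3.head (by simpa using h'.2.1), a1]
  · intro x
    rw [s3.tape (by simp)]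
    exact a3 x
  · refine ⟨s4.tp, ?_, s4.cl⟩
    intro a ha
    by_cases hb : a = Y
    · subst hb
      rw [d1, a2]
      simp [Dir.toInt]
    · exact s4.hd a (by simp; simp at ha; exact ⟨ha, hb⟩)

theorem sto_spec (R S Y : FT) (h : [R, S, Y].Nodup) (c : TC X G) {n : ℕ} (hR : Ruler c (o R) n) :
    ∃ c', Run (sto R S Y : Prog (FT ⊕ X) (Sym G)) c c' (8 * n + 8) ∧
      c'.head (o Y) = c.head (o Y) + n ∧
      (∀ x, c'.tape (o Y) x = if c.head (o Y) ≤ x ∧ x < c.head (o Y) + n
        then bitW (c.tape (o S) (c.head (o S) + (x - c.head (o Y)))) else c.tape (o Y) x) ∧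
      Fr [Y] [Y] c c' := by
  have h' := h
  simp only [List.nodup_cons, List.mem_cons, List.not_mem_nil, or_false, not_or] at h'
  obtain ⟨c1, r1, a1, a2, a3, s1⟩ := str_spec R S Y h c hR
  have hR1 := hR.of_fr s1 (by simpa using h'.1.2) (by simp; exact h'.1)
  obtain ⟨c3, r3, d1, s3⟩ := adv_spec R S .L h'.1.1 (by simp) c1 hR1
  have s4 : Fr [Y] [S, Y] c c3 := s1.tr s3 (by simp) (by simp)
  refine ⟨c3, (r1.seq r3).mono (by omega), ?_, ?_, ?_⟩
  · rw [s3.head (by simpa using (Ne.symm h'.2.1)), a2]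
  · intro x
    rw [s3.tape (by simp)]
    exact a3 x
  · refine ⟨s4.tp, ?_, s4.cl⟩
    intro a ha
    by_cases hb : a = S
    · subst hb
      rw [d1, a1]
      simp [Dir.toInt]
    · exact s4.hd a (by simp; simp at ha; exact ⟨hb, ha⟩)

/-! Values -/

omit [DecidableEq X] in
/-- The value of a window of a tape after a copy into it. -/
theorem vl_of_copy {τ τ' σ : ℤ → Sym G} {h hs : ℤ} {n : ℕ}
    (hc : ∀ x, τ' x = if h ≤ x ∧ x < h + n then bitW (σ (hs + (x - h))) else τ x) :
    vl τ' h n = vl σ hs n := by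
  apply vl_congr
  intro i hi
  rw [hc, if_pos (by omega)]
  simp

omit [DecidableEq X] in
/-- A window disjoint from a change keeps its value. -/
theorem vl_frame {τ τ' : ℤ → Sym G} {h a : ℤ} {n w : ℕ}
    (hc : ∀ x, ¬ (h ≤ x ∧ x < h + n) → τ' x = τ x) (hd : a + w ≤ h ∨ h + n ≤ a) :
    vl τ' a w = vl τ a w := by
  apply vl_congr
  intro i hi
  rw [hc]
  omega

theorem addR_spec (R Y S : FT) (h : [R, Y, S, FT.Cy].Nodup) (c : TC X G) {n : ℕ} (hR : Ruler c (o R) n)
    (hcy : (c.read (o .Cy)).isOne = false)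
    (hov : vl (c.tape (o Y)) (c.head (o Y)) n + vl (c.tape (o S)) (c.head (o S)) n < 2 ^ n) :
    ∃ c', Run (addR R Y S : Prog (FT ⊕ X) (Sym G)) c c' (8 * n + 9) ∧
      (∀ x, ¬ (c.head (o Y) ≤ x ∧ x < c.head (o Y) + n) → c'.tape (o Y) x = c.tape (o Y) x) ∧
      vl (c'.tape (o Y)) (c.head (o Y)) n = vl (c.tape (o Y)) (c.head (o Y)) n + vl (c.tape (o S)) (c.head (o S)) n ∧
      (c'.read (o .Cy)).isOne = false ∧ Fr [Y, .Cy] [] c c' := by
  simp only [List.nodup_cons, List.mem_cons, List.not_mem_nil, or_false, not_or] at h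
  obtain ⟨⟨h1, h2, h3⟩, ⟨h4, h5⟩, h6, _⟩ := h
  have e1 : (o R : FT ⊕ X) ≠ o Y := by simpa using h1
  have e2 : (o R : FT ⊕ X) ≠ o S := by simpa using h2
  have e3 : (o R : FT ⊕ X) ≠ o .Cy := by simpa using h3
  have e4 : (o Y : FT ⊕ X) ≠ o S := by simpa using h4
  have e5 : (o Y : FT ⊕ X) ≠ o .Cy := by simpa using h5
  have e6 : (o S : FT ⊕ X) ≠ o .Cy := by simpa using h6
  obtain ⟨c1, r1, a1, a2, a3, a4, a5, a6, a7, a8⟩ := faPass_spec addOp 1 addOp_eq (o R) (o Y) (o S) .R (o .Cy)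
    e1 e2 e3 e4 e5 e6 c hR
  have hR1 : Ruler c1 (o R) n := hR.of_same a8 (by simp; exact ⟨h1, h2, h3⟩)
  obtain ⟨c2, r2, b1, b2, b3⟩ := mvBy_spec (o R) (o S) .L e2 (by simp) c1 hR1
  obtain ⟨c3, r3, d1, d2, d4⟩ := act1_spec (o .Cy) (fun _ => .zero) .S c2
  have hY : c3.tape (o Y) = c1.tape (o Y) := by
    rw [d4.tape (by simp; exact h5), b3.tape (by simp; exact h4)]
  have hYh : c3.head (o Y) = c.head (o Y) := by
    rw [d4.head (by simp; exact h5), b3.head (by simp; exact h4), a1]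
  rw [srcBit_R_sum] at a7
  simp only [hcy, Bool.toNat_false, Nat.cast_zero, add_zero, one_mul] at a7
  have hno : (c1.read (o .Cy)).isOne = false := by
    by_contra hb
    have hb' : (c1.read (o .Cy)).isOne = true := by simpa using hb
    rw [hb'] at a7
    simp only [Bool.toNat_true, Nat.cast_one, mul_one] at a7
    have hp : (0 : ℤ) ≤ (vl (c1.tape (o Y)) (c.head (o Y)) n : ℤ) := by positivity
    have : (2 : ℤ) ^ n ≤ ((vl (c.tape (o Y)) (c.head (o Y)) n + vl (c.tape (o S)) (c.head (o S)) n : ℕ) : ℤ) := by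
      push_cast
      linarith
    have h2n : ((2 ^ n : ℕ) : ℤ) ≤ ((vl (c.tape (o Y)) (c.head (o Y)) n + vl (c.tape (o S)) (c.head (o S)) n : ℕ) : ℤ) := by
      push_cast
      linarith
    have := Int.ofNat_le.1 h2n
    omega
  rw [hno] at a7
  simp only [Bool.toNat_false, Nat.cast_zero, mul_zero, add_zero] at a7
  have s4 : Same [o Y, o S, o .Cy] c c3 := (a8.trans (b3.trans d4)).mono (by simp)
  refine ⟨c3, (r1.seq (r2.seq r3)).mono (by omega), ?_, ?_, ?_, ?_⟩
  · intro x hx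
    rw [hY, a2 x hx]
  · rw [hY]
    have : (vl (c1.tape (o Y)) (c.head (o Y)) n : ℤ) = ((vl (c.tape (o Y)) (c.head (o Y)) n + vl (c.tape (o S)) (c.head (o S)) n : ℕ) : ℤ) := by
      push_cast
      exact a7
    exact_mod_cast this
  · simp only [TS.read]
    rw [d2, d1]
    simp [Dir.toInt]
  · refine Fr.of_same s4 (by simp) ?_ ?_
    · intro a ha hb
      simp only [List.mem_cons, List.not_mem_nil, or_false, Sum.inl.injEq, not_or] at ha hb
      rcases hb with rfl | rfl | rfl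
      · exact absurd rfl ha.1
      · rw [d4.tape (by simp; exact h6), b2, a4]
      · exact absurd rfl ha.2
    · intro a _ hb
      simp only [List.mem_cons, List.not_mem_nil, or_false, Sum.inl.injEq] at hb
      rcases hb with rfl | rfl | rfl
      · exact hYh
      · rw [d4.head (by simp; exact h6), b1, a3]
        simp [Dir.toInt]
      · rw [d1, b3.head (by simp; exact (Ne.symm h6)), a5]
        simp [Dir.toInt]

theorem subR_spec (R Y S : FT) (h : [R, Y, S, FT.Cy].Nodup) (c : TC X G) {n : ℕ} (hR : Ruler c (o R) n)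
    (hcy : (c.read (o .Cy)).isOne = false) :
    ∃ c', Run (subR R Y S : Prog (FT ⊕ X) (Sym G)) c c' (8 * n + 8) ∧
      (∀ x, ¬ (c.head (o Y) ≤ x ∧ x < c.head (o Y) + n) → c'.tape (o Y) x = c.tape (o Y) x) ∧
      (vl (c.tape (o S)) (c.head (o S)) n ≤ vl (c.tape (o Y)) (c.head (o Y)) n →
        vl (c'.tape (o Y)) (c.head (o Y)) n = vl (c.tape (o Y)) (c.head (o Y)) n - vl (c.tape (o S)) (c.head (o S)) n) ∧
      ((c'.read (o .Cy)).isOne = decide (vl (c.tape (o Y)) (c.head (o Y)) n < vl (c.tape (o S)) (c.head (o S)) n)) ∧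
      c'.head (o .Cy) = c.head (o .Cy) ∧ (∀ x, x ≠ c.head (o .Cy) → c'.tape (o .Cy) x = c.tape (o .Cy) x) ∧
      Fr [Y, .Cy] [] c c' := by
  simp only [List.nodup_cons, List.mem_cons, List.not_mem_nil, or_false, not_or] at h
  obtain ⟨⟨h1, h2, h3⟩, ⟨h4, h5⟩, h6, _⟩ := h
  have e1 : (o R : FT ⊕ X) ≠ o Y := by simpa using h1
  have e2 : (o R : FT ⊕ X) ≠ o S := by simpa using h2
  have e3 : (o R : FT ⊕ X) ≠ o .Cy := by simpa using h3
  have e4 : (o Y : FT ⊕ X) ≠ o S := by simpa using h4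
  have e5 : (o Y : FT ⊕ X) ≠ o .Cy := by simpa using h5
  have e6 : (o S : FT ⊕ X) ≠ o .Cy := by simpa using h6
  obtain ⟨c1, r1, a1, a2, a3, a4, a5, a6, a7, a8⟩ := faPass_spec subOp (-1) subOp_eq (o R) (o Y) (o S) .R (o .Cy)
    e1 e2 e3 e4 e5 e6 c hR
  have hR1 : Ruler c1 (o R) n := hR.of_same a8 (by simp; exact ⟨h1, h2, h3⟩)
  obtain ⟨c2, r2, b1, b2, b3⟩ := mvBy_spec (o R) (o S) .L e2 (by simp) c1 hR1
  have hY : c2.tape (o Y) = c1.tape (o Y) := b3.tape (by simp; exact h4)
  have hC : c2.tape (o .Cy) = c1.tape (o .Cy) := b3.tape (by simp; exact (Ne.symm h6))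
  have hCh : c2.head (o .Cy) = c1.head (o .Cy) := b3.head (by simp; exact (Ne.symm h6))
  rw [srcBit_R_sum] at a7
  simp only [hcy, Bool.toNat_false, Nat.cast_zero, add_zero] at a7
  have hlt := vl_lt (c1.tape (o Y)) (c.head (o Y)) n
  have hread : (c2.read (o .Cy)).isOne = (c1.read (o .Cy)).isOne := by
    simp only [TS.read, hC, hCh]
  have hb : (c1.read (o .Cy)).isOne = decide (vl (c.tape (o Y)) (c.head (o Y)) n < vl (c.tape (o S)) (c.head (o S)) n) := by
    cases hbb : (c1.read (o .Cy)).isOne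
    · rw [hbb] at a7
      simp only [Bool.toNat_false, Nat.cast_zero, mul_zero, add_zero] at a7
      symm
      simp only [decide_eq_false_iff_not, not_lt]
      zify
      have : (0 : ℤ) ≤ (vl (c1.tape (o Y)) (c.head (o Y)) n : ℤ) := by positivity
      linarith
    · rw [hbb] at a7
      simp only [Bool.toNat_true, Nat.cast_one, mul_one] at a7
      symm
      simp only [decide_eq_true_eq]
      zify at hlt ⊢
      linarith
  have s4 : Same [o Y, o S, o .Cy] c c2 := (a8.trans b3).mono (by simp)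
  refine ⟨c2, (r1.seq r2).mono (by omega), ?_, ?_, ?_, ?_, ?_, ?_⟩
  · intro x hx
    rw [hY, a2 x hx]
  · intro hle
    rw [hY]
    rw [hb] at a7
    have : ¬ vl (c.tape (o Y)) (c.head (o Y)) n < vl (c.tape (o S)) (c.head (o S)) n := by omega
    rw [decide_eq_false this] at a7
    simp only [Bool.toNat_false, Nat.cast_zero, mul_zero, add_zero] at a7
    zify [hle]
    linarith
  · rw [hread, hb]
  · rw [hCh, a5]
  · intro x hx
    rw [hC, a6 x hx]
  · refine Fr.of_same s4 (by simp) ?_ ?_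
    · intro a ha hb'
      simp only [List.mem_cons, List.not_mem_nil, or_false, Sum.inl.injEq, not_or] at ha hb'
      rcases hb' with rfl | rfl | rfl
      · exact absurd rfl ha.1
      · rw [b2, a4]
      · exact absurd rfl ha.2
    · intro a _ hb'
      simp only [List.mem_cons, List.not_mem_nil, or_false, Sum.inl.injEq] at hb'
      rcases hb' with rfl | rfl | rfl
      · rw [b3.head (by simp; exact h4), a1]
      · rw [b1, a3]
        simp [Dir.toInt]
      · rw [hCh, a5]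

end

end Vale.Agent.Lib.P338.F
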