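import Vale.Agent.Lib.P338.F.Core
import Vale.Agent.Lib.P338.F.AluI
import Vale.Agent.Lib.P338.F.SetupA
import Vale.Agent.Lib.P338.F.Pad

/-!
The complete program of the single scale reduction.
-/

namespace Vale.Agent.Lib.P338.F

open Vale.Agent.Lib.P338 Prog

section
variable {X G : Type} [DecidableEq X]

/-- Two more rulers. -/
def st2 : Prog (FT ⊕ X) (Sym G) := .seq (radd (o .RS) (o .Tmr)) (radd (o .Rm) (o .Tmq))

/-- The environment after the setup. -/
noncomputable def eG (m : ℕ) : FT → ℕ := Function.update (Function.update (eF m) .Tmr (Kd m)) .Tmq m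

theorem st2_spec {m : ℕ} {τ σ : ℤ → Sym G} {c : TC X G} (h : REnv (BB m) τ σ c (eF m)) :
    ∃ c', Run (st2 : Prog (FT ⊕ X) (Sym G)) c c' (2 * (10 * BB m + 8)) ∧ REnv (BB m) τ σ c' (eG m) := by
  obtain ⟨c1, r1, h1⟩ := rcpyE h .RS .Tmr (by decide) (by decide) (by decide) rfl (n := Kd m) rfl (h.le .RS)
  obtain ⟨c2, r2, h2⟩ := rcpyE h1 .Rm .Tmq (by decide) (by decide) (by decide) rfl (n := m) rfl (h.le .Rm)
  exact ⟨c2, (r1.seq r2).mono (by omega), h2⟩

theorem in0_of_env {m : ℕ} {τ σ : ℤ → Sym G} {c : TC X G} (h : REnv (BB m) τ σ c (eG m)) :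
    IN0 (Kd m) (Ld m) (Wd m) (qq m) (NN m) c := by
  have hb : ∀ a, a ∉ nR → eG m a = 0 → vr (Kd m) c a = 0 := by
    intro a ha h0
    have := (h.ru a ha).1
    rw [h0] at this
    simp only [vr]
    rw [this]
    exact vl_runT_zero _
  have hcy : c.tape (o .Cy) = runT 0 := (h.ru .Cy (by decide)).1
  have hcyh : c.head (o .Cy) = 0 := (h.ru .Cy (by decide)).2
  refine ⟨⟨h.ru .RS (by decide), h.ru .R2S (by decide), h.ru .RL (by decide), h.ru .RW (by decide), ?_, ?_, hb .Qr (by decide) rfl, ?_, h.cl⟩,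
    (h.ru .One (by decide)).1, (h.ru .BA (by decide)).1, (h.ru .CA (by decide)).1, (h.ru .Zer (by decide)).1, (h.ru .Eta (by decide)).1,
    h.ru .Rq2 (by decide), h.ru .RqM (by decide), h.ru .RqMM (by decide), h.ru .RNM (by decide), h.ru .Rq (by decide), h.ru .Tmr (by decide)⟩
  · intro a ha
    exact (h.ru a (by
      intro hm
      simp only [List.mem_cons, List.not_mem_nil, or_false] at hm
      rcases hm with rfl | rfl <;> exact absurd ha (by decide))).2
  · simp only [TS.read]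
    rw [hcy, hcyh, runT_out (by simp)]
    rfl
  · rw [Nat.div_zero]
    exact hb .Mu (by decide) rfl

/-- The complete program. -/
def top (sm bm : Prog (FT ⊕ X) (Sym G)) : Prog (FT ⊕ X) (Sym G) :=
  .seq setup (.seq st2 (.seq aluI (.seq (sAll sm) (.seq pad (.seq (core sm bm) unp)))))

/-- The cost of the complete program. -/
noncomputable def TOC (m SC TB : ℕ) : ℕ :=
  STC' m + ((2 * (10 * BB m + 8)) + (AIC (Kd m) (qq m) + (SAC (Kd m) SC (qq m) (NN m) + (PDC m (2 ^ ap m) +
    (COC (rh m) (Kd m) (Wd m) (UU m) (qq m) (NN m) (2 ^ kp m) (dn m) SC TB + UPC m (2 ^ ap m))))))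

theorem top_spec {m SC TB : ℕ} (hm : 1 ≤ m) {sm bm : Prog (FT ⊕ X) (Sym G)} (hs : SmulOK sm (Kd m) SC) (hb : BmulOK bm (nn m) TB) {τ : ℤ → Sym G} {c : TC X G}
    (h0 : ∀ a, a ≠ .In → c.tape (o a) = runT 0) (hIn : c.tape (o .In) = τ) (hhd : ∀ a, c.head (o a) = 0) (hcl : Clean c) (hS : Shp (m * m) τ) :
    ∃ c', Run (top sm bm) c c' (TOC m SC TB) ∧
      (∀ k r, k < m → r < m → c'.tape (o .Out) ((k * m + r : ℕ) : ℤ) = Sym.ofBit (τ ((r * m + k : ℕ) : ℤ)).isOne) ∧
      (∀ x : ℤ, (x < 0 ∨ ((m * m : ℕ) : ℤ) ≤ x) → c'.tape (o .Out) x = .blank) := by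
  have hE0 : REnv (BB m) τ (runT 0) c (fun _ => 0) := by
    refine ⟨?_, fun _ => Nat.zero_le _, hIn, hhd _, h0 _ (by decide), hhd _, hcl⟩
    intro a ha
    exact ⟨h0 a (by
      rintro rfl
      exact ha (by simp)), hhd a⟩
  obtain ⟨c1, σ1, r1, e1⟩ := setup_spec hm hE0 hS (fun x => runT_out (by omega))
  obtain ⟨c2, r2, e2⟩ := st2_spec e1
  have in0 := in0_of_env e2
  have hprime := qq_prime m
  haveI : Fact (qq m).Prime := ⟨hprime⟩
  have hq2 : 2 ≤ qq m := hprime.two_le
  have hLK := two_L_le m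
  have hLq := two_q_sq m
  have hqq : qq m ≤ qq m * qq m := Nat.le_mul_of_pos_left _ (by omega)
  have hLK2 : 2 ^ Ld m ≤ 2 ^ Kd m := Nat.pow_le_pow_right (by norm_num) (by omega)
  have h2q : 2 * qq m ≤ 2 ^ Kd m := by
    have e : 2 * qq m * qq m = 2 * (qq m * qq m) := by ring
    omega
  have hKK : 1 ≤ Kd m := by
    have := Wd_le_K m
    omega
  have hqK : qq m < 2 ^ Kd m := by omega
  have hw : 1 ≤ ww m := by
    have h1 := qq_odd m
    have h2 := qq_gt m
    have h3 := T_ge m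
    omega
  have ap' : AP sm (Kd m) (Ld m) SC (qq m) := ⟨hs, by omega, hLK, hLq⟩
  have sp : SP (Kd m) (Wd m) (qq m) (NN m) (nn m) := ⟨by have := Wd_le_K m; omega, W_q_K m, q_le_W m, six_N_W m, hb_ok m⟩
  obtain ⟨c3, r3, s3, rq3, _, f3⟩ := aluI_spec hq2 h2q hKK in0
  obtain ⟨c4, η, hη, ω, r4, fe4, dk4, ow4, f4⟩ := sAll_spec ap' hqK (qq_odd m) (NN_eq m) hw s3 rq3
  have f34 : Fr (aiL ++ saL) [] c2 c4 := f3.trans f4
  have ru4 : ∀ a, a ∉ nR → a ∉ aiL ++ saL → Ruler c4 (o a) (eG m a) := fun a h1 h2 => (e2.ru a h1).of_fr f34 h2 (by simp)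
  have epm : 2 ^ kp m * 2 ^ rh m = 2 ^ ap m := by rw [← pow_add, kp_add]
  have edn : dn m = 2 ^ ap m * 2 ^ ap m := by
    simp only [dn]
    rw [two_mul, pow_add]
  have hmm : m ≤ 2 ^ ap m := m_le' m
  have hIn4 : c4.tape (o .In) = τ := by
    rw [f34.tape (by decide)]
    exact e2.tI
  have hIh4 : c4.head (o .In) = 0 := by
    rw [f34.head (by simp)]
    exact e2.hI
  have rn4 : Ruler c4 (o .Rn) (2 ^ ap m * 2 ^ ap m) := by
    rw [← edn]
    exact ru4 .Rn (by decide) (by decide)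
  obtain ⟨c5, r5, sh5, hD5, v5, f5⟩ := pad_spec (m' := 2 ^ ap m) hmm (ru4 .Rm (by decide) (by decide)) (ru4 .Tmq (by decide) (by decide))
    (ru4 .Rdf (by decide) (by decide)) (ru4 .Rmp (by decide) (by decide)) rn4 (ru4 .D (by decide) (by decide)) hIh4
  have ru5 : ∀ a, a ∉ nR → a ∉ aiL ++ saL → a ∉ [FT.D] → Ruler c5 (o a) (eG m a) := fun a h1 h2 h3 =>
    (ru4 a h1 h2).of_fr f5 h3 (fun hm => h1 (by
      simp only [List.mem_singleton] at hm
      simp [hm]))
  have bl5 : ∀ a, a ∉ nR → a ∉ aiL ++ saL → a ∉ [FT.D] → eG m a = 0 → ∀ x, c5.tape (o a) x = .blank := by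
    intro a h1 h2 h3 h4 x
    have := (ru5 a h1 h2 h3).1
    rw [h4] at this
    rw [this]
    exact runT_out (by omega)
  have fe5 : FE (Kd m) (Ld m) (Wd m) (qq m) η c5 := fe4.of_gen f5 (by decide) (by decide) (by decide)
  have de5 : DE (Kd m) (Ld m) (Wd m) (qq m) (NN m) (nn m) (2 ^ kp m) (UU m) (dn m) η c5 :=
    { toSE := { toFE := fe5
                rN := ru5 .RN (by decide) (by decide) (by decide)
                r2N := ru5 .R2N (by decide) (by decide) (by decide)
                r3N := ru5 .R3N (by decide) (by decide) (by decide)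
                r6N := ru5 .R6N (by decide) (by decide) (by decide)
                rB1 := ru5 .RB1 (by decide) (by decide) (by decide)
                rB2 := ru5 .RB2 (by decide) (by decide) (by decide) }
      rP := ru5 .RP (by decide) (by decide) (by decide)
      rPt := ru5 .Rpt (by decide) (by decide) (by decide)
      rQd := ru5 .RQd (by decide) (by decide) (by decide)
      rU := ru5 .RU (by decide) (by decide) (by decide)
      rUp := ru5 .RUp (by decide) (by decide) (by decide)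
      rQ := ru5 .Rq (by decide) (by decide) (by decide)
      rD := ru5 .Rn (by decide) (by decide) (by decide) }
  have dk5 : DK (Kd m) (qq m) η ω c5 := dk4.of_fr f5 (by decide)
  have ce5 : CE (rh m) (kp m) (dn m) c5 :=
    { rP := ru5 .RP (by decide) (by decide) (by decide)
      rs := ru5 .Rs (by decide) (by decide) (by decide)
      rh := ru5 .Rrh (by decide) (by decide) (by decide)
      ea1 := ru5 .Ea1 (by decide) (by decide) (by decide)
      eb1 := ru5 .Eb1 (by decide) (by decide) (by decide)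
      ea2 := ru5 .Ea2 (by decide) (by decide) (by decide)
      eb2 := ru5 .Eb2 (by decide) (by decide) (by decide)
      tmp := ru5 .Tmp (by decide) (by decide) (by decide)
      rn := ru5 .Rn (by decide) (by decide) (by decide)
      ra := ru5 .RA1 (by decide) (by decide) (by decide)
      rz := ru5 .RZ (by decide) (by decide) (by decide)
      rkz := ru5 .RKZ (by decide) (by decide) (by decide)
      h1 := (ru5 .T1 (by decide) (by decide) (by decide)).2
      h2 := (ru5 .T2 (by decide) (by decide) (by decide)).2 }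
  have hU5 : 2 ^ UU m ≤ qq m := by
    have h1 : 2 ^ UU m ≤ 2 ^ tt m := Nat.pow_le_pow_right (by norm_num) (UU_le m)
    have h2 := qq_gt m
    omega
  have hUW5 : UU m ≤ Wd m := by
    have h1 := UU_le m
    have h2 : Wd m = 4 * tt m + 4 := rfl
    omega
  have hsh : Shp (dn m) (c5.tape (o .D)) := by
    rw [edn]
    exact sh5
  have hdn' : dn m = 2 ^ kp m * 2 ^ kp m * (2 * UU m) := dn_eq m
  have h2U' : 2 * UU m = 2 ^ rh m * 2 ^ rh m := two_UU m
  obtain ⟨c6, r6, sh6, hD6, v6, f6⟩ := core_spec (κ := kp m) (ρ := rh m) (w := ww m) ap' sp hb de5 dk5 (qq_odd m) (NN_eq m) ow4 hUW5 hU5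
    (PP_le_q m) (PP_mul_q m) hdn' h2U' (bl5 .P3 (by decide) (by decide) (by decide) rfl) (ru5 .P1 (by decide) (by decide) (by decide)).2
    (ru5 .P2 (by decide) (by decide) (by decide)).2 (ru5 .P3 (by decide) (by decide) (by decide)).2 hD5 hsh
    (fun x _ => by rw [bl5 .P1 (by decide) (by decide) (by decide) rfl]; rfl)
    (fun x _ => by rw [bl5 .P2 (by decide) (by decide) (by decide) rfl]; rfl) ce5
  have ru6 : ∀ a, a ∉ nR → a ∉ aiL ++ saL → a ∉ [FT.D] → a ∉ coL → a ∉ [FT.D, .P3] → Ruler c6 (o a) (eG m a) := fun a h1 h2 h3 h4 h5 =>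
    (ru5 a h1 h2 h3).of_fr f6 h4 h5
  obtain ⟨c7, r7, o1, o2, _⟩ := unp_spec (m' := 2 ^ ap m) hmm (ru6 .Rm (by decide) (by decide) (by decide) (by decide) (by decide))
    (ru6 .Tmq (by decide) (by decide) (by decide) (by decide) (by decide)) (ru6 .Rdf (by decide) (by decide) (by decide) (by decide) (by decide))
    (ru6 .Out (by decide) (by decide) (by decide) (by decide) (by decide)) hD6
  refine ⟨c7, r1.seq (r2.seq (r3.seq (r4.seq (r5.seq (r6.seq r7))))), ?_, o2⟩
  intro k r hk hr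
  rw [o1 k r hk hr]
  have hk' : k < 2 ^ kp m * 2 ^ rh m := by rw [epm]; omega
  have hr' : r < 2 ^ kp m * 2 ^ rh m := by rw [epm]; omega
  have t1 := v6 r k hr' hk'
  rw [epm] at t1
  rw [bitW, t1, v5 r k (by omega) (by omega), if_pos ⟨hr, hk⟩, hIn4]

end

end Vale.Agent.Lib.P338.F
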